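import Mathlib

set_option autoImplicit false

/-!
# Row 6 (Catalan), block P9: size of superfactorials (helper481)

`sf n = ∏_{k<n} k!`, `log sf n = n²/2 log n - 3/4 n² + O(n log n)`, and the scaled version for
`a = α n + O(1)`.
-/

namespace Crest.Agent.R006

open Finset

/-- superfactorial `∏_{k<n} k!` -/
def sf (n : ℕ) : ℕ := ∏ k ∈ range n, k.factorial

lemma sf_pos (n : ℕ) : 0 < sf n := Finset.prod_pos fun k _ => k.factorial_pos


lemma sf_succ (n : ℕ) : sf (n + 1) = sf n * n.factorial := by
  simp [sf, Finset.prod_range_succ]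

/-- `x²/2 log x - 3/4 x²` -/
noncomputable def sfF (x : ℝ) : ℝ := x ^ 2 / 2 * Real.log x - 3 / 4 * x ^ 2












end Crest.Agent.R006
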