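import Crest.Agent.R006.CellDefs_365
import Mathlib
import Crest.Agent.R006.P9_SF_481

-- ▼ part R006/ClsCount_764
section

/-!
Row 6 (S0006), P4 <-> P8 bridge (helper764): the number of sites of a window in a residue class.

A site of type `h ∈ {0,1}` is `n + h/2`, `n : ℤ`. It is in the class `c` modulo the odd `p` iff
`p ∣ 2 n + h - 2 c`, iff `n + h/2 = c + (j + h/2) p` for an integer `j`.
`jst A h N p c` (helper365) = least `j` with `A N ≤ c + (j + h/2) p`.
-/

set_option autoImplicit false

open Finset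

namespace Crest.Agent.R006.ClsCountx764

open Crest.Agent.R006.P8 (jst)

theorem jst_le_iff (A h N p c j : ℤ) (hp : 0 < p) :
    jst A h N p c ≤ j ↔ 2 * A * N ≤ 2 * c + (2 * j + h) * p := by
  unfold jst
  rw [neg_le, Int.le_ediv_iff_mul_le (by linarith)]
  constructor <;> intro H <;> nlinarith

theorem lt_jst_iff (A h N p c j : ℤ) (hp : 0 < p) :
    j < jst A h N p c ↔ 2 * c + (2 * j + h) * p < 2 * A * N := by
  rw [← not_le, jst_le_iff A h N p c j hp, not_le]

theorem jst_mono (A B h N p c : ℤ) (hp : 0 < p) (hAB : A * N ≤ B * N) :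
    jst A h N p c ≤ jst B h N p c := by
  rw [jst_le_iff A h N p c _ hp]
  have := (jst_le_iff B h N p c (jst B h N p c) hp).mp le_rfl
  linarith

/-- class condition of a site of type `h`. -/
theorem dvd_iff (h p c n : ℤ) (hpodd : p % 2 = 1) (_hh : h = 0 ∨ h = 1) :
    p ∣ 2 * n + h - 2 * c ↔ ∃ j : ℤ, 2 * n + h = 2 * c + (2 * j + h) * p := by
  constructor
  · rintro ⟨k, hk⟩
    have hpar : k % 2 = h % 2 := by
      have h1 : (2 * n + h - 2 * c) % 2 = h % 2 := by omega
      rw [hk, Int.mul_emod, hpodd, one_mul, Int.emod_emod_of_dvd _ (dvd_refl 2)] at h1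
      exact h1
    refine ⟨(k - h) / 2, ?_⟩
    have h2 : 2 * ((k - h) / 2) = k - h := by
      have : (k - h) % 2 = 0 := by omega
      omega
    rw [h2]
    linarith
  · rintro ⟨j, hj⟩
    exact ⟨2 * j + h, by linarith⟩

/-- the site with parameter `j`. -/
def site (h p c j : ℤ) : ℤ := c + j * p + h * ((p - 1) / 2)

theorem two_site (h p c j : ℤ) (hpodd : p % 2 = 1) :
    2 * site h p c j + h = 2 * c + (2 * j + h) * p := by
  unfold site
  have h1 : 2 * ((p - 1) / 2) = p - 1 := by omega
  have : 2 * (c + j * p + h * ((p - 1) / 2)) + h = 2 * c + 2 * (j * p) + h * (2 * ((p - 1) / 2)) + h := by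
    ring
  rw [this, h1]; ring

/-- the sites of the window `[A N, B N)` of type `h` in the class `c` are the `site h p c j`,
`jst A ≤ j < jst B`. -/
theorem filter_eq_image (A B h N p c : ℤ) (hp : 0 < p) (hpodd : p % 2 = 1) (hh : h = 0 ∨ h = 1) :
    (Finset.Ico (A * N) (B * N)).filter (fun n => p ∣ 2 * n + h - 2 * c)
      = (Finset.Ico (jst A h N p c) (jst B h N p c)).image (site h p c) := by
  ext n
  simp only [Finset.mem_filter, Finset.mem_Ico, Finset.mem_image]
  constructor
  · rintro ⟨⟨h1, h2⟩, h3⟩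
    obtain ⟨j, hj⟩ := (dvd_iff h p c n hpodd hh).mp h3
    have hs := two_site h p c j hpodd
    refine ⟨j, ⟨?_, ?_⟩, by omega⟩
    · rw [jst_le_iff A h N p c j hp, ← hj]
      have : 2 * A * N = 2 * (A * N) := by ring
      rw [this]; rcases hh with rfl | rfl <;> linarith
    · rw [lt_jst_iff B h N p c j hp, ← hj]
      have : 2 * B * N = 2 * (B * N) := by ring
      rw [this]; rcases hh with rfl | rfl <;> omega
  · rintro ⟨j, ⟨h1, h2⟩, rfl⟩
    have hs := two_site h p c j hpodd
    rw [jst_le_iff A h N p c j hp, ← hs] at h1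
    rw [lt_jst_iff B h N p c j hp, ← hs] at h2
    have e1 : 2 * A * N = 2 * (A * N) := by ring
    have e2 : 2 * B * N = 2 * (B * N) := by ring
    rw [e1] at h1
    rw [e2] at h2
    refine ⟨⟨?_, ?_⟩, ?_⟩
    · rcases hh with rfl | rfl <;> omega
    · rcases hh with rfl | rfl <;> omega
    · exact (dvd_iff h p c _ hpodd hh).mpr ⟨j, hs⟩

theorem site_injective (h p c : ℤ) (hp : 0 < p) : Function.Injective (site h p c) := by
  intro a b hab
  unfold site at hab
  have : a * p = b * p := by linarith
  exact mul_right_cancel₀ hp.ne' this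

/-- **count of the sites of a window in a class** -/
theorem card_cls (A B h N p c : ℤ) (hp : 0 < p) (hpodd : p % 2 = 1) (hh : h = 0 ∨ h = 1) :
    (((Finset.Ico (A * N) (B * N)).filter (fun n => p ∣ 2 * n + h - 2 * c)).card : ℤ)
      = max 0 (jst B h N p c - jst A h N p c) := by
  rw [filter_eq_image A B h N p c hp hpodd hh,
    Finset.card_image_of_injective _ (site_injective h p c hp), Int.card_Ico]
  rw [Int.toNat_eq_max, max_comm]

theorem card_cls' (A B h N p c : ℤ) (hp : 0 < p) (hpodd : p % 2 = 1) (hh : h = 0 ∨ h = 1)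
    (hAB : A * N ≤ B * N) :
    (((Finset.Ico (A * N) (B * N)).filter (fun n => p ∣ 2 * n + h - 2 * c)).card : ℤ)
      = jst B h N p c - jst A h N p c := by
  rw [card_cls A B h N p c hp hpodd hh, max_eq_right]
  have := jst_mono A B h N p c hp hAB
  linarith






end Crest.Agent.R006.ClsCountx764
end

-- ▼ part R006/Pre_L3_764
section

/-!
Row 6 (S0006), leaf L3 (helper764): valuations of superfactorials, of Vandermonde products of
integers (plain and weighted), and of cross products, at all levels `p^i`.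
-/

set_option autoImplicit false

open Finset

namespace Crest.Agent.R006.PreL3x764

/-! ### 1. superfactorial -/






/-! ### 2. the valuation of an integer as a count of levels -/


/-! ### 3. weighted cross products -/

/-- total weight of the class of `c` modulo `m`. -/
def W (A : Finset ℤ) (w : ℤ → ℕ) (m : ℕ) (c : ℤ) : ℕ := ∑ x ∈ A with x % (m : ℤ) = c, w x





/-! ### 4. weighted Vandermonde products -/




/-! ### 5. unweighted forms, determinants, intervals -/

/-- number of elements of `A` in the class of `c` modulo `m`. -/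
def cls (A : Finset ℤ) (m : ℕ) (c : ℤ) : ℕ := (A.filter fun x => x % (m : ℤ) = c).card




/-- the plain Vandermonde product `∏_{y<x} (x-y)` over `A`. -/
def V (A : Finset ℤ) : ℤ := ∏ x ∈ A, ∏ y ∈ A with y < x, (x - y)






end Crest.Agent.R006.PreL3x764
end

-- ▼ part R006/RefClass_555

/-!
# Row 6 (S0006), block P8 (helper555): `p`-adic side of the normalising factorials

In the language of `CellDefs_365` (`jst`):
* `padicVal_sf` : `v_p(sf n) = ∑_{1 ≤ i < b} ∑_{c < p^i} C(cnt n (p^i) c, 2)` for `n ≤ p^b`;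
* `padicVal_sf_sq` : `v_p(sf n) = ∑_{c < p} C(cnt n p c, 2)` for `n ≤ p^2`;
* `cnt_eq_jst` : `cnt (M N) p c = jst M 0 N p c`;
* `two_val_sf_jst`, `two_val_sf_ratio_jst` : `2 v_p = ∑_c j (j - 1)` with `j = jst M 0 N p c`;
* `val_factorial_strip` : `v_p((M N)!) = f` as soon as `f p ≤ M N < (f+1) p`, `f < p`;
* `val_window_cross` : `v_p(∏∏ ((2i+h)-(2j+h')))` of two disjoint windows (types `h, h' ∈ {0,1}`);
* `log_eq_sum_padic`, `log_sf_eq` : `log n = ∑_p v_p(n) log p`.
-/

set_option autoImplicit false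

open Finset

namespace Crest.Agent.R006.RefClass555

open Crest.Agent.R006.P8 (jst)
open Crest.Agent.R006.ClsCountx764

/-! ### 1. class counts of `[0, n)` -/

/-- number of `j < n` with `j ≡ c` modulo `m` (for `c < m`) -/
def cnt (n m c : ℕ) : ℕ := (n + m - 1 - c) / m

lemma cnt_zero (m c : ℕ) (hc : c < m) : cnt 0 m c = 0 := by
  unfold cnt
  apply Nat.div_eq_of_lt
  omega

lemma dvd_iff_mod (n m c : ℕ) (hc : c < m) : m ∣ n + m - c ↔ n % m = c := by
  have hm : 0 < m := by omega
  have hr := Nat.mod_lt n hm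
  have hq := Nat.div_add_mod n m
  constructor
  · rintro ⟨k, hk⟩
    -- m * q + r + m - c = m * k
    have h1 : m * (n / m) + (n % m + m - c) = m * k := by omega
    have h2 : m ∣ n % m + m - c := (Nat.dvd_add_right (dvd_mul_right m _)).mp ⟨k, h1⟩
    obtain ⟨t, ht⟩ := h2
    have ht1 : t = 1 := by
      rcases Nat.lt_or_ge t 1 with h | h
      · have : t = 0 := by omega
        subst this
        rw [mul_zero] at ht
        omega
      · rcases Nat.lt_or_ge 1 t with h' | h'
        · have : m * 2 ≤ m * t := Nat.mul_le_mul_left m h'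
          omega
        · omega
    subst ht1
    omega
  · intro h
    refine ⟨n / m + 1, ?_⟩
    rw [mul_add, mul_one]
    omega

lemma cnt_succ (n m c : ℕ) (hc : c < m) :
    cnt (n + 1) m c = cnt n m c + if n % m = c then 1 else 0 := by
  unfold cnt
  have e : n + 1 + m - 1 - c = (n + m - 1 - c) + 1 := by omega
  rw [e, Nat.succ_div]
  have e2 : n + m - 1 - c + 1 = n + m - c := by omega
  rw [e2]
  by_cases h : n % m = c
  · rw [if_pos h, if_pos ((dvd_iff_mod n m c hc).mpr h)]
  · rw [if_neg h, if_neg fun h' => h ((dvd_iff_mod n m c hc).mp h')]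

lemma cnt_self (n m : ℕ) (hm : 0 < m) : cnt n m (n % m) = n / m := by
  unfold cnt
  have hr := Nat.mod_lt n hm
  have hq := Nat.div_add_mod n m
  have e : n + m - 1 - n % m = (m - 1) + m * (n / m) := by omega
  rw [e, Nat.add_mul_div_left _ _ hm, Nat.div_eq_of_lt (by omega), zero_add]

theorem sum_div_eq (n m : ℕ) (hm : 0 < m) :
    ∑ k ∈ range n, k / m = ∑ c ∈ range m, (cnt n m c).choose 2 := by
  induction n with
  | zero =>
    rw [Finset.range_zero, Finset.sum_empty]
    symm
    apply Finset.sum_eq_zero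
    intro c hc
    rw [cnt_zero m c (Finset.mem_range.mp hc)]
    rfl
  | succ n ih =>
    rw [Finset.sum_range_succ, ih]
    have hr := Nat.mod_lt n hm
    have h1 : ∀ c ∈ range m, (cnt (n + 1) m c).choose 2
        = (cnt n m c).choose 2 + if n % m = c then n / m else 0 := by
      intro c hc
      rw [cnt_succ n m c (Finset.mem_range.mp hc)]
      by_cases h : n % m = c
      · rw [if_pos h, if_pos h]
        have hcs : cnt n m c = n / m := by rw [← h]; exact cnt_self n m hm
        rw [hcs, Nat.choose_succ_succ' (n / m) 1, Nat.choose_one_right]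
        ring
      · rw [if_neg h, if_neg h, add_zero, add_zero]
    rw [Finset.sum_congr rfl h1, Finset.sum_add_distrib]
    congr 1
    rw [Finset.sum_ite_eq, if_pos (Finset.mem_range.mpr hr)]

/-! ### 2. superfactorials -/

theorem padicVal_sf (p n b : ℕ) [hp : Fact p.Prime] (hb : n ≤ p ^ b) :
    padicValNat p (sf n) = ∑ i ∈ Ico 1 b, ∑ c ∈ range (p ^ i), (cnt n (p ^ i) c).choose 2 := by
  have h1 : padicValNat p (sf n) = ∑ k ∈ range n, padicValNat p k.factorial := by
    clear hb
    induction n with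
    | zero => simp [sf]
    | succ n ih =>
      rw [sf_succ, padicValNat.mul (sf_pos n).ne' (Nat.factorial_ne_zero n), ih,
        Finset.sum_range_succ]
  rw [h1]
  have h2 : ∀ k ∈ range n, padicValNat p k.factorial = ∑ i ∈ Ico 1 b, k / p ^ i := by
    intro k hk
    have hk' : k < p ^ b := lt_of_lt_of_le (Finset.mem_range.mp hk) hb
    rcases Nat.eq_zero_or_pos k with rfl | hk0
    · simp
    · exact padicValNat_factorial (Nat.log_lt_of_lt_pow hk0.ne' hk')
  rw [Finset.sum_congr rfl h2, Finset.sum_comm]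
  refine Finset.sum_congr rfl fun i _ => ?_
  exact sum_div_eq n (p ^ i) (pow_pos hp.out.pos i)

theorem padicVal_sf_sq (p n : ℕ) [hp : Fact p.Prime] (hb : n ≤ p ^ 2) :
    padicValNat p (sf n) = ∑ c ∈ range p, (cnt n p c).choose 2 := by
  rw [padicVal_sf p n 2 hb]
  rw [show Ico 1 2 = {1} from rfl, Finset.sum_singleton, pow_one]

/-! ### 3. the `jst` form -/

theorem cnt_eq_jst (M N p c : ℕ) (hc : c < p) : ((cnt (M * N) p c : ℕ) : ℤ) = jst M 0 N p c := by
  have hp : 0 < p := by omega
  have hpz : (0 : ℤ) < p := by exact_mod_cast hp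
  have hd := Nat.div_add_mod (M * N + p - 1 - c) p
  have hm := Nat.mod_lt (M * N + p - 1 - c) hp
  set q := (M * N + p - 1 - c) / p with hq
  have hcnt : cnt (M * N) p c = q := rfl
  rw [hcnt]
  set t := (M * N + p - 1 - c) % p with ht
  have h1 : p * q + t + c + 1 = M * N + p := by omega
  have h1z : (p : ℤ) * q + t + c + 1 = M * N + p := by exact_mod_cast h1
  have htz : (t : ℤ) < p := by exact_mod_cast hm
  have ht0 : (0 : ℤ) ≤ t := by positivity
  apply le_antisymm
  · by_contra hlt
    push Not at hlt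
    have h2 : jst M 0 N p c ≤ (q : ℤ) - 1 := by linarith [Int.add_one_le_iff.mpr hlt]
    rw [jst_le_iff (M : ℤ) 0 N p c _ hpz] at h2
    nlinarith
  · rw [jst_le_iff (M : ℤ) 0 N p c _ hpz]
    nlinarith

lemma two_mul_choose_two (m : ℕ) : (2 * (m.choose 2 : ℕ) : ℤ) = m * (m - 1) := by
  have h3 : m.choose 2 * 2 = m * (m - 1) := by
    rw [Nat.choose_two_right]
    exact Nat.div_mul_cancel (Nat.even_mul_pred_self m).two_dvd
  rcases Nat.eq_zero_or_pos m with rfl | hm
  · simp
  · have : (m.choose 2 * 2 : ℤ) = m * ((m - 1 : ℕ) : ℤ) := by exact_mod_cast h3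
    rw [Nat.cast_sub hm, Nat.cast_one] at this
    linarith


/-- `v_p(sf (M N)) = ∑_c j (j-1) / 2`. -/
theorem val_sf_jst (M N p : ℕ) [hp : Fact p.Prime] (h : M * N ≤ p ^ 2) :
    ((padicValNat p (sf (M * N)) : ℕ) : ℤ)
      = ∑ c ∈ range p, jst M 0 N p c * (jst M 0 N p c - 1) / 2 := by
  rw [padicVal_sf_sq p (M * N) h]
  push_cast
  refine Finset.sum_congr rfl fun c hc => ?_
  rw [← cnt_eq_jst M N p c (Finset.mem_range.mp hc), ← two_mul_choose_two]
  rw [Int.mul_ediv_cancel_left _ (by norm_num)]

/-- `∏_{l<k} (a+l)! = sf (a+k) / sf a` -/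
theorem prod_factorial_shift (a k : ℕ) : sf a * ∏ l ∈ range k, (a + l).factorial = sf (a + k) := by
  induction k with
  | zero => simp
  | succ k ih => rw [Finset.prod_range_succ, ← mul_assoc, ih, ← add_assoc, sf_succ]

/-- the shifted block: `v_p(∏_{l<K N} (A N + l)!)` -/
theorem val_shift_jst (A K N p : ℕ) [hp : Fact p.Prime] (h : (A + K) * N ≤ p ^ 2) :
    ((padicValNat p (∏ l ∈ range (K * N), (A * N + l).factorial) : ℕ) : ℤ)
      = ∑ c ∈ range p, (jst (A + K : ℕ) 0 N p c * (jst (A + K : ℕ) 0 N p c - 1) / 2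
          - jst A 0 N p c * (jst A 0 N p c - 1) / 2) := by
  have h1 := prod_factorial_shift (A * N) (K * N)
  rw [← add_mul] at h1
  have hA : A * N ≤ p ^ 2 := le_trans (Nat.mul_le_mul_right N (Nat.le_add_right A K)) h
  have h2 : padicValNat p (sf (A * N)) + padicValNat p (∏ l ∈ range (K * N), (A * N + l).factorial)
      = padicValNat p (sf ((A + K) * N)) := by
    rw [← h1, padicValNat.mul (sf_pos _).ne'
      (Finset.prod_ne_zero_iff.mpr fun l _ => Nat.factorial_ne_zero _)]
  have h3 := val_sf_jst (A + K) N p h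
  have h4 := val_sf_jst A N p hA
  rw [Finset.sum_sub_distrib, ← h3, ← h4, ← h2]
  push_cast
  ring

/-- `v_p(m!) = f` if `f p ≤ m < (f+1) p` and `f < p` -/
theorem val_factorial_strip (p m f : ℕ) [hp : Fact p.Prime] (h1 : f * p ≤ m)
    (h2 : m < (f + 1) * p) (hf : f < p) : padicValNat p m.factorial = f := by
  have hpp := hp.out.pos
  have hm : m < p ^ 2 := by
    have : (f + 1) * p ≤ p * p := Nat.mul_le_mul_right p hf
    nlinarith
  rcases Nat.eq_zero_or_pos m with rfl | hm0
  · rcases Nat.eq_zero_or_pos f with rfl | hf0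
    · simp
    · have : 0 < f * p := Nat.mul_pos hf0 hpp
      omega
  · rw [padicValNat_factorial (b := 2) (Nat.log_lt_of_lt_pow hm0.ne' hm),
      show Ico 1 2 = {1} from rfl, Finset.sum_singleton, pow_one]
    exact Nat.div_eq_of_lt_le h1 h2

/-! ### 4. cross products of windows -/



/-! ### 5. logarithms -/



end Crest.Agent.R006.RefClass555
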