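import Crest.Agent.R006.Lam_89
import Crest.Agent.R006.Defs

-- ▼ part R006/LamLin_89
section

/-!
# Row 6: linearity of `lam` and monic base change (helper89)
-/

set_option autoImplicit false

namespace Crest.Agent.R006.Lam

open Polynomial

variable {K : Type*} [Field K]

section lam
variable {ι : Type*} [Fintype ι] [DecidableEq ι] (z : ι → K) (m : ι → ℕ)
variable {A : Type*} [CommRing A] [Algebra K A]


lemma u_C_mul (a : K) (p : K[X]) (r : Row m) :
    u z m (C a * p) r = a * u z m p r := by
  rw [u, wt_C_mul, PowerSeries.coeff_C_mul, ← u]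


lemma lam_C_mul_left (a : K) (p : K[X]) (F : ι → PowerSeries A) :
    lam z m (C a * p) F = algebraMap K A a * lam z m p F := by
  simp only [lam, u_C_mul, map_mul, Finset.mul_sum]
  exact Finset.sum_congr rfl fun r _ => by ring



lemma lam_C_mul_right (a : A) (p : K[X]) (F : ι → PowerSeries A) :
    lam z m p (fun i => PowerSeries.C a * F i) = a * lam z m p F := by
  simp only [lam, PowerSeries.coeff_C_mul, Finset.mul_sum]
  exact Finset.sum_congr rfl fun r _ => by ring

end lam

/-- monic family -/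
def MonicFam (p : ℕ → K[X]) : Prop := ∀ k, (p k).Monic ∧ (p k).natDegree = k

lemma monicFam_X : MonicFam (fun k => (X : K[X]) ^ k) :=
  fun k => ⟨monic_X_pow k, natDegree_X_pow k⟩

/-- coefficient matrix of a monic family has determinant one (over any algebra) -/
lemma det_tri (A : Type*) [CommRing A] [Algebra K A] {n : ℕ} (b : ℕ → K[X]) (hb : MonicFam b) :
    (Matrix.of fun l' l : Fin n => algebraMap K A ((b l).coeff l')).det = 1 := by
  rw [Matrix.det_of_isUpperTriangular]
  · apply Finset.prod_eq_one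
    intro l _
    rw [Matrix.of_apply]
    have := (hb l).1.coeff_natDegree
    rw [(hb l).2] at this
    rw [this, map_one]
  · intro l' l h
    rw [Matrix.of_apply]
    have h' : (l : ℕ) < l' := h
    rw [coeff_eq_zero_of_natDegree_lt, map_zero]
    rw [(hb l).2]; exact h'

section base
variable {A : Type*} [CommRing A] [Algebra K A]


/-- **column side**: a block of `n` columns `Φ (b l)`, `Φ` linear over `K`, does not depend on the
monic family `b`; the other columns (labels `γ`) are fixed. -/
theorem det_cols {γ : Type*} [Fintype γ] [DecidableEq γ] {n : ℕ}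
    (Φ : K[X] →ₗ[K] (Fin n ⊕ γ → A)) (Ψ : γ → (Fin n ⊕ γ) → A)
    {b b' : ℕ → K[X]} (hb : MonicFam b) (hb' : MonicFam b') :
    (Matrix.of fun (r : Fin n ⊕ γ) (c : Fin n ⊕ γ) =>
      Sum.elim (fun l : Fin n => Φ (b l) r) (fun g => Ψ g r) c).det =
    (Matrix.of fun (r : Fin n ⊕ γ) (c : Fin n ⊕ γ) =>
      Sum.elim (fun l : Fin n => Φ (b' l) r) (fun g => Ψ g r) c).det := by
  have key : ∀ b : ℕ → K[X], MonicFam b →
      (Matrix.of fun (r : Fin n ⊕ γ) (c : Fin n ⊕ γ) =>
        Sum.elim (fun l : Fin n => Φ (b l) r) (fun g => Ψ g r) c).det =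
      (Matrix.of fun (r : Fin n ⊕ γ) (c : Fin n ⊕ γ) =>
        Sum.elim (fun l : Fin n => Φ (X ^ (l : ℕ)) r) (fun g => Ψ g r) c).det := by
    intro b hb
    have h : (Matrix.of fun (r : Fin n ⊕ γ) (c : Fin n ⊕ γ) =>
        Sum.elim (fun l : Fin n => Φ (b l) r) (fun g => Ψ g r) c) =
        (Matrix.of fun (r : Fin n ⊕ γ) (c : Fin n ⊕ γ) =>
          Sum.elim (fun l : Fin n => Φ (X ^ (l : ℕ)) r) (fun g => Ψ g r) c) *
        Matrix.fromBlocks (Matrix.of fun l' l : Fin n => algebraMap K A ((b l).coeff l')) 0 0 1 := by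
      ext r c
      rw [Matrix.mul_apply, Fintype.sum_sum_type]
      rcases c with l | g
      · simp only [Matrix.of_apply, Sum.elim_inl, Matrix.fromBlocks_apply₁₁,
          Matrix.fromBlocks_apply₂₁, Matrix.zero_apply, mul_zero, Finset.sum_const_zero, add_zero]
        have hl : b l = ∑ l' : Fin n, (b l).coeff l' • (X : K[X]) ^ (l' : ℕ) := by
          have := (b l).as_sum_range' n (by rw [(hb l).2]; exact l.2)
          conv_lhs => rw [this]
          rw [Finset.sum_range]
          refine Finset.sum_congr rfl fun l' _ => ?_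
          rw [smul_X_eq_monomial]
        conv_lhs => rw [hl]
        rw [map_sum, Finset.sum_apply]
        refine Finset.sum_congr rfl fun l' _ => ?_
        rw [map_smul, Pi.smul_apply, Algebra.smul_def, mul_comm]
      · simp only [Matrix.of_apply, Sum.elim_inr, Matrix.fromBlocks_apply₁₂,
          Matrix.fromBlocks_apply₂₂, Matrix.zero_apply, mul_zero, Finset.sum_const_zero, zero_add,
          Matrix.one_apply, mul_ite, mul_one]
        rw [Finset.sum_ite_eq' Finset.univ g]
        simp
    rw [h, Matrix.det_mul, Matrix.det_fromBlocks_zero₂₁, det_tri A b hb, Matrix.det_one, mul_one,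
      mul_one]
  rw [key b hb, key b' hb']

end base

end Crest.Agent.R006.Lam
end

-- ▼ part R006/Bord_89

/-!
# Row 6: bordered minors and the residue form of `Minor` (helper89)

`minor_eq`: for every `ℚ`-algebra `A`, `x : A`, admissible `r`, there are omitted rows `J` such that
`aeval x (Minor S u r) = ± κ · det [lam (p k) (column)]`, over the full closed node set
(`c` extra `G`-nodes, `c` unit vector columns), for all monic families `p, bR, bQ`.
-/

set_option autoImplicit false

namespace Crest.Agent.R006.Bord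

open Polynomial Finset Crest.Agent.R006.D Crest.Agent.R006.NV Crest.Agent.R006.Lam

variable (S : Shape) (u c : ℕ)

/-- bound for all positions -/
def L : ℕ := (S.B + S.e1 + S.e2 + S.e3 + S.h1 + S.h2 + S.h3 + S.w) * u + c

/-- the sites of the window -/
noncomputable def sites : Finset Site :=
  ((Finset.Icc (-(L S u c : ℤ)) (L S u c)).image Site.Z) ∪
    ((Finset.Icc (-(L S u c : ℤ)) (L S u c)).image Site.H)

/-- site labels -/
abbrev St : Type := {z // z ∈ sites S u c}

/-- positions -/
def zz (z : St S u c) : ℚ := z.1.val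

/-- multiplicities -/
def mm (z : St S u c) : ℕ := S.mult u c z.1

/-- row labels (dependent form) -/
abbrev Rw : Type := Lam.Row (mm S u c)

lemma val_injective : Function.Injective Site.val := by
  intro a b h
  rcases a with i | i <;> rcases b with j | j
  · simp only [Site.val] at h
    rw [Int.cast_inj] at h
    rw [h]
  · exfalso
    simp only [Site.val] at h
    have h2 : ((2 * i : ℤ) : ℚ) = ((2 * j + 1 : ℤ) : ℚ) := by push_cast; linarith
    rw [Int.cast_inj] at h2
    omega
  · exfalso
    simp only [Site.val] at h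
    have h2 : ((2 * j : ℤ) : ℚ) = ((2 * i + 1 : ℤ) : ℚ) := by push_cast; linarith
    rw [Int.cast_inj] at h2
    omega
  · simp only [Site.val] at h
    have h2 : ((i : ℤ) : ℚ) = ((j : ℤ) : ℚ) := by linarith
    rw [Int.cast_inj] at h2
    rw [h2]

lemma zz_injective : Function.Injective (zz S u c) := fun a b h =>
  Subtype.ext (val_injective h)

/-- the row as a pair -/
def toRow (ρ : Rw S u c) : D.Row := (ρ.1.1, (ρ.2 : ℕ))



lemma mem_sites_of_mult {z : Site} (h : S.mult u c z ≠ 0) : z ∈ sites S u c := by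
  have expand : (L S u c : ℤ) = S.B * u + S.e1 * u + S.e2 * u + S.e3 * u + S.h1 * u + S.h2 * u
      + S.h3 * u + S.w * u + c := by
    simp only [L]; push_cast; ring
  have p1 : (0 : ℤ) ≤ S.B * u := by positivity
  have p2 : (0 : ℤ) ≤ S.e1 * u := by positivity
  have p3 : (0 : ℤ) ≤ S.e2 * u := by positivity
  have p4 : (0 : ℤ) ≤ S.e3 * u := by positivity
  have p5 : (0 : ℤ) ≤ S.h1 * u := by positivity
  have p6 : (0 : ℤ) ≤ S.h2 * u := by positivity
  have p7 : (0 : ℤ) ≤ S.h3 * u := by positivity
  have p8 : (0 : ℤ) ≤ S.w * u := by positivity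
  rcases z with i | i
  · refine Finset.mem_union_left _ (Finset.mem_image.mpr ⟨i, ?_, rfl⟩)
    rw [Finset.mem_Icc]
    simp only [Shape.mult] at h
    split_ifs at h <;> constructor <;> omega
  · refine Finset.mem_union_right _ (Finset.mem_image.mpr ⟨i, ?_, rfl⟩)
    rw [Finset.mem_Icc]
    simp only [Shape.mult] at h
    split_ifs at h <;> constructor <;> omega

/-- the dependent label of a row -/
def ofRow (ρ : D.Row) (h : IsRow S u c ρ) : Rw S u c :=
  ⟨⟨ρ.1, mem_sites_of_mult S u c (Nat.ne_of_gt (Nat.lt_of_le_of_lt (Nat.zero_le _) h))⟩, ⟨ρ.2, h⟩⟩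


/-! ### counting the rows -/

lemma sum_right {L N : ℕ} (h : N ≤ L) :
    ∑ i ∈ Finset.Icc (-(L : ℤ)) L, (if 0 ≤ i then (if i < N then 1 else 0) else 0) = N := by
  have h1 : ∀ i ∈ Finset.Icc (-(L : ℤ)) L,
      (if 0 ≤ i then (if i < (N : ℤ) then 1 else 0) else 0) = if i ∈ Finset.Ico (0 : ℤ) N then 1 else 0 := by
    intro i _
    simp only [Finset.mem_Ico]
    split_ifs <;> first | rfl | omega
  rw [Finset.sum_congr rfl h1, Finset.sum_ite_mem, Finset.sum_const, smul_eq_mul, mul_one]
  have h2 : Finset.Icc (-(L : ℤ)) L ∩ Finset.Ico (0 : ℤ) N = Finset.Ico (0 : ℤ) N := by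
    rw [Finset.inter_eq_right]
    intro i hi
    rw [Finset.mem_Ico] at hi
    rw [Finset.mem_Icc]
    constructor <;> omega
  rw [h2]; simp

lemma sum_left {L N : ℕ} (h : N ≤ L) :
    ∑ i ∈ Finset.Icc (-(L : ℤ)) L, (if 0 ≤ i then 0 else (if -i ≤ N then 1 else 0)) = N := by
  have h1 : ∀ i ∈ Finset.Icc (-(L : ℤ)) L,
      (if 0 ≤ i then 0 else (if -i ≤ (N : ℤ) then 1 else 0)) =
        if i ∈ Finset.Ico (-(N : ℤ)) 0 then 1 else 0 := by
    intro i _
    simp only [Finset.mem_Ico]
    split_ifs <;> first | rfl | omega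
  rw [Finset.sum_congr rfl h1, Finset.sum_ite_mem, Finset.sum_const, smul_eq_mul, mul_one]
  have h2 : Finset.Icc (-(L : ℤ)) L ∩ Finset.Ico (-(N : ℤ)) 0 = Finset.Ico (-(N : ℤ)) 0 := by
    rw [Finset.inter_eq_right]
    intro i hi
    rw [Finset.mem_Ico] at hi
    rw [Finset.mem_Icc]
    constructor <;> omega
  rw [h2]; simp

lemma L_ge : S.B * u + c ≤ L S u c ∧ S.e1 * u ≤ L S u c ∧ S.e2 * u ≤ L S u c ∧
    S.e3 * u ≤ L S u c ∧ S.h1 * u ≤ L S u c ∧ S.h2 * u ≤ L S u c ∧ S.h3 * u ≤ L S u c ∧
    S.w * u ≤ L S u c := by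
  have : L S u c = S.B * u + S.e1 * u + S.e2 * u + S.e3 * u + S.h1 * u + S.h2 * u
      + S.h3 * u + S.w * u + c := by
    simp only [L]; ring
  refine ⟨?_, ?_, ?_, ?_, ?_, ?_, ?_, ?_⟩ <;> omega

lemma card_Rw : Fintype.card (Rw S u c) = S.rows * u + c := by
  have h0 : Fintype.card (Rw S u c) = ∑ z : St S u c, mm S u c z := by
    rw [Fintype.card_sigma]
    simp
  have h1 : ∑ z : St S u c, mm S u c z = ∑ z ∈ sites S u c, S.mult u c z := by
    rw [← Finset.sum_coe_sort (sites S u c)]
    rfl
  rw [h0, h1, sites, Finset.sum_union]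
  · rw [Finset.sum_image (by intro a _ b _ h; simpa using h),
      Finset.sum_image (by intro a _ b _ h; simpa using h)]
    obtain ⟨l1, l2, l3, l4, l5, l6, l7, l8⟩ := L_ge S u c
    have hZ : ∑ i ∈ Finset.Icc (-(L S u c : ℤ)) (L S u c), S.mult u c (Site.Z i)
        = (S.B * u + c) + S.e1 * u + S.e2 * u + S.e3 * u := by
      rw [← sum_right l1, ← sum_left l2, ← sum_left l3, ← sum_left l4, ← Finset.sum_add_distrib,
        ← Finset.sum_add_distrib, ← Finset.sum_add_distrib]
      refine Finset.sum_congr rfl fun i _ => ?_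
      simp only [Shape.mult]
      push_cast
      split_ifs <;> first | rfl | omega
    have hH : ∑ i ∈ Finset.Icc (-(L S u c : ℤ)) (L S u c), S.mult u c (Site.H i)
        = S.h1 * u + S.h2 * u + S.h3 * u + S.w * u := by
      rw [← sum_right l5, ← sum_right l6, ← sum_right l7, ← sum_left l8, ← Finset.sum_add_distrib,
        ← Finset.sum_add_distrib, ← Finset.sum_add_distrib]
      refine Finset.sum_congr rfl fun i _ => ?_
      simp only [Shape.mult]
      push_cast
      split_ifs <;> first | rfl | omega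
    rw [hZ, hH, Shape.rows]
    ring
  · rw [Finset.disjoint_left]
    intro x hx hx'
    obtain ⟨i, _, rfl⟩ := Finset.mem_image.mp hx
    obtain ⟨j, _, hj⟩ := Finset.mem_image.mp hx'
    exact Site.noConfusion hj

end Crest.Agent.R006.Bord
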