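import Mathlib
import Crest.Agent.R006.Defs
import Crest.Agent.R006.Lam_89

-- ▼ part R006/NVBorder_938
section

/-!
Row 6, block P2 (nonvanishing): bordering by unit vectors.

If the columns of a `ρ × κ` matrix over a field are linearly independent and
`|ρ| = |κ| + |γ|`, then the matrix can be completed by `γ` unit vector columns to an invertible
matrix. Used with `γ = Fin c0` (`c0` extra rows).
-/

set_option autoImplicit false

namespace Crest.Agent.R006.NV

open Matrix

/-- the matrix `M` bordered by unit vectors in the rows `J t` -/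
def border {K ρ κ γ : Type*} [Zero K] [One K] [DecidableEq ρ] (M : Matrix ρ κ K) (J : γ → ρ) :
    Matrix ρ (κ ⊕ γ) K :=
  Matrix.of fun r c => Sum.elim (fun k => M r k) (fun t => if r = J t then 1 else 0) c


end Crest.Agent.R006.NV
end

-- ▼ part R006/Bord_929

/-!
# Row 6: the bordered minor (helper929), on 378's `Defs`

* `det_border` : for `r : κ → ρ`, `J : γ → ρ` with `Sum.elim r J` bijective and any enumeration
  `e : κ ⊕ γ ≃ ρ`, the determinant of the full matrix with the unit columns `J` is `±` the minor `r`.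
* `sites S u c`, `sum_mult` : the sites of the design, the number of rows is `S.rows * u + c`.
* `exists_J` : the omitted rows of an admissible choice.
* `Minor_eq_lam` : `Minor S u r = ± (∏ 1/l!) V det (lam (p k) (F c))`, the residue identity (89's
  `det_mat_eq`) for the full node set; `F` = the `R`-columns, the `Q`-columns, `c` unit columns.
-/

set_option autoImplicit false

namespace Crest.Agent.R006.Bordx929

open Polynomial Crest.Agent.R006.NV Crest.Agent.R006.PsiInf Crest.Agent.R006.D

section generic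

variable {R ρ κ γ : Type*} [CommRing R] [Fintype κ] [DecidableEq κ] [Fintype γ] [DecidableEq γ]
  [DecidableEq ρ]

theorem det_border_base (M : Matrix ρ κ R) (r : κ → ρ) (J : γ → ρ)
    (hJ : Function.Injective J) (hd : ∀ i t, r i ≠ J t) :
    ((border M J).submatrix (Sum.elim r J) id).det = (M.submatrix r id).det := by
  have h : (border M J).submatrix (Sum.elim r J) id =
      Matrix.fromBlocks (M.submatrix r id) 0 (M.submatrix J id) 1 := by
    ext i j
    rcases i with i | i <;> rcases j with j | j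
    · rfl
    · simp [border, hd]
    · rfl
    · simp [border, Matrix.one_apply, hJ.eq_iff]
  rw [h, Matrix.det_fromBlocks_zero₁₂, Matrix.det_one, mul_one]

theorem det_border (M : Matrix ρ κ R) (r : κ → ρ) (J : γ → ρ)
    (hb : Function.Bijective (Sum.elim r J)) (e : κ ⊕ γ ≃ ρ) :
    ∃ s : ℤˣ, (M.submatrix r id).det = ((s : ℤ) : R) * ((border M J).submatrix e id).det := by
  have hJ : Function.Injective J := fun a b hab => by
    simpa using hb.1 (show Sum.elim r J (Sum.inr a) = Sum.elim r J (Sum.inr b) from hab)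
  have hd : ∀ i t, r i ≠ J t := fun i t h => by
    simpa using hb.1 (show Sum.elim r J (Sum.inl i) = Sum.elim r J (Sum.inr t) from h)
  let e0 : κ ⊕ γ ≃ ρ := Equiv.ofBijective _ hb
  let σ : Equiv.Perm (κ ⊕ γ) := e0.trans e.symm
  refine ⟨Equiv.Perm.sign σ, ?_⟩
  rw [← det_border_base M r J hJ hd, ← Matrix.det_permute]
  congr 1
  ext i j
  simp [σ, e0, Matrix.submatrix_apply]

end generic

/-! ### the sites -/

variable (S : Shape) (u c : ℕ)

lemma Z_inj : Function.Injective Site.Z := fun _ _ h => by injection h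

lemma H_inj : Function.Injective Site.H := fun _ _ h => by injection h

/-- the sites of the design -/
noncomputable def sites : Finset Site :=
  ((Finset.Ico (-((S.e1 * u : ℕ) : ℤ)) ((S.B * u + c : ℕ) : ℤ)).map ⟨Site.Z, Z_inj⟩).disjUnion
  ((Finset.Ico (-((S.w * u : ℕ) : ℤ)) ((S.h1 * u : ℕ) : ℤ)).map ⟨Site.H, H_inj⟩) (by
      rw [Finset.disjoint_left]
      intro x hx hy
      rw [Finset.mem_map] at hx hy
      obtain ⟨a, _, rfl⟩ := hx
      obtain ⟨b, _, hb⟩ := hy
      simp at hb)

/-- sum over an integer interval of an indicator -/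
lemma sum_ind (a b a' b' : ℤ) (p : ℤ → Prop) [DecidablePred p]
    (h : ∀ i, (a ≤ i ∧ i < b) ∧ p i ↔ a' ≤ i ∧ i < b') :
    ∑ i ∈ Finset.Ico a b, (if p i then 1 else 0) = (b' - a').toNat := by
  rw [Finset.sum_boole, ← Int.card_Ico]
  have : Finset.filter p (Finset.Ico a b) = Finset.Ico a' b' := by
    ext i
    rw [Finset.mem_filter, Finset.mem_Ico, Finset.mem_Ico, h]
  rw [this]
  simp

variable {S}

lemma sum_mult (hS : S.Good) : ∑ z ∈ sites S u c, S.mult u c z = S.rows * u + c := by
  have h1 := Nat.mul_le_mul_right u hS.e21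
  have h2 := Nat.mul_le_mul_right u hS.e32
  have h3 := Nat.mul_le_mul_right u hS.h21
  have h4 := Nat.mul_le_mul_right u hS.h32
  rw [sites, Finset.sum_disjUnion, Finset.sum_map, Finset.sum_map]
  simp only [Function.Embedding.coeFn_mk]
  have e1 : ∀ i : ℤ, S.mult u c (Site.Z i) =
      (if 0 ≤ i ∧ i < S.B * u + c then 1 else 0) + (if i < 0 ∧ -i ≤ S.e1 * u then 1 else 0)
      + (if i < 0 ∧ -i ≤ S.e2 * u then 1 else 0) + (if i < 0 ∧ -i ≤ S.e3 * u then 1 else 0) := by
    intro i
    rw [Shape.mult]
    by_cases h : 0 ≤ i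
    · have h' : ¬ i < 0 := not_lt.mpr h
      simp [h, h']
    · have h' : i < 0 := not_le.mp h
      simp only [h, h', if_false, false_and, true_and, zero_add]
  have e2 : ∀ i : ℤ, S.mult u c (Site.H i) =
      (if i < 0 ∧ -i ≤ S.w * u then 1 else 0) + (if 0 ≤ i ∧ i < S.h1 * u then 1 else 0)
      + (if 0 ≤ i ∧ i < S.h2 * u then 1 else 0) + (if 0 ≤ i ∧ i < S.h3 * u then 1 else 0) := by
    intro i
    rw [Shape.mult]
    by_cases h : 0 ≤ i
    · have h' : ¬ i < 0 := not_lt.mpr h
      simp only [h, h', if_true, false_and, true_and, if_false, zero_add]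
    · have h' : i < 0 := not_le.mp h
      simp [h, h']
  simp only [e1, e2, Finset.sum_add_distrib]
  rw [sum_ind _ _ 0 (S.B * u + c : ℕ), sum_ind _ _ (-((S.e1 * u : ℕ) : ℤ)) 0,
    sum_ind _ _ (-((S.e2 * u : ℕ) : ℤ)) 0, sum_ind _ _ (-((S.e3 * u : ℕ) : ℤ)) 0,
    sum_ind _ _ (-((S.w * u : ℕ) : ℤ)) 0, sum_ind _ _ 0 ((S.h1 * u : ℕ) : ℤ),
    sum_ind _ _ 0 ((S.h2 * u : ℕ) : ℤ), sum_ind _ _ 0 ((S.h3 * u : ℕ) : ℤ)]
  · simp only [sub_zero, zero_sub, neg_neg, Int.toNat_natCast]
    rw [Shape.rows]
    ring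
  all_goals
    intro i
    zify at h1 h2 h3 h4
    have p1 : (0 : ℤ) ≤ S.e1 * u := by positivity
    have p2 : (0 : ℤ) ≤ S.e2 * u := by positivity
    have p3 : (0 : ℤ) ≤ S.e3 * u := by positivity
    have p4 : (0 : ℤ) ≤ S.h1 * u := by positivity
    have p5 : (0 : ℤ) ≤ S.h2 * u := by positivity
    have p6 : (0 : ℤ) ≤ S.h3 * u := by positivity
    have p7 : (0 : ℤ) ≤ S.w * u := by positivity
    have p8 : (0 : ℤ) ≤ S.B * u := by positivity
    have p9 : (0 : ℤ) ≤ c := by positivity
    push_cast
    omega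

lemma mem_sites (hS : S.Good) {z : Site} (h : S.mult u c z ≠ 0) : z ∈ sites S u c := by
  have h1 := Nat.mul_le_mul_right u hS.e21
  have h2 := Nat.mul_le_mul_right u hS.e32
  have h3 := Nat.mul_le_mul_right u hS.h21
  have h4 := Nat.mul_le_mul_right u hS.h32
  zify at h1 h2 h3 h4
  rw [sites, Finset.mem_disjUnion, Finset.mem_map, Finset.mem_map]
  rcases z with i | i
  · left
    refine ⟨i, ?_, rfl⟩
    rw [Finset.mem_Ico]
    have h0 : (0 : ℤ) ≤ S.B * u := by positivity
    have h0' : (0 : ℤ) ≤ S.e1 * u := by positivity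
    rw [Shape.mult] at h
    push_cast
    split_ifs at h <;> omega
  · right
    refine ⟨i, ?_, rfl⟩
    rw [Finset.mem_Ico]
    have h0 : (0 : ℤ) ≤ S.w * u := by positivity
    have h0' : (0 : ℤ) ≤ S.h1 * u := by positivity
    rw [Shape.mult] at h
    push_cast
    split_ifs at h <;> omega

/-- the type of the sites -/
abbrev SI (S : Shape) (u c : ℕ) : Type := {z : Site // z ∈ sites S u c}

/-- the numbers attached to the sites -/
noncomputable def zz (S : Shape) (u c : ℕ) (z : SI S u c) : ℚ := z.1.val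

/-- the multiplicities -/
def mm (S : Shape) (u c : ℕ) (z : SI S u c) : ℕ := S.mult u c z.1

lemma val_injective : Function.Injective Site.val := by
  rintro (i | i) (j | j) h
  · simp only [Site.val] at h
    rw [show i = j by exact_mod_cast h]
  · simp only [Site.val] at h
    exfalso
    have h' : (2 : ℚ) * i = 2 * j + 1 := by rw [h]; ring
    have h2 : (2 : ℤ) * i = 2 * j + 1 := by exact_mod_cast h'
    omega
  · simp only [Site.val] at h
    exfalso
    have h' : (2 : ℚ) * j = 2 * i + 1 := by rw [← h]; ring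
    have h2 : (2 : ℤ) * j = 2 * i + 1 := by exact_mod_cast h'
    omega
  · simp only [Site.val] at h
    have h' : (i : ℚ) = j := by linarith
    rw [show i = j by exact_mod_cast h']

lemma zz_injective : Function.Injective (zz S u c) := fun _ _ h =>
  Subtype.ext (val_injective h)

lemma sum_mm (hS : S.Good) : ∑ z, mm S u c z = S.rows * u + c := by
  rw [← sum_mult u c hS]
  exact Finset.sum_coe_sort (sites S u c) (fun z => S.mult u c z)

lemma card_Row (hS : S.Good) : Fintype.card (Lam.Row (mm S u c)) = S.rows * u + c := by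
  rw [Fintype.card_sigma]
  simp only [Fintype.card_fin]
  exact sum_mm u c hS

/-- a row of the design as an element of `Lam.Row` -/
def toRow (hS : S.Good) (ρ : D.Row) (h : IsRow S u c ρ) : Lam.Row (mm S u c) :=
  ⟨⟨ρ.1, mem_sites u c hS (Nat.ne_of_gt (Nat.lt_of_le_of_lt (Nat.zero_le _) h))⟩, ⟨ρ.2, h⟩⟩

/-- back to the label -/
def ofRow (x : Lam.Row (mm S u c)) : D.Row := (x.1.1, x.2)

lemma ofRow_toRow (hS : S.Good) (ρ : D.Row) (h : IsRow S u c ρ) :
    ofRow u c (toRow u c hS ρ h) = ρ := rfl


lemma card_Col (hS : S.Good) : Fintype.card (Col S u) = S.rows * u := by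
  have h : Fintype.card (Col S u) = S.k * u + (S.q * u + S.g * u) := by
    change Fintype.card (Fin (S.k * u) ⊕ Fin (S.q * u) ⊕ Fin (S.g * u)) = _
    rw [Fintype.card_sum, Fintype.card_sum, Fintype.card_fin, Fintype.card_fin, Fintype.card_fin]
  rw [h, ← Nat.add_mul, ← Nat.add_mul, Shape.k]
  congr 1
  have := hS.kpos
  omega

/-- complement of an injective choice -/
lemma exists_compl {κ ρ : Type*} [Fintype κ] [Fintype ρ] (r : κ → ρ)
    (hr : Function.Injective r) (c : ℕ) (h : Fintype.card ρ = Fintype.card κ + c) :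
    ∃ J : Fin c → ρ, Function.Bijective (Sum.elim r J) := by
  classical
  have h1 : Fintype.card {x // x ∉ Set.range r} = c := by
    rw [Fintype.card_subtype_compl]
    have : Fintype.card {x // x ∈ Set.range r} = Fintype.card κ :=
      Fintype.card_congr (Equiv.ofInjective r hr).symm
    rw [this, h]
    omega
  let E : Fin c ≃ {x // x ∉ Set.range r} := (Fintype.equivFinOfCardEq h1).symm
  refine ⟨fun t => (E t).1, ?_⟩
  rw [Fintype.bijective_iff_injective_and_card]
  refine ⟨?_, by rw [Fintype.card_sum, Fintype.card_fin, h]⟩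
  rintro (a | a) (b | b) hab
  · exact congrArg Sum.inl (hr hab)
  · exact absurd ⟨a, hab⟩ (E b).2
  · exact absurd ⟨b, hab.symm⟩ (E a).2
  · exact congrArg Sum.inr (E.injective (Subtype.ext hab))



/-! ### the residue identity -/





/-- number of the non-polynomial columns -/
def nA (S : Shape) (u c : ℕ) : ℕ := S.k * u + (S.g * u + c)

/-- enumeration of the non-polynomial columns: `R`-columns, `Q`-columns, unit columns -/
def EA (S : Shape) (u c : ℕ) : Fin (S.k * u) ⊕ (Fin (S.g * u) ⊕ Fin c) ≃ Fin (nA S u c) :=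
  (Equiv.sumCongr (Equiv.refl _) finSumFinEquiv).trans finSumFinEquiv


/-- enumeration of all columns -/
def EC (S : Shape) (u c : ℕ) : Fin (nA S u c) ⊕ Fin (S.q * u) ≃ Col S u ⊕ Fin c :=
  (Equiv.sumCongr (EA S u c).symm (Equiv.refl _)).trans
    { toFun := Sum.elim (Sum.elim (fun l => Sum.inl (Sum.inl l))
        (Sum.elim (fun l => Sum.inl (Sum.inr (Sum.inr l))) (fun t => Sum.inr t)))
        (fun l => Sum.inl (Sum.inr (Sum.inl l)))
      invFun := Sum.elim (Sum.elim (fun l => Sum.inl (Sum.inl l))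
        (Sum.elim (fun l => Sum.inr l) (fun l => Sum.inl (Sum.inr (Sum.inl l)))))
        (fun t => Sum.inl (Sum.inr (Sum.inr t)))
      left_inv := by rintro ((l | l | l) | l) <;> rfl
      right_inv := by rintro ((l | l | l) | l) <;> rfl }

/-- a fixed enumeration of the rows -/
noncomputable def ER (S : Shape) (u c : ℕ) (hS : S.Good) :
    Fin (nA S u c) ⊕ Fin (S.q * u) ≃ Lam.Row (mm S u c) :=
  Fintype.equivOfCardEq (by
    rw [card_Row u c hS, ← card_Col u hS, Fintype.card_congr (EC S u c), Fintype.card_sum,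
      Fintype.card_fin])

/-- the confluent Vandermonde determinant of the nodes (up to sign) -/
noncomputable def VV (S : Shape) (u c : ℕ) (hS : S.Good) : ℚ :=
  (Lam.vmat (zz S u c) (mm S u c) ℚ (ER S u c hS)).det




end Crest.Agent.R006.Bordx929
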