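import Crest.Agent.R006.CellDefs_365
import Crest.Agent.R006.CellSum_757

-- ▼ part R006/CellTotAux_305
section

set_option autoImplicit false

/-!
# Row 6, block P8: total over the strips

`total_ge_of`: the class sum inequality (757) and the kernel-evaluated number `totalLow` give the
lower bound of `∑_{x0 N < p ≤ X N} log p · v_p`.
-/

namespace Crest.Agent.R006.P8

open Filter Topology Finset

/-- the statement of `class_sum_ge` -/
def ClassSumGe : Prop :=
  ∀ (bd : List (ℤ × ℤ)) (I : Iv) (cs : List Cell), checkStrip bd I cs = true →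
    ∀ (kap : List ℤ → ℤ) (N p : ℕ), 0 < N → I.u0 * N ≤ I.v0 * p → I.v1 * p ≤ I.u1 * N →
    ∀ f : ℕ → ℤ, (∀ c < p, kap (jvec bd N p c) ≤ f c) →
      (N : ℝ) * alTot kap cs - (p : ℝ) * jTot kap cs / 2 - absTot kap cs
        ≤ ∑ c ∈ range p, (f c : ℝ)

lemma Iv.ok_iff {I : Iv} (h : I.ok = true) :
    0 < I.u0 ∧ 0 < I.v0 ∧ 0 < I.v1 ∧ I.u0 * I.v1 ≤ I.u1 * I.v0 := by
  simpa [Iv.ok, Bool.and_eq_true, decide_eq_true_eq] using h

lemma ok_of_checkStrip {bd : List (ℤ × ℤ)} {I : Iv} {cs : List Cell}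
    (h : checkStrip bd I cs = true) : I.ok = true := by
  cases cs with
  | nil => simp [checkStrip] at h
  | cons c cs =>
    simp only [checkStrip, Bool.and_eq_true] at h
    exact h.2.1

/-- the piece of a strip, loss orientation -/
def ivPiece (I : Iv) (al j : ℤ) : Piece :=
  { lo := (I.u0 : ℚ) / I.v0, hi := (I.u1 : ℚ) / I.v1, al := -(al : ℚ), be := (j : ℚ) / 2 }

lemma intLow_le {Sc : ℤ} {I : Iv} (h0 : 0 < I.v0) (h1 : 0 < I.v1) (al j : ℤ) :
    ((intLow Sc I al j : ℤ) : ℚ) ≤ -(Sc * (ivPiece I al j).I) := by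
  have h0Q : (0 : ℚ) < I.v0 := by exact_mod_cast h0
  have h1Q : (0 : ℚ) < I.v1 := by exact_mod_cast h1
  set den : ℤ := 4 * (I.v0 * I.v1) ^ 2 with hden
  set num : ℤ := Sc * ((I.u1 * I.v0 - I.u0 * I.v1) *
    (4 * al * (I.v0 * I.v1) - j * (I.u0 * I.v1 + I.u1 * I.v0))) with hnum
  have hdpos : 0 < den := by positivity
  have hdQ : (0 : ℚ) < den := by exact_mod_cast hdpos
  have e1 : (num / den) * den ≤ num := Int.ediv_mul_le _ hdpos.ne'
  have e2 : ((num / den : ℤ) : ℚ) * den ≤ num := by exact_mod_cast e1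
  have e3 : -(Sc * (ivPiece I al j).I) * den = num := by
    simp only [ivPiece, Piece.I, hnum, hden]
    push_cast
    field_simp
    ring
  have e4 : intLow Sc I al j = num / den := rfl
  rw [e4, ← mul_le_mul_iff_left₀ hdQ, e3]
  exact e2




end Crest.Agent.R006.P8
end

-- ▼ part R006/CellTot_305

set_option autoImplicit false

/-!
# Row 6, block P8: `total_ge`
-/

namespace Crest.Agent.R006.P8

open Filter Topology Finset

theorem classSumGe : ClassSumGe := by
  intro bd I cs h kap N p hN h0 h1 f hf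
  exact class_sum_ge bd I cs h kap N p hN h0 h1 f hf


end Crest.Agent.R006.P8
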