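import Crest.Agent.R006.NumLog_179
import Mathlib

/-!
# Row 6, certified numerics: interval core (helper482)

`Enc r I` : the real `r` lies in the interval `I` (integers, scale `2^48`).
Everything is computed with `Int`/`Nat` operations, closed instances go by `decide +kernel`.
-/

set_option autoImplicit false

namespace Num482

open Real Crest.Agent.R006.NumLogx179

/-- `I` encloses `r` at scale `2^48 = 281474976710656`. -/
def Enc (r : ℝ) (I : ℤ × ℤ) : Prop :=
  (I.1 : ℝ) ≤ r * 281474976710656 ∧ r * 281474976710656 ≤ (I.2 : ℝ)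

def addI (I J : ℤ × ℤ) : ℤ × ℤ := (I.1 + J.1, I.2 + J.2)
def negI (I : ℤ × ℤ) : ℤ × ℤ := (-I.2, -I.1)
def subI (I J : ℤ × ℤ) : ℤ × ℤ := (I.1 - J.2, I.2 - J.1)

/-- multiplication by a nonnegative integer -/
def nsmulI (n : ℕ) (I : ℤ × ℤ) : ℤ × ℤ := ((n : ℤ) * I.1, (n : ℤ) * I.2)

/-- multiplication by an integer -/
def smulI (c : ℤ) (I : ℤ × ℤ) : ℤ × ℤ :=
  match c with
  | Int.ofNat n => nsmulI n I
  | Int.negSucc n => negI (nsmulI (n + 1) I)

/-- division by a positive natural (outward rounding) -/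
def divI (I : ℤ × ℤ) (q : ℕ) : ℤ × ℤ := (I.1 / (q : ℤ), -((-I.2) / (q : ℤ)))


/-- product of intervals -/
def mulI (I J : ℤ × ℤ) : ℤ × ℤ :=
  let a := I.1 * J.1
  let b := I.1 * J.2
  let c := I.2 * J.1
  let d := I.2 * J.2
  let lo := min (min a b) (min c d)
  let hi := max (max a b) (max c d)
  (lo / 281474976710656, -((-hi) / 281474976710656))

/-- the rational `p/q` -/
def ofQ (p : ℤ) (q : ℕ) : ℤ × ℤ :=
  ((p * 281474976710656) / (q : ℤ), -((-(p * 281474976710656)) / (q : ℤ)))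

/-- logarithm of a natural -/
def logN (n : ℕ) : ℤ × ℤ := ((lnN n : ℤ), ((lnN n + 20 * (n.log2 + 1) : ℕ) : ℤ))


/-- `π` -/
def piI : ℤ × ℤ := (884279719003555, 884279719003556)

/-- `log 2` -/
def ln2I : ℤ × ℤ := (195103586505165, 195103586505185)



theorem Enc.add {r s : ℝ} {I J : ℤ × ℤ} (h : Enc r I) (h' : Enc s J) : Enc (r + s) (addI I J) := by
  obtain ⟨h1, h2⟩ := h
  obtain ⟨h3, h4⟩ := h'
  constructor
  · simp only [addI]; push_cast; linarith
  · simp only [addI]; push_cast; linarith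

theorem Enc.neg {r : ℝ} {I : ℤ × ℤ} (h : Enc r I) : Enc (-r) (negI I) := by
  obtain ⟨h1, h2⟩ := h
  constructor
  · simp only [negI]; push_cast; linarith
  · simp only [negI]; push_cast; linarith

theorem Enc.sub {r s : ℝ} {I J : ℤ × ℤ} (h : Enc r I) (h' : Enc s J) : Enc (r - s) (subI I J) := by
  obtain ⟨h1, h2⟩ := h
  obtain ⟨h3, h4⟩ := h'
  constructor
  · simp only [subI]; push_cast; linarith
  · simp only [subI]; push_cast; linarith

theorem Enc.nsmul {r : ℝ} {I : ℤ × ℤ} (n : ℕ) (h : Enc r I) : Enc ((n : ℝ) * r) (nsmulI n I) := by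
  obtain ⟨h1, h2⟩ := h
  have hn : (0 : ℝ) ≤ n := Nat.cast_nonneg n
  constructor
  · simp only [nsmulI]; push_cast
    have := mul_le_mul_of_nonneg_left h1 hn
    linarith
  · simp only [nsmulI]; push_cast
    have := mul_le_mul_of_nonneg_left h2 hn
    linarith

theorem Enc.smul {r : ℝ} {I : ℤ × ℤ} (c : ℤ) (h : Enc r I) : Enc ((c : ℝ) * r) (smulI c I) := by
  cases c with
  | ofNat n =>
    have := Enc.nsmul n h
    simpa [smulI] using this
  | negSucc n =>
    have := (Enc.nsmul (n + 1) h).neg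
    have e : ((Int.negSucc n : ℤ) : ℝ) * r = -(((n + 1 : ℕ) : ℝ) * r) := by
      rw [Int.cast_negSucc]; ring
    rw [e]
    exact this

theorem Enc.divN {r : ℝ} {I : ℤ × ℤ} {q : ℕ} (hq : 0 < q) (h : Enc r I) :
    Enc (r / q) (divI I q) := by
  obtain ⟨h1, h2⟩ := h
  have hq' : (0 : ℝ) < q := by exact_mod_cast hq
  have hqZ : (0 : ℤ) < (q : ℤ) := by exact_mod_cast hq
  constructor
  · simp only [divI]
    have h3 : (I.1 / (q : ℤ)) * (q : ℤ) ≤ I.1 := Int.ediv_mul_le _ hqZ.ne'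
    have h4 : ((I.1 / (q : ℤ) : ℤ) : ℝ) * q ≤ (I.1 : ℝ) := by exact_mod_cast h3
    rw [div_mul_eq_mul_div, le_div_iff₀ hq']
    linarith
  · simp only [divI]
    have h3 : ((-I.2) / (q : ℤ)) * (q : ℤ) ≤ -I.2 := Int.ediv_mul_le _ hqZ.ne'
    have h4 : (((-I.2) / (q : ℤ) : ℤ) : ℝ) * q ≤ -(I.2 : ℝ) := by exact_mod_cast h3
    rw [div_mul_eq_mul_div, div_le_iff₀ hq']
    push_cast
    linarith


theorem enc_ofQ (p : ℤ) {q : ℕ} (hq : 0 < q) : Enc ((p : ℝ) / q) (ofQ p q) := by
  have hq' : (0 : ℝ) < q := by exact_mod_cast hq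
  have hqZ : (0 : ℤ) < (q : ℤ) := by exact_mod_cast hq
  constructor
  · simp only [ofQ]
    have h3 : ((p * 281474976710656) / (q : ℤ)) * (q : ℤ) ≤ p * 281474976710656 :=
      Int.ediv_mul_le _ hqZ.ne'
    have h4 : (((p * 281474976710656) / (q : ℤ) : ℤ) : ℝ) * q ≤ (p : ℝ) * 281474976710656 := by
      exact_mod_cast h3
    rw [div_mul_eq_mul_div, le_div_iff₀ hq']
    linarith
  · simp only [ofQ]
    have h3 : ((-(p * 281474976710656)) / (q : ℤ)) * (q : ℤ) ≤ -(p * 281474976710656) :=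
      Int.ediv_mul_le _ hqZ.ne'
    have h4 : (((-(p * 281474976710656)) / (q : ℤ) : ℤ) : ℝ) * q ≤
        -((p : ℝ) * 281474976710656) := by exact_mod_cast h3
    rw [div_mul_eq_mul_div, div_le_iff₀ hq']
    push_cast at h4 ⊢
    linarith

theorem Enc.mul {r s : ℝ} {I J : ℤ × ℤ} (h : Enc r I) (h' : Enc s J) :
    Enc (r * s) (mulI I J) := by
  obtain ⟨h1, h2⟩ := h
  obtain ⟨h3, h4⟩ := h'
  set R : ℝ := r * 281474976710656 with hR
  set T : ℝ := s * 281474976710656 with hT
  have hlo : (min (min ((I.1 : ℝ) * J.1) ((I.1 : ℝ) * J.2)) (min ((I.2 : ℝ) * J.1) ((I.2 : ℝ) * J.2)))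
      ≤ R * T := by
    rcases le_or_gt 0 R with hR0 | hR0
    · -- R * T ≥ R * J.1
      have e1 : R * J.1 ≤ R * T := mul_le_mul_of_nonneg_left h3 hR0
      rcases le_or_gt 0 (J.1 : ℝ) with hJ | hJ
      · have e2 : (I.1 : ℝ) * J.1 ≤ R * J.1 := mul_le_mul_of_nonneg_right h1 hJ
        exact le_trans (le_trans (min_le_left _ _) (min_le_left _ _)) (e2.trans e1)
      · have e2 : (I.2 : ℝ) * J.1 ≤ R * J.1 := mul_le_mul_of_nonpos_right h2 hJ.le
        exact le_trans (le_trans (min_le_right _ _) (min_le_left _ _)) (e2.trans e1)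
    · have e1 : R * J.2 ≤ R * T := mul_le_mul_of_nonpos_left h4 hR0.le
      rcases le_or_gt 0 (J.2 : ℝ) with hJ | hJ
      · have e2 : (I.1 : ℝ) * J.2 ≤ R * J.2 := mul_le_mul_of_nonneg_right h1 hJ
        exact le_trans (le_trans (min_le_left _ _) (min_le_right _ _)) (e2.trans e1)
      · have e2 : (I.2 : ℝ) * J.2 ≤ R * J.2 := mul_le_mul_of_nonpos_right h2 hJ.le
        exact le_trans (le_trans (min_le_right _ _) (min_le_right _ _)) (e2.trans e1)
  have hhi : R * T ≤
      (max (max ((I.1 : ℝ) * J.1) ((I.1 : ℝ) * J.2)) (max ((I.2 : ℝ) * J.1) ((I.2 : ℝ) * J.2))) := by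
    rcases le_or_gt 0 R with hR0 | hR0
    · have e1 : R * T ≤ R * J.2 := mul_le_mul_of_nonneg_left h4 hR0
      rcases le_or_gt 0 (J.2 : ℝ) with hJ | hJ
      · have e2 : R * J.2 ≤ (I.2 : ℝ) * J.2 := mul_le_mul_of_nonneg_right h2 hJ
        exact (e1.trans e2).trans (le_trans (le_max_right _ _) (le_max_right _ _))
      · have e2 : R * J.2 ≤ (I.1 : ℝ) * J.2 := mul_le_mul_of_nonpos_right h1 hJ.le
        exact (e1.trans e2).trans (le_trans (le_max_right _ _) (le_max_left _ _))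
    · have e1 : R * T ≤ R * J.1 := mul_le_mul_of_nonpos_left h3 hR0.le
      rcases le_or_gt 0 (J.1 : ℝ) with hJ | hJ
      · have e2 : R * J.1 ≤ (I.2 : ℝ) * J.1 := mul_le_mul_of_nonneg_right h2 hJ
        exact (e1.trans e2).trans (le_trans (le_max_left _ _) (le_max_right _ _))
      · have e2 : R * J.1 ≤ (I.1 : ℝ) * J.1 := mul_le_mul_of_nonpos_right h1 hJ.le
        exact (e1.trans e2).trans (le_trans (le_max_left _ _) (le_max_left _ _))
  have hRT : R * T = (r * s * 281474976710656) * 281474976710656 := by rw [hR, hT]; ring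
  have hpos : (0 : ℤ) < 281474976710656 := by norm_num
  constructor
  · simp only [mulI]
    set lo : ℤ := min (min (I.1 * J.1) (I.1 * J.2)) (min (I.2 * J.1) (I.2 * J.2)) with hlo'
    have hloR : (lo : ℝ) ≤ R * T := by rw [hlo']; push_cast; exact hlo
    have h5 : (lo / 281474976710656) * 281474976710656 ≤ lo := Int.ediv_mul_le _ hpos.ne'
    have h6 : ((lo / 281474976710656 : ℤ) : ℝ) * 281474976710656 ≤ (lo : ℝ) := by exact_mod_cast h5
    rw [hRT] at hloR
    nlinarith
  · simp only [mulI]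
    set hi : ℤ := max (max (I.1 * J.1) (I.1 * J.2)) (max (I.2 * J.1) (I.2 * J.2)) with hhi'
    have hhiR : R * T ≤ (hi : ℝ) := by rw [hhi']; push_cast; exact hhi
    have h5 : ((-hi) / 281474976710656) * 281474976710656 ≤ -hi := Int.ediv_mul_le _ hpos.ne'
    have h6 : (((-hi) / 281474976710656 : ℤ) : ℝ) * 281474976710656 ≤ -(hi : ℝ) := by
      exact_mod_cast h5
    rw [hRT] at hhiR
    push_cast
    nlinarith

theorem enc_logN {n : ℕ} (hn : 0 < n) : Enc (Real.log n) (logN n) := by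
  obtain ⟨h1, h2⟩ := lnN_bound hn
  constructor
  · simp only [logN]; push_cast; linarith
  · simp only [logN]; push_cast; linarith


theorem enc_ln2 : Enc (Real.log 2) ln2I := by
  obtain ⟨h1, h2⟩ := lnN_bound (n := 2) (by norm_num)
  have e : lnN 2 = 195103586505165 := by decide +kernel
  have e2 : Nat.log2 2 = 1 := by decide +kernel
  obtain ⟨l1, l2⟩ := log2_bound
  constructor
  · simp only [ln2I]; push_cast; linarith
  · simp only [ln2I]; push_cast; linarith

theorem enc_pi : Enc Real.pi piI := by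
  have h1 := Real.pi_gt_d20
  have h2 := Real.pi_lt_d20
  constructor
  · simp only [piI]; push_cast; linarith
  · simp only [piI]; push_cast; linarith



/-- final step: from an enclosure to an inequality -/
theorem Enc.le_of {r : ℝ} {I : ℤ × ℤ} (h : Enc r I) {p : ℤ} {q : ℕ} (hq : 0 < q)
    (hc : I.2 * q ≤ p * 281474976710656) : r ≤ (p : ℝ) / q := by
  have hq' : (0 : ℝ) < q := by exact_mod_cast hq
  have hc' : (I.2 : ℝ) * q ≤ (p : ℝ) * 281474976710656 := by exact_mod_cast hc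
  rw [le_div_iff₀ hq']
  nlinarith [h.2]


/-- widening -/
theorem Enc.mono {r : ℝ} {I J : ℤ × ℤ} (h : Enc r I) (h1 : J.1 ≤ I.1) (h2 : I.2 ≤ J.2) :
    Enc r J := by
  constructor
  · exact le_trans (by exact_mod_cast h1) h.1
  · exact le_trans h.2 (by exact_mod_cast h2)



end Num482
private theorem rz_59c64d23f0 : type_of% @_root_.Num482.smulI.eq_1 := @_root_.Num482.smulI.eq_1 -- L29
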