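import Crest.Agent.R006.NumPhi_179
import Crest.Agent.R006.NumIv_482
import Crest.Agent.R006.NumAtan_179

-- ▼ part R006/NumSeg_464
section

/-!
# Row 6, certified numerics: segment potentials and mutual energies, real side (helper464)

* `integral_log_norm_seg`: potential of a segment at any point, through `Phi` of `NumPhi_179`;
* `integral_Phi_line`: line integral of `Phi`, complex antiderivative `Gc`;
* `segE_eq`: closed form of the mutual logarithmic energy of two segments.
-/

set_option autoImplicit false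

namespace Crest.Agent.R006.NumSegx464

open Real MeasureTheory Crest.Agent.R006.NumPhix179

theorem log_sq_eq (z : ℂ) : 1 / 2 * Real.log (z.re ^ 2 + z.im ^ 2) = Real.log ‖z‖ := by
  have h : z.re ^ 2 + z.im ^ 2 = ‖z‖ ^ 2 := by
    rw [Complex.sq_norm, Complex.normSq_apply]; ring
  rw [h, Real.log_pow]
  push_cast; ring

theorem Phi_zero_right (u : ℝ) : Phi u 0 = u * Real.log u - u := by
  unfold Phi
  rw [zero_pow two_ne_zero, add_zero, Real.log_pow]; push_cast; ring

theorem hasDerivAt_Phi_left (u : ℝ) {v : ℝ} (hv : v ≠ 0) :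
    HasDerivAt (fun u => Phi u v) (1 / 2 * Real.log (u ^ 2 + v ^ 2)) u := by
  have h := hasDerivAt_Phi (a := 0) (b := 1) (c := v) (d := 0) (t := u) (Or.inl (by simpa using hv))
  simpa [D1] using h

theorem continuous_hlog {v : ℝ} (hv : v ≠ 0) :
    Continuous (fun u : ℝ => 1 / 2 * Real.log (u ^ 2 + v ^ 2)) := by
  refine Continuous.mul continuous_const (Continuous.log (by fun_prop) ?_)
  intro u; positivity

theorem intervalIntegrable_hlog (a b v : ℝ) :
    IntervalIntegrable (fun u : ℝ => 1 / 2 * Real.log (u ^ 2 + v ^ 2)) volume a b := by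
  by_cases hv : v = 0
  · subst hv
    have h : (fun u : ℝ => 1 / 2 * Real.log (u ^ 2 + 0 ^ 2)) = fun u => Real.log u := by
      funext u
      rw [zero_pow two_ne_zero, add_zero, Real.log_pow]; push_cast; ring
    rw [h]
    exact intervalIntegral.intervalIntegrable_log'
  · exact (continuous_hlog hv).intervalIntegrable _ _

/-- `∫_a^b log|u+iv| du = Φ(b,v) − Φ(a,v)` (all `v`, including `v = 0`). -/
theorem integral_hlog (a b v : ℝ) :
    ∫ u in a..b, 1 / 2 * Real.log (u ^ 2 + v ^ 2) = Phi b v - Phi a v := by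
  by_cases hv : v = 0
  · subst hv
    have h : (fun u : ℝ => 1 / 2 * Real.log (u ^ 2 + 0 ^ 2)) = fun u => Real.log u := by
      funext u
      rw [zero_pow two_ne_zero, add_zero, Real.log_pow]; push_cast; ring
    rw [h, Phi_zero_right, Phi_zero_right, integral_log]; ring
  · exact intervalIntegral.integral_eq_sub_of_hasDerivAt
      (fun u _ => hasDerivAt_Phi_left u hv) ((continuous_hlog hv).intervalIntegrable _ _)

/-- potential of the segment `{A + κ e : k ≤ κ ≤ l}` (density `1` in `κ`) at `s`, any position. -/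
theorem integral_log_norm_seg (A e s : ℂ) (he : e ≠ 0) (k l : ℝ) :
    ∫ κ in k..l, Real.log ‖s - (A + κ * e)‖ =
      (l - k) * Real.log ‖e‖ +
        (Phi (((s - A) / e).re - k) ((s - A) / e).im -
          Phi (((s - A) / e).re - l) ((s - A) / e).im) := by
  set ζ : ℂ := (s - A) / e with hζ
  have hval : ∀ κ : ℝ, s - (A + κ * e) = e * (ζ - κ) := by
    intro κ; rw [hζ]; field_simp; ring
  have hae : ∀ᵐ κ : ℝ ∂volume, κ ∈ Set.uIoc k l →
      Real.log ‖s - (A + κ * e)‖ =
        Real.log ‖e‖ + 1 / 2 * Real.log ((ζ.re - κ) ^ 2 + ζ.im ^ 2) := by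
    have hne : ∀ᵐ κ : ℝ ∂volume, κ ≠ ζ.re := by
      rw [ae_iff]; simp
    filter_upwards [hne] with κ hκ _
    have h0 : ζ - κ ≠ 0 := by
      intro h
      apply hκ
      have := congrArg Complex.re h
      simp at this
      linarith
    rw [hval, norm_mul, Real.log_mul (norm_ne_zero_iff.2 he) (norm_ne_zero_iff.2 h0)]
    congr 1
    rw [← log_sq_eq]
    simp
  have hint : ∫ κ in k..l, 1 / 2 * Real.log ((ζ.re - κ) ^ 2 + ζ.im ^ 2) =
      Phi (ζ.re - k) ζ.im - Phi (ζ.re - l) ζ.im := by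
    rw [intervalIntegral.integral_comp_sub_left
      (fun u => 1 / 2 * Real.log (u ^ 2 + ζ.im ^ 2)) ζ.re, integral_hlog]
  have hi2 := (intervalIntegrable_hlog (ζ.re - k) (ζ.re - l) ζ.im).comp_sub_left ζ.re
  rw [sub_sub_cancel, sub_sub_cancel] at hi2
  rw [intervalIntegral.integral_congr_ae hae, intervalIntegral.integral_add (by simp) hi2, hint]
  simp

/-! ### the second antiderivative -/

/-- `w log(-iw) - w`, an antiderivative of `log(-iw)`; its real part is `Phi` on `im ≥ 0`. -/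
noncomputable def Fc (w : ℂ) : ℂ := w * Complex.log (-Complex.I * w) - w

/-- antiderivative of `Fc` -/
noncomputable def Gc (w : ℂ) : ℂ := w ^ 2 / 2 * Complex.log (-Complex.I * w) - 3 * w ^ 2 / 4

theorem negI_mul_re (w : ℂ) : (-Complex.I * w).re = w.im := by simp
theorem negI_mul_im (w : ℂ) : (-Complex.I * w).im = -w.re := by simp

theorem negI_mem_slit {w : ℂ} (h : 0 ≤ w.im) (h0 : w ≠ 0) : -Complex.I * w ∈ Complex.slitPlane := by
  rw [Complex.mem_slitPlane_iff, negI_mul_re, negI_mul_im]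
  rcases h.lt_or_eq with h | h
  · exact Or.inl h
  · right
    intro h1
    apply h0
    apply Complex.ext
    · simpa using h1
    · simpa using h.symm

theorem hasDerivAt_Gc {w : ℂ} (h : 0 ≤ w.im) (h0 : w ≠ 0) : HasDerivAt Gc (Fc w) w := by
  have h1 : HasDerivAt (fun w : ℂ => -Complex.I * w) (-Complex.I) w := by
    simpa using (hasDerivAt_id w).const_mul (-Complex.I)
  have h2 := h1.clog (negI_mem_slit h h0)
  have h3 : HasDerivAt (fun w : ℂ => w ^ 2 / 2) (2 * w / 2) w := by
    simpa using (hasDerivAt_pow 2 w).div_const 2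
  have h4 : HasDerivAt (fun w : ℂ => 3 * w ^ 2 / 4) (3 * (2 * w) / 4) w := by
    simpa using ((hasDerivAt_pow 2 w).const_mul 3).div_const 4
  refine ((h3.mul h2).sub h4).congr_deriv ?_
  unfold Fc
  have hI := Complex.I_ne_zero
  field_simp
  ring


theorem tendsto_wlog : ContinuousAt (fun w : ℂ => w * Complex.log (-Complex.I * w)) 0 := by
  have h0 : (fun w : ℂ => w * Complex.log (-Complex.I * w)) 0 = 0 := by simp
  unfold ContinuousAt
  rw [h0, tendsto_zero_iff_norm_tendsto_zero]
  have hb : Filter.Tendsto (fun w : ℂ => |‖w‖ * Real.log ‖w‖| + Real.pi * ‖w‖)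
      (nhds 0) (nhds 0) := by
    have hc : Continuous (fun w : ℂ => |‖w‖ * Real.log ‖w‖| + Real.pi * ‖w‖) := by
      refine Continuous.add ?_ (by fun_prop)
      exact (Real.continuous_mul_log.comp continuous_norm).abs
    have := hc.tendsto 0
    simpa using this
  refine squeeze_zero (fun w => norm_nonneg _) (fun w => ?_) hb
  rw [norm_mul]
  have h1 : ‖Complex.log (-Complex.I * w)‖ ≤ |Real.log ‖w‖| + Real.pi := by
    refine (Complex.norm_le_abs_re_add_abs_im _).trans ?_
    rw [Complex.log_re, Complex.log_im]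
    have : ‖-Complex.I * w‖ = ‖w‖ := by simp
    rw [this]
    gcongr
    exact Complex.abs_arg_le_pi _
  calc ‖w‖ * ‖Complex.log (-Complex.I * w)‖ ≤ ‖w‖ * (|Real.log ‖w‖| + Real.pi) :=
        mul_le_mul_of_nonneg_left h1 (norm_nonneg _)
    _ = |‖w‖ * Real.log ‖w‖| + Real.pi * ‖w‖ := by
        rw [abs_mul, abs_of_nonneg (norm_nonneg w)]; ring

theorem continuousAt_wlog {w : ℂ} (h : 0 ≤ w.im) :
    ContinuousAt (fun w : ℂ => w * Complex.log (-Complex.I * w)) w := by
  by_cases h0 : w = 0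
  · rw [h0]; exact tendsto_wlog
  · refine continuousAt_id.mul (ContinuousAt.clog (by fun_prop) (negI_mem_slit h h0))

theorem continuousAt_Fc {w : ℂ} (h : 0 ≤ w.im) : ContinuousAt Fc w :=
  (continuousAt_wlog h).sub continuousAt_id

theorem continuousAt_Gc {w : ℂ} (h : 0 ≤ w.im) : ContinuousAt Gc w := by
  have e : Gc = fun w : ℂ => w / 2 * (w * Complex.log (-Complex.I * w)) - 3 * w ^ 2 / 4 := by
    funext w; unfold Gc; ring
  rw [e]
  refine ContinuousAt.sub (ContinuousAt.mul (by fun_prop) (continuousAt_wlog h)) (by fun_prop)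

theorem arg_negI {w : ℂ} (h : 0 < w.im) :
    Complex.arg (-Complex.I * w) = -Real.arctan (w.re / w.im) := by
  have h1 : |Complex.arg (-Complex.I * w)| < Real.pi / 2 := by
    rw [Complex.abs_arg_lt_pi_div_two_iff, negI_mul_re]; exact Or.inl h
  rw [abs_lt] at h1
  rw [← Real.arctan_tan h1.1 h1.2, Complex.tan_arg, negI_mul_re, negI_mul_im, neg_div,
    Real.arctan_neg]

theorem Fc_re {w : ℂ} (h : 0 ≤ w.im) : (Fc w).re = Phi w.re w.im := by
  have hn : ‖-Complex.I * w‖ = ‖w‖ := by simp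
  unfold Fc Phi
  rw [Complex.sub_re, Complex.mul_re, Complex.log_re, Complex.log_im, hn, ← log_sq_eq]
  rcases h.lt_or_eq with h | h
  · rw [arg_negI h]; ring
  · rw [← h]; ring

/-- the line integral of `Phi` in the closed upper half plane. -/
theorem integral_Phi_line (w0 μ : ℂ) (hμ : μ ≠ 0) (h0 : 0 ≤ w0.im) (h1 : 0 ≤ (w0 + μ).im) :
    IntervalIntegrable (fun τ : ℝ => Phi (w0 + τ * μ).re (w0 + τ * μ).im) volume 0 1 ∧
    ∫ τ in (0:ℝ)..1, Phi (w0 + τ * μ).re (w0 + τ * μ).im = ((Gc (w0 + μ) - Gc w0) / μ).re := by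
  have him : ∀ τ ∈ Set.Icc (0:ℝ) 1, 0 ≤ (w0 + τ * μ).im := by
    intro τ hτ
    have e1 : (w0 + τ * μ).im = (1 - τ) * w0.im + τ * (w0 + μ).im := by
      simp; ring
    rw [e1]
    have := hτ.1; have := hτ.2
    have h3 : 0 ≤ 1 - τ := by linarith
    positivity
  have hcF : ContinuousOn (fun τ : ℝ => Fc (w0 + τ * μ)) (Set.Icc (0:ℝ) 1) := by
    intro τ hτ
    refine ContinuousAt.continuousWithinAt ?_
    have hg : ContinuousAt (fun τ : ℝ => w0 + (τ : ℂ) * μ) τ := by fun_prop
    exact ContinuousAt.comp (f := fun τ : ℝ => w0 + (τ : ℂ) * μ) (continuousAt_Fc (him τ hτ)) hg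
  have hcG : ContinuousOn (fun τ : ℝ => Gc (w0 + τ * μ) / μ) (Set.Icc (0:ℝ) 1) := by
    intro τ hτ
    refine ContinuousAt.continuousWithinAt ?_
    have hg : ContinuousAt (fun τ : ℝ => w0 + (τ : ℂ) * μ) τ := by fun_prop
    exact (ContinuousAt.comp (f := fun τ : ℝ => w0 + (τ : ℂ) * μ)
      (continuousAt_Gc (him τ hτ)) hg).div_const μ
  have hII : IntervalIntegrable (fun τ : ℝ => Fc (w0 + τ * μ)) volume 0 1 := by
    apply ContinuousOn.intervalIntegrable
    rw [Set.uIcc_of_le zero_le_one]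
    exact hcF
  have hcount : ({τ : ℝ | w0 + (τ : ℂ) * μ = 0}).Countable := by
    apply Set.Subsingleton.countable
    intro x hx y hy
    simp only [Set.mem_ofPred_eq] at hx hy
    have : ((x : ℂ) - y) * μ = 0 := by linear_combination hx - hy
    rcases mul_eq_zero.1 this with h | h
    · have := sub_eq_zero.1 h
      exact_mod_cast this
    · exact absurd h hμ
  have hd : ∀ τ ∈ Set.Ioo (0:ℝ) 1 \ {τ : ℝ | w0 + (τ : ℂ) * μ = 0},
      HasDerivAt (fun τ : ℝ => Gc (w0 + τ * μ) / μ) (Fc (w0 + τ * μ)) τ := by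
    intro τ hτ
    have hin : HasDerivAt (fun τ : ℝ => w0 + (τ : ℂ) * μ) μ τ := by
      have := ((Complex.ofRealCLM.hasDerivAt (x := τ)).mul_const μ).const_add w0
      simpa using this
    have h4 := (hasDerivAt_Gc (him τ ⟨hτ.1.1.le, hτ.1.2.le⟩) hτ.2).comp τ hin
    refine (h4.div_const μ).congr_deriv ?_
    field_simp
  have hFTC := integral_eq_of_hasDerivAt_off_countable_of_le _ _ zero_le_one hcount hcG hd hII
  have hre : Set.EqOn (fun τ : ℝ => Phi (w0 + τ * μ).re (w0 + τ * μ).im)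
      (fun τ : ℝ => (Fc (w0 + τ * μ)).re) (Set.uIcc (0:ℝ) 1) := by
    intro τ hτ
    rw [Set.uIcc_of_le zero_le_one] at hτ
    exact (Fc_re (him τ hτ)).symm
  constructor
  · apply ContinuousOn.intervalIntegrable
    refine ContinuousOn.congr ?_ hre
    rw [Set.uIcc_of_le zero_le_one]
    exact Complex.continuous_re.comp_continuousOn hcF
  · rw [intervalIntegral.integral_congr hre]
    have h5 := Complex.reCLM.intervalIntegral_comp_comm hII
    simp only [Complex.reCLM_apply] at h5
    rw [h5, hFTC]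
    simp only [Complex.ofReal_one, one_mul, Complex.ofReal_zero, zero_mul, add_zero]
    rw [← sub_div]


end Crest.Agent.R006.NumSegx464
end

-- ▼ part R006/NumEn_464
section

/-!
# Row 6, certified numerics: mutual energies of segments, real side (helper464)

`segE A B C D` = mutual logarithmic energy of the uniform probability measures on `[A,B]`, `[C,D]`;
`segE_eq` closed form, `segE_scale`, `segE_conj`, `segE_rev_left`, continuity of potentials.
-/

set_option autoImplicit false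

namespace Crest.Agent.R006.NumSegx464

open Real MeasureTheory Crest.Agent.R006.NumPhix179

/-- mutual logarithmic energy of the uniform probability measures on `[A,B]` and `[C,D]`. -/
noncomputable def segE (A B C D : ℂ) : ℝ :=
  ∫ τ in (0:ℝ)..1, ∫ κ in (0:ℝ)..1, Real.log ‖(C + τ * (D - C)) - (A + κ * (B - A))‖

/-- the angle `arctan (re/im)` (`= ±π/2` on the real axis). -/
noncomputable def ang (W : ℂ) : ℝ := -Complex.arg (-Complex.I * W)

theorem ang_of_pos {W : ℂ} (h : 0 < W.im) : ang W = Real.arctan (W.re / W.im) := by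
  unfold ang; rw [arg_negI h]; ring

/-- corner contribution -/
noncomputable def kor (M W : ℂ) : ℝ :=
  ((starRingEnd ℂ) M * W ^ 2).re * (1 / 2 * Real.log (W.re ^ 2 + W.im ^ 2)) +
    ((starRingEnd ℂ) M * W ^ 2).im * ang W

theorem Gc_div_re {N : ℝ} (hN : 0 < N) {M : ℂ} (hM : M ≠ 0) (W : ℂ) :
    (Gc (W / N) / (M / N)).re = (1 / (2 * N * Complex.normSq M)) *
      (kor M W - ((starRingEnd ℂ) M * W ^ 2).re * (Real.log N + 3 / 2)) := by
  have hNc : (N : ℂ) ≠ 0 := by exact_mod_cast hN.ne'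
  have hsq : Complex.normSq M ≠ 0 := by
    rw [Ne, Complex.normSq_eq_zero]; exact hM
  by_cases hW : W = 0
  · subst hW
    simp [Gc, kor]
  have hlog : Complex.log (-Complex.I * (W / N)) =
      Complex.log (-Complex.I * W) - (Real.log N : ℂ) := by
    have e1 : -Complex.I * (W / N) = ((N⁻¹ : ℝ) : ℂ) * (-Complex.I * W) := by
      push_cast; field_simp
    have hne : -Complex.I * W ≠ 0 := mul_ne_zero (neg_ne_zero.2 Complex.I_ne_zero) hW
    rw [e1, Complex.log_ofReal_mul (inv_pos.2 hN) hne, Real.log_inv]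
    push_cast; ring
  have e2 : Gc (W / N) / (M / N) = ((starRingEnd ℂ) M * W ^ 2) *
      (Complex.log (-Complex.I * W) - (Real.log N : ℂ) - ((3 / 2 : ℝ) : ℂ)) *
        (((1 / (2 * N * Complex.normSq M) : ℝ)) : ℂ) := by
    unfold Gc
    rw [hlog]
    have hmul : (starRingEnd ℂ) M = (Complex.normSq M : ℂ) / M := by
      rw [eq_div_iff hM, mul_comm, Complex.mul_conj]
    rw [hmul]
    have hsq' : (Complex.normSq M : ℂ) ≠ 0 := by exact_mod_cast hsq
    push_cast
    field_simp
    ring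
  rw [e2, Complex.re_mul_ofReal]
  have hn : ‖-Complex.I * W‖ = ‖W‖ := by simp
  have e3 : (((starRingEnd ℂ) M * W ^ 2) *
      (Complex.log (-Complex.I * W) - (Real.log N : ℂ) - ((3 / 2 : ℝ) : ℂ))).re =
      kor M W - ((starRingEnd ℂ) M * W ^ 2).re * (Real.log N + 3 / 2) := by
    unfold kor ang
    rw [Complex.mul_re]
    simp only [Complex.sub_re, Complex.sub_im, Complex.ofReal_re, Complex.ofReal_im,
      Complex.log_re, Complex.log_im, hn, ← log_sq_eq]
    ring
  rw [e3]; ring

/-- **closed form of the mutual energy** of two segments (`C, D` on the closed left side of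
the line `AB`). -/
theorem segE_eq {A B C D : ℂ} (hAB : B - A ≠ 0) (hCD : D - C ≠ 0)
    {M Z : ℂ} {N : ℝ} (hN : N = Complex.normSq (B - A))
    (hM : M = (D - C) * (starRingEnd ℂ) (B - A)) (hZ : Z = (C - A) * (starRingEnd ℂ) (B - A))
    (h1 : 0 ≤ Z.im) (h2 : 0 ≤ (Z + M).im) :
    segE A B C D = -(3 / 2) - 1 / 2 * Real.log N + (1 / (2 * N * Complex.normSq M)) *
      (kor M (Z + M) - kor M Z - kor M (Z + M - N) + kor M (Z - N)) := by
  have hN0 : 0 < N := by rw [hN]; exact Complex.normSq_pos.2 hAB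
  have hNc : (N : ℂ) ≠ 0 := by exact_mod_cast hN0.ne'
  have hM0 : M ≠ 0 := by
    rw [hM]; exact mul_ne_zero hCD ((map_ne_zero _).2 hAB)
  have hconj : (starRingEnd ℂ) (B - A) = (N : ℂ) / (B - A) := by
    rw [eq_div_iff hAB, mul_comm, Complex.mul_conj, hN]
  have hζ : ∀ τ : ℝ, ((C + τ * (D - C)) - A) / (B - A) = Z / N + τ * (M / N) := by
    intro τ
    rw [hZ, hM, hconj]
    field_simp
    ring
  have hinner : ∀ τ : ℝ, ∫ κ in (0:ℝ)..1,
      Real.log ‖(C + τ * (D - C)) - (A + κ * (B - A))‖ =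
      Real.log ‖B - A‖ + Phi (Z / N + τ * (M / N)).re (Z / N + τ * (M / N)).im -
        Phi (Z / N - 1 + τ * (M / N)).re (Z / N - 1 + τ * (M / N)).im := by
    intro τ
    rw [integral_log_norm_seg A (B - A) (C + τ * (D - C)) hAB 0 1, hζ]
    have e1 : (Z / N - 1 + τ * (M / N)).re = (Z / N + τ * (M / N)).re - 1 := by
      simp only [Complex.add_re, Complex.sub_re, Complex.one_re]; ring
    have e2 : (Z / N - 1 + τ * (M / N)).im = (Z / N + τ * (M / N)).im := by
      simp only [Complex.add_im, Complex.sub_im, Complex.one_im]; ring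
    rw [e1, e2]; simp only [sub_zero]; ring
  have hdiv : ∀ X : ℂ, (X / (N : ℂ)).im = X.im / N := fun X => Complex.div_ofReal_im X N
  have i1 := integral_Phi_line (Z / N) (M / N) (div_ne_zero hM0 hNc)
    (by rw [hdiv]; exact div_nonneg h1 hN0.le)
    (by rw [← add_div, hdiv]; exact div_nonneg h2 hN0.le)
  have i2 := integral_Phi_line (Z / N - 1) (M / N) (div_ne_zero hM0 hNc)
    (by rw [Complex.sub_im, hdiv]; simpa using div_nonneg h1 hN0.le)
    (by
      have e : Z / N - 1 + M / N = (Z + M) / N - 1 := by ring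
      rw [e, Complex.sub_im, hdiv]
      simpa using div_nonneg h2 hN0.le)
  have hE : segE A B C D = Real.log ‖B - A‖ + ((Gc (Z / N + M / N) - Gc (Z / N)) / (M / N)).re -
      ((Gc (Z / N - 1 + M / N) - Gc (Z / N - 1)) / (M / N)).re := by
    unfold segE
    simp only [hinner]
    rw [intervalIntegral.integral_sub ((by simp : IntervalIntegrable
      (fun _ : ℝ => Real.log ‖B - A‖) volume 0 1).add i1.1) i2.1,
      intervalIntegral.integral_add (by simp) i1.1, i1.2, i2.2]
    simp
  have c1 : Z / N + M / N = (Z + M) / N := by ring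
  have c2 : Z / N - 1 + M / N = (Z + M - N) / N := by field_simp; ring
  have c3 : Z / N - 1 = (Z - N) / N := by field_simp
  have hlogN : Real.log ‖B - A‖ = 1 / 2 * Real.log N := by
    rw [hN, ← Complex.sq_norm, Real.log_pow]; push_cast; ring
  rw [hE, c1, c2, c3, sub_div, sub_div, Complex.sub_re, Complex.sub_re, Gc_div_re hN0 hM0,
    Gc_div_re hN0 hM0, Gc_div_re hN0 hM0, Gc_div_re hN0 hM0, hlogN]
  have hquad : ((starRingEnd ℂ) M * (Z + M) ^ 2).re - ((starRingEnd ℂ) M * Z ^ 2).re -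
      ((starRingEnd ℂ) M * (Z + M - N) ^ 2).re + ((starRingEnd ℂ) M * (Z - N) ^ 2).re =
      2 * N * Complex.normSq M := by
    have e : (starRingEnd ℂ) M * (Z + M) ^ 2 - (starRingEnd ℂ) M * Z ^ 2 -
        (starRingEnd ℂ) M * (Z + M - N) ^ 2 + (starRingEnd ℂ) M * (Z - N) ^ 2 =
        ((2 * N * Complex.normSq M : ℝ) : ℂ) := by
      push_cast
      rw [← Complex.mul_conj]; ring
    have := congrArg Complex.re e
    simpa only [Complex.add_re, Complex.sub_re, Complex.ofReal_re] using this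
  have hsq : Complex.normSq M ≠ 0 := by
    rw [Ne, Complex.normSq_eq_zero]; exact hM0
  have hP : (2 * N * Complex.normSq M) ≠ 0 := by positivity
  generalize 2 * N * Complex.normSq M = P at hquad hP ⊢
  generalize ((starRingEnd ℂ) M * (Z + M) ^ 2).re = r1 at hquad ⊢
  generalize ((starRingEnd ℂ) M * Z ^ 2).re = r2 at hquad ⊢
  generalize ((starRingEnd ℂ) M * (Z + M - N) ^ 2).re = r3 at hquad ⊢
  generalize ((starRingEnd ℂ) M * (Z - N) ^ 2).re = r4 at hquad ⊢
  generalize kor M (Z + M) = k1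
  generalize kor M Z = k2
  generalize kor M (Z + M - N) = k3
  generalize kor M (Z - N) = k4
  generalize Real.log N = lN
  field_simp
  linear_combination (-(2 * lN) - 3) * hquad

/-- reflection: the closed right side. -/
theorem segE_conj (A B C D : ℂ) : segE ((starRingEnd ℂ) A) ((starRingEnd ℂ) B)
    ((starRingEnd ℂ) C) ((starRingEnd ℂ) D) = segE A B C D := by
  unfold segE
  congr 1; funext τ; congr 1; funext κ
  rw [← Complex.norm_conj]
  congr 2
  simp


theorem continuous_Phi : Continuous (fun w : ℂ => Phi w.re w.im) := by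
  have e : (fun w : ℂ => Phi w.re w.im) = fun w : ℂ => (Fc ⟨w.re, |w.im|⟩).re := by
    funext w
    rw [Fc_re (by simp)]
    rcases abs_choice w.im with h | h
    · simp only [h]
    · simp only [h]; rw [Phi_even]
  rw [e]
  have hc : Continuous (fun w : ℂ => (⟨w.re, |w.im|⟩ : ℂ)) := by
    have h : (fun w : ℂ => (⟨w.re, |w.im|⟩ : ℂ)) =
        fun w : ℂ => ((w.re : ℂ) + (|w.im| : ℝ) * Complex.I) := by
      funext w; apply Complex.ext <;> simp
    rw [h]
    have h1 : Continuous (fun w : ℂ => |w.im|) := Complex.continuous_im.abs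
    exact (Complex.continuous_ofReal.comp Complex.continuous_re).add
      ((Complex.continuous_ofReal.comp h1).mul continuous_const)
  refine Complex.continuous_re.comp ?_
  rw [continuous_iff_continuousAt]
  intro w
  exact ContinuousAt.comp (f := fun w : ℂ => (⟨w.re, |w.im|⟩ : ℂ))
    (continuousAt_Fc (by simp)) hc.continuousAt

/-- the inner integral, any position -/
theorem inner_eq {A B : ℂ} (hAB : B - A ≠ 0) (s : ℂ) :
    ∫ κ in (0:ℝ)..1, Real.log ‖s - (A + κ * (B - A))‖ = Real.log ‖B - A‖ +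
      (Phi ((s - A) / (B - A)).re ((s - A) / (B - A)).im -
        Phi ((s - A) / (B - A) - 1).re ((s - A) / (B - A) - 1).im) := by
  rw [integral_log_norm_seg A (B - A) s hAB 0 1]
  simp

theorem continuous_inner {A B : ℂ} (hAB : B - A ≠ 0) :
    Continuous (fun s : ℂ => ∫ κ in (0:ℝ)..1, Real.log ‖s - (A + κ * (B - A))‖) := by
  simp only [inner_eq hAB]
  refine continuous_const.add (Continuous.sub ?_ ?_)
  · exact continuous_Phi.comp (by fun_prop)
  · exact continuous_Phi.comp (by fun_prop)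

/-- scaling of a potential -/
theorem inner_scale {A B : ℂ} (hAB : B - A ≠ 0) (s : ℂ) {r : ℝ} (hr : 0 < r) :
    ∫ κ in (0:ℝ)..1, Real.log ‖s / r - (A / r + κ * (B / r - A / r))‖ =
      (∫ κ in (0:ℝ)..1, Real.log ‖s - (A + κ * (B - A))‖) - Real.log r := by
  have hrc : (r : ℂ) ≠ 0 := by exact_mod_cast hr.ne'
  have hAB' : B / r - A / r ≠ 0 := by rw [← sub_div]; exact div_ne_zero hAB hrc
  have e1 : (s / r - A / r) / (B / r - A / r) = (s - A) / (B - A) := by field_simp
  have e2 : ‖B / r - A / r‖ = ‖B - A‖ / r := by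
    rw [← sub_div, norm_div, Complex.norm_of_nonneg hr.le]
  rw [inner_eq hAB, inner_eq hAB', e1, e2, Real.log_div (norm_ne_zero_iff.2 hAB) hr.ne']
  ring


end Crest.Agent.R006.NumSegx464
end

-- ▼ part R006/NumEnI_464
section

/-!
# Row 6, certified numerics: interval side of potentials and energies (helper464)

All coordinates are Gaussian integers `z : ℤ × ℤ`, `gc z : ℂ`.
* `enc_segE` : mutual energy of `[A,B]`, `[C,D]` when `segOK A B C D = true`
-/

set_option autoImplicit false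

namespace Crest.Agent.R006.NumSegx464

open Real Num482 Crest.Agent.R006.NumPhix179 Crest.Agent.R006.NumAtanx179

/-- the complex number of an integer pair -/
def gc (z : ℤ × ℤ) : ℂ := ⟨(z.1 : ℝ), (z.2 : ℝ)⟩

@[simp] theorem gc_re (z : ℤ × ℤ) : (gc z).re = z.1 := rfl
@[simp] theorem gc_im (z : ℤ × ℤ) : (gc z).im = z.2 := rfl

/-- `½ log n` (`0` for `n = 0`) -/
def hlN (n : ℕ) : ℤ × ℤ := bif Nat.beq n 0 then (0, 0) else divI (logN n) 2

theorem enc_zero : Enc 0 (0, 0) := by constructor <;> simp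

theorem enc_hlN (n : ℕ) : Enc (1 / 2 * Real.log n) (hlN n) := by
  unfold hlN
  cases h : Nat.beq n 0 with
  | true =>
    have : n = 0 := Nat.eq_of_beq_eq_true h
    subst this
    simpa using enc_zero
  | false =>
    have hn : 0 < n := by
      rcases Nat.eq_zero_or_pos n with h0 | h0
      · subst h0; simp at h
      · exact h0
    have := (enc_logN hn).divN (q := 2) (by norm_num)
    rw [cond_false]
    have e : 1 / 2 * Real.log n = Real.log n / (2 : ℕ) := by push_cast; ring
    rw [e]; exact this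

def sqN (a b : ℤ) : ℕ := a.natAbs * a.natAbs + b.natAbs * b.natAbs

theorem sqN_cast (a b : ℤ) : ((sqN a b : ℕ) : ℝ) = (a : ℝ) ^ 2 + (b : ℝ) ^ 2 := by
  unfold sqN
  have h : ∀ x : ℤ, ((x.natAbs : ℕ) : ℝ) * ((x.natAbs : ℕ) : ℝ) = (x : ℝ) ^ 2 := by
    intro x
    rw [← pow_two, Nat.cast_natAbs, Int.cast_abs, sq_abs]
  push_cast
  rw [← h a, ← h b]

/-- `arctan (a/q)` (`0` for `q = 0`) -/
def atnI (a : ℤ) (q : ℕ) : ℤ × ℤ :=
  bif Nat.beq q 0 then (0, 0) else
    match a with
    | Int.ofNat p => ((atQ p q : ℤ) - 15, (atQ p q : ℤ) + 15)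
    | Int.negSucc p => (-(atQ (p + 1) q : ℤ) - 15, -(atQ (p + 1) q : ℤ) + 15)

theorem enc_atnI (a : ℤ) (q : ℕ) : Enc (Real.arctan ((a : ℝ) / q)) (atnI a q) := by
  unfold atnI
  cases h : Nat.beq q 0 with
  | true =>
    have : q = 0 := Nat.eq_of_beq_eq_true h
    subst this
    simpa using enc_zero
  | false =>
    have hq : 0 < q := by
      rcases Nat.eq_zero_or_pos q with h0 | h0
      · subst h0; simp at h
      · exact h0
    rw [cond_false]
    cases a with
    | ofNat p =>
      have hb := abs_le.1 (atQ_bound (u := p) hq)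
      constructor
      · simp only [Int.ofNat_eq_natCast, Int.cast_natCast]; push_cast; linarith [hb.1, hb.2]
      · simp only [Int.ofNat_eq_natCast, Int.cast_natCast]; push_cast; linarith [hb.1, hb.2]
    | negSucc p =>
      have hb := abs_le.1 (atQ_bound (u := p + 1) hq)
      have e : Real.arctan (((Int.negSucc p : ℤ) : ℝ) / q) =
          -(Real.arctan (((p + 1 : ℕ) : ℝ) / q)) := by
        rw [← Real.arctan_neg, Int.cast_negSucc, neg_div]
      rw [e]
      constructor
      · push_cast; push_cast at hb; linarith [hb.1, hb.2]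
      · push_cast; push_cast at hb; linarith [hb.1, hb.2]

theorem enc_pi2 : Enc (Real.pi / 2) (442139859501777, 442139859501778) := by
  obtain ⟨h1, h2⟩ := enc_pi
  simp only [piI] at h1 h2
  constructor
  · push_cast at *; linarith
  · push_cast at *; linarith

/-- `ang (a + i b)` for `b ≥ 0` -/
def angI (a : ℤ) (q : ℕ) : ℤ × ℤ :=
  bif Nat.beq q 0 then
    match a with
    | Int.ofNat p => bif Nat.beq p 0 then (0, 0) else (442139859501777, 442139859501778)
    | Int.negSucc _ => (-442139859501778, -442139859501777)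
  else atnI a q

theorem enc_ang (a : ℤ) (q : ℕ) : Enc (ang (gc (a, (q : ℤ)))) (angI a q) := by
  unfold angI
  cases h : Nat.beq q 0 with
  | true =>
    have : q = 0 := Nat.eq_of_beq_eq_true h
    subst this
    rw [cond_true]
    have e0 : -Complex.I * gc (a, ((0 : ℕ) : ℤ)) = ((-(a : ℝ) : ℝ) : ℂ) * Complex.I := by
      apply Complex.ext <;> simp [gc]
    cases a with
    | ofNat p =>
      cases h2 : Nat.beq p 0 with
      | true =>
        have : p = 0 := Nat.eq_of_beq_eq_true h2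
        subst this
        unfold ang
        rw [e0]
        simpa using enc_zero
      | false =>
        have hp : (0 : ℝ) < p := by
          rcases Nat.eq_zero_or_pos p with h0 | h0
          · subst h0; simp at h2
          · exact_mod_cast h0
        have e : ang (gc (Int.ofNat p, ((0 : ℕ) : ℤ))) = Real.pi / 2 := by
          unfold ang
          have e1 : ((-((Int.ofNat p : ℤ) : ℝ) : ℝ) : ℂ) * Complex.I =
              ((p : ℝ) : ℂ) * (-Complex.I) := by
            simp only [Int.ofNat_eq_natCast, Int.cast_natCast]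
            push_cast; ring
          rw [e0, e1, Complex.arg_real_mul _ hp, Complex.arg_neg_I]
          ring
        rw [e]
        simp only [h2, cond_false]
        exact enc_pi2
    | negSucc p =>
      have hp : (0 : ℝ) < -((Int.negSucc p : ℤ) : ℝ) := by
        rw [Int.cast_negSucc]; push_cast; have : (0 : ℝ) ≤ p := Nat.cast_nonneg p; linarith
      have e : ang (gc (Int.negSucc p, ((0 : ℕ) : ℤ))) = -(Real.pi / 2) := by
        unfold ang
        rw [e0, Complex.arg_real_mul _ hp, Complex.arg_I]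
      rw [e]; exact enc_pi2.neg
  | false =>
    have hq : 0 < q := by
      rcases Nat.eq_zero_or_pos q with h0 | h0
      · subst h0; simp at h
      · exact h0
    rw [cond_false, ang_of_pos (by simpa using hq)]
    simpa using enc_atnI a q

/-- interval of `kor M W`, `W.im = q ≥ 0` -/
def korI (m1 m2 a : ℤ) (q : ℕ) : ℤ × ℤ :=
  addI (smulI (m1 * (a * a - (q : ℤ) * q) + 2 * m2 * a * q) (hlN (sqN a q)))
    (smulI (2 * m1 * a * q - m2 * (a * a - (q : ℤ) * q)) (angI a q))

theorem enc_kor (m1 m2 a : ℤ) (q : ℕ) :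
    Enc (kor (gc (m1, m2)) (gc (a, (q : ℤ)))) (korI m1 m2 a q) := by
  unfold korI kor
  refine Enc.add ?_ ?_
  · have e1 : ((starRingEnd ℂ) (gc (m1, m2)) * gc (a, (q : ℤ)) ^ 2).re =
        ((m1 * (a * a - (q : ℤ) * q) + 2 * m2 * a * q : ℤ) : ℝ) := by
      rw [pow_two, Complex.mul_re, Complex.mul_re, Complex.mul_im, Complex.conj_re,
        Complex.conj_im]
      simp only [gc_re, gc_im]; push_cast; ring
    have e2 : 1 / 2 * Real.log ((gc (a, (q : ℤ))).re ^ 2 + (gc (a, (q : ℤ))).im ^ 2) =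
        1 / 2 * Real.log ((sqN a q : ℕ) : ℝ) := by
      rw [sqN_cast]; simp
    rw [e1, e2]
    exact (enc_hlN _).smul _
  · have e1 : ((starRingEnd ℂ) (gc (m1, m2)) * gc (a, (q : ℤ)) ^ 2).im =
        ((2 * m1 * a * q - m2 * (a * a - (q : ℤ) * q) : ℤ) : ℝ) := by
      rw [pow_two, Complex.mul_im, Complex.mul_re, Complex.mul_im, Complex.conj_re,
        Complex.conj_im]
      simp only [gc_re, gc_im]; push_cast; ring
    rw [e1]
    exact (enc_ang a q).smul _

/-- the closed form, `Z.im = y`, `(Z+M).im = y'` naturals (both `≥ 0`), `Z.re = x`,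
`M = (m1, m2)`, `m2 = y' - y`. -/
def segI0 (N : ℕ) (m1 : ℤ) (x : ℤ) (y y' : ℕ) : ℤ × ℤ :=
  (fun m2 : ℤ =>
    addI (-422212465065984, -422212465065984)
      (subI (divI (addI (subI (korI m1 m2 (x + m1) y') (korI m1 m2 x y))
          (subI (korI m1 m2 (x - N) y) (korI m1 m2 (x + m1 - N) y')))
        (2 * N * sqN m1 m2)) (hlN N))) ((y' : ℤ) - y)

def segI (A B C D : ℤ × ℤ) : ℤ × ℤ :=
  (fun e1 e2 d1 d2 c1 c2 : ℤ =>
    (fun (N : ℕ) (m1 m2 x y : ℤ) =>
      bif (decide (0 ≤ y) && decide (0 ≤ y + m2)) then segI0 N m1 x y.toNat (y + m2).toNat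
      else segI0 N m1 x (-y).toNat (-(y + m2)).toNat)
    (sqN e1 e2) (d1 * e1 + d2 * e2) (d2 * e1 - d1 * e2) (c1 * e1 + c2 * e2) (c2 * e1 - c1 * e2))
  (B.1 - A.1) (B.2 - A.2) (D.1 - C.1) (D.2 - C.2) (C.1 - A.1) (C.2 - A.2)

/-- admissible position: `A ≠ B`, `C ≠ D`, `C` and `D` on one closed side of the line `AB` -/
def segOK (A B C D : ℤ × ℤ) : Bool :=
  (fun e1 e2 d1 d2 c1 c2 : ℤ =>
    (decide (sqN e1 e2 ≠ 0) && decide (sqN d1 d2 ≠ 0)) &&
      (fun (m2 y : ℤ) =>
        (decide (0 ≤ y) && decide (0 ≤ y + m2)) || (decide (y ≤ 0) && decide (y + m2 ≤ 0)))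
      (d2 * e1 - d1 * e2) (c2 * e1 - c1 * e2))
  (B.1 - A.1) (B.2 - A.2) (D.1 - C.1) (D.2 - C.2) (C.1 - A.1) (C.2 - A.2)

theorem enc_segI0 {A B C D : ℂ} (hAB : B - A ≠ 0) (hCD : D - C ≠ 0) {N : ℕ}
    {m1 x : ℤ} {y y' : ℕ} (hN : (N : ℝ) = Complex.normSq (B - A))
    (hM : gc (m1, (y' : ℤ) - y) = (D - C) * (starRingEnd ℂ) (B - A))
    (hZ : gc (x, (y : ℤ)) = (C - A) * (starRingEnd ℂ) (B - A)) :
    Enc (segE A B C D) (segI0 N m1 x y y') := by
  have e1 : gc (x, (y : ℤ)) + gc (m1, (y' : ℤ) - y) = gc (x + m1, (y' : ℤ)) := by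
    apply Complex.ext <;> simp
  have e2 : gc (x + m1, (y' : ℤ)) - ((N : ℝ) : ℂ) = gc (x + m1 - N, (y' : ℤ)) := by
    apply Complex.ext <;> simp
  have e3 : gc (x, (y : ℤ)) - ((N : ℝ) : ℂ) = gc (x - N, (y : ℤ)) := by
    apply Complex.ext <;> simp
  have h := segE_eq hAB hCD hN hM hZ (by simp) (by rw [e1]; simp)
  rw [e1, e2, e3] at h
  have hN0 : 0 < N := by
    have : (0 : ℝ) < N := by rw [hN]; exact Complex.normSq_pos.2 hAB
    exact_mod_cast this
  have hMn : ((sqN m1 ((y' : ℤ) - y) : ℕ) : ℝ) = Complex.normSq (gc (m1, (y' : ℤ) - y)) := by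
    rw [sqN_cast, Complex.normSq_apply]; simp; ring
  have hMpos : 0 < sqN m1 ((y' : ℤ) - y) := by
    have h0 : gc (m1, (y' : ℤ) - y) ≠ 0 := by
      rw [hM]; exact mul_ne_zero hCD ((map_ne_zero _).2 hAB)
    have : (0 : ℝ) < ((sqN m1 ((y' : ℤ) - y) : ℕ) : ℝ) := by
      rw [hMn]; exact Complex.normSq_pos.2 h0
    exact_mod_cast this
  rw [h, ← hMn]
  unfold segI0
  have hk := (((enc_kor m1 ((y' : ℤ) - y) (x + m1) y').sub
    (enc_kor m1 ((y' : ℤ) - y) x y)).add
    ((enc_kor m1 ((y' : ℤ) - y) (x - N) y).sub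
    (enc_kor m1 ((y' : ℤ) - y) (x + m1 - N) y'))).divN
      (q := 2 * N * sqN m1 ((y' : ℤ) - y)) (by positivity)
  have hc : Enc (-(3 / 2) : ℝ) (-422212465065984, -422212465065984) := by
    constructor <;> norm_num
  have := hc.add (hk.sub (enc_hlN N))
  refine (Eq.subst (motive := fun r : ℝ => Enc r _) ?_ this)
  push_cast
  ring

theorem enc_segE {A B C D : ℤ × ℤ} (h : segOK A B C D = true) :
    Enc (segE (gc A) (gc B) (gc C) (gc D)) (segI A B C D) := by
  obtain ⟨a1, a2⟩ := A
  obtain ⟨b1, b2⟩ := B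
  obtain ⟨c1, c2⟩ := C
  obtain ⟨d1, d2⟩ := D
  unfold segOK at h
  simp only [Bool.and_eq_true, Bool.or_eq_true, decide_eq_true_eq] at h
  obtain ⟨⟨hN, hD⟩, hs⟩ := h
  have hNr : ((sqN (b1 - a1) (b2 - a2) : ℕ) : ℝ) = Complex.normSq (gc (b1, b2) - gc (a1, a2)) := by
    rw [sqN_cast, Complex.normSq_apply]; simp; ring
  have hDr : ((sqN (d1 - c1) (d2 - c2) : ℕ) : ℝ) = Complex.normSq (gc (d1, d2) - gc (c1, c2)) := by
    rw [sqN_cast, Complex.normSq_apply]; simp; ring
  have hAB : gc (b1, b2) - gc (a1, a2) ≠ 0 := by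
    rw [Ne, ← Complex.normSq_eq_zero, ← hNr]; exact_mod_cast hN
  have hCD : gc (d1, d2) - gc (c1, c2) ≠ 0 := by
    rw [Ne, ← Complex.normSq_eq_zero, ← hDr]; exact_mod_cast hD
  unfold segI
  simp only
  generalize hy : (c2 - a2) * (b1 - a1) - (c1 - a1) * (b2 - a2) = y at hs ⊢
  generalize hm2 : (d2 - c2) * (b1 - a1) - (d1 - c1) * (b2 - a2) = m2 at hs ⊢
  have hyr : (y : ℝ) = (c2 - a2) * (b1 - a1) - (c1 - a1) * (b2 - a2) := by
    rw [← hy]; push_cast; ring
  have hmr : (m2 : ℝ) = (d2 - c2) * (b1 - a1) - (d1 - c1) * (b2 - a2) := by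
    rw [← hm2]; push_cast; ring
  cases hb : (decide (0 ≤ y) && decide (0 ≤ y + m2)) with
  | true =>
    simp only [Bool.and_eq_true, decide_eq_true_eq] at hb
    obtain ⟨p1, p2⟩ := hb
    simp only [cond_true]
    have q1 : ((y.toNat : ℕ) : ℤ) = y := Int.toNat_of_nonneg p1
    have q2 : (((y + m2).toNat : ℕ) : ℤ) = y + m2 := Int.toNat_of_nonneg p2
    refine enc_segI0 hAB hCD hNr ?_ ?_
    · rw [q1, q2]
      apply Complex.ext
      · simp; ring
      · simp [hmr]; ring
    · rw [q1]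
      apply Complex.ext
      · simp; ring
      · simp [hyr]; ring
  | false =>
    have hs' : y ≤ 0 ∧ y + m2 ≤ 0 := by
      rcases hs with hs | hs
      · simp only [Bool.and_eq_false_iff, decide_eq_false_iff_not, not_le] at hb
        omega
      · exact hs
    obtain ⟨p1, p2⟩ := hs'
    simp only [cond_false]
    have q1 : (((-y).toNat : ℕ) : ℤ) = -y := Int.toNat_of_nonneg (by omega)
    have q2 : (((-(y + m2)).toNat : ℕ) : ℤ) = -(y + m2) := Int.toNat_of_nonneg (by omega)
    rw [← segE_conj]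
    have hAB' : (starRingEnd ℂ) (gc (b1, b2)) - (starRingEnd ℂ) (gc (a1, a2)) ≠ 0 := by
      rw [← map_sub]; exact (map_ne_zero _).2 hAB
    have hCD' : (starRingEnd ℂ) (gc (d1, d2)) - (starRingEnd ℂ) (gc (c1, c2)) ≠ 0 := by
      rw [← map_sub]; exact (map_ne_zero _).2 hCD
    refine enc_segI0 hAB' hCD' ?_ ?_ ?_
    · rw [hNr, ← map_sub, Complex.normSq_conj]
    · rw [q1, q2]
      apply Complex.ext
      · simp; ring
      · simp [hmr]; ring
    · rw [q1]
      apply Complex.ext
      · simp; ring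
      · simp [hyr]; ring

end Crest.Agent.R006.NumSegx464
end

-- ▼ part R006/NumPotI_464
section

/-!
# Row 6, certified numerics: interval side of segment potentials (helper464)

* `enc_Phi`  : `Enc (Phi a b) (PhiI a b)`
* `enc_pot`  : potential of the uniform probability measure on `[A,B]` at `s`, any position
-/

set_option autoImplicit false

namespace Crest.Agent.R006.NumSegx464

open Real Num482 Crest.Agent.R006.NumPhix179 Crest.Agent.R006.NumAtanx179

/-! ### potentials -/

def PhiI (a : ℤ) (q : ℕ) : ℤ × ℤ :=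
  subI (addI (smulI a (hlN (sqN a q))) (nsmulI q (atnI a q)))
    (a * 281474976710656, a * 281474976710656)

theorem enc_Phi (a : ℤ) (q : ℕ) : Enc (Phi a q) (PhiI a q) := by
  have h1 := (enc_hlN (sqN a q)).smul a
  have h2 := (enc_atnI a q).nsmul q
  have h3 : Enc (a : ℝ) (a * 281474976710656, a * 281474976710656) := by
    constructor <;> push_cast <;> exact le_rfl
  have := (h1.add h2).sub h3
  unfold PhiI
  refine (Eq.subst (motive := fun r : ℝ => Enc r _) ?_ this)
  rw [sqN_cast]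
  unfold Phi
  push_cast
  ring

theorem Phi_div {N : ℝ} (hN : 0 < N) (u v : ℝ) :
    Phi (u / N) (v / N) = (Phi u v - u * Real.log N) / N := by
  unfold Phi
  have e1 : u / N / (v / N) = u / v := by
    by_cases hv : v = 0
    · subst hv; simp
    · field_simp
  rw [e1]
  by_cases h : u ^ 2 + v ^ 2 = 0
  · have hu : u = 0 := by nlinarith [sq_nonneg u, sq_nonneg v]
    have hv : v = 0 := by nlinarith [sq_nonneg u, sq_nonneg v]
    subst hu hv; simp
  · have e2 : (u / N) ^ 2 + (v / N) ^ 2 = (u ^ 2 + v ^ 2) / N ^ 2 := by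
      field_simp
    rw [e2, Real.log_div h (by positivity), Real.log_pow]
    push_cast
    field_simp
    ring

/-- potential of the uniform probability measure on `[A,B]` at `s` -/
noncomputable def pot (A B s : ℂ) : ℝ :=
  ∫ κ in (0:ℝ)..1, Real.log ‖s - (A + κ * (B - A))‖

def potI (A B s : ℤ × ℤ) : ℤ × ℤ :=
  (fun e1 e2 c1 c2 : ℤ =>
    (fun (N : ℕ) (x : ℤ) (q : ℕ) =>
      subI (divI (subI (PhiI x q) (PhiI (x - N) q)) N) (hlN N))
    (sqN e1 e2) (c1 * e1 + c2 * e2) (c2 * e1 - c1 * e2).natAbs)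
  (B.1 - A.1) (B.2 - A.2) (s.1 - A.1) (s.2 - A.2)

theorem enc_pot {A B : ℤ × ℤ} (s : ℤ × ℤ) (h : sqN (B.1 - A.1) (B.2 - A.2) ≠ 0) :
    Enc (pot (gc A) (gc B) (gc s)) (potI A B s) := by
  obtain ⟨a1, a2⟩ := A
  obtain ⟨b1, b2⟩ := B
  obtain ⟨s1, s2⟩ := s
  simp only at h
  have hNr : ((sqN (b1 - a1) (b2 - a2) : ℕ) : ℝ) = Complex.normSq (gc (b1, b2) - gc (a1, a2)) := by
    rw [sqN_cast, Complex.normSq_apply]; simp; ring
  have hAB : gc (b1, b2) - gc (a1, a2) ≠ 0 := by
    rw [Ne, ← Complex.normSq_eq_zero, ← hNr]; exact_mod_cast h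
  unfold pot potI
  simp only
  generalize hN : sqN (b1 - a1) (b2 - a2) = N at h hNr ⊢
  have hN0 : 0 < N := Nat.pos_of_ne_zero h
  have hNR : (0 : ℝ) < N := by exact_mod_cast hN0
  have hlogN : Real.log ‖gc (b1, b2) - gc (a1, a2)‖ = 1 / 2 * Real.log N := by
    rw [hNr, ← Complex.sq_norm, Real.log_pow]; push_cast; ring
  have hz : (gc (s1, s2) - gc (a1, a2)) / (gc (b1, b2) - gc (a1, a2)) =
      gc ((s1 - a1) * (b1 - a1) + (s2 - a2) * (b2 - a2),
        (s2 - a2) * (b1 - a1) - (s1 - a1) * (b2 - a2)) / ((N : ℝ) : ℂ) := by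
    rw [hNr, ← Complex.mul_conj, mul_comm (gc (b1, b2) - gc (a1, a2)),
      ← mul_div_mul_left _ _ ((map_ne_zero (starRingEnd ℂ)).2 hAB)]
    congr 1
    apply Complex.ext
    · simp; ring
    · simp; ring
  rw [inner_eq hAB, hlogN, hz]
  generalize hx : (s1 - a1) * (b1 - a1) + (s2 - a2) * (b2 - a2) = x
  generalize hy : (s2 - a2) * (b1 - a1) - (s1 - a1) * (b2 - a2) = y
  have hre : (gc (x, y) / ((N : ℝ) : ℂ)).re = x / N := by rw [Complex.div_ofReal_re]; simp
  have him : (gc (x, y) / ((N : ℝ) : ℂ)).im = y / N := by rw [Complex.div_ofReal_im]; simp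
  have hre2 : (gc (x, y) / ((N : ℝ) : ℂ) - 1).re = ((x - N : ℤ) : ℝ) / N := by
    rw [Complex.sub_re, hre]; push_cast; field_simp; simp
  have him2 : (gc (x, y) / ((N : ℝ) : ℂ) - 1).im = y / N := by
    rw [Complex.sub_im, him]; simp
  rw [hre, him, hre2, him2, Phi_div hNR, Phi_div hNR]
  have habs : ∀ u : ℝ, Phi u y = Phi u ((y.natAbs : ℕ) : ℝ) := by
    intro u
    have hc : ((y.natAbs : ℕ) : ℝ) = |(y : ℝ)| := by rw [Nat.cast_natAbs, Int.cast_abs]
    rw [hc]
    rcases abs_choice (y : ℝ) with h | h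
    · rw [h]
    · rw [h, Phi_even]
  rw [habs, habs]
  have := (((enc_Phi x y.natAbs).sub (enc_Phi (x - N) y.natAbs)).divN hN0).sub (enc_hlN N)
  refine (Eq.subst (motive := fun r : ℝ => Enc r _) ?_ this)
  push_cast
  field_simp
  ring

end Crest.Agent.R006.NumSegx464
end

-- ▼ part R006/NumSum_464

/-!
# Row 6, certified numerics: weighted lists of segments (helper464)

A measure = list of `(A, B, m)`: mass `m : ℤ`, uniformly distributed on the segment `[A,B]`
(Gaussian integer end points).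
* `enc_potL`  : potential of the measure at a Gaussian integer
* `enc_rowE`, `enc_mutE` : mutual energy, `enc_selfE` : self energy `Σ_{p<q} + ½ Σ_{p=q}`
-/

set_option autoImplicit false

namespace Crest.Agent.R006.NumSegx464

open Real Num482

/-- weighted segment `(A, B, m)` -/
abbrev WSeg := (ℤ × ℤ) × (ℤ × ℤ) × ℤ

noncomputable def pairE (p q : WSeg) : ℝ :=
  ((p.2.2 * q.2.2 : ℤ) : ℝ) * segE (gc p.1) (gc p.2.1) (gc q.1) (gc q.2.1)

noncomputable def rowE (p : WSeg) : List WSeg → ℝ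
  | [] => 0
  | q :: L => pairE p q + rowE p L

noncomputable def mutE : List WSeg → List WSeg → ℝ
  | [], _ => 0
  | p :: L, L' => rowE p L' + mutE L L'

/-- `½ ∬ log|z-w| dν dν`, written as `Σ_{p<q} + ½ Σ_{p=q}` -/
noncomputable def selfE : List WSeg → ℝ
  | [] => 0
  | p :: L => pairE p p / (2 : ℕ) + rowE p L + selfE L

noncomputable def potL : List WSeg → ℂ → ℝ
  | [], _ => 0
  | p :: L, s => (p.2.2 : ℝ) * pot (gc p.1) (gc p.2.1) s + potL L s

def pairI (p q : WSeg) : ℤ × ℤ := smulI (p.2.2 * q.2.2) (segI p.1 p.2.1 q.1 q.2.1)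

def pairOK (p q : WSeg) : Bool := segOK p.1 p.2.1 q.1 q.2.1

def rowI (p : WSeg) : List WSeg → ℤ × ℤ
  | [] => (0, 0)
  | q :: L => addI (pairI p q) (rowI p L)

def rowOK (p : WSeg) : List WSeg → Bool
  | [] => true
  | q :: L => pairOK p q && rowOK p L



def selfI : List WSeg → ℤ × ℤ
  | [] => (0, 0)
  | p :: L => addI (addI (divI (pairI p p) 2) (rowI p L)) (selfI L)

def selfOK : List WSeg → Bool
  | [] => true
  | p :: L => pairOK p p && rowOK p L && selfOK L

def potLI : List WSeg → ℤ × ℤ → ℤ × ℤ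
  | [], _ => (0, 0)
  | p :: L, s => addI (smulI p.2.2 (potI p.1 p.2.1 s)) (potLI L s)

def potOK : List WSeg → Bool
  | [] => true
  | p :: L => decide (sqN (p.2.1.1 - p.1.1) (p.2.1.2 - p.1.2) ≠ 0) && potOK L

theorem enc_pairE {p q : WSeg} (h : pairOK p q = true) : Enc (pairE p q) (pairI p q) :=
  (enc_segE h).smul _

theorem enc_rowE (p : WSeg) : ∀ (L : List WSeg), rowOK p L = true → Enc (rowE p L) (rowI p L)
  | [], _ => enc_zero
  | q :: L, h => by
    simp only [rowOK, Bool.and_eq_true] at h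
    exact (enc_pairE h.1).add (enc_rowE p L h.2)


theorem enc_selfE : ∀ (L : List WSeg), selfOK L = true → Enc (selfE L) (selfI L)
  | [], _ => enc_zero
  | p :: L, h => by
    simp only [selfOK, Bool.and_eq_true] at h
    exact (((enc_pairE h.1.1).divN (q := 2) (by norm_num)).add (enc_rowE p L h.1.2)).add
      (enc_selfE L h.2)

theorem enc_potL (s : ℤ × ℤ) : ∀ (L : List WSeg), potOK L = true →
    Enc (potL L (gc s)) (potLI L s)
  | [], _ => enc_zero
  | p :: L, h => by
    simp only [potOK, Bool.and_eq_true, decide_eq_true_eq] at h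
    exact ((enc_pot s h.1).smul p.2.2).add (enc_potL s L h.2)



end Crest.Agent.R006.NumSegx464
private theorem rz_99302d410e : type_of% @_root_.Crest.Agent.R006.NumSegx464.potL.eq_def := @_root_.Crest.Agent.R006.NumSegx464.potL.eq_def -- L37
private theorem rz_fa4aff3a54 : type_of% @_root_.Crest.Agent.R006.NumSegx464.potL.eq_1 := @_root_.Crest.Agent.R006.NumSegx464.potL.eq_1 -- L37
private theorem rz_fb5e9d9e96 : type_of% @_root_.Crest.Agent.R006.NumSegx464.potOK.eq_def := @_root_.Crest.Agent.R006.NumSegx464.potOK.eq_def -- L73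
private theorem rz_810b2f76ab : type_of% @_root_.Crest.Agent.R006.NumSegx464.potOK.eq_1 := @_root_.Crest.Agent.R006.NumSegx464.potOK.eq_1 -- L73
private theorem rz_13552ae992 : type_of% @_root_.Crest.Agent.R006.NumSegx464.rowE.eq_def := @_root_.Crest.Agent.R006.NumSegx464.rowE.eq_def -- L24
private theorem rz_95d966be34 : type_of% @_root_.Crest.Agent.R006.NumSegx464.rowE.eq_1 := @_root_.Crest.Agent.R006.NumSegx464.rowE.eq_1 -- L24
private theorem rz_14286ed2e1 : type_of% @_root_.Crest.Agent.R006.NumSegx464.rowOK.eq_def := @_root_.Crest.Agent.R006.NumSegx464.rowOK.eq_def -- L49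
private theorem rz_09183a759d : type_of% @_root_.Crest.Agent.R006.NumSegx464.rowOK.eq_1 := @_root_.Crest.Agent.R006.NumSegx464.rowOK.eq_1 -- L49
private theorem rz_519098d60f : type_of% @_root_.Crest.Agent.R006.NumSegx464.selfE.eq_def := @_root_.Crest.Agent.R006.NumSegx464.selfE.eq_def -- L33
private theorem rz_abf16d6a6c : type_of% @_root_.Crest.Agent.R006.NumSegx464.selfE.eq_1 := @_root_.Crest.Agent.R006.NumSegx464.selfE.eq_1 -- L33
private theorem rz_97d073f45b : type_of% @_root_.Crest.Agent.R006.NumSegx464.selfOK.eq_def := @_root_.Crest.Agent.R006.NumSegx464.selfOK.eq_def -- L65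
private theorem rz_d10181027c : type_of% @_root_.Crest.Agent.R006.NumSegx464.selfOK.eq_1 := @_root_.Crest.Agent.R006.NumSegx464.selfOK.eq_1 -- L65
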