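import Crest.Agent.R006.Defs
import Mathlib
import Crest.Agent.R006.P9_SF_481

set_option autoImplicit false

/-!
# Row 6: asymptotics of the (confluent) Vandermonde of the full node set of a `Shape` (helper252)

`LV S u c T = (1/2) ∑_{z,w ∈ T} m_z m_w log |z - w|` (`T` any finite set of sites containing the
support of `S.mult u c`, diagonal omitted) `= u² (log u * rows²/2 + VL S) + O(u log u)`.
-/

namespace Crest.Agent.R006.D

open Finset Crest.Agent.R006

/-- real number attached to a site -/
noncomputable def Site.r : Site → ℝ
  | .Z i => i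
  | .H i => (i : ℝ) + 1 / 2


/-- site of index `i` of the integer (`false`) or half-integer (`true`) family -/
def st (f : Bool) (i : ℤ) : Site := if f then .H i else .Z i




/-- family flags of the 8 windows -/
def wf : Fin 8 → Bool := ![false, false, false, false, true, true, true, true]

























/-! ## the normalisation of the binomial bases -/

/-- `x log x - x` -/
noncomputable def phi (x : ℝ) : ℝ := x * Real.log x - x





/-- the constants -/
noncomputable def NL (S : Shape) : ℝ :=
  S.k * (phi S.a2 + phi S.i1 + phi S.r1) + sfF (S.a1 + S.k) - sfF S.a1 + sfF S.q + sfF S.g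

/-- coefficient of `u² log u` -/
noncomputable def NC (S : Shape) : ℝ :=
  S.k * ((S.a2 : ℝ) + S.i1 + S.r1) + (((S.a1 : ℝ) + S.k) ^ 2 - (S.a1 : ℝ) ^ 2) / 2 +
    (S.q : ℝ) ^ 2 / 2 + (S.g : ℝ) ^ 2 / 2



end Crest.Agent.R006.D
private theorem rz_4a4d2e1096 : type_of% @_root_.Crest.Agent.R006.D.Site.r.eq_1 := @_root_.Crest.Agent.R006.D.Site.r.eq_1 -- L18
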