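import Crest.Agent.R006.Lam_89
import Crest.Agent.R006.NVChain_664
import Crest.Agent.R006.NVInf_664

/-!
# Row 6: frozen definitions (draft, helper89)

Pole-free form (710). Everything over a field `K` of characteristic zero with a value `c : K` of
Catalan's constant.

* sites `k : ℤ` in doubled coordinates, position `k/2`;
* germs: `psiG c k`, `gG k` : integer chain (`ψ(0) = -c`, `g(0) = 1`) for even `k`, half chain
  (`ψ(-1/2) = 0`, `g(-1/2) = 1`) for odd `k`;
* `F = R ψ - T - Q g`.
-/

set_option autoImplicit false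

namespace Crest.Agent.R006

open Polynomial

variable {K : Type*} [Field K]

/-- germ of `g` at `i - 1/2`, value `1` at `-1/2` (index `0`) -/
noncomputable def GamH0 : ℤ → PowerSeries K :=
  NV.bi (fun i => NV.pt ((i : K) - 1 / 2 + 1) ^ 2)
    (fun i => -(PowerSeries.C (1 / 4) * (2 * NV.pt ((i : K) - 1 / 2) + 1) ^ 2)) (fun _ => 0) 1

/-- germ of `ψ` at the site `k/2` -/
noncomputable def psiG (c : K) (k : ℤ) : PowerSeries K :=
  if k % 2 = 0 then NV.PsiZ (-c) (k / 2) else NV.PsiH0 ((k + 1) / 2)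

/-- germ of `g` at the site `k/2` -/
noncomputable def gG (k : ℤ) : PowerSeries K :=
  if k % 2 = 0 then NV.GamZ (k / 2) else GamH0 ((k + 1) / 2)



/-- Design numbers (actual lengths, not units). Sites are the `k/2`, `lo ≤ k ≤ hi`;
G-nodes `0..B-1` are simple, `E m` is the multiplicity of `-m` (`m ≥ 1`), `H l` the one of `l+1/2`,
`W l` the one of `-l-1/2` (`l ≥ 0`); `R ∈ rhoR · Poly_{<A}`, `Q ∈ rhoQ · Poly_{<Kq}`, `q` free
polynomial columns, `c0` unit vector columns (bordering). -/
structure Design where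
  B : ℕ
  E : ℕ → ℕ
  H : ℕ → ℕ
  W : ℕ → ℕ
  /-- bound for all doubled positions -/
  L : ℕ
  rhoR : ℚ[X]
  rhoQ : ℚ[X]
  A : ℕ
  q : ℕ
  Kq : ℕ
  c0 : ℕ

namespace Design

variable (D : Design)

/-- multiplicity of the site `k/2` -/
def mult (k : ℤ) : ℕ :=
  if k % 2 = 0 then
    if 0 ≤ k then (if k / 2 < D.B then 1 else 0) else D.E (-(k / 2)).toNat
  else
    if 0 ≤ k then D.H (k / 2).toNat else D.W (-(k + 1) / 2).toNat

/-- the sites -/
abbrev Site : Type := {k : ℤ // k ∈ Finset.Icc (-(D.L : ℤ)) D.L}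

/-- position of a site -/
def pos (K : Type*) [Field K] (k : D.Site) : K := ((k : ℤ) : K) / 2

/-- multiplicities as a function on sites -/
def m (k : D.Site) : ℕ := D.mult k

/-- rows `(k,j)`, `j < m k` -/
abbrev Row : Type := Lam.Row D.m

/-- all columns which are not free polynomials: `R`-block, `Q`-block, unit vectors -/
abbrev Col : Type := Fin D.A ⊕ Fin D.Kq ⊕ Fin D.c0





end Design

end Crest.Agent.R006
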