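import Crest.Agent.R006.Germ_724
import Crest.Agent.R006.Psi_724
import Crest.Agent.R006.PsiInf_294

-- ▼ part R006/Base_724
section

/-!
Row 6 (helper724): the base formula in discrete form.

Sites `site l = -1/2 - l`.  Power series `K K0 l` with
`(2 (site l + ε) - 1)^3 K (l+1) = - (site l + ε)^3 K l`, `K 0 = K0`.
Functional `mu K0 f = - ∑' l, coeff 2 (K K0 l * T f (site l))`.
-/

set_option autoImplicit false

namespace Crest.Agent.R006.Base724

open Polynomial Filter Topology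
open Crest.Agent.R006.NV Crest.Agent.R006.Germ724

/-! ### a submultiplicative norm on 2-jets -/

/-- norm on 2-jets -/
noncomputable def N (a : PowerSeries ℂ) : ℝ :=
  ‖PowerSeries.coeff 0 a‖ + ‖PowerSeries.coeff 1 a‖ / 2 + ‖PowerSeries.coeff 2 a‖ / 4

lemma N_nonneg (a : PowerSeries ℂ) : 0 ≤ N a := by
  unfold N; positivity

lemma coeff_zero_mul (a b : PowerSeries ℂ) : PowerSeries.coeff 0 (a * b) =
    PowerSeries.coeff 0 a * PowerSeries.coeff 0 b := by
  simp [PowerSeries.coeff_mul]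

lemma coeff_one_mul (a b : PowerSeries ℂ) : PowerSeries.coeff 1 (a * b) =
    PowerSeries.coeff 0 a * PowerSeries.coeff 1 b + PowerSeries.coeff 1 a * PowerSeries.coeff 0 b := by
  rw [PowerSeries.coeff_mul, Finset.Nat.sum_antidiagonal_eq_sum_range_succ
    (fun i j => PowerSeries.coeff i a * PowerSeries.coeff j b)]
  simp [Finset.sum_range_succ]

lemma coeff_two_mul (a b : PowerSeries ℂ) : PowerSeries.coeff 2 (a * b) =
    PowerSeries.coeff 0 a * PowerSeries.coeff 2 b + PowerSeries.coeff 1 a * PowerSeries.coeff 1 b +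
      PowerSeries.coeff 2 a * PowerSeries.coeff 0 b := by
  rw [PowerSeries.coeff_mul, Finset.Nat.sum_antidiagonal_eq_sum_range_succ
    (fun i j => PowerSeries.coeff i a * PowerSeries.coeff j b)]
  simp [Finset.sum_range_succ]

lemma N_add_le (a b : PowerSeries ℂ) : N (a + b) ≤ N a + N b := by
  unfold N
  rw [map_add, map_add, map_add]
  have h0 := norm_add_le (PowerSeries.coeff 0 a) (PowerSeries.coeff 0 b)
  have h1 := norm_add_le (PowerSeries.coeff 1 a) (PowerSeries.coeff 1 b)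
  have h2 := norm_add_le (PowerSeries.coeff 2 a) (PowerSeries.coeff 2 b)
  linarith

lemma N_neg (a : PowerSeries ℂ) : N (-a) = N a := by
  unfold N
  simp

lemma N_mul_le (a b : PowerSeries ℂ) : N (a * b) ≤ N a * N b := by
  unfold N
  rw [coeff_zero_mul, coeff_one_mul, coeff_two_mul]
  set a0 := PowerSeries.coeff 0 a
  set a1 := PowerSeries.coeff 1 a
  set a2 := PowerSeries.coeff 2 a
  set b0 := PowerSeries.coeff 0 b
  set b1 := PowerSeries.coeff 1 b
  set b2 := PowerSeries.coeff 2 b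
  have h0 : ‖a0 * b0‖ = ‖a0‖ * ‖b0‖ := norm_mul _ _
  have h1 : ‖a0 * b1 + a1 * b0‖ ≤ ‖a0‖ * ‖b1‖ + ‖a1‖ * ‖b0‖ := by
    refine (norm_add_le _ _).trans ?_
    rw [norm_mul, norm_mul]
  have h2 : ‖a0 * b2 + a1 * b1 + a2 * b0‖ ≤ ‖a0‖ * ‖b2‖ + ‖a1‖ * ‖b1‖ + ‖a2‖ * ‖b0‖ := by
    refine (norm_add₃_le).trans ?_
    rw [norm_mul, norm_mul, norm_mul]
  have p1 : 0 ≤ ‖a1‖ * ‖b2‖ := by positivity
  have p2 : 0 ≤ ‖a2‖ * ‖b1‖ := by positivity
  have p3 : 0 ≤ ‖a2‖ * ‖b2‖ := by positivity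
  nlinarith

lemma N_C (c : ℂ) : N (PowerSeries.C c) = ‖c‖ := by
  unfold N
  simp [PowerSeries.coeff_C]

lemma norm_coeff_two_le (a : PowerSeries ℂ) : ‖PowerSeries.coeff 2 a‖ ≤ 4 * N a := by
  unfold N
  have h0 := norm_nonneg (PowerSeries.coeff 0 a)
  have h1 := norm_nonneg (PowerSeries.coeff 1 a)
  linarith


/-! ### the sites and the weights -/

/-- the sites -/
noncomputable def site (l : ℕ) : ℂ := -(1 / 2) - l

lemma site_succ (l : ℕ) : site (l + 1) = site l - 1 := by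
  unfold site; push_cast; ring

lemma site_zero : site 0 = -(1 / 2) := by
  unfold site; simp

lemma pt_coeff_zero (s : ℂ) : PowerSeries.coeff 0 (pt s) = s := by
  simp [pt]

lemma pt_coeff_one (s : ℂ) : PowerSeries.coeff 1 (pt s) = 1 := by
  simp [pt]

lemma pt_coeff_two (s : ℂ) : PowerSeries.coeff 2 (pt s) = 0 := by
  simp [pt, PowerSeries.coeff_X]


lemma coeff_two_ps (n : ℕ) : PowerSeries.coeff n (2 : PowerSeries ℂ) = if n = 0 then 2 else 0 := by
  have : (2 : PowerSeries ℂ) = PowerSeries.C (2 : ℂ) := (map_ofNat PowerSeries.C 2).symm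
  rw [this, PowerSeries.coeff_C]

/-- the denominators `2(s+ε)-1` -/
noncomputable def den (s : ℂ) : PowerSeries ℂ := 2 * pt s - 1

lemma den_coeff_zero (s : ℂ) : PowerSeries.coeff 0 (den s) = 2 * s - 1 := by
  unfold den
  rw [map_sub, coeff_zero_mul, pt_coeff_zero, coeff_two_ps]; simp

lemma den_coeff_one (s : ℂ) : PowerSeries.coeff 1 (den s) = 2 := by
  unfold den
  rw [map_sub, coeff_one_mul, pt_coeff_zero, pt_coeff_one, coeff_two_ps, coeff_two_ps]
  simp [PowerSeries.coeff_one]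

lemma den_coeff_two (s : ℂ) : PowerSeries.coeff 2 (den s) = 0 := by
  unfold den
  rw [map_sub, coeff_two_mul, pt_coeff_zero, pt_coeff_one, pt_coeff_two, coeff_two_ps, coeff_two_ps,
    coeff_two_ps]
  simp [PowerSeries.coeff_one]

lemma den_const (s : ℂ) : PowerSeries.constantCoeff (den s) = 2 * s - 1 := by
  rw [← PowerSeries.coeff_zero_eq_constantCoeff_apply, den_coeff_zero]

/-- the ratio `(s+ε)/(2(s+ε)-1)` -/
noncomputable def rat (s : ℂ) : PowerSeries ℂ := pt s * (den s)⁻¹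

lemma rat_mul_den {s : ℂ} (hs : 2 * s - 1 ≠ 0) : rat s * den s = pt s := by
  unfold rat
  rw [mul_assoc, PowerSeries.inv_mul_cancel, mul_one]
  rw [den_const]; exact hs

lemma rat_coeffs {s : ℂ} (hs : 2 * s - 1 ≠ 0) :
    PowerSeries.coeff 0 (rat s) = s / (2 * s - 1) ∧
    PowerSeries.coeff 1 (rat s) = -1 / (2 * s - 1) ^ 2 ∧
    PowerSeries.coeff 2 (rat s) = 2 / (2 * s - 1) ^ 3 := by
  have h := rat_mul_den hs
  have h0 := congrArg (PowerSeries.coeff 0) h
  have h1 := congrArg (PowerSeries.coeff 1) h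
  have h2 := congrArg (PowerSeries.coeff 2) h
  rw [coeff_zero_mul, den_coeff_zero, pt_coeff_zero] at h0
  rw [coeff_one_mul, den_coeff_zero, den_coeff_one, pt_coeff_one] at h1
  rw [coeff_two_mul, den_coeff_zero, den_coeff_one, den_coeff_two, pt_coeff_two] at h2
  have e0 : PowerSeries.coeff 0 (rat s) = s / (2 * s - 1) := by
    rw [eq_div_iff hs]; exact h0
  have e1' : PowerSeries.coeff 1 (rat s) * (2 * s - 1) ^ 2 = -1 := by
    linear_combination (2 * s - 1) * h1 - 2 * h0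
  have e1 : PowerSeries.coeff 1 (rat s) = -1 / (2 * s - 1) ^ 2 := by
    rw [eq_div_iff (pow_ne_zero 2 hs)]; exact e1'
  refine ⟨e0, e1, ?_⟩
  rw [eq_div_iff (pow_ne_zero 3 hs)]
  linear_combination (2 * s - 1) ^ 2 * h2 - 2 * e1'

lemma site_den (l : ℕ) : 2 * site l - 1 = -(2 * ((l : ℂ) + 1)) := by
  unfold site; ring

lemma site_den_ne (l : ℕ) : 2 * site l - 1 ≠ 0 := by
  rw [site_den]
  have : (l : ℂ) + 1 ≠ 0 := by exact_mod_cast Nat.succ_ne_zero l
  exact neg_ne_zero.mpr (mul_ne_zero two_ne_zero this)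

lemma N_rat_site (l : ℕ) : N (rat (site l)) ≤ 1 / 2 := by
  obtain ⟨e0, e1, e2⟩ := rat_coeffs (site_den_ne l)
  unfold N
  rw [e0, e1, e2, norm_div, norm_div, norm_div, norm_pow, norm_pow, site_den]
  have hs : site l = -(((l : ℝ) + 1 / 2 : ℝ) : ℂ) := by
    unfold site; push_cast; ring
  have n1 : ‖site l‖ = (l : ℝ) + 1 / 2 := by
    rw [hs, norm_neg, Complex.norm_real, Real.norm_of_nonneg (by positivity)]
  have n2 : ‖-(2 * ((l : ℂ) + 1))‖ = 2 * ((l : ℝ) + 1) := by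
    have : -(2 * ((l : ℂ) + 1)) = -((2 * ((l : ℝ) + 1) : ℝ) : ℂ) := by push_cast; ring
    rw [this, norm_neg, Complex.norm_real, Real.norm_of_nonneg (by positivity)]
  rw [n1, n2, norm_neg, norm_one]
  have n3 : ‖(2 : ℂ)‖ = 2 := by simp
  rw [n3]
  have hl : (0 : ℝ) ≤ l := Nat.cast_nonneg l
  have hl1 : (0 : ℝ) < (l : ℝ) + 1 := by positivity
  have h1 : ((l : ℝ) + 1 / 2) / (2 * ((l : ℝ) + 1)) = 1 / 2 - 1 / (4 * ((l : ℝ) + 1)) := by
    field_simp; ring
  have h2 : 1 / (2 * ((l : ℝ) + 1)) ^ 2 / 2 ≤ 1 / (8 * ((l : ℝ) + 1)) := by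
    rw [div_div, div_le_div_iff₀ (by positivity) (by positivity)]
    nlinarith
  have h3 : 2 / (2 * ((l : ℝ) + 1)) ^ 3 / 4 ≤ 1 / (16 * ((l : ℝ) + 1)) := by
    rw [div_div, div_le_div_iff₀ (by positivity) (by positivity)]
    have : (l : ℝ) + 1 ≤ ((l : ℝ) + 1) ^ 3 := by nlinarith [sq_nonneg ((l : ℝ))]
    nlinarith
  have h4 : 1 / (8 * ((l : ℝ) + 1)) + 1 / (16 * ((l : ℝ) + 1)) ≤ 1 / (4 * ((l : ℝ) + 1)) := by
    have : 1 / (8 * ((l : ℝ) + 1)) + 1 / (16 * ((l : ℝ) + 1)) = 3 / 16 * (1 / ((l : ℝ) + 1)) := by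
      field_simp; norm_num
    have h5 : 1 / (4 * ((l : ℝ) + 1)) = 1 / 4 * (1 / ((l : ℝ) + 1)) := by
      field_simp
    rw [this, h5]
    have : 0 ≤ 1 / ((l : ℝ) + 1) := by positivity
    linarith
  linarith

/-- the weights at the sites -/
noncomputable def K (K0 : PowerSeries ℂ) : ℕ → PowerSeries ℂ
  | 0 => K0
  | l + 1 => -(rat (site l)) ^ 3 * K K0 l

lemma K_zero (K0 : PowerSeries ℂ) : K K0 0 = K0 := rfl

lemma K_succ (K0 : PowerSeries ℂ) (l : ℕ) : K K0 (l + 1) = -(rat (site l)) ^ 3 * K K0 l := rfl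

lemma K_step (K0 : PowerSeries ℂ) (l : ℕ) :
    den (site l) ^ 3 * K K0 (l + 1) = -(pt (site l) ^ 3 * K K0 l) := by
  rw [K_succ]
  have h := rat_mul_den (site_den_ne l)
  calc den (site l) ^ 3 * (-(rat (site l)) ^ 3 * K K0 l)
      = -((rat (site l) * den (site l)) ^ 3 * K K0 l) := by ring
    _ = _ := by rw [h]

lemma N_K_le (K0 : PowerSeries ℂ) (l : ℕ) : N (K K0 l) ≤ (1 / 8) ^ l * N K0 := by
  induction l with
  | zero => simp [K_zero]
  | succ l ih =>
    rw [K_succ, neg_mul, N_neg]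
    have h1 : N (rat (site l) ^ 3) ≤ 1 / 8 := by
      have h := N_rat_site l
      have h0 := N_nonneg (rat (site l))
      have e : rat (site l) ^ 3 = rat (site l) * (rat (site l) * rat (site l)) := by ring
      rw [e]
      calc N (rat (site l) * (rat (site l) * rat (site l)))
          ≤ N (rat (site l)) * N (rat (site l) * rat (site l)) := N_mul_le _ _
        _ ≤ N (rat (site l)) * (N (rat (site l)) * N (rat (site l))) :=
            mul_le_mul_of_nonneg_left (N_mul_le _ _) h0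
        _ ≤ 1 / 2 * (1 / 2 * (1 / 2)) := by gcongr
        _ = 1 / 8 := by norm_num
    calc N (rat (site l) ^ 3 * K K0 l) ≤ N (rat (site l) ^ 3) * N (K K0 l) := N_mul_le _ _
      _ ≤ 1 / 8 * ((1 / 8) ^ l * N K0) := by
          apply mul_le_mul h1 ih (N_nonneg _) (by norm_num)
      _ = (1 / 8) ^ (l + 1) * N K0 := by ring



/-! ### test functions -/

/-- admissible test functions: analytic at the sites, jets of polynomial growth -/
def Good (f : ℂ → ℂ) : Prop :=
  (∀ l, AnalyticAt ℂ f (site l)) ∧ ∃ C : ℝ, ∃ k : ℕ, ∀ l : ℕ, N (T f (site l)) ≤ C * ((l : ℝ) + 1) ^ k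

lemma Good.const (c : ℂ) : Good (fun _ => c) := by
  refine ⟨fun l => analyticAt_const, ‖c‖, 0, fun l => ?_⟩
  rw [T_const, N_C]; simp

lemma Good.id : Good (fun s => s) := by
  refine ⟨fun l => analyticAt_id, 1, 1, fun l => ?_⟩
  rw [T_id]
  unfold N
  rw [pt_coeff_zero, pt_coeff_one, pt_coeff_two]
  have hs : site l = -(((l : ℝ) + 1 / 2 : ℝ) : ℂ) := by
    unfold site; push_cast; ring
  have n1 : ‖site l‖ = (l : ℝ) + 1 / 2 := by
    rw [hs, norm_neg, Complex.norm_real, Real.norm_of_nonneg (by positivity)]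
  rw [n1]
  simp
  linarith

lemma Good.nonneg_const {f : ℂ → ℂ} (hf : Good f) :
    ∃ C : ℝ, 0 ≤ C ∧ ∃ k : ℕ, ∀ l : ℕ, N (T f (site l)) ≤ C * ((l : ℝ) + 1) ^ k := by
  obtain ⟨-, C, k, h⟩ := hf
  refine ⟨C, ?_, k, h⟩
  have := h 0
  simp at this
  exact (N_nonneg _).trans this

lemma Good.add {f g : ℂ → ℂ} (hf : Good f) (hg : Good g) : Good (fun s => f s + g s) := by
  refine ⟨fun l => (hf.1 l).add (hg.1 l), ?_⟩
  obtain ⟨C, hC, k, h⟩ := hf.nonneg_const
  obtain ⟨C', hC', k', h'⟩ := hg.nonneg_const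
  refine ⟨C + C', k + k', fun l => ?_⟩
  rw [T_add (hf.1 l) (hg.1 l)]
  have h1 : (1 : ℝ) ≤ (l : ℝ) + 1 := by
    have : (0 : ℝ) ≤ l := Nat.cast_nonneg l
    linarith
  have e1 : ((l : ℝ) + 1) ^ k ≤ ((l : ℝ) + 1) ^ (k + k') := pow_le_pow_right₀ h1 (by omega)
  have e2 : ((l : ℝ) + 1) ^ k' ≤ ((l : ℝ) + 1) ^ (k + k') := pow_le_pow_right₀ h1 (by omega)
  calc N (T f (site l) + T g (site l)) ≤ N (T f (site l)) + N (T g (site l)) := N_add_le _ _
    _ ≤ C * ((l : ℝ) + 1) ^ k + C' * ((l : ℝ) + 1) ^ k' := add_le_add (h l) (h' l)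
    _ ≤ C * ((l : ℝ) + 1) ^ (k + k') + C' * ((l : ℝ) + 1) ^ (k + k') := by gcongr
    _ = _ := by ring

lemma Good.mul {f g : ℂ → ℂ} (hf : Good f) (hg : Good g) : Good (fun s => f s * g s) := by
  refine ⟨fun l => (hf.1 l).mul (hg.1 l), ?_⟩
  obtain ⟨C, hC, k, h⟩ := hf.nonneg_const
  obtain ⟨C', hC', k', h'⟩ := hg.nonneg_const
  refine ⟨C * C', k + k', fun l => ?_⟩
  rw [T_mul (hf.1 l) (hg.1 l)]
  calc N (T f (site l) * T g (site l)) ≤ N (T f (site l)) * N (T g (site l)) := N_mul_le _ _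
    _ ≤ (C * ((l : ℝ) + 1) ^ k) * (C' * ((l : ℝ) + 1) ^ k') :=
        mul_le_mul (h l) (h' l) (N_nonneg _) (by positivity)
    _ = _ := by ring

lemma Good.congr {f g : ℂ → ℂ} (hf : Good f) (h : ∀ l, f =ᶠ[𝓝 (site l)] g) : Good g := by
  obtain ⟨h1, C, k, h2⟩ := hf
  refine ⟨fun l => (h1 l).congr (h l), C, k, fun l => ?_⟩
  rw [← T_congr (h l)]
  exact h2 l

lemma Good.pow {f : ℂ → ℂ} (hf : Good f) (n : ℕ) : Good (fun s => f s ^ n) := by
  induction n with
  | zero => simpa using Good.const 1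
  | succ n ih =>
    have := ih.mul hf
    simpa [pow_succ] using this

lemma Good.smul {f : ℂ → ℂ} (hf : Good f) (c : ℂ) : Good (fun s => c * f s) :=
  (Good.const c).mul hf

lemma Good.eval (p : ℂ[X]) : Good (fun s => p.eval s) := by
  induction p using Polynomial.induction_on' with
  | add p q hp hq =>
    have := hp.add hq
    simpa using this
  | monomial n a =>
    have := (Good.id.pow n).smul a
    simpa using this

/-! ### the functional -/

/-- one site -/
noncomputable def term (K0 : PowerSeries ℂ) (f : ℂ → ℂ) (l : ℕ) : ℂ :=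
  PowerSeries.coeff 2 (K K0 l * T f (site l))

/-- the functional -/
noncomputable def mu (K0 : PowerSeries ℂ) (f : ℂ → ℂ) : ℂ := -∑' l, term K0 f l

lemma norm_term_le (K0 : PowerSeries ℂ) (f : ℂ → ℂ) (l : ℕ) :
    ‖term K0 f l‖ ≤ 4 * N K0 * ((1 / 8) ^ l * N (T f (site l))) := by
  unfold term
  calc ‖PowerSeries.coeff 2 (K K0 l * T f (site l))‖ ≤ 4 * N (K K0 l * T f (site l)) :=
        norm_coeff_two_le _
    _ ≤ 4 * (N (K K0 l) * N (T f (site l))) := by
        have := N_mul_le (K K0 l) (T f (site l)); linarith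
    _ ≤ 4 * (((1 / 8) ^ l * N K0) * N (T f (site l))) := by
        have := mul_le_mul_of_nonneg_right (N_K_le K0 l) (N_nonneg (T f (site l))); linarith
    _ = _ := by ring

lemma summable_geo (k : ℕ) : Summable fun l : ℕ => (1 / 8 : ℝ) ^ l * ((l : ℝ) + 1) ^ k := by
  have h := summable_pow_mul_geometric_of_norm_lt_one (R := ℝ) k (r := 1 / 8) (by norm_num)
  have h2 := (summable_nat_add_iff 1).mpr h
  have h3 := h2.mul_left 8
  refine h3.congr fun l => ?_
  push_cast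
  rw [pow_succ]
  ring

lemma Good.summable {f : ℂ → ℂ} (hf : Good f) (K0 : PowerSeries ℂ) :
    Summable (fun l => ‖term K0 f l‖) := by
  obtain ⟨C, hC, k, h⟩ := hf.nonneg_const
  have h1 := (summable_geo k).mul_left (4 * N K0 * C)
  refine h1.of_nonneg_of_le (fun l => norm_nonneg _) (fun l => ?_)
  refine (norm_term_le K0 f l).trans ?_
  have h0 : 0 ≤ 4 * N K0 := by have := N_nonneg K0; positivity
  calc 4 * N K0 * ((1 / 8) ^ l * N (T f (site l)))
      ≤ 4 * N K0 * ((1 / 8) ^ l * (C * ((l : ℝ) + 1) ^ k)) := by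
        apply mul_le_mul_of_nonneg_left _ h0
        exact mul_le_mul_of_nonneg_left (h l) (by positivity)
    _ = _ := by ring

lemma Good.hasSum {f : ℂ → ℂ} (hf : Good f) (K0 : PowerSeries ℂ) :
    HasSum (fun l => term K0 f l) (-mu K0 f) := by
  unfold mu
  rw [neg_neg]
  exact (hf.summable K0).of_norm.hasSum

lemma mu_add {f g : ℂ → ℂ} (hf : Good f) (hg : Good g) (K0 : PowerSeries ℂ) :
    mu K0 (fun s => f s + g s) = mu K0 f + mu K0 g := by
  have h := (hf.hasSum K0).add (hg.hasSum K0)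
  have h2 := (hf.add hg).hasSum K0
  have e : (fun l => term K0 f l + term K0 g l) = fun l => term K0 (fun s => f s + g s) l := by
    ext l
    unfold term
    rw [T_add (hf.1 l) (hg.1 l), mul_add, map_add]
  rw [e] at h
  have := h2.unique h
  linear_combination -this

lemma mu_smul {f : ℂ → ℂ} (hf : Good f) (c : ℂ) (K0 : PowerSeries ℂ) :
    mu K0 (fun s => c * f s) = c * mu K0 f := by
  have h := (hf.hasSum K0).mul_left c
  have h2 := (hf.smul c).hasSum K0
  have e : (fun l => c * term K0 f l) = fun l => term K0 (fun s => c * f s) l := by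
    ext l
    unfold term
    rw [T_mul analyticAt_const (hf.1 l), T_const, ← PowerSeries.coeff_C_mul]
    congr 1
    ring
  rw [e] at h
  have := h2.unique h
  linear_combination -this

lemma term_congr {f g : ℂ → ℂ} {l : ℕ} (h : f =ᶠ[𝓝 (site l)] g) (K0 : PowerSeries ℂ) :
    term K0 f l = term K0 g l := by
  unfold term
  rw [T_congr h]

lemma mu_congr {f g : ℂ → ℂ} (h : ∀ l, f =ᶠ[𝓝 (site l)] g) (K0 : PowerSeries ℂ) :
    mu K0 f = mu K0 g := by
  unfold mu
  congr 1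
  exact tsum_congr fun l => term_congr (h l) K0



/-! ### the key identity -/

/-- KEY IDENTITY (general form). -/
theorem key {P Q : ℂ → ℂ} (hP : Good P) (hQ : Good Q)
    (h : ∀ l, T Q (site (l + 1)) = den (site l) ^ 3 * T P (site l)) (K0 : PowerSeries ℂ) :
    mu K0 (fun s => s ^ 3 * P s) + mu K0 Q = -PowerSeries.coeff 2 (K0 * T Q (site 0)) := by
  have h1 := ((Good.id.pow 3).mul hP).hasSum K0
  have h2 := hQ.hasSum K0
  have h3 : HasSum (fun l => term K0 Q (l + 1)) (-mu K0 Q - term K0 Q 0) := by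
    have := (hasSum_nat_add_iff' 1).mpr h2
    simpa using this
  have e : (fun l => term K0 (fun s => s ^ 3 * P s) l) = fun l => -term K0 Q (l + 1) := by
    ext l
    unfold term
    have hid : AnalyticAt ℂ (fun s : ℂ => s) (site l) := analyticAt_id
    rw [h l, T_mul (hid.fun_pow 3) (hP.1 l), T_pow hid, T_id]
    have := K_step K0 l
    rw [← map_neg]
    congr 1
    linear_combination (T P (site l)) * this
  rw [e] at h1
  have h4 := h3.neg
  have h5 := h1.unique h4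
  have h6 : term K0 Q 0 = PowerSeries.coeff 2 (K0 * T Q (site 0)) := rfl
  rw [← h6]
  linear_combination -h5

end Crest.Agent.R006.Base724
end

-- ▼ part R006/Base2_724
section

/-!
Row 6 (helper724): the base formula in discrete form, part 2.

`E K0 z k = mu K0 (fun s => (s - z)^k)` (`k : ℤ`), the recursion in `z`,
injectivity in `K0`, existence of the weights.
-/

set_option autoImplicit false

namespace Crest.Agent.R006.Base724

open Polynomial Filter Topology
open Crest.Agent.R006.NV Crest.Agent.R006.Germ724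

/-- not a site -/
def Off (z : ℂ) : Prop := ∀ l : ℕ, site l ≠ z

lemma re_site (l : ℕ) : (site l).re = -(1 / 2) - l := by
  unfold site
  simp


lemma site_ne_of_re {z : ℂ} (h : -(1 / 2) < z.re) : Off z := by
  intro l e
  have := congrArg Complex.re e
  rw [re_site] at this
  have hl : (0 : ℝ) ≤ l := Nat.cast_nonneg l
  linarith

lemma dist_site_ge {z : ℂ} (l : ℕ) (h : 0 ≤ z.re) : z.re + 1 / 2 ≤ ‖site l - z‖ := by
  have h1 : |(site l - z).re| ≤ ‖site l - z‖ := Complex.abs_re_le_norm _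
  have h2 : (site l - z).re = -(1 / 2) - l - z.re := by
    rw [Complex.sub_re, re_site]
  rw [h2] at h1
  have hl : (0 : ℝ) ≤ l := Nat.cast_nonneg l
  rw [abs_of_nonpos (by linarith)] at h1
  linarith

lemma tendsto_dist_site (z : ℂ) : Tendsto (fun l : ℕ => ‖site l - z‖) atTop atTop := by
  have h1 : Tendsto (fun l : ℕ => (l : ℝ) - ‖z‖) atTop atTop :=
    tendsto_atTop_add_const_right _ _ tendsto_natCast_atTop_atTop
  refine tendsto_atTop_mono (fun l => ?_) h1
  have h2 : |(site l).re| ≤ ‖site l‖ := Complex.abs_re_le_norm _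
  rw [re_site] at h2
  have hl : (0 : ℝ) ≤ l := Nat.cast_nonneg l
  rw [abs_of_nonpos (by linarith)] at h2
  have h3 : ‖site l‖ ≤ ‖site l - z‖ + ‖z‖ := by
    have := norm_add_le (site l - z) z
    simpa using this
  linarith

lemma exists_dist {z : ℂ} (hz : Off z) : ∃ c : ℝ, 0 < c ∧ ∀ l : ℕ, c ≤ ‖site l - z‖ := by
  have h := tendsto_dist_site z
  rw [← Nat.cofinite_eq_atTop] at h
  obtain ⟨l0, h0⟩ := h.exists_forall_le
  exact ⟨‖site l0 - z‖, norm_pos_iff.mpr (sub_ne_zero.mpr (hz l0)), h0⟩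

/-- germ of `s - z` -/
lemma T_sub_const (z s : ℂ) : T (fun w => w - z) s = pt (s - z) := by
  have h : AnalyticAt ℂ (fun w : ℂ => w) s := analyticAt_id
  rw [T_sub h analyticAt_const, T_id, T_const]
  unfold pt
  rw [map_sub]
  ring

lemma analyticAt_sub (z s : ℂ) : AnalyticAt ℂ (fun w : ℂ => w - z) s :=
  analyticAt_id.sub analyticAt_const

lemma pt_const (s : ℂ) : PowerSeries.constantCoeff (pt s) = s := by
  rw [← PowerSeries.coeff_zero_eq_constantCoeff_apply, pt_coeff_zero]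

lemma inv_pt_coeffs {a : ℂ} (ha : a ≠ 0) :
    PowerSeries.coeff 0 (pt a)⁻¹ = 1 / a ∧
    PowerSeries.coeff 1 (pt a)⁻¹ = -1 / a ^ 2 ∧
    PowerSeries.coeff 2 (pt a)⁻¹ = 1 / a ^ 3 := by
  have h : (pt a)⁻¹ * pt a = 1 := PowerSeries.inv_mul_cancel _ (by rw [pt_const]; exact ha)
  have h0 := congrArg (PowerSeries.coeff 0) h
  have h1 := congrArg (PowerSeries.coeff 1) h
  have h2 := congrArg (PowerSeries.coeff 2) h
  rw [coeff_zero_mul, pt_coeff_zero] at h0
  rw [coeff_one_mul, pt_coeff_zero, pt_coeff_one] at h1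
  rw [coeff_two_mul, pt_coeff_zero, pt_coeff_one, pt_coeff_two] at h2
  simp only [PowerSeries.coeff_one] at h0 h1 h2
  simp only [if_true, if_false, one_ne_zero, OfNat.ofNat_ne_zero] at h0 h1 h2
  have e0 : PowerSeries.coeff 0 (pt a)⁻¹ = 1 / a := by
    rw [eq_div_iff ha]; exact h0
  have e1' : PowerSeries.coeff 1 (pt a)⁻¹ * a ^ 2 = -1 := by
    linear_combination a * h1 - h0
  refine ⟨e0, ?_, ?_⟩
  · rw [eq_div_iff (pow_ne_zero 2 ha)]; exact e1'
  · rw [eq_div_iff (pow_ne_zero 3 ha)]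
    linear_combination a ^ 2 * h2 - e1'

lemma N_inv_pt_le {a : ℂ} {c : ℝ} (hc : 0 < c) (ha : c ≤ ‖a‖) :
    N (pt a)⁻¹ ≤ 1 / c + 1 / (2 * c ^ 2) + 1 / (4 * c ^ 3) := by
  have h0 : a ≠ 0 := norm_pos_iff.mp (hc.trans_le ha)
  obtain ⟨e0, e1, e2⟩ := inv_pt_coeffs h0
  unfold N
  rw [e0, e1, e2, norm_div, norm_div, norm_div, norm_neg, norm_one, norm_pow, norm_pow]
  have h1 : 1 / ‖a‖ ≤ 1 / c := one_div_le_one_div_of_le hc ha
  have h2 : 1 / ‖a‖ ^ 2 ≤ 1 / c ^ 2 :=
    one_div_le_one_div_of_le (by positivity) (pow_le_pow_left₀ hc.le ha 2)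
  have h3 : 1 / ‖a‖ ^ 3 ≤ 1 / c ^ 3 :=
    one_div_le_one_div_of_le (by positivity) (pow_le_pow_left₀ hc.le ha 3)
  have e4 : 1 / (2 * c ^ 2) = 1 / c ^ 2 / 2 := by rw [div_div, mul_comm]
  have e5 : 1 / (4 * c ^ 3) = 1 / c ^ 3 / 4 := by rw [div_div, mul_comm]
  rw [e4, e5]
  linarith

lemma T_inv_sub {z s : ℂ} (h : s ≠ z) : T (fun w => (w - z)⁻¹) s = (pt (s - z))⁻¹ := by
  rw [T_inv (analyticAt_sub z s) (sub_ne_zero.mpr h), T_sub_const]

lemma Good.sub_const (z : ℂ) : Good (fun s => s - z) := by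
  have := Good.id.add (Good.const (-z))
  simpa [sub_eq_add_neg] using this

lemma Good.inv_sub {z : ℂ} (hz : Off z) : Good (fun s => (s - z)⁻¹) := by
  obtain ⟨c, hc, h⟩ := exists_dist hz
  refine ⟨fun l => (analyticAt_sub z _).fun_inv (sub_ne_zero.mpr (hz l)),
    1 / c + 1 / (2 * c ^ 2) + 1 / (4 * c ^ 3), 0, fun l => ?_⟩
  rw [T_inv_sub (hz l), pow_zero, mul_one]
  exact N_inv_pt_le hc (h l)

lemma Good.zpow {z : ℂ} (hz : Off z) (k : ℤ) : Good (fun s => (s - z) ^ k) := by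
  rcases Int.eq_nat_or_neg k with ⟨n, rfl | rfl⟩
  · simpa using (Good.sub_const z).pow n
  · have := (Good.inv_sub hz).pow n
    simpa [zpow_neg] using this

/-- `mu ((s-z)^k)` -/
noncomputable def E (K0 : PowerSeries ℂ) (z : ℂ) (k : ℤ) : ℂ := mu K0 (fun s => (s - z) ^ k)

/-- moments -/
noncomputable def mom (K0 : PowerSeries ℂ) (k : ℕ) : ℂ := mu K0 (fun s => s ^ k)

lemma eventually_ne_site {z : ℂ} (hz : Off z) (l : ℕ) : ∀ᶠ s in 𝓝 (site l), s - z ≠ 0 := by
  have : ContinuousAt (fun s : ℂ => s - z) (site l) := by fun_prop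
  exact this.eventually_ne (sub_ne_zero.mpr (hz l))

lemma mu_cubic {z : ℂ} (hz : Off z) (K0 : PowerSeries ℂ) (k : ℤ) :
    mu K0 (fun s => s ^ 3 * (s - z) ^ k) =
      z ^ 3 * E K0 z k + 3 * z ^ 2 * E K0 z (k + 1) + 3 * z * E K0 z (k + 2) + E K0 z (k + 3) := by
  have g0 := Good.zpow hz k
  have g1 := Good.zpow hz (k + 1)
  have g2 := Good.zpow hz (k + 2)
  have g3 := Good.zpow hz (k + 3)
  have e : mu K0 (fun s => s ^ 3 * (s - z) ^ k) =
      mu K0 (fun s => ((z ^ 3 * (s - z) ^ k + 3 * z ^ 2 * (s - z) ^ (k + 1)) +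
        3 * z * (s - z) ^ (k + 2)) + (s - z) ^ (k + 3)) := by
    apply mu_congr
    intro l
    filter_upwards [eventually_ne_site hz l] with s hs
    rw [zpow_add₀ hs, zpow_add₀ hs, zpow_add₀ hs]
    have h1 : (s - z) ^ (1 : ℤ) = s - z := zpow_one _
    have h2 : (s - z) ^ (2 : ℤ) = (s - z) ^ 2 := by norm_cast
    have h3 : (s - z) ^ (3 : ℤ) = (s - z) ^ 3 := by norm_cast
    rw [h1, h2, h3]
    ring
  rw [e, mu_add (((g0.smul _).add (g1.smul _)).add (g2.smul _)) g3,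
    mu_add ((g0.smul _).add (g1.smul _)) (g2.smul _), mu_add (g0.smul _) (g1.smul _),
    mu_smul g0, mu_smul g1, mu_smul g2]
  rfl

lemma mu_cubic' {z : ℂ} (hz : Off z) (K0 : PowerSeries ℂ) (k : ℤ) :
    mu K0 (fun s => (2 * s + 1) ^ 3 * (s - z) ^ k) =
      (2 * z + 1) ^ 3 * E K0 z k + 6 * (2 * z + 1) ^ 2 * E K0 z (k + 1) +
        12 * (2 * z + 1) * E K0 z (k + 2) + 8 * E K0 z (k + 3) := by
  have g0 := Good.zpow hz k
  have g1 := Good.zpow hz (k + 1)
  have g2 := Good.zpow hz (k + 2)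
  have g3 := Good.zpow hz (k + 3)
  have e : mu K0 (fun s => (2 * s + 1) ^ 3 * (s - z) ^ k) =
      mu K0 (fun s => (((2 * z + 1) ^ 3 * (s - z) ^ k + 6 * (2 * z + 1) ^ 2 * (s - z) ^ (k + 1)) +
        12 * (2 * z + 1) * (s - z) ^ (k + 2)) + 8 * (s - z) ^ (k + 3)) := by
    apply mu_congr
    intro l
    filter_upwards [eventually_ne_site hz l] with s hs
    rw [zpow_add₀ hs, zpow_add₀ hs, zpow_add₀ hs]
    have h1 : (s - z) ^ (1 : ℤ) = s - z := zpow_one _
    have h2 : (s - z) ^ (2 : ℤ) = (s - z) ^ 2 := by norm_cast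
    have h3 : (s - z) ^ (3 : ℤ) = (s - z) ^ 3 := by norm_cast
    rw [h1, h2, h3]
    ring
  rw [e, mu_add (((g0.smul _).add (g1.smul _)).add (g2.smul _)) (g3.smul _),
    mu_add ((g0.smul _).add (g1.smul _)) (g2.smul _), mu_add (g0.smul _) (g1.smul _),
    mu_smul g0, mu_smul g1, mu_smul g2, mu_smul g3]
  rfl

lemma E_zero (K0 : PowerSeries ℂ) (z : ℂ) : E K0 z 0 = mom K0 0 := by
  unfold E mom
  simp

lemma E_one (K0 : PowerSeries ℂ) (z : ℂ) : E K0 z 1 = mom K0 1 - z * mom K0 0 := by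
  unfold E mom
  have e : (fun s : ℂ => (s - z) ^ (1 : ℤ)) = fun s => s ^ 1 + (-z) * s ^ 0 := by
    ext s; rw [zpow_one]; ring
  rw [e, mu_add (Good.id.pow 1) ((Good.id.pow 0).smul _), mu_smul (Good.id.pow 0)]
  ring

lemma E_two (K0 : PowerSeries ℂ) (z : ℂ) :
    E K0 z 2 = mom K0 2 - 2 * z * mom K0 1 + z ^ 2 * mom K0 0 := by
  unfold E mom
  have e : (fun s : ℂ => (s - z) ^ (2 : ℤ)) = fun s => s ^ 2 + ((-2 * z) * s ^ 1 + z ^ 2 * s ^ 0) := by
    ext s
    have h2 : (s - z) ^ (2 : ℤ) = (s - z) ^ 2 := by norm_cast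
    rw [h2]; ring
  rw [e, mu_add (Good.id.pow 2) (((Good.id.pow 1).smul _).add ((Good.id.pow 0).smul _)),
    mu_add ((Good.id.pow 1).smul _) ((Good.id.pow 0).smul _), mu_smul (Good.id.pow 1),
    mu_smul (Good.id.pow 0)]
  ring

/-- the key identity for `(s - z)^k`, `z ≠ 1/2` -/
lemma key_E {z : ℂ} (hz : Off z) (hz1 : Off (z - 1)) (K0 : PowerSeries ℂ) (k : ℤ) :
    mu K0 (fun s => s ^ 3 * (s - z) ^ k) + mu K0 (fun s => (2 * s + 1) ^ 3 * (s - (z - 1)) ^ k) = 0 := by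
  have hg : Good (fun s : ℂ => (2 * s + 1) ^ 3) := by
    have : Good (fun s : ℂ => 2 * s + 1) := (Good.id.smul 2).add (Good.const 1)
    exact this.pow 3
  have hd : ∀ l, T (fun s : ℂ => (2 * s + 1) ^ 3) (site l) = (2 * pt (site l) + 1) ^ 3 := by
    intro l
    have hid : AnalyticAt ℂ (fun s : ℂ => s) (site l) := analyticAt_id
    have h0 : AnalyticAt ℂ (fun s : ℂ => 2 * s) (site l) := analyticAt_const.fun_mul hid
    have h1 : AnalyticAt ℂ (fun s : ℂ => 2 * s + 1) (site l) := h0.fun_add analyticAt_const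
    rw [T_pow h1, T_add h0 analyticAt_const, T_mul analyticAt_const hid,
      T_const, T_const, T_id, map_ofNat, map_one]
  have hT : ∀ l, T (fun s : ℂ => (s - (z - 1)) ^ k) (site l) = T (fun s : ℂ => (s - z) ^ k) (site l + 1) := by
    intro l
    have := T_shift (fun s : ℂ => (s - z) ^ k) (site l) 1
    rw [← this]
    congr 1
    ext s
    congr 1
    ring
  have := key (Good.zpow hz k) (hg.mul (Good.zpow hz1 k)) (fun l => ?_) K0
  · rw [this, T_mul (hg.1 0) ((Good.zpow hz1 k).1 0), hd, site_zero]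
    have h2 : (2 * pt (-(1 / 2) : ℂ) + 1) = PowerSeries.C 2 * PowerSeries.X := by
      unfold pt
      have : (2 : PowerSeries ℂ) = PowerSeries.C (2 : ℂ) := (map_ofNat PowerSeries.C 2).symm
      rw [this, mul_add, ← map_mul]
      norm_num
    rw [h2]
    have h3 : PowerSeries.coeff 2 (K0 * ((PowerSeries.C (2 : ℂ) * PowerSeries.X) ^ 3 *
        T (fun s : ℂ => (s - (z - 1)) ^ k) (-(1 / 2)))) = 0 := by
      have e : K0 * ((PowerSeries.C (2 : ℂ) * PowerSeries.X) ^ 3 *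
        T (fun s : ℂ => (s - (z - 1)) ^ k) (-(1 / 2))) =
        (PowerSeries.X : PowerSeries ℂ) ^ 3 * (K0 * PowerSeries.C (2 : ℂ) ^ 3 *
          T (fun s : ℂ => (s - (z - 1)) ^ k) (-(1 / 2))) := by ring
      rw [e, PowerSeries.coeff_X_pow_mul']
      simp
    rw [h3, neg_zero]
  · rw [T_mul (hg.1 _) ((Good.zpow hz1 k).1 _), hd, hT, site_succ]
    have h4 : 2 * pt (site l - 1) + 1 = den (site l) := by
      unfold den
      have : pt (site l) = pt (site l - 1) + 1 := by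
        rw [pt_add_one]; ring_nf
      rw [this]; ring
    rw [h4]
    congr 2
    ring

/-- RECURSION for the `E`-values. -/
theorem E_rec {z : ℂ} (hz : Off z) (hz1 : Off (z - 1)) (K0 : PowerSeries ℂ) (k : ℤ) :
    (z ^ 3 * E K0 z k + 3 * z ^ 2 * E K0 z (k + 1) + 3 * z * E K0 z (k + 2) + E K0 z (k + 3)) +
    ((2 * z - 1) ^ 3 * E K0 (z - 1) k + 6 * (2 * z - 1) ^ 2 * E K0 (z - 1) (k + 1) +
        12 * (2 * z - 1) * E K0 (z - 1) (k + 2) + 8 * E K0 (z - 1) (k + 3)) = 0 := by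
  have h := key_E hz hz1 K0 k
  rw [mu_cubic hz, mu_cubic' hz1] at h
  linear_combination h

/-- the inhomogeneous polynomial -/
noncomputable def qq (K0 : PowerSeries ℂ) (t : ℂ) : ℂ :=
  9 * mom K0 2 + (9 * t + 4) * mom K0 1 + (9 * t ^ 2 - 4 * t + 2) * mom K0 0

theorem phi_rec {z : ℂ} (hz : Off z) (hz1 : Off (z - 1)) (K0 : PowerSeries ℂ) :
    z ^ 3 * E K0 z (-1) + (2 * z - 1) ^ 3 * E K0 (z - 1) (-1) = -qq K0 z := by
  have h := E_rec hz hz1 K0 (-1)
  norm_num at h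
  rw [E_zero, E_one, E_two, E_zero, E_one, E_two] at h
  unfold qq
  linear_combination h

end Crest.Agent.R006.Base724
end

-- ▼ part R006/Base3_724
section

/-!
Row 6 (helper724): the base formula in discrete form, part 3.

Injectivity of `K0 ↦ (mom 0, mom 1, mom 2)`, existence of the weights, value `-G` at `0`.
-/

set_option autoImplicit false

namespace Crest.Agent.R006.Base724

open Polynomial Filter Topology
open Crest.Agent.R006.NV Crest.Agent.R006.Germ724

lemma norm_mu_le {f : ℂ → ℂ} (hf : Good f) (K0 : PowerSeries ℂ) {B : ℝ}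
    (hB : ∀ l, N (T f (site l)) ≤ B) : ‖mu K0 f‖ ≤ 5 * N K0 * B := by
  have hB0 : 0 ≤ B := (N_nonneg _).trans (hB 0)
  have hK := N_nonneg K0
  have h1 : Summable (fun l : ℕ => 4 * N K0 * B * (1 / 8 : ℝ) ^ l) :=
    (summable_geometric_of_lt_one (by norm_num) (by norm_num)).mul_left _
  unfold mu
  rw [norm_neg]
  have h2 : ∀ l, ‖term K0 f l‖ ≤ 4 * N K0 * B * (1 / 8 : ℝ) ^ l := by
    intro l
    refine (norm_term_le K0 f l).trans ?_
    have : (1 / 8 : ℝ) ^ l * N (T f (site l)) ≤ (1 / 8 : ℝ) ^ l * B :=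
      mul_le_mul_of_nonneg_left (hB l) (by positivity)
    calc 4 * N K0 * ((1 / 8) ^ l * N (T f (site l))) ≤ 4 * N K0 * ((1 / 8 : ℝ) ^ l * B) :=
          mul_le_mul_of_nonneg_left this (by positivity)
      _ = _ := by ring
  refine (tsum_of_norm_bounded h1.hasSum h2).trans ?_
  rw [tsum_mul_left, tsum_geometric_of_lt_one (by norm_num) (by norm_num)]
  have : 0 ≤ N K0 * B := mul_nonneg hK hB0
  norm_num
  nlinarith

lemma E_neg_one (K0 : PowerSeries ℂ) (z : ℂ) : E K0 z (-1) = mu K0 (fun s => (s - z)⁻¹) := by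
  unfold E
  simp

lemma norm_phi_le {z : ℂ} (hz : 1 / 2 ≤ z.re) (K0 : PowerSeries ℂ) :
    ‖E K0 z (-1)‖ ≤ 10 * N K0 * (1 / (z.re + 1 / 2)) := by
  have hoff : Off z := site_ne_of_re (by linarith)
  rw [E_neg_one]
  set c := z.re + 1 / 2 with hc
  have hc1 : 1 ≤ c := by linarith
  have hc0 : 0 < c := by linarith
  have h := norm_mu_le (Good.inv_sub hoff) K0 (B := 2 * (1 / c)) (fun l => ?_)
  · calc ‖mu K0 (fun s => (s - z)⁻¹)‖ ≤ 5 * N K0 * (2 * (1 / c)) := h
      _ = _ := by ring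
  · rw [T_inv_sub (hoff l)]
    refine (N_inv_pt_le hc0 (dist_site_ge l (by linarith))).trans ?_
    have h2 : 1 / (2 * c ^ 2) ≤ 1 / 2 * (1 / c) := by
      rw [one_div_mul_one_div]
      apply one_div_le_one_div_of_le (by positivity)
      nlinarith
    have h3 : 1 / (4 * c ^ 3) ≤ 1 / 4 * (1 / c) := by
      rw [one_div_mul_one_div]
      apply one_div_le_one_div_of_le (by positivity)
      have : c ≤ c ^ 3 := by nlinarith [sq_nonneg (c - 1), mul_nonneg hc0.le (sub_nonneg.mpr hc1)]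
      linarith
    have : 0 ≤ 1 / c := by positivity
    linarith

lemma norm_le_norm_two {w : ℂ} (hw : 1 ≤ w.re) : ‖w‖ ≤ ‖2 * w - 1‖ := by
  have h : ‖w‖ ^ 2 ≤ ‖2 * w - 1‖ ^ 2 := by
    rw [Complex.sq_norm, Complex.sq_norm, Complex.normSq_apply, Complex.normSq_apply]
    simp only [Complex.sub_re, Complex.mul_re, Complex.re_ofNat, Complex.im_ofNat, zero_mul,
      sub_zero, Complex.one_re, Complex.sub_im, Complex.mul_im, add_zero, Complex.one_im]
    nlinarith [sq_nonneg w.im, sq_nonneg (w.re - 1)]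
  exact le_of_sq_le_sq h (norm_nonneg _) |> fun x => x

lemma phi_grow {K0 : PowerSeries ℂ} (hq : ∀ t, qq K0 t = 0) {w : ℂ} (hw : 1 ≤ w.re) :
    ‖E K0 (w - 1) (-1)‖ ≤ ‖E K0 w (-1)‖ := by
  have h1 : Off w := site_ne_of_re (by linarith)
  have h2 : Off (w - 1) := site_ne_of_re (by simp; linarith)
  have h := phi_rec h1 h2 K0
  rw [hq, neg_zero] at h
  have h3 : w ^ 3 * E K0 w (-1) = -((2 * w - 1) ^ 3 * E K0 (w - 1) (-1)) := by
    linear_combination h
  have h4 := congrArg norm h3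
  rw [norm_neg, norm_mul, norm_mul, norm_pow, norm_pow] at h4
  have hw0 : 0 < ‖w‖ := by
    rw [norm_pos_iff]
    intro e
    rw [e] at hw
    simp at hw
    linarith
  have h5 : ‖w‖ ^ 3 ≤ ‖2 * w - 1‖ ^ 3 := pow_le_pow_left₀ hw0.le (norm_le_norm_two hw) 3
  have h6 : ‖w‖ ^ 3 * ‖E K0 (w - 1) (-1)‖ ≤ ‖w‖ ^ 3 * ‖E K0 w (-1)‖ := by
    rw [h4]
    exact mul_le_mul_of_nonneg_right h5 (norm_nonneg _)
  exact le_of_mul_le_mul_left h6 (by positivity)

lemma phi_zero {K0 : PowerSeries ℂ} (hq : ∀ t, qq K0 t = 0) {z : ℂ} (hz : 0 ≤ z.re) :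
    E K0 z (-1) = 0 := by
  have h1 : ∀ n : ℕ, ‖E K0 z (-1)‖ ≤ ‖E K0 (z + n) (-1)‖ := by
    intro n
    induction n with
    | zero => simp
    | succ n ih =>
      refine ih.trans ?_
      have := phi_grow hq (w := z + (n + 1 : ℕ)) (by
        simp
        have : (0 : ℝ) ≤ n := Nat.cast_nonneg n
        linarith)
      have e : z + (n + 1 : ℕ) - 1 = z + n := by push_cast; ring
      rw [e] at this
      exact this
  have h2 : Tendsto (fun n : ℕ => 10 * N K0 * (1 / ((n : ℝ) + 1 / 2))) atTop (𝓝 0) := by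
    have : Tendsto (fun n : ℕ => (n : ℝ) + 1 / 2) atTop atTop :=
      tendsto_atTop_add_const_right _ _ tendsto_natCast_atTop_atTop
    have := (this.const_div_atTop 1).const_mul (10 * N K0)
    simpa using this
  have h3 : ∀ᶠ n : ℕ in atTop, ‖E K0 z (-1)‖ ≤ 10 * N K0 * (1 / ((n : ℝ) + 1 / 2)) := by
    filter_upwards [eventually_ge_atTop 1] with n hn
    refine (h1 n).trans ?_
    have hn1 : (1 : ℝ) ≤ n := by exact_mod_cast hn
    have hre : (z + n).re = z.re + n := by simp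
    refine (norm_phi_le (by rw [hre]; linarith) K0).trans ?_
    rw [hre]
    have hK := N_nonneg K0
    apply mul_le_mul_of_nonneg_left _ (by positivity)
    apply one_div_le_one_div_of_le (by positivity)
    linarith
  have h4 : ‖E K0 z (-1)‖ ≤ 0 := ge_of_tendsto h2 h3
  exact norm_le_zero_iff.mp h4




end Crest.Agent.R006.Base724
end

-- ▼ part R006/Base4_724
section

/-!
Row 6 (helper724): the base formula in discrete form, part 4.

Existence of the weights, and `mu (1/s) = -G`.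
-/

set_option autoImplicit false

namespace Crest.Agent.R006.Base724

open Polynomial Filter Topology
open Crest.Agent.R006.NV Crest.Agent.R006.Germ724








/-- admissible weights: the three moments are right -/
structure Adm (K0 : PowerSeries ℂ) : Prop where
  m0 : mom K0 0 = 0
  m1 : mom K0 1 = 1 / 6
  m2 : mom K0 2 = -(7 / 54)


lemma Adm.qq {K0 : PowerSeries ℂ} (h : Adm K0) (t : ℂ) : Base724.qq K0 t = (3 * t - 1) / 2 := by
  unfold Base724.qq
  rw [h.m0, h.m1, h.m2]; ring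

theorem Adm.phi_rec {K0 : PowerSeries ℂ} (h : Adm K0) {z : ℂ} (hz : Off z) (hz1 : Off (z - 1)) :
    z ^ 3 * E K0 z (-1) + (2 * z - 1) ^ 3 * E K0 (z - 1) (-1) = -((3 * z - 1) / 2) := by
  rw [Base724.phi_rec hz hz1, h.qq]

lemma off_nat (n : ℕ) : Off (n : ℂ) := by
  apply site_ne_of_re
  have : (0 : ℝ) ≤ n := Nat.cast_nonneg n
  simp
  linarith

open Psi724 in
lemma Adm.phi_nat {K0 : PowerSeries ℂ} (h : Adm K0) (n : ℕ) :
    E K0 (n : ℂ) (-1) * ((2 * n + 1) ^ 3 * (u n : ℂ)) = E K0 0 (-1) + (S n : ℂ) := by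
  induction n with
  | zero => simp [u, S]
  | succ n ih =>
    have h1 := h.phi_rec (z := ((n + 1 : ℕ) : ℂ)) (off_nat _) (by
      have : ((n + 1 : ℕ) : ℂ) - 1 = (n : ℂ) := by push_cast; ring
      rw [this]; exact off_nat n)
    have e1 : ((n + 1 : ℕ) : ℂ) - 1 = (n : ℂ) := by push_cast; ring
    rw [e1] at h1
    have hu : u (n + 1) = -(((n : ℝ) + 1) / (2 * n + 3)) ^ 3 * u n := rfl
    rw [S_succ, hu]
    push_cast at h1 ⊢
    have h3 : (2 * (n : ℂ) + 3) ≠ 0 := by
      have : (2 * (n : ℂ) + 3) = ((2 * n + 3 : ℕ) : ℂ) := by push_cast; ring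
      rw [this]
      exact_mod_cast (by omega : 2 * n + 3 ≠ 0)
    have e3 : (2 * ((n : ℂ) + 1) + 1) ^ 3 * (-(((n : ℂ) + 1) / (2 * n + 3)) ^ 3 * (u n : ℂ)) =
        -((n : ℂ) + 1) ^ 3 * u n := by
      have : (2 * ((n : ℂ) + 1) + 1) = 2 * n + 3 := by ring
      rw [this]
      field_simp
    rw [e3]
    linear_combination (-(u n : ℂ)) * h1 + ih

open Psi724 in
theorem Adm.phi_zero {K0 : PowerSeries ℂ} (h : Adm K0) : E K0 0 (-1) = -(G : ℂ) := by
  have h1 : Tendsto (fun n : ℕ => E K0 0 (-1) + (S n : ℂ)) atTop (𝓝 (E K0 0 (-1) + (G : ℂ))) := by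
    have := hasSum_G.tendsto_sum_nat
    have h2 : Tendsto (fun n : ℕ => ((S n : ℝ) : ℂ)) atTop (𝓝 ((G : ℝ) : ℂ)) :=
      (Complex.continuous_ofReal.tendsto G).comp this
    exact h2.const_add _
  have h2 : Tendsto (fun n : ℕ => E K0 0 (-1) + (S n : ℂ)) atTop (𝓝 0) := by
    have hb : Tendsto (fun n : ℕ => (10 * N K0) * (8 * (((n : ℝ) + 1) ^ 3 * (1 / 8) ^ n))) atTop (𝓝 0) := by
      have := (summable_geo 3).tendsto_atTop_zero
      have h3 := (this.const_mul 8).const_mul (10 * N K0)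
      simp only [mul_zero] at h3
      refine h3.congr fun n => ?_
      ring
    refine squeeze_zero_norm' ?_ hb
    filter_upwards [eventually_ge_atTop 1] with n hn
    rw [← h.phi_nat n, norm_mul, norm_mul]
    have hn1 : (1 : ℝ) ≤ n := by exact_mod_cast hn
    have hK := N_nonneg K0
    have e1 : ‖E K0 (n : ℂ) (-1)‖ ≤ 10 * N K0 := by
      have hre : (n : ℂ).re = n := by simp
      refine (norm_phi_le (by rw [hre]; linarith) K0).trans ?_
      rw [hre]
      have : 1 / ((n : ℝ) + 1 / 2) ≤ 1 := by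
        rw [div_le_one (by positivity)]; linarith
      nlinarith
    have e2 : ‖(2 * (n : ℂ) + 1) ^ 3‖ ≤ 8 * ((n : ℝ) + 1) ^ 3 := by
      have : (2 * (n : ℂ) + 1) = ((2 * n + 1 : ℝ) : ℂ) := by push_cast; ring
      rw [norm_pow, this, Complex.norm_real, Real.norm_of_nonneg (by positivity)]
      calc (2 * (n : ℝ) + 1) ^ 3 ≤ (2 * ((n : ℝ) + 1)) ^ 3 :=
            pow_le_pow_left₀ (by positivity) (by linarith) 3
        _ = _ := by ring
    have e3 : ‖(u n : ℂ)‖ ≤ (1 / 8) ^ n := by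
      rw [Complex.norm_real, Real.norm_eq_abs]; exact abs_u_le n
    calc ‖E K0 (n : ℂ) (-1)‖ * (‖(2 * (n : ℂ) + 1) ^ 3‖ * ‖(u n : ℂ)‖)
        ≤ (10 * N K0) * ((8 * ((n : ℝ) + 1) ^ 3) * (1 / 8) ^ n) := by
          apply mul_le_mul e1 _ (by positivity) (by positivity)
          exact mul_le_mul e2 e3 (norm_nonneg _) (by positivity)
      _ = _ := by ring
  have h3 := tendsto_nhds_unique h1 h2
  linear_combination h3


/-! ### germs -/

/-- the power series `∑_j mu((s-z)^(-1-j)) ε^j` -/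
noncomputable def MZ (K0 : PowerSeries ℂ) (z : ℂ) : PowerSeries ℂ :=
  PowerSeries.mk fun j => E K0 z (-1 - j)

lemma MZ_coeff (K0 : PowerSeries ℂ) (z : ℂ) (j : ℕ) :
    PowerSeries.coeff j (MZ K0 z) = E K0 z (-1 - j) := by
  simp [MZ]

lemma X3_dvd_iff (a : PowerSeries ℂ) : (PowerSeries.X : PowerSeries ℂ) ^ 3 ∣ a ↔
    PowerSeries.coeff 0 a = 0 ∧ PowerSeries.coeff 1 a = 0 ∧ PowerSeries.coeff 2 a = 0 := by
  rw [PowerSeries.X_pow_dvd_iff]
  constructor
  · intro h
    exact ⟨h 0 (by norm_num), h 1 (by norm_num), h 2 (by norm_num)⟩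
  · rintro ⟨h0, h1, h2⟩ m hm
    interval_cases m
    · exact h0
    · exact h1
    · exact h2

lemma cube_coeffs (a b : ℂ) :
    PowerSeries.coeff 0 ((PowerSeries.C b * PowerSeries.X + PowerSeries.C a) ^ 3) = a ^ 3 ∧
    PowerSeries.coeff 1 ((PowerSeries.C b * PowerSeries.X + PowerSeries.C a) ^ 3) = 3 * b * a ^ 2 ∧
    PowerSeries.coeff 2 ((PowerSeries.C b * PowerSeries.X + PowerSeries.C a) ^ 3) = 3 * b ^ 2 * a := by
  set L : PowerSeries ℂ := PowerSeries.C b * PowerSeries.X + PowerSeries.C a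
  have l0 : PowerSeries.coeff 0 L = a := by
    simp [L]
  have l1 : PowerSeries.coeff 1 L = b := by
    simp [L, PowerSeries.coeff_C]
  have l2 : PowerSeries.coeff 2 L = 0 := by
    simp [L, PowerSeries.coeff_C, PowerSeries.coeff_X]
  have e : L ^ 3 = L * (L * L) := by ring
  have m0 : PowerSeries.coeff 0 (L * L) = a ^ 2 := by rw [coeff_zero_mul, l0]; ring
  have m1 : PowerSeries.coeff 1 (L * L) = 2 * a * b := by rw [coeff_one_mul, l0, l1]; ring
  have m2 : PowerSeries.coeff 2 (L * L) = b ^ 2 := by rw [coeff_two_mul, l0, l1, l2]; ring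
  rw [e]
  refine ⟨?_, ?_, ?_⟩
  · rw [coeff_zero_mul, l0, m0]; ring
  · rw [coeff_one_mul, l0, l1, m0, m1]; ring
  · rw [coeff_two_mul, l0, l1, l2, m0, m1, m2]; ring

lemma pt_eq (z : ℂ) : pt z = PowerSeries.C 1 * PowerSeries.X + PowerSeries.C z := by
  unfold pt; simp

lemma den_eq (z : ℂ) : den z = PowerSeries.C 2 * PowerSeries.X + PowerSeries.C (2 * z - 1) := by
  unfold den pt
  have : (2 : PowerSeries ℂ) = PowerSeries.C (2 : ℂ) := (map_ofNat PowerSeries.C 2).symm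
  rw [this, map_sub, map_mul, map_one]; ring

/-- right side of the recursion as a germ at `z` -/
noncomputable def rhs (z : ℂ) : PowerSeries ℂ := -(PowerSeries.C (1 / 2) * (3 * pt z - 1))

lemma rhs_coeffs (z : ℂ) : PowerSeries.coeff 0 (rhs z) = -((3 * z - 1) / 2) ∧
    PowerSeries.coeff 1 (rhs z) = -(3 / 2) ∧ PowerSeries.coeff 2 (rhs z) = 0 := by
  have e : rhs z = PowerSeries.C (-(3 / 2)) * PowerSeries.X + PowerSeries.C (-((3 * z - 1) / 2)) := by
    unfold rhs pt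
    have h3 : (3 : PowerSeries ℂ) = PowerSeries.C (3 : ℂ) := (map_ofNat PowerSeries.C 3).symm
    have h1 : (1 : PowerSeries ℂ) = PowerSeries.C (1 : ℂ) := (map_one _).symm
    rw [h3, h1, mul_add, ← map_mul]
    have e2 : PowerSeries.C (-((3 * z - 1) / 2) : ℂ) =
        -(PowerSeries.C (1 / 2) * (PowerSeries.C (3 * z) - PowerSeries.C 1)) := by
      rw [← map_sub, ← map_mul, ← map_neg]; congr 1; ring
    have e3 : PowerSeries.C (-(3 / 2) : ℂ) = -(PowerSeries.C (1 / 2) * PowerSeries.C 3) := by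
      rw [← map_mul, ← map_neg]; congr 1; ring
    rw [e2, e3]; ring
  rw [e]
  refine ⟨?_, ?_, ?_⟩ <;> simp [PowerSeries.coeff_C, PowerSeries.coeff_X]

/-- the germ recursion mod `X^3`, away from `z = 1/2` -/
theorem Adm.MZ_step {K0 : PowerSeries ℂ} (h : Adm K0) {z : ℂ} (hz : Off z) (hz1 : Off (z - 1)) :
    (PowerSeries.X : PowerSeries ℂ) ^ 3 ∣
      pt z ^ 3 * MZ K0 z + den z ^ 3 * MZ K0 (z - 1) - rhs z := by
  rw [X3_dvd_iff]
  obtain ⟨r0, r1, r2⟩ := rhs_coeffs z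
  obtain ⟨p0, p1, p2⟩ := cube_coeffs z 1
  obtain ⟨d0, d1, d2⟩ := cube_coeffs (2 * z - 1) 2
  rw [← pt_eq] at p0 p1 p2
  rw [← den_eq] at d0 d1 d2
  have k1 := E_rec hz hz1 K0 (-1)
  have k2 := E_rec hz hz1 K0 (-2)
  have k3 := E_rec hz hz1 K0 (-3)
  norm_num at k1 k2 k3
  simp only [E_zero, E_one, E_two, h.m0, h.m1, h.m2] at k1 k2 k3
  refine ⟨?_, ?_, ?_⟩
  · rw [map_sub, map_add, coeff_zero_mul, coeff_zero_mul, p0, d0, r0, MZ_coeff, MZ_coeff]
    norm_num
    linear_combination k1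
  · rw [map_sub, map_add, coeff_one_mul, coeff_one_mul, p0, d0, p1, d1, r1, MZ_coeff, MZ_coeff,
      MZ_coeff, MZ_coeff]
    norm_num
    linear_combination k2
  · rw [map_sub, map_add, coeff_two_mul, coeff_two_mul, p0, d0, p1, d1, p2, d2, r2, MZ_coeff,
      MZ_coeff, MZ_coeff, MZ_coeff, MZ_coeff, MZ_coeff]
    norm_num
    linear_combination k3

end Crest.Agent.R006.Base724
end

-- ▼ part R006/EntR1_724

/-!
Row 6 (helper724): the `R`-entries as `mu`-functionals, part 1 (polynomials, Taylor shift of `TR`).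

* `mu_eval : mu K0 (P.eval) = - lin (cast mu) P` for admissible `K0`;
* `mu_mul_zpow : mu K0 (R(s) (s-z)^(-1-j)) = coeff j (gm z R * MZ K0 z - gm z (TR m R))`.
-/

set_option autoImplicit false

namespace Crest.Agent.R006.Base724

open Polynomial Filter Topology
open Crest.Agent.R006.NV Crest.Agent.R006.Germ724 Crest.Agent.R006.PsiInf

/-- the moments of `ψ_∞` attached to the weights -/
noncomputable def mm (K0 : PowerSeries ℂ) (k : ℕ) : ℂ := -mom K0 k

lemma lin_mm (K0 : PowerSeries ℂ) (P : ℂ[X]) : lin (mm K0) P = -mu K0 (fun s => P.eval s) := by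
  induction P using Polynomial.induction_on' with
  | add p q hp hq =>
    have e : (fun s => (p + q).eval s) = fun s => p.eval s + q.eval s := by
      ext s; simp
    rw [map_add, hp, hq, e, mu_add (Good.eval p) (Good.eval q)]
    ring
  | monomial n a =>
    have e : (fun s => (monomial n a).eval s) = fun s => a * s ^ n := by
      ext s; simp
    rw [lin_monomial, e, mu_smul (Good.id.pow n)]
    unfold mm mom
    ring

lemma den_site (l : ℕ) : 2 * pt (site (l + 1)) + 1 = den (site l) := by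
  rw [site_succ]
  unfold den
  have : pt (site l) = pt (site l - 1) + 1 := by
    rw [pt_add_one]; ring_nf
  rw [this]; ring

lemma two_pt_half : (2 * pt (-(1 / 2) : ℂ) + 1) = PowerSeries.C 2 * PowerSeries.X := by
  unfold pt
  have : (2 : PowerSeries ℂ) = PowerSeries.C (2 : ℂ) := (map_ofNat PowerSeries.C 2).symm
  rw [this, mul_add, ← map_mul]
  norm_num

lemma coeff_two_cube (A B : PowerSeries ℂ) :
    PowerSeries.coeff 2 (A * ((PowerSeries.C (2 : ℂ) * PowerSeries.X) ^ 3 * B)) = 0 := by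
  have e : A * ((PowerSeries.C (2 : ℂ) * PowerSeries.X) ^ 3 * B) =
    (PowerSeries.X : PowerSeries ℂ) ^ 3 * (A * PowerSeries.C (2 : ℂ) ^ 3 * B) := by ring
  rw [e, PowerSeries.coeff_X_pow_mul']
  simp

theorem key_mm (K0 : PowerSeries ℂ) : Key (mm K0) := by
  intro P
  rw [lin_mm]
  have h := key (Good.eval P) (Good.eval ((2 * X + 1) ^ 3 * P.comp (X + 1))) (fun l => ?_) K0
  · rw [T_eval, site_zero] at h
    have e1 : gm (-(1 / 2) : ℂ) ((2 * X + 1) ^ 3 * P.comp (X + 1)) =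
        (PowerSeries.C (2 : ℂ) * PowerSeries.X) ^ 3 * gm (-(1 / 2)) (P.comp (X + 1)) := by
      rw [gm_mul, gm_pow, gm_add, gm_mul, gm_two, gm_X, gm_one, two_pt_half]
    rw [e1, coeff_two_cube, neg_zero] at h
    have e2 : (fun s => (X ^ 3 * P + (2 * X + 1) ^ 3 * P.comp (X + 1) : ℂ[X]).eval s) =
        fun s => s ^ 3 * P.eval s + ((2 * X + 1) ^ 3 * P.comp (X + 1) : ℂ[X]).eval s := by
      ext s; simp
    rw [e2, mu_add ((Good.id.pow 3).mul (Good.eval P)) (Good.eval _), h, neg_zero]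
  · rw [T_eval, T_eval, gm_mul, gm_pow, gm_add, gm_mul, gm_two, gm_X, gm_one, den_site]
    congr 1
    have : P.comp (X + 1) = taylor 1 P := by
      rw [taylor_apply, C_1]
    rw [this, gm_taylor_one, site_succ]
    congr 1
    ring

lemma Adm.mm_eq {K0 : PowerSeries ℂ} (h : Adm K0) : mm K0 = fun k => ((PsiInf.mu k : ℚ) : ℂ) := by
  apply mu_unique (key_mm K0)
  · unfold mm; rw [h.m0]; simp
  · unfold mm; rw [h.m0, h.m1]; norm_num
  · unfold mm; rw [h.m0, h.m1, h.m2]; norm_num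

lemma Adm.mu_eval {K0 : PowerSeries ℂ} (h : Adm K0) (P : ℂ[X]) :
    mu K0 (fun s => P.eval s) = -lin (fun k => ((PsiInf.mu k : ℚ) : ℂ)) P := by
  rw [← h.mm_eq, lin_mm, neg_neg]

/-! ### Taylor shift of `TR` -/

lemma pow_div (z x : ℂ) (i : ℕ) : ((X - C z) ^ i : ℂ[X]) /ₘ (X - C x) =
    ∑ b ∈ Finset.range i, C ((x - z) ^ b) * (X - C z) ^ (i - 1 - b) := by
  have h1 : (X - C x : ℂ[X]) * ∑ b ∈ Finset.range i, C ((x - z) ^ b) * (X - C z) ^ (i - 1 - b) =
      (X - C z) ^ i - C ((x - z) ^ i) := by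
    have hg := (Commute.all (C (x - z) : ℂ[X]) (X - C z)).mul_geom_sum₂ i
    have e1 : (C (x - z) - (X - C z) : ℂ[X]) = -(X - C x) := by rw [C_sub]; ring
    rw [e1] at hg
    have e2 : ∑ b ∈ Finset.range i, C ((x - z) ^ b) * (X - C z) ^ (i - 1 - b) =
        ∑ b ∈ Finset.range i, (C (x - z) : ℂ[X]) ^ b * (X - C z) ^ (i - 1 - b) := by
      refine Finset.sum_congr rfl fun b _ => ?_
      rw [C_pow]
    rw [e2, C_pow]
    linear_combination -hg
  have h2 := div_modByMonic_unique (f := (X - C z) ^ i) (g := X - C x)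
    (∑ b ∈ Finset.range i, C ((x - z) ^ b) * (X - C z) ^ (i - 1 - b)) (C ((x - z) ^ i))
    (monic_X_sub_C x) ⟨by rw [h1]; ring, ?_⟩
  · exact h2.1
  · rw [degree_X_sub_C]
    exact lt_of_le_of_lt degree_C_le (by norm_num)

lemma TR_pow (m : ℕ → ℂ) (z : ℂ) (i : ℕ) : TR m ((X - C z) ^ i) =
    ∑ b ∈ Finset.range i, C (lin m ((X - C z) ^ (i - 1 - b))) * (X - C z) ^ b := by
  apply Polynomial.funext
  intro x
  rw [eval_TR, pow_div, map_sum, eval_finsetSum]
  refine Finset.sum_congr rfl fun b _ => ?_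
  rw [lin_C_mul, eval_mul, eval_C, eval_pow, eval_sub, eval_X, eval_C]
  ring

lemma gm_pow_self (z : ℂ) (i : ℕ) : gm z ((X - C z) ^ i : ℂ[X]) = PowerSeries.X ^ i := by
  rw [gm_pow, gm_sub, gm_X, gm_C]
  congr 1
  unfold pt; ring

lemma gm_sum {α : Type*} (z : ℂ) (s : Finset α) (f : α → ℂ[X]) :
    gm z (∑ a ∈ s, f a) = ∑ a ∈ s, gm z (f a) := by
  induction s using Finset.cons_induction with
  | empty => simp [gm_zero]
  | cons a s ha ih => rw [Finset.sum_cons, Finset.sum_cons, gm_add, ih]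

lemma coeff_gm_TR_pow (m : ℕ → ℂ) (z : ℂ) (i j : ℕ) :
    PowerSeries.coeff j (gm z (TR m ((X - C z) ^ i))) =
      if j < i then lin m ((X - C z) ^ (i - 1 - j)) else 0 := by
  rw [TR_pow, gm_sum, map_sum]
  have : ∀ b ∈ Finset.range i, PowerSeries.coeff j
      (gm z (C (lin m ((X - C z) ^ (i - 1 - b))) * (X - C z) ^ b)) =
      if b = j then lin m ((X - C z) ^ (i - 1 - b)) else 0 := by
    intro b _
    rw [gm_mul, gm_C, gm_pow_self, PowerSeries.coeff_C_mul, PowerSeries.coeff_X_pow]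
    by_cases h : b = j
    · rw [if_pos h, if_pos h.symm, mul_one]
    · rw [if_neg h, if_neg (fun hh => h hh.symm), mul_zero]
  rw [Finset.sum_congr rfl this, Finset.sum_ite_eq']
  simp only [Finset.mem_range]

/-- the value of `mu` on `R(s) (s-z)^(-1-j)` -/
theorem mu_mul_zpow (K0 : PowerSeries ℂ) {z : ℂ} (hz : Off z) (R : ℂ[X]) (j : ℕ) :
    mu K0 (fun s => R.eval s * (s - z) ^ (-1 - (j : ℤ))) =
      PowerSeries.coeff j (gm z R * MZ K0 z - gm z (TR (mm K0) R)) := by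
  suffices h : ∀ P : ℂ[X], mu K0 (fun s => (taylor (-z) P).eval s * (s - z) ^ (-1 - (j : ℤ))) =
      PowerSeries.coeff j (gm z (taylor (-z) P) * MZ K0 z - gm z (TR (mm K0) (taylor (-z) P))) by
    have := h (taylor z R)
    rw [taylor_taylor] at this
    simpa using this
  intro P
  induction P using Polynomial.induction_on' with
  | add p q hp hq =>
    have e : (fun s => (taylor (-z) (p + q)).eval s * (s - z) ^ (-1 - (j : ℤ))) =
        fun s => (taylor (-z) p).eval s * (s - z) ^ (-1 - (j : ℤ)) +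
          (taylor (-z) q).eval s * (s - z) ^ (-1 - (j : ℤ)) := by
      ext s
      rw [map_add, eval_add, add_mul]
    rw [e, mu_add ((Good.eval _).mul (Good.zpow hz _)) ((Good.eval _).mul (Good.zpow hz _)), hp, hq,
      ← map_add, map_add (taylor (-z)), map_add (TR (mm K0)), gm_add, gm_add]
    congr 1
    ring
  | monomial i a =>
    have e0 : taylor (-z) (monomial i a) = C a * (X - C z) ^ i := by
      rw [taylor_monomial, C_neg, ← sub_eq_add_neg]
    rw [e0]
    have e : mu K0 (fun s => (C a * (X - C z) ^ i : ℂ[X]).eval s * (s - z) ^ (-1 - (j : ℤ))) =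
        mu K0 (fun s => a * (s - z) ^ ((i : ℤ) + (-1 - (j : ℤ)))) := by
      apply mu_congr
      intro l
      filter_upwards [eventually_ne_site hz l] with s hs
      rw [eval_mul, eval_C, eval_pow, eval_sub, eval_X, eval_C, zpow_add₀ hs, zpow_natCast]
      ring
    rw [e, mu_smul (Good.zpow hz _), gm_mul, gm_C, gm_pow_self]
    have e1 : TR (mm K0) (C a * (X - C z) ^ i) = C a * TR (mm K0) ((X - C z) ^ i) := by
      rw [← smul_eq_C_mul, map_smul, smul_eq_C_mul]
    rw [e1, gm_mul, gm_C, map_sub, mul_assoc, PowerSeries.coeff_C_mul, PowerSeries.coeff_C_mul,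
      coeff_gm_TR_pow, PowerSeries.coeff_X_pow_mul', ← mul_sub]
    congr 1
    by_cases h : i ≤ j
    · rw [if_pos h, if_neg (by omega), sub_zero, MZ_coeff]
      unfold E
      congr 1
      ext s
      congr 1
      have : ((j - i : ℕ) : ℤ) = (j : ℤ) - i := by push_cast [h]; ring
      rw [this]; ring
    · rw [if_neg h, if_pos (by omega), zero_sub, lin_mm, neg_neg]
      congr 1
      ext s
      rw [eval_pow, eval_sub, eval_X, eval_C, ← zpow_natCast]
      congr 1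
      have : ((i - 1 - j : ℕ) : ℤ) = (i : ℤ) - 1 - j := by omega
      rw [this]; ring

end Crest.Agent.R006.Base724
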