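import Mathlib
import Crest.Agent.R006.Defs

-- ▼ part R006/Ded
section

set_option autoImplicit false

/-!
# Row 6 (Catalan), shape independent deduction (helper89)

If `G` were rational, an integer polynomial of degree `≤ C D` with nonzero value at `G` would have
value at least `exp (-C D log q)`; a family with values `≤ exp (-c D²)` is impossible.
-/

namespace Crest.Agent.R006

open Polynomial

/-- lower bound for an integer polynomial at a rational point -/
theorem one_le_den_pow_mul (P : ℤ[X]) (r : ℚ) (h : aeval (r : ℝ) P ≠ 0) :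
    1 ≤ (r.den : ℝ) ^ P.natDegree * |aeval (r : ℝ) P| := by
  -- q^n P(p/q) is an integer
  obtain ⟨z, hz⟩ : ∃ z : ℤ, (z : ℝ) = (r.den : ℝ) ^ P.natDegree * aeval (r : ℝ) P := by
    refine ⟨∑ i ∈ Finset.range (P.natDegree + 1),
      P.coeff i * r.num ^ i * (r.den : ℤ) ^ (P.natDegree - i), ?_⟩
    rw [aeval_eq_sum_range, Finset.mul_sum]
    push_cast
    refine Finset.sum_congr rfl fun i hi => ?_
    have hi' : i ≤ P.natDegree := Nat.lt_succ_iff.mp (Finset.mem_range.mp hi)
    have hd : (r.den : ℝ) ≠ 0 := by exact_mod_cast r.den_nz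
    have hr : (r : ℝ) = (r.num : ℝ) / (r.den : ℝ) := by
      have := Rat.num_div_den r
      exact_mod_cast this.symm
    rw [hr, zsmul_eq_mul, div_pow]
    have hsplit : (r.den : ℝ) ^ P.natDegree = (r.den : ℝ) ^ i * (r.den : ℝ) ^ (P.natDegree - i) := by
      rw [← pow_add]; congr 1; omega
    rw [hsplit]
    field_simp
  have hz0 : z ≠ 0 := by
    rintro rfl
    have hd : (r.den : ℝ) ^ P.natDegree ≠ 0 := pow_ne_zero _ (by exact_mod_cast r.den_nz)
    have : (r.den : ℝ) ^ P.natDegree * aeval (r : ℝ) P = 0 := by rw [← hz]; simp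
    rcases mul_eq_zero.mp this with h1 | h1
    · exact hd h1
    · exact h h1
  have h1 : (1 : ℝ) ≤ |(z : ℝ)| := by
    have : (1 : ℤ) ≤ |z| := Int.one_le_abs hz0
    exact_mod_cast this
  have hpos : (0 : ℝ) ≤ (r.den : ℝ) ^ P.natDegree := by positivity
  rw [hz, abs_mul, abs_of_nonneg hpos] at h1
  exact h1

/-- Deduction, integer polynomials. The family may be produced under the assumption that `G` is
rational (this is used for the nonvanishing). -/
theorem irrational_of_int_polys (G C c : ℝ) (hc : 0 < c)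
    (h : ∀ r : ℚ, (r : ℝ) = G → ∀ D0 : ℕ, ∃ D : ℕ, D0 ≤ D ∧ ∃ P : ℤ[X],
      (P.natDegree : ℝ) ≤ C * D ∧ aeval G P ≠ 0 ∧ |aeval G P| ≤ Real.exp (-c * (D : ℝ) ^ 2)) :
    Irrational G := by
  rintro ⟨r, hr⟩
  have hden : (1 : ℝ) ≤ (r.den : ℝ) := by exact_mod_cast r.pos
  have hlog : 0 ≤ Real.log (r.den : ℝ) := Real.log_nonneg hden
  obtain ⟨D0, hD0⟩ := exists_nat_gt (|C| * Real.log (r.den : ℝ) / c)
  obtain ⟨D, hD, P, hdeg, hne, hle⟩ := h r hr (D0 + 1)
  have hDpos : (0 : ℝ) < D := by
    have : 0 < D := by omega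
    exact_mod_cast this
  have hDgt : |C| * Real.log (r.den : ℝ) / c < D := by
    refine hD0.trans_le ?_
    exact_mod_cast (by omega : D0 ≤ D)
  have h1 := one_le_den_pow_mul P r (by rw [hr]; exact hne)
  rw [hr] at h1
  have h2 : (r.den : ℝ) ^ P.natDegree ≤ Real.exp (|C| * D * Real.log (r.den : ℝ)) := by
    have : (r.den : ℝ) ^ P.natDegree = Real.exp (P.natDegree * Real.log (r.den : ℝ)) := by
      rw [Real.exp_nat_mul, Real.exp_log (by linarith)]
    rw [this]
    apply Real.exp_le_exp.mpr
    apply mul_le_mul_of_nonneg_right _ hlog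
    refine hdeg.trans ?_
    exact mul_le_mul_of_nonneg_right (le_abs_self C) hDpos.le
  have h3 : (1 : ℝ) ≤ Real.exp (|C| * D * Real.log (r.den : ℝ)) * Real.exp (-c * (D : ℝ) ^ 2) :=
    h1.trans (mul_le_mul h2 hle (abs_nonneg _) (Real.exp_pos _).le)
  rw [← Real.exp_add] at h3
  have h4 : 0 ≤ |C| * D * Real.log (r.den : ℝ) + -c * (D : ℝ) ^ 2 := by
    by_contra hcon
    push Not at hcon
    have := Real.exp_lt_one_iff.mpr hcon
    linarith
  have h5 : |C| * Real.log (r.den : ℝ) < c * D := by
    have := (div_lt_iff₀ hc).mp hDgt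
    linarith
  nlinarith

/-- An exponent function with finite support which bounds all denominators clears them. -/
theorem exists_int_poly (P : ℚ[X]) (S : Finset ℕ) (hS : ∀ p ∈ S, p.Prime) (e : ℕ → ℤ)
    (h : ∀ p : ℕ, p.Prime → ∀ i, P.coeff i ≠ 0 →
      -(if p ∈ S then e p else 0) ≤ padicValRat p (P.coeff i)) :
    ∃ Q : ℤ[X], Q.natDegree = P.natDegree ∧
      Q.map (Int.castRingHom ℚ) = C (∏ p ∈ S, (p : ℚ) ^ (e p)) * P := by
  set N : ℚ := ∏ p ∈ S, (p : ℚ) ^ (e p) with hN
  have hN0 : N ≠ 0 := by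
    refine Finset.prod_ne_zero_iff.mpr fun p hp => ?_
    exact zpow_ne_zero _ (by exact_mod_cast (hS p hp).ne_zero)
  have hval : ∀ p : ℕ, p.Prime → padicValRat p N = if p ∈ S then e p else 0 := by
    intro p hp
    have := Fact.mk hp
    have key : ∀ T : Finset ℕ, (∀ q ∈ T, q.Prime) →
        padicValRat p (∏ q ∈ T, (q : ℚ) ^ (e q)) = if p ∈ T then e p else 0 := by
      intro T
      induction T using Finset.induction_on with
      | empty => intro _; simp
      | insert q T hq ih =>
        intro hT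
        have hq' : q.Prime := hT q (Finset.mem_insert_self _ _)
        have hT' : ∀ q ∈ T, q.Prime := fun x hx => hT x (Finset.mem_insert_of_mem hx)
        have hne1 : (q : ℚ) ^ (e q) ≠ 0 := zpow_ne_zero _ (by exact_mod_cast hq'.ne_zero)
        have hne2 : (∏ q ∈ T, (q : ℚ) ^ (e q)) ≠ 0 :=
          Finset.prod_ne_zero_iff.mpr fun x hx =>
            zpow_ne_zero _ (by exact_mod_cast (hT' x hx).ne_zero)
        rw [Finset.prod_insert hq, padicValRat.mul hne1 hne2, ih hT', padicValRat.zpow]
        by_cases hpq : p = q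
        · subst hpq
          simp [hq, padicValRat.self hp.one_lt]
        · have : padicValRat p (q : ℚ) = 0 := by
            rw [show ((q : ℚ)) = ((q : ℕ) : ℚ) from rfl, padicValRat.of_nat]
            have : padicValNat p q = 0 := by
              apply padicValNat.eq_zero_of_not_dvd
              intro hdvd
              exact hpq ((Nat.prime_dvd_prime_iff_eq hp hq').mp hdvd)
            simp [this]
          rw [this]
          simp [Finset.mem_insert, hpq]
    exact key S hS
  -- every coefficient of N * P is an integer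
  have hint : ∀ i, ∃ z : ℤ, (z : ℚ) = N * P.coeff i := by
    intro i
    by_cases h0 : P.coeff i = 0
    · exact ⟨0, by simp [h0]⟩
    · have hx : N * P.coeff i ≠ 0 := mul_ne_zero hN0 h0
      have hden : (N * P.coeff i).den = 1 := by
        by_contra hd
        obtain ⟨p, hp, hpd⟩ := Nat.exists_prime_and_dvd hd
        have := Fact.mk hp
        have hv : 0 ≤ padicValRat p (N * P.coeff i) := by
          rw [padicValRat.mul hN0 h0, hval p hp]
          have := h p hp i h0
          linarith
        have hnum : ¬ (p : ℤ) ∣ (N * P.coeff i).num := by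
          intro hdvd
          have hc := (N * P.coeff i).reduced
          have h1 : p ∣ (N * P.coeff i).num.natAbs := Int.natCast_dvd.mp hdvd
          have := Nat.Coprime.eq_one_of_dvd (Nat.Coprime.coprime_dvd_left h1 hc) hpd
          exact hp.one_lt.ne' this
        have h2 : padicValRat p (N * P.coeff i) < 0 := by
          rw [padicValRat_def]
          have h3 : padicValInt p (N * P.coeff i).num = 0 :=
            padicValInt.eq_zero_of_not_dvd hnum
          have h4 : 1 ≤ padicValNat p (N * P.coeff i).den :=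
            one_le_padicValNat_of_dvd (Rat.den_nz _) hpd
          rw [h3]; simp only [Nat.cast_zero, zero_sub]; omega
        linarith
      exact ⟨(N * P.coeff i).num, by
        have := Rat.num_div_den (N * P.coeff i)
        rw [hden] at this
        simpa using this⟩
  have hl : C N * P ∈ lifts (Int.castRingHom ℚ) := by
    rw [lifts_iff_coeff_lifts]
    intro i
    obtain ⟨z, hz⟩ := hint i
    exact ⟨z, by rw [coeff_C_mul]; exact hz⟩
  obtain ⟨Q, hQ, hdeg⟩ := exists_degree_eq_of_mem_lifts hl
  refine ⟨Q, ?_, hQ⟩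
  rw [natDegree_eq_natDegree hdeg]
  exact natDegree_C_mul hN0

/-- Deduction, rational polynomials with prime by prime denominators. `e p` may be negative
(content). -/
theorem irrational_of_rat_polys (G C c : ℝ) (hc : 0 < c)
    (h : ∀ r : ℚ, (r : ℝ) = G → ∀ D0 : ℕ, ∃ D : ℕ, D0 ≤ D ∧ ∃ (P : ℚ[X]) (S : Finset ℕ) (e : ℕ → ℤ),
      (∀ p ∈ S, p.Prime) ∧
      (∀ p : ℕ, p.Prime → ∀ i, P.coeff i ≠ 0 →
        -(if p ∈ S then e p else 0) ≤ padicValRat p (P.coeff i)) ∧
      (P.natDegree : ℝ) ≤ C * D ∧ aeval G P ≠ 0 ∧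
      Real.log |aeval G P| + ∑ p ∈ S, (e p : ℝ) * Real.log p ≤ -c * (D : ℝ) ^ 2) :
    Irrational G := by
  refine irrational_of_int_polys G C c hc fun r hr D0 => ?_
  obtain ⟨D, hD, P, S, e, hS, hv, hdeg, hne, hle⟩ := h r hr D0
  obtain ⟨Q, hQdeg, hQ⟩ := exists_int_poly P S hS e hv
  have hval : aeval G Q = ((∏ p ∈ S, (p : ℚ) ^ (e p) : ℚ) : ℝ) * aeval G P := by
    have h1 : aeval G (Q.map (Int.castRingHom ℚ)) = aeval G Q := by
      rw [aeval_def, eval₂_map, aeval_def]
      congr 1
    rw [← h1, hQ, map_mul, aeval_C]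
    rfl
  have hNpos : (0 : ℝ) < ((∏ p ∈ S, (p : ℚ) ^ (e p) : ℚ) : ℝ) := by
    have : (0 : ℚ) < ∏ p ∈ S, (p : ℚ) ^ (e p) :=
      Finset.prod_pos fun p hp => zpow_pos (by exact_mod_cast (hS p hp).pos) _
    exact_mod_cast this
  have hlogN : Real.log ((∏ p ∈ S, (p : ℚ) ^ (e p) : ℚ) : ℝ) =
      ∑ p ∈ S, (e p : ℝ) * Real.log p := by
    push_cast
    rw [Real.log_prod]
    · refine Finset.sum_congr rfl fun p _ => ?_
      rw [Real.log_zpow]
    · intro p hp
      exact zpow_ne_zero _ (by exact_mod_cast (hS p hp).ne_zero)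
  refine ⟨D, hD, Q, by rw [hQdeg]; exact hdeg, ?_, ?_⟩
  · rw [hval]; exact mul_ne_zero hNpos.ne' hne
  · rw [hval, abs_mul, abs_of_pos hNpos]
    have hpos : 0 < ((∏ p ∈ S, (p : ℚ) ^ (e p) : ℚ) : ℝ) * |aeval G P| :=
      mul_pos hNpos (abs_pos.mpr hne)
    rw [← Real.log_le_iff_le_exp hpos, Real.log_mul hNpos.ne' (abs_pos.mpr hne).ne', hlogN]
    linarith

end Crest.Agent.R006
end

-- ▼ part R006/Main_378
section

/-!
# Row 6: the final deduction from the frozen block statements (helper378)

`main`: P2 (`NV`), P3 (`Arch`), P6/P7 (`AtPrime` 2, 3) and P4+P5+P8 (`Odd`) with a negative total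
give the irrationality of Catalan's constant.
-/

set_option autoImplicit false

namespace Crest.Agent.R006.D

open Polynomial Filter

/-- every entry has degree at most one -/
theorem natDegree_entry_le (S : Shape) (u : ℕ) (ρ : Row) (j : Col S u) :
    (entry S u ρ j).natDegree ≤ 1 := by
  rcases j with l | l | l
  · have e : entry S u ρ (Sum.inl l) = C (-(ent1 (polR S u l) ρ)) * X + C (ent0 (polR S u l) ρ) := by
      simp only [entry, C_neg]
      ring
    rw [e]
    exact natDegree_linear_le
  · simp [entry]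
  · simp [entry]

theorem natDegree_Minor_le (S : Shape) (u : ℕ) (r : Col S u → Row) :
    (Minor S u r).natDegree ≤ (S.k + S.q + S.g) * u := by
  have hcard : Fintype.card (Col S u) = (S.k + S.q + S.g) * u := by
    simp only [Col, Fintype.card_sum, Fintype.card_fin]
    ring
  rw [Minor, Matrix.det_apply, ← hcard]
  refine natDegree_sum_le_of_forall_le _ _ fun σ _ => ?_
  have h1 : (∏ i, Mat S u r (σ i) i).natDegree ≤ Fintype.card (Col S u) := by
    refine (natDegree_prod_le _ _).trans ?_
    refine (Finset.sum_le_card_nsmul _ _ 1 fun i _ => natDegree_entry_le S u _ _).trans ?_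
    simp
  rcases Int.units_eq_one_or (Equiv.Perm.sign σ) with hs | hs
  · rw [hs, one_smul]; exact h1
  · rw [hs, Units.neg_smul, one_smul, natDegree_neg]; exact h1

theorem aeval_ratCast (γ : ℚ) (P : ℚ[X]) : aeval (γ : ℝ) P = ((P.eval γ : ℚ) : ℝ) := by
  have h := Polynomial.aeval_algebraMap_apply ℝ γ P
  simpa using h


end Crest.Agent.R006.D
end

-- ▼ part R006/MainK_464

/-!
# Row 6: the final deduction with P3 along the multiples of a fixed `K` (helper464)

For the irrationality infinitely many `u` are enough, so every block may assume `K ∣ u`; in P3 the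
reference points (blocks with rational end points and masses, common denominator `K`) are then
integral and no rounding is needed.
-/

set_option autoImplicit false

namespace Crest.Agent.R006.D

open Polynomial Filter

/-- P3 along the multiples of `K` -/
def ArchK (S : Shape) (c K : ℕ) (α : ℝ) : Prop :=
  ∀ δ : ℝ, 0 < δ → ∀ᶠ v : ℕ in Filter.atTop, ∀ r : Col S (K * v) → Row, Adm S (K * v) c r →
    |aeval GG (Minor S (K * v) r)| ≤ Real.exp ((α + δ) * ((K * v : ℕ) : ℝ) ^ 2)

/-- the final deduction, P3 only needed for `u = K v`. -/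
theorem mainK (S : Shape) (c K : ℕ) (hK : 0 < K) {αa α2 α3 αo : ℝ}
    (hneg : αa + α2 * Real.log 2 + α3 * Real.log 3 + αo < 0)
    (hNV : NV S c) (hA : ArchK S c K αa) (h2 : AtPrime S c 2 α2) (h3 : AtPrime S c 3 α3)
    (ho : Odd S c αo) : Irrational GG := by
  set T : ℝ := αa + α2 * Real.log 2 + α3 * Real.log 3 + αo with hT
  have hl2 : 0 < Real.log 2 := Real.log_pos (by norm_num)
  have hl3 : 0 < Real.log 3 := Real.log_pos (by norm_num)
  set s : ℝ := 2 + Real.log 2 + Real.log 3 with hs
  have hspos : 0 < s := by positivity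
  set δ : ℝ := -T / (2 * s) with hδ
  have hδpos : 0 < δ := div_pos (by linarith) (by linarith)
  have hδs : δ * s = -T / 2 := by rw [hδ]; field_simp
  refine Crest.Agent.R006.irrational_of_rat_polys GG ((S.k + S.q + S.g : ℕ) : ℝ) (-T / 2)
    (by linarith) fun γ hγ D0 => ?_
  have hKt : Tendsto (fun v : ℕ => K * v) atTop atTop :=
    tendsto_id.const_mul_atTop' hK
  obtain ⟨v, hvA, ⟨⟨⟨hu1, hu2⟩, hu3⟩, huo⟩, huD⟩ :=
    ((hA δ hδpos).and (hKt.eventually (((((hNV γ).and (h2 δ hδpos)).and (h3 δ hδpos)).and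
      (ho δ hδpos)).and (eventually_ge_atTop D0)))).exists
  have huA : ∀ r : Col S (K * v) → Row, Adm S (K * v) c r →
      |aeval GG (Minor S (K * v) r)| ≤ Real.exp ((αa + δ) * ((K * v : ℕ) : ℝ) ^ 2) := hvA
  generalize K * v = u at *
  obtain ⟨r, hr, hne⟩ := hu1
  obtain ⟨A, E, hAp, hE, hsum⟩ := huo r hr
  have hbA := huA r hr
  have hb2 := hu2 r hr
  have hb3 := hu3 r hr
  have h2A : 2 ∉ A := fun h => by have := (hAp 2 h).2; omega
  have h3A : 3 ∉ A := fun h => by have := (hAp 3 h).2; omega
  have h23A : 2 ∉ insert 3 A := by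
    intro h
    rcases Finset.mem_insert.mp h with h | h
    · omega
    · exact h2A h
  set E' : ℕ → ℝ := fun p => if p = 2 then (α2 + δ) * (u : ℝ) ^ 2
    else if p = 3 then (α3 + δ) * (u : ℝ) ^ 2 else E p with hE'
  have key : ∀ (P : ℚ[X]) (p : ℕ) (x : ℝ), Loss p P x → ∀ i, P.coeff i ≠ 0 →
      -⌊x⌋ ≤ padicValRat p (P.coeff i) := by
    intro P p x h i hi
    have h1 := h i hi
    have h2 : ((-padicValRat p (P.coeff i) : ℤ) : ℝ) ≤ x := by push_cast; linarith
    have h3 := Int.le_floor.mpr h2
    linarith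
  refine ⟨u, huD, Minor S u r, insert 2 (insert 3 A), fun p => ⌊E' p⌋, ?_, ?_, ?_, ?_, ?_⟩
  · intro p hp
    rcases Finset.mem_insert.mp hp with rfl | hp
    · exact Nat.prime_two
    rcases Finset.mem_insert.mp hp with rfl | hp
    · exact Nat.prime_three
    exact (hAp p hp).1
  · intro p hp i hi
    by_cases hp2 : p = 2
    · subst hp2
      rw [if_pos (Finset.mem_insert_self _ _)]
      have : E' 2 = (α2 + δ) * (u : ℝ) ^ 2 := by simp [hE']
      simp only [this]
      exact key _ _ _ hb2 i hi
    by_cases hp3 : p = 3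
    · subst hp3
      rw [if_pos (Finset.mem_insert_of_mem (Finset.mem_insert_self _ _))]
      have : E' 3 = (α3 + δ) * (u : ℝ) ^ 2 := by simp [hE']
      simp only [this]
      exact key _ _ _ hb3 i hi
    have hp5 : 5 ≤ p := by
      have h2p := hp.two_le
      by_contra hcon
      have : p = 4 := by omega
      subst this
      exact absurd hp (by norm_num)
    have h1 := hE p hp hp5
    by_cases hpA : p ∈ A
    · rw [if_pos (Finset.mem_insert_of_mem (Finset.mem_insert_of_mem hpA))]
      rw [if_pos hpA] at h1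
      have : E' p = E p := by simp [hE', hp2, hp3]
      simp only [this]
      exact key _ _ _ h1 i hi
    · have hn : p ∉ insert 2 (insert 3 A) := by
        simp [hp2, hp3, hpA]
      rw [if_neg hn]
      rw [if_neg hpA] at h1
      have := key _ _ _ h1 i hi
      simpa using this
  · have h1 := natDegree_Minor_le S u r
    have h2 : ((Minor S u r).natDegree : ℝ) ≤ (((S.k + S.q + S.g) * u : ℕ) : ℝ) := by
      exact_mod_cast h1
    rw [Nat.cast_mul] at h2
    exact h2
  · rw [← hγ, aeval_ratCast]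
    exact_mod_cast hne
  · have hu0 : (0 : ℝ) ≤ (u : ℝ) ^ 2 := by positivity
    have hne' : aeval GG (Minor S u r) ≠ 0 := by
      rw [← hγ, aeval_ratCast]
      exact_mod_cast hne
    have hlog : Real.log |aeval GG (Minor S u r)| ≤ (αa + δ) * (u : ℝ) ^ 2 := by
      rw [Real.log_le_iff_le_exp (abs_pos.mpr hne')]
      exact hbA
    have hfl : ∑ p ∈ insert 2 (insert 3 A), ((⌊E' p⌋ : ℤ) : ℝ) * Real.log p
        ≤ ∑ p ∈ insert 2 (insert 3 A), E' p * Real.log p := by
      refine Finset.sum_le_sum fun p hp => ?_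
      refine mul_le_mul_of_nonneg_right (Int.floor_le _) (Real.log_nonneg ?_)
      have hpp : p.Prime := by
        rcases Finset.mem_insert.mp hp with rfl | hp
        · exact Nat.prime_two
        rcases Finset.mem_insert.mp hp with rfl | hp
        · exact Nat.prime_three
        exact (hAp p hp).1
      exact_mod_cast hpp.one_lt.le
    have hsum' : ∑ p ∈ A, E' p * Real.log p = ∑ p ∈ A, E p * Real.log p := by
      refine Finset.sum_congr rfl fun p hp => ?_
      have h5 := (hAp p hp).2
      have : E' p = E p := by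
        simp only [hE']
        rw [if_neg (by omega), if_neg (by omega)]
      rw [this]
    have hexp : ∑ p ∈ insert 2 (insert 3 A), E' p * Real.log p =
        E' 2 * Real.log 2 + (E' 3 * Real.log 3 + ∑ p ∈ A, E p * Real.log p) := by
      rw [Finset.sum_insert h23A, Finset.sum_insert h3A, hsum']
      norm_num
    rw [hexp] at hfl
    have e2 : E' 2 = (α2 + δ) * (u : ℝ) ^ 2 := by simp [hE']
    have e3 : E' 3 = (α3 + δ) * (u : ℝ) ^ 2 := by simp [hE']
    rw [e2, e3] at hfl
    have e4 : (αa + δ) * (u : ℝ) ^ 2 + ((α2 + δ) * (u : ℝ) ^ 2 * Real.log 2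
        + ((α3 + δ) * (u : ℝ) ^ 2 * Real.log 3 + (αo + δ) * (u : ℝ) ^ 2))
        = (T + δ * s) * (u : ℝ) ^ 2 := by
      rw [hT, hs]; ring
    have e5 : (T + δ * s) = -(-T / 2) := by rw [hδs]; ring
    rw [e5] at e4
    linarith

end Crest.Agent.R006.D
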