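import Crest.Agent.R006.NVChain_664
import Crest.Agent.R006.NVInf_664
import Mathlib
import Crest.Agent.R006.NVDefs_664
import Crest.Agent.R006.PsiInf_294
import Crest.Agent.R006.NVTau_938
import Crest.Agent.R006.Defs

-- ▼ part R006/NVCount_664
section

/-!
Row 6, block P2 (nonvanishing): the count of zeros, and the zero estimate
(assuming the three nonvanishing statements for the Casoratians).
-/

set_option autoImplicit false

namespace Crest.Agent.R006.NV

open Polynomial

/-- number of intervals `[u,v)` of the list containing `i` -/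
def cnt (L : List (ℤ × ℤ)) (i : ℤ) : ℕ := L.countP (fun l => decide (l.1 ≤ i ∧ i < l.2))

/-- number of intervals containing `i, ..., i+k` -/
def cntk (k : ℕ) (L : List (ℤ × ℤ)) (i : ℤ) : ℕ :=
  L.countP (fun l => decide (l.1 ≤ i ∧ i + k < l.2))

lemma cntk_le {k j : ℕ} (hj : j ≤ k) (L : List (ℤ × ℤ)) (i : ℤ) : cntk k L i ≤ cnt L (i + j) := by
  unfold cntk cnt
  apply List.countP_mono_left
  intro l _ hl
  simp only [decide_eq_true_eq] at hl ⊢
  have : (j : ℤ) ≤ k := by exact_mod_cast hj
  omega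

/-- `∑ (length - k)` over the intervals (truncated) -/
def tot (k : ℕ) (L : List (ℤ × ℤ)) : ℕ := (L.map (fun l => (l.2 - l.1 - (k : ℤ)).toNat)).sum

/-- all sites of a list of intervals -/
noncomputable def sites (L : List (ℤ × ℤ)) : Finset ℤ := L.foldr (fun l s => Finset.Ico l.1 l.2 ∪ s) ∅

lemma sites_cons (l : ℤ × ℤ) (L : List (ℤ × ℤ)) : sites (l :: L) = Finset.Ico l.1 l.2 ∪ sites L := rfl

lemma tot_cons (k : ℕ) (l : ℤ × ℤ) (L : List (ℤ × ℤ)) :
    tot k (l :: L) = (l.2 - l.1 - k).toNat + tot k L := by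
  simp [tot]

lemma tot_le_sum (k : ℕ) (L : List (ℤ × ℤ)) (S : Finset ℤ) (hS : sites L ⊆ S) :
    tot k L ≤ ∑ i ∈ S, cntk k L i := by
  induction L with
  | nil => simp [tot]
  | cons l L ih =>
    rw [sites_cons] at hS
    have h1 := ih (Finset.union_subset_right hS)
    have h2 : Finset.Ico l.1 l.2 ⊆ S := Finset.union_subset_left hS
    rw [tot_cons]
    have e : ∀ i, cntk k (l :: L) i = (if l.1 ≤ i ∧ i + k < l.2 then 1 else 0) + cntk k L i := by
      intro i
      unfold cntk
      rw [List.countP_cons]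
      simp only [decide_eq_true_eq]
      ring
    simp_rw [e]
    rw [Finset.sum_add_distrib]
    have h3 : (l.2 - l.1 - k).toNat ≤ ∑ i ∈ S, (if l.1 ≤ i ∧ i + k < l.2 then 1 else 0) := by
      rw [← Finset.card_filter]
      have h4 : Finset.Ico l.1 (l.2 - k) ⊆ S.filter (fun i => l.1 ≤ i ∧ i + k < l.2) := by
        intro i hi
        rw [Finset.mem_Ico] at hi
        rw [Finset.mem_filter]
        refine ⟨h2 ?_, by omega, by omega⟩
        rw [Finset.mem_Ico]
        omega
      have h5 := Finset.card_le_card h4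
      rw [Int.card_Ico] at h5
      have : (l.2 - l.1 - k).toNat = (l.2 - k - l.1).toNat := by congr 1; ring
      omega
    omega

lemma cntk_append (k : ℕ) (L M : List (ℤ × ℤ)) (i : ℤ) :
    cntk k (L ++ M) i = cntk k L i + cntk k M i := by
  unfold cntk
  exact List.countP_append

lemma tot_append (k : ℕ) (L M : List (ℤ × ℤ)) : tot k (L ++ M) = tot k L + tot k M := by
  simp [tot]

variable {K : Type*} [Field K] [CharZero K]

/-- the sites of the plane: `inl i ↦ i`, `inr i ↦ i + 1/2` -/
noncomputable def site (K : Type*) [Field K] : ℤ ⊕ ℤ → K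
  | Sum.inl i => (i : K)
  | Sum.inr i => (i : K) + 1 / 2

lemma site_injective : Function.Injective (site K) := by
  intro x y h
  rcases x with i | i <;> rcases y with j | j
  · simp only [site] at h
    have : i = j := by exact_mod_cast h
    rw [this]
  · exfalso
    simp only [site] at h
    have h2 : ((2 * i : ℤ) : K) = ((2 * j + 1 : ℤ) : K) := by
      push_cast
      linear_combination 2 * h
    have h3 : (2 * i : ℤ) = 2 * j + 1 := by exact_mod_cast h2
    omega
  · exfalso
    simp only [site] at h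
    have h2 : ((2 * i + 1 : ℤ) : K) = ((2 * j : ℤ) : K) := by
      push_cast
      linear_combination 2 * h
    have h3 : (2 * i + 1 : ℤ) = 2 * j := by exact_mod_cast h2
    omega
  · simp only [site] at h
    have h1 : (i : K) = (j : K) := by linear_combination h
    have : i = j := by exact_mod_cast h1
    rw [this]

omit [CharZero K] in
/-- sum of multiplicities is at most the degree -/
lemma sum_le_natDegree {ι : Type*} (S : Finset ι) (s : ι → K)
    (hs : Function.Injective s) (k : ι → ℕ) {P : K[X]} (hP : P ≠ 0)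
    (h : ∀ i ∈ S, (X - C (s i)) ^ k i ∣ P) : ∑ i ∈ S, k i ≤ natDegree P := by
  have h1 : ∏ i ∈ S, (X - C (s i)) ^ k i ∣ P := by
    apply Finset.prod_dvd_of_coprime
    · intro i _ j _ hij
      apply IsCoprime.pow
      exact isCoprime_X_sub_C_of_isUnit_sub (sub_ne_zero.mpr (fun h => hij (hs h))).isUnit
    · exact h
  have h2 := natDegree_le_of_dvd h1 hP
  rw [natDegree_prod_of_monic _ _ (fun i _ => (monic_X_sub_C (s i)).pow (k i))] at h2
  simpa [natDegree_pow] using h2

lemma count_aux (k : ℕ) (A A' : List (ℤ × ℤ)) {P : K[X]} {N : ℕ}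
    (hN : natDegree P ≤ N)
    (h : ∀ i : ℤ, (X - C (i : K)) ^ cntk k A i ∣ P)
    (h' : ∀ i : ℤ, (X - C ((i : K) + 1 / 2)) ^ cntk k A' i ∣ P)
    (hlt : N < tot k A + tot k A') : P = 0 := by
  by_contra hP
  have h1 := sum_le_natDegree ((sites A).disjSum (sites A')) (site K) site_injective
    (Sum.elim (cntk k A) (cntk k A')) hP ?_
  · rw [Finset.sum_disjSum] at h1
    simp only [Sum.elim_inl, Sum.elim_inr] at h1
    have h2 := tot_le_sum k A (sites A) (Finset.Subset.refl _)
    have h3 := tot_le_sum k A' (sites A') (Finset.Subset.refl _)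
    omega
  · intro x _
    rcases x with i | i
    · exact h i
    · exact h' i

/-- The data of a triple `(R,T,Q)`: orders given by lists of intervals of sites
(`LR, LF, LQ` : integers, `HR, HF, HQ` : half-integers `i + 1/2`); an interval occurring several
times (or overlapping intervals) means higher order. `lam = 0`: no second germ at the
half-integers. -/
structure Orders (c lam : K) (R T Q : K[X]) (LR LF LQ HR HF HQ : List (ℤ × ℤ)) : Prop where
  zR : ∀ i : ℤ, PowerSeries.X ^ cnt LR i ∣ gm (i : K) R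
  zF : ∀ i : ℤ, PowerSeries.X ^ cnt LF i ∣ FF (i : K) R T Q (PsiZ c i) (GamZ i)
  zQ : ∀ i : ℤ, PowerSeries.X ^ cnt LQ i ∣ gm (i : K) Q
  hR : ∀ i : ℤ, PowerSeries.X ^ cnt HR i ∣ gm ((i : K) + 1 / 2) R
  hF : ∀ i : ℤ, PowerSeries.X ^ cnt HF i ∣ FF ((i : K) + 1 / 2) R T Q (PsiH i) (GamH lam i)
  hQ : ∀ i : ℤ, PowerSeries.X ^ cnt HQ i ∣ gm ((i : K) + 1 / 2) Q

omit [CharZero K] in
lemma pow_dvd_of_le {x y : PowerSeries K} {a b : ℕ} (h : a ≤ b) (hy : x ^ b ∣ y) : x ^ a ∣ y :=
  (pow_dvd_pow x h).trans hy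

lemma GamZ_unit (n : ℕ) : PowerSeries.constantCoeff (GamZ (n : ℤ) : PowerSeries K) ≠ 0 := by
  induction n with
  | zero =>
    have : (GamZ ((0 : ℕ) : ℤ) : PowerSeries K) = 1 := GamZ_zero
    rw [this, map_one]
    exact one_ne_zero
  | succ n ih =>
    have h := congrArg PowerSeries.constantCoeff (step_Z (0 : K) (n : ℤ)).gam
    rw [map_mul, map_mul, map_mul, map_pow, map_pow, map_add, map_mul, constantCoeff_pt,
      constantCoeff_pt, constantCoeff_two, map_one, PowerSeries.constantCoeff_C] at h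
    intro h0
    have e : ((n + 1 : ℕ) : ℤ) = (n : ℤ) + 1 := by push_cast; rfl
    rw [e] at h0
    rw [h0, mul_zero] at h
    have h1 : (2 * ((n : ℤ) : K) + 1) ≠ 0 := by
      have : ((2 * n + 1 : ℕ) : K) ≠ 0 := by exact_mod_cast (by omega : 2 * n + 1 ≠ 0)
      push_cast at this ⊢
      exact this
    have h2 : (1 / 4 : K) ≠ 0 := by norm_num
    exact (mul_ne_zero (mul_ne_zero h2 (pow_ne_zero 2 h1)) ih) h.symm

theorem DD_dvd {c lam : K} {R T Q : K[X]} {LR LF LQ HR HF HQ : List (ℤ × ℤ)}
    (o : Orders c lam R T Q LR LF LQ HR HF HQ) (i : ℤ) :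
    (X - C (i : K)) ^ cntk 2 (LR ++ LF ++ LQ) i ∣ DD R T Q := by
  have e : cntk 2 (LR ++ LF ++ LQ) i = cntk 2 LR i + cntk 2 LF i + cntk 2 LQ i := by
    simp only [cntk_append]
  rw [e]
  have s1 : ((i + 1 : ℤ) : K) = (i : K) + 1 := by push_cast; rfl
  have s2 : ((i + 2 : ℤ) : K) = (i : K) + 1 + 1 := by push_cast; ring
  have st1 := step_Z c i
  have st2 := step_Z c (i + 1)
  rw [s1] at st2
  have e2 : i + 1 + 1 = i + 2 := by ring
  rw [e2] at st2
  apply local_DD st1 st2
  · exact pow_dvd_of_le (by simpa using cntk_le (k := 2) (j := 0) (by norm_num) LR i) (o.zR i)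
  · rw [← s1]; exact pow_dvd_of_le (cntk_le (k := 2) (j := 1) (by norm_num) LR i) (o.zR (i + 1))
  · rw [← s2]; exact pow_dvd_of_le (cntk_le (k := 2) (j := 2) (by norm_num) LR i) (o.zR (i + 2))
  · exact pow_dvd_of_le (by simpa using cntk_le (k := 2) (j := 0) (by norm_num) LF i) (o.zF i)
  · rw [← s1]; exact pow_dvd_of_le (cntk_le (k := 2) (j := 1) (by norm_num) LF i) (o.zF (i + 1))
  · rw [← s2]; exact pow_dvd_of_le (cntk_le (k := 2) (j := 2) (by norm_num) LF i) (o.zF (i + 2))
  · exact pow_dvd_of_le (by simpa using cntk_le (k := 2) (j := 0) (by norm_num) LQ i) (o.zQ i)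
  · rw [← s1]; exact pow_dvd_of_le (cntk_le (k := 2) (j := 1) (by norm_num) LQ i) (o.zQ (i + 1))
  · rw [← s2]; exact pow_dvd_of_le (cntk_le (k := 2) (j := 2) (by norm_num) LQ i) (o.zQ (i + 2))

theorem DD_dvd' {c lam : K} {R T Q : K[X]} {LR LF LQ HR HF HQ : List (ℤ × ℤ)}
    (o : Orders c lam R T Q LR LF LQ HR HF HQ) (i : ℤ) :
    (X - C ((i : K) + 1 / 2)) ^ cntk 2 (HR ++ HF ++ HQ) i ∣ DD R T Q := by
  have e : cntk 2 (HR ++ HF ++ HQ) i = cntk 2 HR i + cntk 2 HF i + cntk 2 HQ i := by
    simp only [cntk_append]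
  rw [e]
  have s1 : ((i + 1 : ℤ) : K) + 1 / 2 = (i : K) + 1 / 2 + 1 := by push_cast; ring
  have s2 : ((i + 2 : ℤ) : K) + 1 / 2 = (i : K) + 1 / 2 + 1 + 1 := by push_cast; ring
  have st1 := step_HG lam i
  have st2 := step_HG lam (i + 1)
  rw [s1] at st2
  have e2 : i + 1 + 1 = i + 2 := by ring
  rw [e2] at st2
  apply local_DD st1 st2
  · exact pow_dvd_of_le (by simpa using cntk_le (k := 2) (j := 0) (by norm_num) HR i) (o.hR i)
  · rw [← s1]; exact pow_dvd_of_le (cntk_le (k := 2) (j := 1) (by norm_num) HR i) (o.hR (i + 1))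
  · rw [← s2]; exact pow_dvd_of_le (cntk_le (k := 2) (j := 2) (by norm_num) HR i) (o.hR (i + 2))
  · exact pow_dvd_of_le (by simpa using cntk_le (k := 2) (j := 0) (by norm_num) HF i) (o.hF i)
  · rw [← s1]; exact pow_dvd_of_le (cntk_le (k := 2) (j := 1) (by norm_num) HF i) (o.hF (i + 1))
  · rw [← s2]; exact pow_dvd_of_le (cntk_le (k := 2) (j := 2) (by norm_num) HF i) (o.hF (i + 2))
  · exact pow_dvd_of_le (by simpa using cntk_le (k := 2) (j := 0) (by norm_num) HQ i) (o.hQ i)
  · rw [← s1]; exact pow_dvd_of_le (cntk_le (k := 2) (j := 1) (by norm_num) HQ i) (o.hQ (i + 1))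
  · rw [← s2]; exact pow_dvd_of_le (cntk_le (k := 2) (j := 2) (by norm_num) HQ i) (o.hQ (i + 2))

theorem DRT_dvd {c lam : K} {R T : K[X]} {LR LF LQ HR HF HQ : List (ℤ × ℤ)}
    (o : Orders c lam R T 0 LR LF LQ HR HF HQ) (i : ℤ) :
    (X - C (i : K)) ^ cntk 1 (LR ++ LF) i ∣ DRT R T := by
  have e : cntk 1 (LR ++ LF) i = cntk 1 LR i + cntk 1 LF i := by
    simp only [cntk_append]
  rw [e]
  have s1 : ((i + 1 : ℤ) : K) = (i : K) + 1 := by push_cast; rfl
  apply local_DRT (step_Z c i)
  · exact pow_dvd_of_le (by simpa using cntk_le (k := 1) (j := 0) (by norm_num) LR i) (o.zR i)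
  · rw [← s1]; exact pow_dvd_of_le (cntk_le (k := 1) (j := 1) (by norm_num) LR i) (o.zR (i + 1))
  · exact pow_dvd_of_le (by simpa using cntk_le (k := 1) (j := 0) (by norm_num) LF i) (o.zF i)
  · rw [← s1]; exact pow_dvd_of_le (cntk_le (k := 1) (j := 1) (by norm_num) LF i) (o.zF (i + 1))

theorem DRT_dvd' {c lam : K} {R T : K[X]} {LR LF LQ HR HF HQ : List (ℤ × ℤ)}
    (o : Orders c lam R T 0 LR LF LQ HR HF HQ) (i : ℤ) :
    (X - C ((i : K) + 1 / 2)) ^ cntk 1 (HR ++ HF) i ∣ DRT R T := by
  have e : cntk 1 (HR ++ HF) i = cntk 1 HR i + cntk 1 HF i := by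
    simp only [cntk_append]
  rw [e]
  have s1 : ((i + 1 : ℤ) : K) + 1 / 2 = (i : K) + 1 / 2 + 1 := by push_cast; ring
  apply local_DRT (step_HG lam i)
  · exact pow_dvd_of_le (by simpa using cntk_le (k := 1) (j := 0) (by norm_num) HR i) (o.hR i)
  · rw [← s1]; exact pow_dvd_of_le (cntk_le (k := 1) (j := 1) (by norm_num) HR i) (o.hR (i + 1))
  · exact pow_dvd_of_le (by simpa using cntk_le (k := 1) (j := 0) (by norm_num) HF i) (o.hF i)
  · rw [← s1]; exact pow_dvd_of_le (cntk_le (k := 1) (j := 1) (by norm_num) HF i) (o.hF (i + 1))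

theorem DTQ_dvd {c lam : K} {T Q : K[X]} {LR LF LQ HR HF HQ : List (ℤ × ℤ)}
    (o : Orders c lam 0 T Q LR LF LQ HR HF HQ) (i : ℤ) :
    (X - C (i : K)) ^ cntk 1 (LF ++ LQ) i ∣ DTQ T Q := by
  have e : cntk 1 (LF ++ LQ) i = cntk 1 LF i + cntk 1 LQ i := by
    simp only [cntk_append]
  rw [e]
  have s1 : ((i + 1 : ℤ) : K) = (i : K) + 1 := by push_cast; rfl
  apply local_DTQ (step_Z c i)
  · exact pow_dvd_of_le (by simpa using cntk_le (k := 1) (j := 0) (by norm_num) LF i) (o.zF i)
  · rw [← s1]; exact pow_dvd_of_le (cntk_le (k := 1) (j := 1) (by norm_num) LF i) (o.zF (i + 1))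
  · exact pow_dvd_of_le (by simpa using cntk_le (k := 1) (j := 0) (by norm_num) LQ i) (o.zQ i)
  · rw [← s1]; exact pow_dvd_of_le (cntk_le (k := 1) (j := 1) (by norm_num) LQ i) (o.zQ (i + 1))

theorem DTQ_dvd' {c lam : K} {T Q : K[X]} {LR LF LQ HR HF HQ : List (ℤ × ℤ)}
    (o : Orders c lam 0 T Q LR LF LQ HR HF HQ) (i : ℤ) :
    (X - C ((i : K) + 1 / 2)) ^ cntk 1 (HF ++ HQ) i ∣ DTQ T Q := by
  have e : cntk 1 (HF ++ HQ) i = cntk 1 HF i + cntk 1 HQ i := by
    simp only [cntk_append]
  rw [e]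
  have s1 : ((i + 1 : ℤ) : K) + 1 / 2 = (i : K) + 1 / 2 + 1 := by push_cast; ring
  apply local_DTQ (step_HG lam i)
  · exact pow_dvd_of_le (by simpa using cntk_le (k := 1) (j := 0) (by norm_num) HF i) (o.hF i)
  · rw [← s1]; exact pow_dvd_of_le (cntk_le (k := 1) (j := 1) (by norm_num) HF i) (o.hF (i + 1))
  · exact pow_dvd_of_le (by simpa using cntk_le (k := 1) (j := 0) (by norm_num) HQ i) (o.hQ i)
  · rw [← s1]; exact pow_dvd_of_le (cntk_le (k := 1) (j := 1) (by norm_num) HQ i) (o.hQ (i + 1))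

omit [CharZero K] in
lemma Finf_zero_left (M : ℕ) (T : K[X]) : Finf M 0 T = -(X ^ M * T) := by
  simp [Finf]

omit [CharZero K] in
lemma natDegree_T_of_R_zero {M δ : ℕ} {T : K[X]} (h : natDegree (Finf M 0 T) ≤ M + δ) :
    natDegree T ≤ δ := by
  rw [Finf_zero_left, natDegree_neg] at h
  by_cases hT : T = 0
  · rw [hT]; simp
  rw [natDegree_mul (pow_ne_zero _ X_ne_zero) hT, natDegree_X_pow] at h
  omega

/-- **Zero estimate**, assuming the nonvanishing of the Casoratians. -/
theorem zero_estimate_aux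
    (N3 : ∀ R T Q : K[X], R ≠ 0 → Q ≠ 0 → DD R T Q ≠ 0)
    (N2 : ∀ R T : K[X], R ≠ 0 → DRT R T ≠ 0)
    (N2' : ∀ T Q : K[X], T ≠ 0 → Q ≠ 0 → DTQ T Q ≠ 0)
    {c lam : K} {R T Q : K[X]} {LR LF LQ HR HF HQ : List (ℤ × ℤ)}
    (o : Orders c lam R T Q LR LF LQ HR HF HQ) {M ρ δ κ : ℕ} (hM : ρ ≤ M + δ)
    (hR : natDegree R ≤ ρ) (hF : natDegree (Finf M R T) ≤ M + δ) (hQ : natDegree Q ≤ κ)
    (H3 : ρ + δ + κ + 9 < tot 2 (LR ++ LF ++ LQ) + tot 2 (HR ++ HF ++ HQ))
    (H2 : ρ + δ + 3 < tot 1 (LR ++ LF) + tot 1 (HR ++ HF))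
    (H2' : δ + κ + 3 < tot 1 (LF ++ LQ) + tot 1 (HF ++ HQ))
    (H1 : δ < tot 0 LF + tot 0 HF) {b : ℕ} (Hb : (0, (b : ℤ)) ∈ LF) (H1' : κ < b) :
    R = 0 ∧ T = 0 ∧ Q = 0 := by
  have hDD : DD R T Q = 0 :=
    count_aux 2 _ _ (natDegree_DD_le hM hR hF hQ) (DD_dvd o) (DD_dvd' o) H3
  by_cases hR0 : R = 0
  · subst hR0
    have hT : natDegree T ≤ δ := natDegree_T_of_R_zero hF
    have hDTQ : DTQ T Q = 0 :=
      count_aux 1 _ _ (natDegree_DTQ_le hT hQ) (DTQ_dvd o) (DTQ_dvd' o) H2'
    by_cases hT0 : T = 0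
    · subst hT0
      refine ⟨rfl, rfl, ?_⟩
      by_contra hQ0
      have h1 := sum_le_natDegree (Finset.range b) (fun n : ℕ => (n : K)) Nat.cast_injective
        (fun _ => 1) hQ0 ?_
      · simp at h1
        omega
      · intro n hn
        apply dvd_of_gm_dvd
        have hn' : n < b := Finset.mem_range.mp hn
        have h2 : PowerSeries.X ^ cnt LF (n : ℤ) ∣ gm ((n : ℤ) : K) Q * GamZ (n : ℤ) := by
          have h3 := o.zF (n : ℤ)
          have e : FF ((n : ℤ) : K) 0 0 Q (PsiZ c n) (GamZ n) = -(gm ((n : ℤ) : K) Q * GamZ n) := by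
            simp [FF, gm_zero]
          rw [e, dvd_neg] at h3
          exact h3
        have h4 : 1 ≤ cnt LF (n : ℤ) := by
          unfold cnt
          apply List.countP_pos_iff.mpr
          refine ⟨(0, (b : ℤ)), Hb, ?_⟩
          simp only [decide_eq_true_eq]
          omega
        have h5 : PowerSeries.X ^ 1 ∣ gm ((n : ℤ) : K) Q * GamZ (n : ℤ) := pow_dvd_of_le h4 h2
        rw [pow_one, PowerSeries.X_dvd_iff, map_mul] at h5
        rw [pow_one, PowerSeries.X_dvd_iff]
        rcases mul_eq_zero.mp h5 with h6 | h6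
        · simpa using h6
        · exact absurd h6 (GamZ_unit n)
    · by_cases hQ0 : Q = 0
      · subst hQ0
        exfalso
        apply hT0
        refine count_aux 0 LF HF hT ?_ ?_ H1
        · intro i
          apply dvd_of_gm_dvd
          have h1 := o.zF i
          have e : FF (i : K) 0 T 0 (PsiZ c i) (GamZ i) = -gm (i : K) T := by
            simp [FF, gm_zero]
          rw [e, dvd_neg] at h1
          exact pow_dvd_of_le (by simpa using cntk_le (k := 0) (j := 0) le_rfl LF i) h1
        · intro i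
          apply dvd_of_gm_dvd
          have h1 := o.hF i
          have e : FF ((i : K) + 1 / 2) 0 T 0 (PsiH i) (GamH lam i) = -gm ((i : K) + 1 / 2) T := by
            simp [FF, gm_zero]
          rw [e, dvd_neg] at h1
          exact pow_dvd_of_le (by simpa using cntk_le (k := 0) (j := 0) le_rfl HF i) h1
      · exact absurd hDTQ (N2' T Q hT0 hQ0)
  · exfalso
    by_cases hQ0 : Q = 0
    · subst hQ0
      exact N2 R T hR0 (count_aux 1 _ _ (natDegree_DRT_le hM hR hF) (DRT_dvd o) (DRT_dvd' o) H2)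
    · exact N3 R T Q hR0 hQ0 hDD

end Crest.Agent.R006.NV
private theorem rz_5ffac691df : type_of% @_root_.Crest.Agent.R006.NV.site.eq_1 := @_root_.Crest.Agent.R006.NV.site.eq_1 -- L85
end

-- ▼ part R006/NVFlag_664
section

/-!
Row 6, block P2 (nonvanishing): vanishing of a Casoratian for a triangular semilinear system
of any rank gives an eigenfunctional.
-/

set_option autoImplicit false

namespace Crest.Agent.R006.NV

open Matrix

variable {L : Type*} [Field L] (τ : L →+* L) {n : ℕ}

/-- the semilinear map `σ(v)_j = ∑_i τ(v_i) A i j` -/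
def sg (A : Matrix (Fin n) (Fin n) L) (v : Fin n → L) : Fin n → L :=
  fun j => ∑ i, τ (v i) * A i j

lemma sg_add (A : Matrix (Fin n) (Fin n) L) (u v : Fin n → L) :
    sg τ A (u + v) = sg τ A u + sg τ A v := by
  funext j
  simp [sg, add_mul, Finset.sum_add_distrib]

lemma sg_smul (A : Matrix (Fin n) (Fin n) L) (c : L) (v : Fin n → L) :
    sg τ A (c • v) = τ c • sg τ A v := by
  funext j
  simp [sg, Finset.mul_sum, mul_assoc]

lemma sg_zero (A : Matrix (Fin n) (Fin n) L) : sg τ A (0 : Fin n → L) = 0 := by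
  funext j
  simp [sg]

/-- the orbit `σ^k v` -/
def orb (A : Matrix (Fin n) (Fin n) L) (v : Fin n → L) : ℕ → (Fin n → L)
  | 0 => v
  | k + 1 => sg τ A (orb A v k)

lemma exists_mem_span (A : Matrix (Fin n) (Fin n) L) (v : Fin n → L)
    (W : Matrix.det (Matrix.of (fun i : Fin n => orb τ A v i)) = 0) :
    ∃ r < n, orb τ A v r ∈ Submodule.span L (orb τ A v '' {k | k < r}) := by
  by_contra hcon
  push Not at hcon
  have key : ∀ m ≤ n, LinearIndependent L (fun k : Fin m => orb τ A v k) := by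
    intro m
    induction m with
    | zero => intro _; exact linearIndependent_empty_type
    | succ m ih =>
      intro hm
      have h1 := ih (by omega)
      have h2 := hcon m (by omega)
      have e : (fun k : Fin (m + 1) => orb τ A v k) =
          Fin.snoc (α := fun _ => Fin n → L) (fun k : Fin m => orb τ A v k) (orb τ A v m) := by
        funext k
        refine Fin.lastCases ?_ ?_ k
        · simp
        · intro i; simp
      rw [e, linearIndependent_finSnoc]
      refine ⟨h1, ?_⟩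
      have e2 : Set.range (fun k : Fin m => orb τ A v k) = orb τ A v '' {k | k < m} := by
        ext x
        constructor
        · rintro ⟨k, rfl⟩
          exact ⟨k, k.2, rfl⟩
        · rintro ⟨k, hk, rfl⟩
          exact ⟨⟨k, hk⟩, rfl⟩
      rw [e2]
      exact h2
  have h := key n le_rfl
  have h2 : LinearIndependent L (Matrix.of (fun i : Fin n => orb τ A v i)).row := h
  rw [Matrix.linearIndependent_rows_iff_isUnit] at h2
  rw [Matrix.isUnit_iff_isUnit_det, W] at h2
  exact not_isUnit_zero h2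

theorem exists_stable (A : Matrix (Fin n) (Fin n) L) (v : Fin n → L)
    (W : Matrix.det (Matrix.of (fun i : Fin n => orb τ A v i)) = 0) :
    ∃ V : Submodule L (Fin n → L), V ≠ ⊤ ∧ v ∈ V ∧ ∀ u ∈ V, sg τ A u ∈ V := by
  obtain ⟨r, hr, hmem⟩ := exists_mem_span τ A v W
  rcases Nat.eq_zero_or_pos r with h0 | hpos
  · subst h0
    have hv : v = 0 := by
      simpa [orb] using hmem
    subst hv
    refine ⟨⊥, ?_, Submodule.zero_mem _, ?_⟩
    · intro h
      have h1 : Module.finrank L (⊥ : Submodule L (Fin n → L)) = n := by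
        rw [h, finrank_top]; simp
      rw [finrank_bot] at h1
      omega
    · intro u hu
      rw [Submodule.mem_bot] at hu ⊢
      rw [hu, sg_zero]
  · refine ⟨Submodule.span L (orb τ A v '' {k | k < r}), ?_, ?_, ?_⟩
    · intro h
      have h1 : Module.finrank L (Submodule.span L (orb τ A v '' {k | k < r})) = n := by
        rw [h, finrank_top]; simp
      have e2 : orb τ A v '' {k | k < r} = Set.range (fun k : Fin r => orb τ A v k) := by
        ext x
        constructor
        · rintro ⟨k, hk, rfl⟩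
          exact ⟨⟨k, hk⟩, rfl⟩
        · rintro ⟨k, rfl⟩
          exact ⟨k, k.2, rfl⟩
      rw [e2] at h1
      have h2 := finrank_range_le_card (R := L) (fun k : Fin r => orb τ A v k)
      rw [Set.finrank, h1, Fintype.card_fin] at h2
      omega
    · exact Submodule.subset_span ⟨0, hpos, rfl⟩
    · intro u hu
      induction hu using Submodule.span_induction with
      | mem x hx =>
        obtain ⟨k, hk, rfl⟩ := hx
        have hk' : k < r := hk
        have e : sg τ A (orb τ A v k) = orb τ A v (k + 1) := rfl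
        rw [e]
        rcases Nat.lt_or_ge (k + 1) r with h | h
        · exact Submodule.subset_span ⟨k + 1, h, rfl⟩
        · have : k + 1 = r := by omega
          rw [this]; exact hmem
      | zero => rw [sg_zero]; exact Submodule.zero_mem _
      | add x y _ _ hx hy => rw [sg_add]; exact Submodule.add_mem _ hx hy
      | smul c x _ hx => rw [sg_smul]; exact Submodule.smul_mem _ _ hx

/-- the flag `M i = {u | u_j = 0 for j ≥ i}` -/
def flag (L : Type*) [Field L] (n i : ℕ) : Submodule L (Fin n → L) where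
  carrier := {u | ∀ j : Fin n, i ≤ j → u j = 0}
  add_mem' := by
    intro a b ha hb j hj
    simp [ha j hj, hb j hj]
  zero_mem' := by intro j _; rfl
  smul_mem' := by
    intro c a ha j hj
    simp [ha j hj]

/-- **Casoratian theorem** for triangular semilinear systems. -/
theorem casoratian_flag (A : Matrix (Fin n) (Fin n) L) (hA : ∀ i j, i < j → A i j = 0)
    (v : Fin n → L) (W : Matrix.det (Matrix.of (fun i : Fin n => orb τ A v i)) = 0) :
    ∃ i : Fin n, ∃ l : Fin n → L, l i = 1 ∧ (∀ j < i, l j = 0) ∧ ∑ j, l j * v j = 0 ∧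
      ∀ j, ∑ k, A j k * l k = A i i * τ (l j) := by
  obtain ⟨V, hV, hv, hst⟩ := exists_stable τ A v W
  have hex : ∃ m, V ⊔ flag L n m = ⊤ := by
    refine ⟨n, ?_⟩
    have : flag L n n = ⊤ := by
      rw [eq_top_iff]
      intro u _ j hj
      exact absurd j.2 (by omega)
    rw [this, sup_top_eq]
  classical
  have h1 := Nat.find_spec hex
  have h2 : ∀ m < Nat.find hex, V ⊔ flag L n m ≠ ⊤ := fun m hm => Nat.find_min hex hm
  have hpos : 0 < Nat.find hex := by
    rcases Nat.eq_zero_or_pos (Nat.find hex) with h | h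
    · exfalso
      rw [h] at h1
      apply hV
      have : flag L n 0 = ⊥ := by
        rw [eq_bot_iff]
        intro u hu
        rw [Submodule.mem_bot]
        funext j
        exact hu j (Nat.zero_le _)
      rwa [this, sup_bot_eq] at h1
    · exact h
  obtain ⟨p, hp⟩ : ∃ p, Nat.find hex = p + 1 := ⟨Nat.find hex - 1, by omega⟩
  rw [hp] at h1 h2
  have hpn : p < n := by
    by_contra hcon
    apply h2 p (by omega)
    have : flag L n p = ⊤ := by
      rw [eq_top_iff]
      intro u _ j hj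
      exact absurd j.2 (by omega)
    rw [this, sup_top_eq]
  have hproper := h2 p (by omega)
  clear h2
  set i : Fin n := ⟨p, hpn⟩ with hi
  obtain ⟨f, hf0, hf⟩ := Submodule.exists_le_ker_of_lt_top _ (lt_top_iff_ne_top.mpr hproper)
  -- decomposition of elements of the flag
  have hdec : ∀ m ∈ flag L n (p + 1), m - m i • (Pi.single i 1 : Fin n → L) ∈ flag L n p := by
    intro m hm j hj
    rcases eq_or_ne j i with h | h
    · subst h; simp
    · have : p ≠ (j : ℕ) := by
        intro hc
        apply h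
        apply Fin.ext
        simp [hi, hc]
      have h3 := hm j (by omega)
      simp [h3, h]
  have hfi : f (Pi.single i 1) ≠ 0 := by
    intro h0
    apply hf0
    apply LinearMap.ext
    intro u
    have hu : u ∈ V ⊔ flag L n (p + 1) := by rw [h1]; exact Submodule.mem_top
    obtain ⟨x, hx, m, hm, rfl⟩ := Submodule.mem_sup.mp hu
    have e1 : f x = 0 := hf (Submodule.mem_sup_left hx)
    have e2 : f (m - m i • (Pi.single i 1 : Fin n → L)) = 0 :=
      hf (Submodule.mem_sup_right (hdec m hm))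
    rw [map_sub, map_smul, h0, smul_zero, sub_zero] at e2
    rw [map_add, e1, e2]; simp
  set g : (Fin n → L) →ₗ[L] L := (f (Pi.single i 1))⁻¹ • f with hg
  have hgi : g (Pi.single i 1) = 1 := by
    simp [hg, hfi]
  have hgk : ∀ u ∈ V ⊔ flag L n p, g u = 0 := by
    intro u hu
    have : f u = 0 := hf hu
    simp [hg, this]
  have hker : ∀ u, g u = 0 → u ∈ V ⊔ flag L n p := by
    intro u hu
    have hu' : u ∈ V ⊔ flag L n (p + 1) := by rw [h1]; exact Submodule.mem_top
    obtain ⟨x, hx, m, hm, rfl⟩ := Submodule.mem_sup.mp hu'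
    have e1 : g x = 0 := hgk x (Submodule.mem_sup_left hx)
    have e2 : g (m - m i • (Pi.single i 1 : Fin n → L)) = 0 :=
      hgk _ (Submodule.mem_sup_right (hdec m hm))
    rw [map_sub, map_smul, hgi, smul_eq_mul, mul_one] at e2
    rw [map_add, e1, zero_add] at hu
    rw [hu, zero_sub, neg_eq_zero] at e2
    apply Submodule.add_mem
    · exact Submodule.mem_sup_left hx
    · have := hdec m hm
      rw [e2, zero_smul, sub_zero] at this
      exact Submodule.mem_sup_right this
  have hst' : ∀ u ∈ V ⊔ flag L n p, sg τ A u ∈ V ⊔ flag L n p := by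
    intro u hu
    obtain ⟨x, hx, m, hm, rfl⟩ := Submodule.mem_sup.mp hu
    rw [sg_add]
    apply Submodule.add_mem
    · exact Submodule.mem_sup_left (hst x hx)
    · apply Submodule.mem_sup_right
      intro j hj
      unfold sg
      apply Finset.sum_eq_zero
      intro k _
      rcases Nat.lt_or_ge k p with h | h
      · have : A k j = 0 := hA k j (by
          rw [Fin.lt_def]; omega)
        rw [this, mul_zero]
      · rw [hm k h, map_zero, zero_mul]
  have hgsum : ∀ u, g u = ∑ k, u k * g (Pi.single k 1) := by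
    intro u
    conv_lhs => rw [← Finset.univ_sum_single u]
    rw [map_sum]
    apply Finset.sum_congr rfl
    intro k _
    have : (Pi.single k (u k) : Fin n → L) = u k • Pi.single k 1 := by
      rw [← Pi.single_smul, smul_eq_mul, mul_one]
    rw [this, map_smul, smul_eq_mul]
  have hlow : ∀ j < i, g (Pi.single j 1) = 0 := by
    intro j hj
    apply hgk
    apply Submodule.mem_sup_right
    intro k hk
    have : k ≠ j := by
      intro hc
      rw [hc] at hk
      rw [Fin.lt_def] at hj
      simp [hi] at hj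
      omega
    simp [this]
  have hdiag : ∑ k, A i k * g (Pi.single k 1) = A i i := by
    rw [Finset.sum_eq_single i]
    · rw [hgi, mul_one]
    · intro k _ hk
      rcases lt_or_gt_of_ne hk with h | h
      · rw [hlow k h, mul_zero]
      · rw [hA i k h, zero_mul]
    · intro h; exact absurd (Finset.mem_univ i) h
  refine ⟨i, fun j => g (Pi.single j 1), hgi, hlow, ?_, ?_⟩
  · have := hgk v (Submodule.mem_sup_left hv)
    rw [hgsum] at this
    rw [← this]
    apply Finset.sum_congr rfl
    intro k _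
    ring
  · intro j
    have h3 : g (Pi.single j 1 - g (Pi.single j 1) • (Pi.single i 1 : Fin n → L)) = 0 := by
      rw [map_sub, map_smul, hgi, smul_eq_mul, mul_one, sub_self]
    have h4 := hgk _ (hst' _ (hker _ h3))
    have e1 : sg τ A (Pi.single j 1 - g (Pi.single j 1) • (Pi.single i 1 : Fin n → L)) =
        A j - τ (g (Pi.single j 1)) • A i := by
      have hs : ∀ k : Fin n, sg τ A (Pi.single k 1) = A k := by
        intro k
        funext l
        unfold sg
        rw [Finset.sum_eq_single k]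
        · simp
        · intro b _ hb
          simp [hb]
        · intro h; exact absurd (Finset.mem_univ k) h
      rw [sub_eq_add_neg, sg_add, ← neg_one_smul L (g (Pi.single j 1) • Pi.single i 1), sg_smul,
        sg_smul, hs, hs, map_neg, map_one, neg_one_smul, ← sub_eq_add_neg]
    rw [e1, map_sub, map_smul, smul_eq_mul, hgsum (A j), hgsum (A i), hdiag] at h4
    linear_combination h4

end Crest.Agent.R006.NV
private theorem rz_41397a0728 : type_of% @_root_.Crest.Agent.R006.NV.orb.eq_def := @_root_.Crest.Agent.R006.NV.orb.eq_def -- L35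
private theorem rz_69e315f5cc : type_of% @_root_.Crest.Agent.R006.NV.orb.eq_1 := @_root_.Crest.Agent.R006.NV.orb.eq_1 -- L35
end

-- ▼ part R006/NVScalar_664
section

/-!
Row 6, block P2 (nonvanishing): scalar first-order difference equations have no rational
solutions (except the trivial ones).
-/

set_option autoImplicit false

namespace Crest.Agent.R006.NV

open Polynomial

variable {K : Type*} [Field K]

lemma eval_taylor_one (p : K[X]) (z : K) : (taylor 1 p).eval z = p.eval (z + 1) := by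
  rw [taylor_eval]

/-- chain to the right -/
lemma chain_right {q b : K[X]} (h : q ∣ b * taylor 1 q) {z : K} (hz : q.eval z = 0)
    (hfree : ∀ n : ℕ, b.eval (z + n) ≠ 0) (n : ℕ) : q.eval (z + n) = 0 := by
  induction n with
  | zero => simpa using hz
  | succ n ih =>
    obtain ⟨r, hr⟩ := h
    have h1 := congrArg (fun p : K[X] => p.eval (z + n)) hr
    simp only [eval_mul, ih, zero_mul, eval_taylor_one] at h1
    rcases mul_eq_zero.mp h1 with h2 | h2
    · exact absurd h2 (hfree n)
    · rw [← h2]; push_cast; ring_nf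

/-- chain to the left -/
lemma chain_left {q a : K[X]} (h : taylor 1 q ∣ a * q) {z : K} (hz : q.eval z = 0)
    (hfree : ∀ n : ℕ, a.eval (z - n - 1) ≠ 0) (n : ℕ) : q.eval (z - n) = 0 := by
  induction n with
  | zero => simpa using hz
  | succ n ih =>
    obtain ⟨r, hr⟩ := h
    have h1 := congrArg (fun p : K[X] => p.eval (z - n - 1)) hr
    have e : (taylor 1 q).eval (z - n - 1) = 0 := by
      rw [eval_taylor_one, sub_add_cancel, ih]
    simp only [eval_mul, e, zero_mul] at h1
    rcases mul_eq_zero.mp h1 with h2 | h2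
    · exact absurd h2 (hfree n)
    · rw [← h2]; push_cast; ring_nf

variable [CharZero K]

lemma zero_of_right {q : K[X]} {z : K} (h : ∀ n : ℕ, q.eval (z + n) = 0) : q = 0 := by
  apply Polynomial.eq_zero_of_infinite_isRoot
  apply Set.infinite_of_injective_forall_mem (f := fun n : ℕ => z + (n : K))
  · intro a b hab
    simpa using hab
  · intro n
    exact h n

lemma zero_of_left {q : K[X]} {z : K} (h : ∀ n : ℕ, q.eval (z - n) = 0) : q = 0 := by
  apply Polynomial.eq_zero_of_infinite_isRoot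
  apply Set.infinite_of_injective_forall_mem (f := fun n : ℕ => z - (n : K))
  · intro a b hab
    simpa using hab
  · intro n
    exact h n

/-- no poles: if `q ∣ b q(s+1)` and `q(s+1) ∣ a q` and no root of `b` lies in `α + 1 + ℕ` for a root
`α` of `a`, then `q` has no root. -/
lemma no_root {q a b : K[X]} (hq : q ≠ 0) (h1 : q ∣ b * taylor 1 q) (h2 : taylor 1 q ∣ a * q)
    (hab : ∀ α β : K, a.eval α = 0 → b.eval β = 0 → ∀ n : ℕ, β ≠ α + 1 + n) (z : K) :
    q.eval z ≠ 0 := by
  intro hz
  have hb : ∃ n : ℕ, b.eval (z + n) = 0 := by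
    by_contra hcon
    push Not at hcon
    exact hq (zero_of_right (chain_right h1 hz hcon))
  have ha : ∃ n : ℕ, a.eval (z - n - 1) = 0 := by
    by_contra hcon
    push Not at hcon
    exact hq (zero_of_left (chain_left h2 hz hcon))
  obtain ⟨n, hn⟩ := hb
  obtain ⟨m, hm⟩ := ha
  apply hab _ _ hm hn (n + m)
  push_cast
  ring

omit [CharZero K] in
/-- coprime numerator and denominator: divisibilities from `a τ(p)/τ(q) + b p/q = c` -/
lemma dvd_of_eq {p q a b c : K[X]} (hpq : IsCoprime p q)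
    (h : a * taylor 1 p * q + b * p * taylor 1 q = c * q * taylor 1 q) :
    q ∣ b * taylor 1 q ∧ taylor 1 q ∣ a * q := by
  have hpq' : IsCoprime (taylor 1 p) (taylor 1 q) := by
    obtain ⟨u, v, huv⟩ := hpq
    refine ⟨taylor 1 u, taylor 1 v, ?_⟩
    rw [← taylor_mul, ← taylor_mul, ← map_add, huv, taylor_one, C_1]
  constructor
  · have h1 : q ∣ p * (b * taylor 1 q) :=
      ⟨c * taylor 1 q - a * taylor 1 p, by linear_combination h⟩
    exact hpq.symm.dvd_of_dvd_mul_left h1
  · have h1 : taylor 1 q ∣ taylor 1 p * (a * q) :=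
      ⟨c * q - b * p, by linear_combination h⟩
    exact hpq'.symm.dvd_of_dvd_mul_left h1

omit [CharZero K] in
/-- degree computation -/
lemma leading_aux (p : K[X]) :
    ((X + 1) ^ 3 * taylor 1 p + (2 * X + 1) ^ 3 * p).coeff (3 + p.natDegree) = 9 * p.leadingCoeff := by
  have e1 : natDegree (X + 1 : K[X]) ≤ 1 := by
    have : (X + 1 : K[X]) = X + C 1 := by rw [C_1]
    rw [this]; exact (natDegree_X_add_C (1 : K)).le
  have e2 : natDegree (2 * X + 1 : K[X]) ≤ 1 := by
    have : (2 * X + 1 : K[X]) = C 2 * X + C 1 := by rw [map_ofNat, C_1]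
    rw [this]; exact natDegree_linear_le
  have c1 : (X + 1 : K[X]).coeff 1 = 1 := by
    rw [coeff_add, coeff_X_one, coeff_one]; norm_num
  have c2 : (2 * X + 1 : K[X]).coeff 1 = 2 := by
    have : (2 : K[X]) = C 2 := (map_ofNat C 2).symm
    rw [this, coeff_add, coeff_C_mul, coeff_X_one, coeff_one]; norm_num
  have d1 : natDegree ((X + 1 : K[X]) ^ 3) ≤ 3 := natDegree_pow_le_of_le 3 e1
  have d2 : natDegree ((2 * X + 1 : K[X]) ^ 3) ≤ 3 := natDegree_pow_le_of_le 3 e2
  have f1 : ((X + 1 : K[X]) ^ 3).coeff 3 = 1 := by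
    have := coeff_pow_of_natDegree_le (m := 3) e1
    rw [mul_one] at this
    rw [this, c1, one_pow]
  have f2 : ((2 * X + 1 : K[X]) ^ 3).coeff 3 = 8 := by
    have := coeff_pow_of_natDegree_le (m := 3) e2
    rw [mul_one] at this
    rw [this, c2]; norm_num
  rw [coeff_add, coeff_mul_add_eq_of_natDegree_le d1 (natDegree_taylor p 1).le,
    coeff_mul_add_eq_of_natDegree_le d2 le_rfl, f1, f2, ← leadingCoeff]
  have : (taylor 1 p).coeff p.natDegree = p.leadingCoeff := coeff_taylor_natDegree 1 p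
  rw [this]
  ring

/-- (S1), polynomial form: `ψ` has no rational solution. -/
theorem no_rational_psi [IsAlgClosed K] {p q : K[X]} (hq : q ≠ 0) (hpq : IsCoprime p q) :
    (X + 1) ^ 3 * taylor 1 p * q + (2 * X + 1) ^ 3 * p * taylor 1 q ≠
      C (1 / 2) * (3 * X + 2) * q * taylor 1 q := by
  intro h
  obtain ⟨h1, h2⟩ := dvd_of_eq hpq h
  have hroot : ∀ z, q.eval z ≠ 0 := by
    apply no_root hq h1 h2
    intro α β hα hβ n hn
    simp only [eval_pow, eval_add, eval_X, eval_one, eval_mul, eval_ofNat] at hα hβ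
    have hα' : α + 1 = 0 := pow_eq_zero_iff (by norm_num) |>.mp hα
    have hβ' : 2 * β + 1 = 0 := pow_eq_zero_iff (by norm_num) |>.mp hβ
    have : ((2 * n + 1 : ℕ) : K) = 0 := by
      push_cast
      linear_combination (-2) * hα' + hβ' - 2 * hn
    exact absurd this (by exact_mod_cast (by omega : 2 * n + 1 ≠ 0))
  have hdeg : q.natDegree = 0 := by
    by_contra hne
    have hd : q.degree ≠ 0 := fun hc => hne (natDegree_eq_of_degree_eq_some hc)
    obtain ⟨z, hz⟩ := IsAlgClosed.exists_root q hd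
    exact hroot z hz
  obtain ⟨c, rfl⟩ : ∃ c, q = C c := ⟨_, eq_C_of_natDegree_eq_zero hdeg⟩
  have hc : c ≠ 0 := by
    intro hc; apply hq; rw [hc, C_0]
  rw [taylor_C] at h
  have h3 : (X + 1) ^ 3 * taylor 1 p + (2 * X + 1) ^ 3 * p = C (1 / 2) * (3 * X + 2) * C c := by
    have hCc : (C c : K[X]) ≠ 0 := hq
    apply mul_right_cancel₀ hCc
    linear_combination h
  have hp : p ≠ 0 := by
    rintro rfl
    simp only [map_zero, mul_zero, add_zero] at h3
    have h4 := congrArg (fun f : K[X] => f.eval 0) h3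
    simp only [eval_zero, eval_mul, eval_C, eval_add, eval_X, mul_zero, eval_ofNat,
      zero_add] at h4
    have : (1 / 2 * 2 * c : K) = 0 := h4.symm
    apply hc
    linear_combination this
  have h5 := leading_aux p
  rw [h3] at h5
  have h6 : (C (1 / 2) * (3 * X + 2) * C c : K[X]).coeff (3 + p.natDegree) = 0 := by
    have e : (C (1 / 2) * (3 * X + 2) * C c : K[X]) = C (3 / 2 * c) * X + C c := by
      have t3 : (3 : K[X]) = C 3 := (map_ofNat C 3).symm
      have t2 : (2 : K[X]) = C 2 := (map_ofNat C 2).symm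
      rw [t3, t2]
      have : (C (3 / 2 * c) : K[X]) = C (1 / 2) * C 3 * C c := by
        rw [← C_mul, ← C_mul]; congr 1; ring
      rw [this]
      have : (C c : K[X]) = C (1 / 2) * C 2 * C c := by
        rw [← C_mul, ← C_mul]; congr 1; ring
      linear_combination (-1 : K[X]) * this
    rw [e]
    apply coeff_eq_zero_of_natDegree_lt
    exact lt_of_le_of_lt natDegree_linear_le (by omega)
  rw [h6] at h5
  have h9 : (9 : K) ≠ 0 := by norm_num
  exact (mul_ne_zero h9 (leadingCoeff_ne_zero.mpr hp)) h5.symm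

/-- (S2), polynomial form: the ratio of the `ψ`- and the `g`-character is not a coboundary. -/
theorem no_rational_ratio {p q : K[X]} (hq : q ≠ 0)
    (h : -((2 * X + 1) ^ 3) * p * taylor 1 q =
      C (1 / 4) * (X + 1) * (2 * X + 1) ^ 2 * taylor 1 p * q) : p = 0 := by
  by_contra hp
  have e1 : natDegree (X + 1 : K[X]) ≤ 1 := by
    have : (X + 1 : K[X]) = X + C 1 := by rw [C_1]
    rw [this]; exact (natDegree_X_add_C (1 : K)).le
  have e2 : natDegree (2 * X + 1 : K[X]) ≤ 1 := by
    have : (2 * X + 1 : K[X]) = C 2 * X + C 1 := by rw [map_ofNat, C_1]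
    rw [this]; exact natDegree_linear_le
  have c1 : (X + 1 : K[X]).coeff 1 = 1 := by
    rw [coeff_add, coeff_X_one, coeff_one]; norm_num
  have c2 : (2 * X + 1 : K[X]).coeff 1 = 2 := by
    have : (2 : K[X]) = C 2 := (map_ofNat C 2).symm
    rw [this, coeff_add, coeff_C_mul, coeff_X_one, coeff_one]; norm_num
  have dp : (taylor 1 p).coeff p.natDegree = p.leadingCoeff := coeff_taylor_natDegree 1 p
  have dq : (taylor 1 q).coeff q.natDegree = q.leadingCoeff := coeff_taylor_natDegree 1 q
  have k2 : ∀ k : ℕ, ((2 * X + 1 : K[X]) ^ k).coeff k = 2 ^ k := by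
    intro k
    have := coeff_pow_of_natDegree_le (m := k) e2
    rw [mul_one] at this
    rw [this, c2]
  have n2 : ∀ k : ℕ, natDegree ((2 * X + 1 : K[X]) ^ k) ≤ k := fun k =>
    (natDegree_pow_le_of_le k e2).trans (by omega)
  have L1 : ((2 * X + 1) ^ 3 * p * taylor 1 q).coeff (3 + p.natDegree + q.natDegree) =
      8 * p.leadingCoeff * q.leadingCoeff := by
    rw [coeff_mul_add_eq_of_natDegree_le
      ((natDegree_mul_le_of_le (n2 3) le_rfl)) (natDegree_taylor q 1).le,
      coeff_mul_add_eq_of_natDegree_le (n2 3) le_rfl, k2, dq, leadingCoeff]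
    norm_num
  have L2 : (C (1 / 4) * (X + 1) * (2 * X + 1) ^ 2 * taylor 1 p * q).coeff
      (3 + p.natDegree + q.natDegree) = p.leadingCoeff * q.leadingCoeff := by
    have m1 : natDegree (C (1 / 4) * (X + 1) : K[X]) ≤ 1 := (natDegree_C_mul_le _ _).trans e1
    have m2 : natDegree (C (1 / 4) * (X + 1) * (2 * X + 1) ^ 2 : K[X]) ≤ 1 + 2 :=
      natDegree_mul_le_of_le m1 (n2 2)
    have m3 : natDegree (C (1 / 4) * (X + 1) * (2 * X + 1) ^ 2 * taylor 1 p : K[X]) ≤
        1 + 2 + p.natDegree := natDegree_mul_le_of_le m2 (natDegree_taylor p 1).le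
    rw [show 3 + p.natDegree + q.natDegree = 1 + 2 + p.natDegree + q.natDegree by ring,
      coeff_mul_add_eq_of_natDegree_le m3 le_rfl,
      coeff_mul_add_eq_of_natDegree_le m2 (natDegree_taylor p 1).le,
      coeff_mul_add_eq_of_natDegree_le m1 (n2 2), k2, dp, coeff_C_mul, c1, ← leadingCoeff]
    ring
  have h3 := congrArg (fun f : K[X] => f.coeff (3 + p.natDegree + q.natDegree)) h
  have e3 : -((2 * X + 1) ^ 3) * p * taylor 1 q = -((2 * X + 1) ^ 3 * p * taylor 1 q) := by ring
  simp only [e3, coeff_neg, L1, L2] at h3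
  have h4 : (9 : K) * (p.leadingCoeff * q.leadingCoeff) = 0 := by linear_combination -h3
  have h9 : (9 : K) ≠ 0 := by norm_num
  exact (mul_ne_zero h9 (mul_ne_zero (leadingCoeff_ne_zero.mpr hp)
    (leadingCoeff_ne_zero.mpr hq))) h4

/-- (S3), polynomial form: `g` is not rational. -/
theorem no_rational_g [IsAlgClosed K] {p q : K[X]} (hq : q ≠ 0) (hpq : IsCoprime p q)
    (h : C (1 / 4) * (X + 1) * (2 * X + 1) ^ 2 * p * taylor 1 q =
      (X + 1) ^ 3 * taylor 1 p * q) : p = 0 := by
  have hX : (X + 1 : K[X]) ≠ 0 := by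
    intro h0
    have h1 := congrArg (fun f : K[X] => f.eval 0) h0
    simp at h1
  have h' : (X + 1) ^ 2 * taylor 1 p * q + (-(C (1 / 4) * (2 * X + 1) ^ 2)) * p * taylor 1 q =
      0 * q * taylor 1 q := by
    apply mul_left_cancel₀ hX
    linear_combination -h
  obtain ⟨h1, h2⟩ := dvd_of_eq hpq h'
  have hroot : ∀ z, q.eval z ≠ 0 := by
    apply no_root hq h1 h2
    intro α β hα hβ n hn
    simp only [eval_pow, eval_add, eval_X, eval_one, eval_mul, eval_ofNat, eval_neg, eval_C,
      neg_eq_zero] at hα hβ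
    have hα' : α + 1 = 0 := pow_eq_zero_iff (by norm_num) |>.mp hα
    have h4 : (1 / 4 : K) ≠ 0 := by norm_num
    have hβ' : 2 * β + 1 = 0 :=
      pow_eq_zero_iff (by norm_num) |>.mp ((mul_eq_zero.mp hβ).resolve_left h4)
    have : ((2 * n + 1 : ℕ) : K) = 0 := by
      push_cast
      linear_combination (-2) * hα' + hβ' - 2 * hn
    exact absurd this (by exact_mod_cast (by omega : 2 * n + 1 ≠ 0))
  have hdeg : q.natDegree = 0 := by
    by_contra hne
    have hd : q.degree ≠ 0 := fun hc => hne (natDegree_eq_of_degree_eq_some hc)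
    obtain ⟨z, hz⟩ := IsAlgClosed.exists_root q hd
    exact hroot z hz
  obtain ⟨c, rfl⟩ : ∃ c, q = C c := ⟨_, eq_C_of_natDegree_eq_zero hdeg⟩
  rw [taylor_C] at h'
  have h3 : (X + 1) ^ 2 * taylor 1 p = C (1 / 4) * (2 * X + 1) ^ 2 * p := by
    apply mul_right_cancel₀ hq
    linear_combination h'
  have key : ∀ n : ℕ, p.eval ((1 / 2 : K) + (n : K)) = 0 := by
    intro n
    induction n with
    | zero =>
      have h5 := congrArg (fun f : K[X] => f.eval (-1 / 2 : K)) h3
      simp only [eval_pow, eval_add, eval_X, eval_one, eval_mul, eval_ofNat, eval_C,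
        eval_taylor_one] at h5
      have e : (-1 / 2 + 1 : K) = 1 / 2 := by norm_num
      rw [e] at h5
      have e2 : (2 * (-1 / 2) + 1 : K) = 0 := by norm_num
      rw [e2] at h5
      have h6 : (1 / 4 : K) * p.eval (1 / 2) = 0 := by linear_combination h5
      have h4 : (1 / 4 : K) ≠ 0 := by norm_num
      simpa using (mul_eq_zero.mp h6).resolve_left h4
    | succ n ih =>
      have h5 := congrArg (fun f : K[X] => f.eval ((1 / 2 : K) + (n : K))) h3
      simp only [eval_pow, eval_add, eval_X, eval_one, eval_mul, eval_ofNat, eval_C,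
        eval_taylor_one, ih, mul_zero] at h5
      have h6 : (1 / 2 + (n : K) + 1) ≠ 0 := by
        have : ((2 * n + 3 : ℕ) : K) ≠ 0 := by exact_mod_cast (by omega : 2 * n + 3 ≠ 0)
        intro hc
        apply this
        push_cast
        linear_combination 2 * hc
      have h7 := (mul_eq_zero.mp h5).resolve_left (pow_ne_zero 2 h6)
      push_cast
      rw [← h7]; ring_nf
  exact zero_of_right key

end Crest.Agent.R006.NV
end

-- ▼ part R006/NVCas_664
section

/-!
Row 6, block P2 (nonvanishing): the three Casoratians do not vanish.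
-/

set_option autoImplicit false

namespace Crest.Agent.R006.NV

open Polynomial

section frac

variable {K : Type*} [Field K]

/-- the field of rational functions -/
abbrev RF (K : Type*) [Field K] := FractionRing K[X]

/-- the shift on rational functions -/
noncomputable def shf (K : Type*) [Field K] : RF K →+* RF K :=
  ((IsFractionRing.ringEquivOfRingEquiv (K := RF K) (L := RF K)
    ((taylorEquiv (1 : K)).toRingEquiv) : RF K ≃+* RF K) : RF K →+* RF K)

lemma shf_algebraMap (p : K[X]) :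
    shf K (algebraMap K[X] (RF K) p) = algebraMap K[X] (RF K) (taylor 1 p) := by
  have h := IsFractionRing.ringEquivOfRingEquiv_algebraMap (K := RF K) (L := RF K)
    ((taylorEquiv (1 : K)).toRingEquiv) p
  exact h

lemma exists_frac (x : RF K) : ∃ p q : K[X], q ≠ 0 ∧ IsCoprime p q ∧
    x * algebraMap K[X] (RF K) q = algebraMap K[X] (RF K) p := by
  obtain ⟨a, b, hab, hx⟩ := IsFractionRing.exists_reduced_fraction (A := K[X]) x
  refine ⟨a, b, nonZeroDivisors.coe_ne_zero b, hab.isCoprime, ?_⟩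
  rw [← hx]
  exact IsLocalization.mk'_spec _ _ _

lemma am_inj {p q : K[X]} (h : algebraMap K[X] (RF K) p = algebraMap K[X] (RF K) q) : p = q :=
  IsFractionRing.injective K[X] (RF K) h

lemma frac_eq {x : RF K} {p q : K[X]} (h : x * algebraMap K[X] (RF K) q = algebraMap K[X] (RF K) p) :
    shf K x * algebraMap K[X] (RF K) (taylor 1 q) = algebraMap K[X] (RF K) (taylor 1 p) := by
  have := congrArg (shf K) h
  rwa [map_mul, shf_algebraMap, shf_algebraMap] at this

variable [CharZero K] [IsAlgClosed K]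

/-- (S1) -/
theorem S1 (x : RF K) : algebraMap K[X] (RF K) ((X + 1) ^ 3) * shf K x
    + algebraMap K[X] (RF K) ((2 * X + 1) ^ 3) * x ≠
      algebraMap K[X] (RF K) (C (1 / 2) * (3 * X + 2)) := by
  intro h
  obtain ⟨p, q, hq, hpq, hx⟩ := exists_frac x
  have hx' := frac_eq hx
  apply no_rational_psi hq hpq
  apply am_inj
  simp only [map_add, map_mul] at h ⊢
  linear_combination (algebraMap K[X] (RF K) q * algebraMap K[X] (RF K) (taylor 1 q)) * h
    - algebraMap K[X] (RF K) ((X + 1) ^ 3) * algebraMap K[X] (RF K) q * hx'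
    - algebraMap K[X] (RF K) ((2 * X + 1) ^ 3) * algebraMap K[X] (RF K) (taylor 1 q) * hx

omit [IsAlgClosed K] in
/-- (S2) -/
theorem S2 (x : RF K) (h : algebraMap K[X] (RF K) (-((2 * X + 1) ^ 3)) * x =
    algebraMap K[X] (RF K) (C (1 / 4) * (X + 1) * (2 * X + 1) ^ 2) * shf K x) : x = 0 := by
  obtain ⟨p, q, hq, hpq, hx⟩ := exists_frac x
  have hx' := frac_eq hx
  have hp : p = 0 := by
    apply no_rational_ratio hq
    apply am_inj
    simp only [map_mul] at h ⊢
    linear_combination (algebraMap K[X] (RF K) q * algebraMap K[X] (RF K) (taylor 1 q)) * h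
      + algebraMap K[X] (RF K) (C (1 / 4)) * algebraMap K[X] (RF K) (X + 1) *
          algebraMap K[X] (RF K) ((2 * X + 1) ^ 2) * algebraMap K[X] (RF K) q * hx'
      - algebraMap K[X] (RF K) (-((2 * X + 1) ^ 3)) * algebraMap K[X] (RF K) (taylor 1 q) * hx
  rw [hp, map_zero] at hx
  rcases mul_eq_zero.mp hx with h0 | h0
  · exact h0
  · exfalso
    apply hq
    apply am_inj
    rw [h0, map_zero]

/-- (S3) -/
theorem S3 (x : RF K) (h : algebraMap K[X] (RF K) (C (1 / 4) * (X + 1) * (2 * X + 1) ^ 2) * x =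
    algebraMap K[X] (RF K) ((X + 1) ^ 3) * shf K x) : x = 0 := by
  obtain ⟨p, q, hq, hpq, hx⟩ := exists_frac x
  have hx' := frac_eq hx
  have hp : p = 0 := by
    apply no_rational_g hq hpq
    apply am_inj
    simp only [map_mul] at h ⊢
    linear_combination (algebraMap K[X] (RF K) q * algebraMap K[X] (RF K) (taylor 1 q)) * h
      + algebraMap K[X] (RF K) ((X + 1) ^ 3) * algebraMap K[X] (RF K) q * hx'
      - algebraMap K[X] (RF K) (C (1 / 4)) * algebraMap K[X] (RF K) (X + 1) *
          algebraMap K[X] (RF K) ((2 * X + 1) ^ 2) * algebraMap K[X] (RF K) (taylor 1 q) * hx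
  rw [hp, map_zero] at hx
  rcases mul_eq_zero.mp hx with h0 | h0
  · exact h0
  · exfalso
    apply hq
    apply am_inj
    rw [h0, map_zero]

/-! ### rank 3 -/

/-- matrix of the system `(T, Q, R)` -/
noncomputable def A3 (K : Type*) [Field K] : Matrix (Fin 3) (Fin 3) (RF K) :=
  !![algebraMap K[X] (RF K) ((X + 1) ^ 3), 0, 0;
     0, algebraMap K[X] (RF K) (C (1 / 4) * (X + 1) * (2 * X + 1) ^ 2), 0;
     algebraMap K[X] (RF K) (C (1 / 2) * (3 * X + 2)), 0,
       algebraMap K[X] (RF K) (-((2 * X + 1) ^ 3))]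

omit [CharZero K] [IsAlgClosed K] in
lemma sg_A3 (R T Q : K[X]) :
    sg (shf K) (A3 K) ![algebraMap K[X] (RF K) T, algebraMap K[X] (RF K) Q,
      algebraMap K[X] (RF K) R] =
    ![algebraMap K[X] (RF K) (sT R T), algebraMap K[X] (RF K) (sQ Q),
      algebraMap K[X] (RF K) (sR R)] := by
  funext j
  fin_cases j
  · simp [sg, A3, Fin.sum_univ_three, shf_algebraMap, sT]
    ring
  · simp [sg, A3, Fin.sum_univ_three, shf_algebraMap, sQ]
    ring
  · simp [sg, A3, Fin.sum_univ_three, shf_algebraMap, sR]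
    ring

omit [CharZero K] [IsAlgClosed K] in
lemma A3_tri : ∀ i j, i < j → A3 K i j = 0 := by
  intro i j hij
  fin_cases i <;> fin_cases j <;> first | rfl | (exfalso; revert hij; decide)

omit [CharZero K] [IsAlgClosed K] in
lemma det_orb3 (R T Q : K[X]) :
    Matrix.det (Matrix.of (fun i : Fin 3 => orb (shf K) (A3 K)
      ![algebraMap K[X] (RF K) T, algebraMap K[X] (RF K) Q, algebraMap K[X] (RF K) R] i)) =
    algebraMap K[X] (RF K) (DD R T Q) := by
  have e0 : orb (shf K) (A3 K) ![algebraMap K[X] (RF K) T, algebraMap K[X] (RF K) Q,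
      algebraMap K[X] (RF K) R] 0 = ![algebraMap K[X] (RF K) T, algebraMap K[X] (RF K) Q,
      algebraMap K[X] (RF K) R] := rfl
  have e1 : orb (shf K) (A3 K) ![algebraMap K[X] (RF K) T, algebraMap K[X] (RF K) Q,
      algebraMap K[X] (RF K) R] 1 = ![algebraMap K[X] (RF K) (sT R T),
        algebraMap K[X] (RF K) (sQ Q), algebraMap K[X] (RF K) (sR R)] := sg_A3 R T Q
  have e2 : orb (shf K) (A3 K) ![algebraMap K[X] (RF K) T, algebraMap K[X] (RF K) Q,
      algebraMap K[X] (RF K) R] 2 = ![algebraMap K[X] (RF K) (sT (sR R) (sT R T)),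
        algebraMap K[X] (RF K) (sQ (sQ Q)), algebraMap K[X] (RF K) (sR (sR R))] := by
    have : orb (shf K) (A3 K) ![algebraMap K[X] (RF K) T, algebraMap K[X] (RF K) Q,
      algebraMap K[X] (RF K) R] 2 = sg (shf K) (A3 K) (orb (shf K) (A3 K)
        ![algebraMap K[X] (RF K) T, algebraMap K[X] (RF K) Q,
      algebraMap K[X] (RF K) R] 1) := rfl
    rw [this, e1, sg_A3]
  rw [Matrix.det_fin_three]
  simp only [Matrix.of_apply, Fin.val_zero, Fin.val_one, Fin.val_two, e0, e1, e2]
  simp only [DD, det3, map_add, map_sub, map_mul, Matrix.cons_val_zero, Matrix.cons_val_one,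
    Matrix.cons_val]
  ring

theorem DD_ne_zero_of_isAlgClosed {R T Q : K[X]} (hR : R ≠ 0) (hQ : Q ≠ 0) : DD R T Q ≠ 0 := by
  intro h
  have hdet := det_orb3 R T Q
  rw [h, map_zero] at hdet
  obtain ⟨i, l, hi, hlow, hsum, heig⟩ := casoratian_flag (shf K) (A3 K) A3_tri _ hdet
  have h2 := heig 2
  have e20 : A3 K 2 0 = algebraMap K[X] (RF K) (C (1 / 2) * (3 * X + 2)) := rfl
  have e21 : A3 K 2 1 = 0 := rfl
  have e22 : A3 K 2 2 = algebraMap K[X] (RF K) (-((2 * X + 1) ^ 3)) := rfl
  have e00 : A3 K 0 0 = algebraMap K[X] (RF K) ((X + 1) ^ 3) := rfl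
  have e11 : A3 K 1 1 = algebraMap K[X] (RF K) (C (1 / 4) * (X + 1) * (2 * X + 1) ^ 2) := rfl
  fin_cases i
  · -- `l_T = 1`
    have hi' : l 0 = 1 := hi
    have h2' : ∑ k, A3 K 2 k * l k = A3 K 0 0 * shf K (l 2) := h2
    rw [Fin.sum_univ_three, e20, e21, e22, e00, hi'] at h2'
    apply S1 (l 2)
    rw [map_neg] at h2'
    linear_combination -h2'
  · have hl0 : l 0 = 0 := hlow 0 (by decide)
    have hi' : l 1 = 1 := hi
    have h2' : ∑ k, A3 K 2 k * l k = A3 K 1 1 * shf K (l 2) := h2
    rw [Fin.sum_univ_three, e20, e21, e22, e11, hl0] at h2'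
    have hl2 : l 2 = 0 := by
      apply S2
      linear_combination h2'
    simp [Fin.sum_univ_three, hi', hl0, hl2] at hsum
    exact hQ hsum
  · have hl0 : l 0 = 0 := hlow 0 (by decide)
    have hl1 : l 1 = 0 := hlow 1 (by decide)
    simp [Fin.sum_univ_three] at hi hsum
    simp [hi, hl0, hl1] at hsum
    exact hR hsum

/-! ### rank 2, `(T, R)` -/

/-- matrix of the system `(T, R)` -/
noncomputable def A2 (K : Type*) [Field K] : Matrix (Fin 2) (Fin 2) (RF K) :=
  !![algebraMap K[X] (RF K) ((X + 1) ^ 3), 0;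
     algebraMap K[X] (RF K) (C (1 / 2) * (3 * X + 2)), algebraMap K[X] (RF K) (-((2 * X + 1) ^ 3))]

theorem DRT_ne_zero_of_isAlgClosed {R T : K[X]} (hR : R ≠ 0) : DRT R T ≠ 0 := by
  intro h
  have htri : ∀ i j, i < j → A2 K i j = 0 := by
    intro i j hij
    fin_cases i <;> fin_cases j <;> first | rfl | (exfalso; revert hij; decide)
  have hsg : sg (shf K) (A2 K) ![algebraMap K[X] (RF K) T, algebraMap K[X] (RF K) R] =
      ![algebraMap K[X] (RF K) (sT R T), algebraMap K[X] (RF K) (sR R)] := by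
    funext j
    fin_cases j
    · simp [sg, A2, Fin.sum_univ_two, shf_algebraMap, sT]
      ring
    · simp [sg, A2, Fin.sum_univ_two, shf_algebraMap, sR]
      ring
  have hdet : Matrix.det (Matrix.of (fun i : Fin 2 => orb (shf K) (A2 K)
      ![algebraMap K[X] (RF K) T, algebraMap K[X] (RF K) R] i)) = 0 := by
    have e0 : orb (shf K) (A2 K) ![algebraMap K[X] (RF K) T, algebraMap K[X] (RF K) R] 0 =
      ![algebraMap K[X] (RF K) T, algebraMap K[X] (RF K) R] := rfl
    have e1 : orb (shf K) (A2 K) ![algebraMap K[X] (RF K) T, algebraMap K[X] (RF K) R] 1 =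
      ![algebraMap K[X] (RF K) (sT R T), algebraMap K[X] (RF K) (sR R)] := hsg
    rw [Matrix.det_fin_two]
    simp only [Matrix.of_apply, Fin.val_zero, Fin.val_one, e0, e1]
    simp only [Matrix.cons_val_zero, Matrix.cons_val_one]
    have h' := congrArg (algebraMap K[X] (RF K)) h
    simp only [DRT, map_sub, map_mul, map_zero] at h'
    linear_combination -h'
  obtain ⟨i, l, hi, hlow, hsum, heig⟩ := casoratian_flag (shf K) (A2 K) htri _ hdet
  have h1 := heig 1
  have e10 : A2 K 1 0 = algebraMap K[X] (RF K) (C (1 / 2) * (3 * X + 2)) := rfl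
  have e11 : A2 K 1 1 = algebraMap K[X] (RF K) (-((2 * X + 1) ^ 3)) := rfl
  have e00 : A2 K 0 0 = algebraMap K[X] (RF K) ((X + 1) ^ 3) := rfl
  fin_cases i
  · have hi' : l 0 = 1 := hi
    have h1' : ∑ k, A2 K 1 k * l k = A2 K 0 0 * shf K (l 1) := h1
    rw [Fin.sum_univ_two, e10, e11, e00, hi'] at h1'
    apply S1 (l 1)
    rw [map_neg] at h1'
    linear_combination -h1'
  · have hl0 : l 0 = 0 := hlow 0 (by decide)
    have hi' : l 1 = 1 := hi
    simp [Fin.sum_univ_two, hi', hl0] at hsum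
    exact hR hsum

/-! ### rank 2, `(T, Q)` -/

/-- matrix of the system `(T, Q)` -/
noncomputable def A2' (K : Type*) [Field K] : Matrix (Fin 2) (Fin 2) (RF K) :=
  !![algebraMap K[X] (RF K) ((X + 1) ^ 3), 0;
     0, algebraMap K[X] (RF K) (C (1 / 4) * (X + 1) * (2 * X + 1) ^ 2)]

theorem DTQ_ne_zero_of_isAlgClosed {T Q : K[X]} (hT : T ≠ 0) (hQ : Q ≠ 0) : DTQ T Q ≠ 0 := by
  intro h
  have htri : ∀ i j, i < j → A2' K i j = 0 := by
    intro i j hij
    fin_cases i <;> fin_cases j <;> first | rfl | (exfalso; revert hij; decide)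
  have hsg : sg (shf K) (A2' K) ![algebraMap K[X] (RF K) T, algebraMap K[X] (RF K) Q] =
      ![algebraMap K[X] (RF K) (sT 0 T), algebraMap K[X] (RF K) (sQ Q)] := by
    funext j
    fin_cases j
    · simp [sg, A2', Fin.sum_univ_two, shf_algebraMap, sT]
      ring
    · simp [sg, A2', Fin.sum_univ_two, shf_algebraMap, sQ]
      ring
  have hdet : Matrix.det (Matrix.of (fun i : Fin 2 => orb (shf K) (A2' K)
      ![algebraMap K[X] (RF K) T, algebraMap K[X] (RF K) Q] i)) = 0 := by
    have e0 : orb (shf K) (A2' K) ![algebraMap K[X] (RF K) T, algebraMap K[X] (RF K) Q] 0 =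
      ![algebraMap K[X] (RF K) T, algebraMap K[X] (RF K) Q] := rfl
    have e1 : orb (shf K) (A2' K) ![algebraMap K[X] (RF K) T, algebraMap K[X] (RF K) Q] 1 =
      ![algebraMap K[X] (RF K) (sT 0 T), algebraMap K[X] (RF K) (sQ Q)] := hsg
    rw [Matrix.det_fin_two]
    simp only [Matrix.of_apply, Fin.val_zero, Fin.val_one, e0, e1]
    simp only [Matrix.cons_val_zero, Matrix.cons_val_one]
    have h' := congrArg (algebraMap K[X] (RF K)) h
    simp only [DTQ, map_sub, map_mul, map_zero] at h'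
    linear_combination h'
  obtain ⟨i, l, hi, hlow, hsum, heig⟩ := casoratian_flag (shf K) (A2' K) htri _ hdet
  have h1 := heig 1
  have e10 : A2' K 1 0 = 0 := rfl
  have e11 : A2' K 1 1 = algebraMap K[X] (RF K) (C (1 / 4) * (X + 1) * (2 * X + 1) ^ 2) := rfl
  have e00 : A2' K 0 0 = algebraMap K[X] (RF K) ((X + 1) ^ 3) := rfl
  fin_cases i
  · have hi' : l 0 = 1 := hi
    have h1' : ∑ k, A2' K 1 k * l k = A2' K 0 0 * shf K (l 1) := h1
    rw [Fin.sum_univ_two, e10, e11, e00] at h1'
    have hl1 : l 1 = 0 := by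
      apply S3
      linear_combination h1'
    simp [Fin.sum_univ_two, hi', hl1] at hsum
    exact hT hsum
  · have hl0 : l 0 = 0 := hlow 0 (by decide)
    have hi' : l 1 = 1 := hi
    simp [Fin.sum_univ_two, hi', hl0] at hsum
    exact hQ hsum

end frac

/-! ### descent to any field of characteristic zero -/

section descent

variable {K L : Type*} [Field K] [Field L] (f : K →+* L)

lemma map_two' : (2 : K[X]).map f = 2 := by
  have : (2 : K[X]) = C 2 := (map_ofNat C 2).symm
  rw [this, Polynomial.map_C, map_ofNat, map_ofNat]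

lemma map_three' : (3 : K[X]).map f = 3 := by
  have : (3 : K[X]) = C 3 := (map_ofNat C 3).symm
  rw [this, Polynomial.map_C, map_ofNat, map_ofNat]

lemma map_half : (C (1 / 2) : K[X]).map f = C (1 / 2) := by
  rw [Polynomial.map_C, map_div₀, map_one, map_ofNat]

lemma map_quarter : (C (1 / 4) : K[X]).map f = C (1 / 4) := by
  rw [Polynomial.map_C, map_div₀, map_one, map_ofNat]

lemma map_taylor_one (p : K[X]) : (taylor 1 p).map f = taylor 1 (p.map f) := by
  rw [Polynomial.map_taylor, map_one]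

lemma map_sR (R : K[X]) : (sR R).map f = sR (R.map f) := by
  simp only [sR, Polynomial.map_neg, Polynomial.map_mul, Polynomial.map_pow, Polynomial.map_add,
    map_two', Polynomial.map_X, Polynomial.map_one, map_taylor_one]

lemma map_sT (R T : K[X]) : (sT R T).map f = sT (R.map f) (T.map f) := by
  simp only [sT, Polynomial.map_mul, Polynomial.map_pow, Polynomial.map_add, map_half,
    map_two', map_three', Polynomial.map_X, Polynomial.map_one, map_taylor_one]

lemma map_sQ (Q : K[X]) : (sQ Q).map f = sQ (Q.map f) := by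
  simp only [sQ, Polynomial.map_mul, Polynomial.map_pow, Polynomial.map_add, map_quarter,
    map_two', Polynomial.map_X, Polynomial.map_one, map_taylor_one]

lemma map_DD (R T Q : K[X]) : (DD R T Q).map f = DD (R.map f) (T.map f) (Q.map f) := by
  simp only [DD, det3, Polynomial.map_add, Polynomial.map_sub, Polynomial.map_mul, map_sR, map_sT,
    map_sQ]

lemma map_DRT (R T : K[X]) : (DRT R T).map f = DRT (R.map f) (T.map f) := by
  simp only [DRT, Polynomial.map_sub, Polynomial.map_mul, map_sR, map_sT]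

lemma map_DTQ (T Q : K[X]) : (DTQ T Q).map f = DTQ (T.map f) (Q.map f) := by
  simp only [DTQ, Polynomial.map_sub, Polynomial.map_mul, map_sQ, map_sT, Polynomial.map_zero]

end descent

variable {K : Type*} [Field K] [CharZero K]

theorem DD_ne_zero {R T Q : K[X]} (hR : R ≠ 0) (hQ : Q ≠ 0) : DD R T Q ≠ 0 := by
  intro h
  have h1 := map_DD (algebraMap K (AlgebraicClosure K)) R T Q
  rw [h, Polynomial.map_zero] at h1
  refine DD_ne_zero_of_isAlgClosed ?_ ?_ h1.symm
  · exact (Polynomial.map_ne_zero_iff (algebraMap K (AlgebraicClosure K)).injective).mpr hR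
  · exact (Polynomial.map_ne_zero_iff (algebraMap K (AlgebraicClosure K)).injective).mpr hQ

theorem DRT_ne_zero {R T : K[X]} (hR : R ≠ 0) : DRT R T ≠ 0 := by
  intro h
  have h1 := map_DRT (algebraMap K (AlgebraicClosure K)) R T
  rw [h, Polynomial.map_zero] at h1
  refine DRT_ne_zero_of_isAlgClosed ?_ h1.symm
  exact (Polynomial.map_ne_zero_iff (algebraMap K (AlgebraicClosure K)).injective).mpr hR

theorem DTQ_ne_zero {T Q : K[X]} (hT : T ≠ 0) (hQ : Q ≠ 0) : DTQ T Q ≠ 0 := by
  intro h
  have h1 := map_DTQ (algebraMap K (AlgebraicClosure K)) T Q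
  rw [h, Polynomial.map_zero] at h1
  refine DTQ_ne_zero_of_isAlgClosed ?_ ?_ h1.symm
  · exact (Polynomial.map_ne_zero_iff (algebraMap K (AlgebraicClosure K)).injective).mpr hT
  · exact (Polynomial.map_ne_zero_iff (algebraMap K (AlgebraicClosure K)).injective).mpr hQ

end Crest.Agent.R006.NV
end

-- ▼ part R006/NVMain_664
section

/-!
Row 6, block P2 (nonvanishing): the zero estimate.
-/

set_option autoImplicit false

namespace Crest.Agent.R006.NV

open Polynomial

variable {K : Type*} [Field K] [CharZero K]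

/-- **Zero estimate** (block P2).  `tot k L = ∑ (length - k)` over the intervals of `L`. -/
theorem zero_estimate {c lam : K} {R T Q : K[X]} {LR LF LQ HR HF HQ : List (ℤ × ℤ)}
    (o : Orders c lam R T Q LR LF LQ HR HF HQ) {M ρ δ κ : ℕ} (hM : ρ ≤ M + δ)
    (hR : natDegree R ≤ ρ) (hF : natDegree (Finf M R T) ≤ M + δ) (hQ : natDegree Q ≤ κ)
    (H3 : ρ + δ + κ + 9 < tot 2 (LR ++ LF ++ LQ) + tot 2 (HR ++ HF ++ HQ))
    (H2 : ρ + δ + 3 < tot 1 (LR ++ LF) + tot 1 (HR ++ HF))
    (H2' : δ + κ + 3 < tot 1 (LF ++ LQ) + tot 1 (HF ++ HQ))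
    (H1 : δ < tot 0 LF + tot 0 HF) {b : ℕ} (Hb : (0, (b : ℤ)) ∈ LF) (H1' : κ < b) :
    R = 0 ∧ T = 0 ∧ Q = 0 :=
  zero_estimate_aux (fun _ _ _ => DD_ne_zero) (fun _ _ => DRT_ne_zero)
    (fun _ _ => DTQ_ne_zero) o hM hR hF hQ H3 H2 H2' H1 Hb H1'

end Crest.Agent.R006.NV
end

-- ▼ part R006/PsiInfKey_294
section

/-!
Row 6 (Catalan).  Block P1, residues at infinity of rational functions (helper294).

* `resInf P N = [s^{-1}] (P/N)` for `N` monic;
* `divByMonic_X_pow_mul`: `(X^k p) /ₘ N = ∑_{i<k} res(X^(k-1-i) p, N) X^i` for `deg p < deg N`;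
* `lin_mul_divByMonic`: `[s^{-1}] (R ψ p/N) = [s^{-1}] (T_R p/N)` for `deg p < deg N`;
* `key_rational`: the key identity of `[s^{-1}] (· ψ_∞)` on rational functions.
-/

set_option autoImplicit false

namespace Crest.Agent.R006.PsiInf

open Polynomial Finset

variable {K : Type*} [Field K]

/-- `[s^{-1}] (P/N)`, `N` monic. -/
noncomputable def resInf (P N : K[X]) : K := (P %ₘ N).coeff (N.natDegree - 1)

theorem resInf_add (P Q N : K[X]) : resInf (P + Q) N = resInf P N + resInf Q N := by
  rw [resInf, add_modByMonic, coeff_add]; rfl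



theorem resInf_mul_self (P N : K[X]) (hN : N.Monic) : resInf (N * P) N = 0 := by
  rw [resInf, (modByMonic_eq_zero_iff_dvd hN).mpr (dvd_mul_right N P), coeff_zero]






/-- division commutes with the shift -/
theorem comp_divByMonic (P N : K[X]) (hN : N.Monic) (a : K) :
    (P.comp (X + C a)) /ₘ (N.comp (X + C a)) = (P /ₘ N).comp (X + C a) ∧
      (P.comp (X + C a)) %ₘ (N.comp (X + C a)) = (P %ₘ N).comp (X + C a) := by
  have hN' : (N.comp (X + C a)).Monic := hN.comp_X_add_C a
  have h := modByMonic_add_div P N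
  refine div_modByMonic_unique _ _ hN' ⟨?_, ?_⟩
  · conv_rhs => rw [← h]
    rw [add_comp, mul_comp]
  · have hd : ∀ Q : K[X], (Q.comp (X + C a)).degree = Q.degree := fun Q => by
      have := degree_taylor Q a
      rwa [taylor_apply] at this
    rw [hd, hd]
    exact degree_modByMonic_lt P hN


end Crest.Agent.R006.PsiInf
end

-- ▼ part R006/NVMu_938
section

/-!
Row 6, block P2 (nonvanishing): the moments `mu` of `PsiInf_294` are the coefficients `cinf`
of the formal solution at infinity of `NVInf_664`; degree of `Finf M R (TR mu R)`.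
-/

set_option autoImplicit false

namespace Crest.Agent.R006.NV

open Polynomial Crest.Agent.R006.PsiInf

section residues

variable {K : Type*} [Field K]

lemma resInf_X_pow (A : K[X]) {M : ℕ} (hM : 0 < M) : resInf A (X ^ M) = A.coeff (M - 1) := by
  have h := modByMonic_add_div A (X ^ M : K[X])
  have h2 := congrArg (fun p => coeff p (M - 1)) h
  simp only [coeff_add] at h2
  rw [coeff_X_pow_mul', if_neg (by omega), add_zero] at h2
  rw [resInf, natDegree_X_pow, h2]

lemma coeff_taylor_of_le {B : K[X]} {n : ℕ} (h : B.natDegree ≤ n) (a : K) :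
    (taylor a B).coeff n = B.coeff n := by
  rcases Nat.lt_or_ge B.natDegree n with h1 | h1
  · rw [coeff_eq_zero_of_natDegree_lt h1,
      coeff_eq_zero_of_natDegree_lt (by rwa [natDegree_taylor])]
  · have : n = B.natDegree := le_antisymm h1 h
    subst this
    rw [coeff_taylor_natDegree]
    rfl

lemma resInf_comp (A N : K[X]) (hN : N.Monic) (hd : 0 < N.natDegree) (a : K) :
    resInf (A.comp (X + C a)) (N.comp (X + C a)) = resInf A N := by
  have h1 := (comp_divByMonic A N hN a).2
  have h2 : (N.comp (X + C a)).natDegree = N.natDegree := by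
    have := natDegree_taylor N a
    rwa [taylor_apply] at this
  rw [resInf, resInf, h1, h2, ← taylor_apply]
  apply coeff_taylor_of_le
  have h3 := natDegree_modByMonic_lt A hN (by rintro rfl; simp at hd)
  omega

lemma resInf_mul_right (A N D : K[X]) (hN : N.Monic) (hD : D.Monic) (hd : 0 < N.natDegree) :
    resInf (A * D) (N * D) = resInf A N := by
  have h := modByMonic_add_div A N
  have hN1 : N ≠ 1 := by rintro rfl; simp at hd
  have h3 := natDegree_modByMonic_lt A hN hN1
  have h4 : (N * D).natDegree = N.natDegree + D.natDegree := hN.natDegree_mul hD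
  have e : (A * D) %ₘ (N * D) = (A %ₘ N) * D := by
    refine (div_modByMonic_unique (A /ₘ N) ((A %ₘ N) * D) (hN.mul hD) ⟨?_, ?_⟩).2
    · linear_combination D * h
    · by_cases h0 : A %ₘ N = 0
      · rw [h0, zero_mul, degree_zero, bot_lt_iff_ne_bot, Ne, degree_eq_bot]
        exact (hN.mul hD).ne_zero
      · rw [degree_eq_natDegree (mul_ne_zero h0 hD.ne_zero),
          degree_eq_natDegree (hN.mul hD).ne_zero, natDegree_mul h0 hD.ne_zero, h4]
        exact_mod_cast (by omega)
  rw [resInf, resInf, e, h4,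
    show N.natDegree + D.natDegree - 1 = (N.natDegree - 1) + D.natDegree by omega,
    coeff_mul_add_eq_of_natDegree_le (by omega) le_rfl]
  have : D.coeff D.natDegree = 1 := hD
  rw [this, mul_one]

lemma resInf_of_natDegree_lt (A N : K[X]) (hN : N.Monic) (h : A.natDegree < N.natDegree - 1) :
    resInf A N = 0 := by
  rw [resInf, (modByMonic_eq_self_iff hN).mpr, coeff_eq_zero_of_natDegree_lt h]
  rw [degree_eq_natDegree hN.ne_zero]
  exact (degree_le_natDegree).trans_lt (by exact_mod_cast (by omega))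

/-- `lin` with the moments `cinf (k+1)` through `pinf` -/
lemma lin_cinf (P : K[X]) {M : ℕ} (hM : P.natDegree < M) :
    lin (fun k => (cinf (k + 1) : K)) P = (P * pinf M).coeff (M - 1) := by
  rw [lin_eq_sum _ P hM, coeff_mul, Finset.Nat.sum_antidiagonal_eq_sum_range_succ_mk]
  rw [Nat.succ_eq_add_one, show M - 1 + 1 = M by omega]
  refine Finset.sum_congr rfl fun k hk => ?_
  rw [Finset.mem_range] at hk
  rw [pinf_coeff, if_pos (by omega)]
  congr 2
  omega

end residues

section key

variable {K : Type*} [Field K] [CharZero K]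

theorem key_cinf : Key (fun k => (cinf (k + 1) : K)) := by
  intro P
  obtain ⟨M, hM⟩ : ∃ M, M = P.natDegree + 10 := ⟨_, rfl⟩
  have hX1 : (X + 1 : K[X]) = X + C 1 := by simp
  have hX1m : (X + 1 : K[X]).Monic := by rw [hX1]; exact monic_X_add_C 1
  have hPc : (P.comp (X + 1)).natDegree = P.natDegree := by
    have := natDegree_taylor P (1 : K)
    rwa [taylor_apply, ← hX1] at this
  -- degrees
  have d1 : (X ^ 3 * P).natDegree < M := by
    refine (natDegree_mul_le).trans_lt ?_
    rw [natDegree_X_pow]; omega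
  have d2 : ((2 * X + 1) ^ 3 * P.comp (X + 1)).natDegree < M := by
    refine (natDegree_mul_le).trans_lt ?_
    have h1 : ((2 * X + 1 : K[X]) ^ 3).natDegree ≤ 3 := nd_pow 3 natDegree_two_X_add_one le_rfl
    omega
  rw [map_add, lin_cinf _ d1, lin_cinf _ d2]
  rw [← resInf_X_pow _ (by omega : 0 < M), ← resInf_X_pow _ (by omega : 0 < M)]
  have mX : (X ^ M : K[X]).Monic := monic_X_pow M
  have mX1 : ((X + 1) ^ M : K[X]).Monic := hX1m.pow M
  have nX : 0 < (X ^ M : K[X]).natDegree := by rw [natDegree_X_pow]; omega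
  have nX1 : ((X + 1) ^ M : K[X]).natDegree = M := by
    rw [hX1m.natDegree_pow, natDegree_X_add_one, mul_one]
  -- first term: shift
  have e1 : resInf (X ^ 3 * P * pinf M) (X ^ M) =
      resInf (((X + 1) ^ 3 * P.comp (X + 1) * taylor 1 (pinf M)) * X ^ M)
        ((X + 1) ^ M * X ^ M) := by
    rw [resInf_mul_right _ _ _ mX1 mX (by rw [nX1]; omega)]
    have := resInf_comp (X ^ 3 * P * pinf M) (X ^ M) mX nX 1
    rw [← this]
    simp only [mul_comp, pow_comp, X_comp, taylor_apply, hX1]
  have e2 : resInf ((2 * X + 1) ^ 3 * P.comp (X + 1) * pinf M) (X ^ M) =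
      resInf (((2 * X + 1) ^ 3 * P.comp (X + 1) * pinf M) * (X + 1) ^ M)
        ((X + 1) ^ M * X ^ M) := by
    rw [mul_comm ((X + 1) ^ M : K[X]) (X ^ M), resInf_mul_right _ _ _ mX mX1 nX]
  rw [e1, e2, ← resInf_add]
  have e3 : (X + 1) ^ 3 * P.comp (X + 1) * taylor 1 (pinf M) * X ^ M +
      (2 * X + 1) ^ 3 * P.comp (X + 1) * pinf M * (X + 1) ^ M =
      P.comp (X + 1) * EE M (pinf M) +
        ((X + 1) ^ M * X ^ M) * (-(C (1 / 2) * (3 * X + 2)) * P.comp (X + 1)) := by
    unfold EE
    ring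
  rw [e3, resInf_add, resInf_mul_self _ _ (mX1.mul mX), add_zero]
  apply resInf_of_natDegree_lt _ _ (mX1.mul mX)
  have h1 := EE_pinf_natDegree (K := K) M
  have h2 : ((X + 1) ^ M * X ^ M : K[X]).natDegree = M + M := by
    rw [mX1.natDegree_mul mX, nX1, natDegree_X_pow]
  rw [h2]
  refine (natDegree_mul_le).trans_lt ?_
  omega

lemma cinf_one : (cinf 1 : K) = 0 := by
  have : (cinf 1 : K) = -(1 / 9) * (EE 0 (pinf 0)).coeff 2 := rfl
  rw [this]
  have e : (EE 0 (pinf 0) : K[X]) = C (3 / 2) * X + C 1 := by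
    unfold EE pinf
    have h1 : (C (1 / 2) * 2 : K[X]) = C 1 := by
      rw [two_eq_C, ← C_mul]; norm_num
    have h2 : (C (1 / 2) * 3 : K[X]) = C (3 / 2) := by
      rw [three_eq_C, ← C_mul]; norm_num
    simp only [map_zero, mul_zero, pow_zero, mul_one, zero_add]
    linear_combination h1 + X * h2
  rw [e]
  simp [coeff_X, coeff_one]

lemma cinf_two : (cinf 2 : K) = -1 / 6 := by
  have h0 : (cinf 2 : K) = -(1 / 9) * (EE 1 (pinf 1)).coeff 3 := rfl
  have hp : (pinf 1 : K[X]) = 0 := by
    have := pinf_succ (K := K) 0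
    rw [zero_add, cinf_one] at this
    rw [this]
    have : (pinf 0 : K[X]) = 0 := rfl
    rw [this]; simp
  rw [h0, hp]
  have e : (EE 1 0 : K[X]) = C (3 / 2) * X ^ 3 + C (5 / 2) * X ^ 2 + C 1 * X := by
    unfold EE
    have h1 : (C (1 / 2) * 2 : K[X]) = C 1 := by
      rw [two_eq_C, ← C_mul]; norm_num
    have h2 : (C (1 / 2) * 3 : K[X]) = C (3 / 2) := by
      rw [three_eq_C, ← C_mul]; norm_num
    have h3 : (C (5 / 2) : K[X]) = C (3 / 2) + C 1 := by
      rw [← C_add]; norm_num
    simp only [map_zero, mul_zero, pow_one, zero_add]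
    rw [h3]
    linear_combination (X ^ 2 + X) * h1 + (X ^ 3 + X ^ 2) * h2
  rw [e]
  simp [coeff_X, coeff_X_pow]
  norm_num

lemma cinf_three : (cinf 3 : K) = 7 / 54 := by
  have h0 : (cinf 3 : K) = -(1 / 9) * (EE 2 (pinf 2)).coeff 4 := rfl
  have hp : (pinf 2 : K[X]) = C (-1 / 6) := by
    have h1 := pinf_succ (K := K) 1
    have h2 := pinf_succ (K := K) 0
    rw [zero_add, cinf_one] at h2
    have h3 : (pinf 0 : K[X]) = 0 := rfl
    rw [h3] at h2
    rw [h2, show (1 + 1 : ℕ) = 2 from rfl, cinf_two] at h1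
    rw [h1]; simp
  rw [h0, hp]
  have e : (EE 2 (C (-1 / 6)) : K[X]) = C (-1 / 6) *
      (9 * X ^ 5 + 31 * X ^ 4 + 41 * X ^ 3 + 26 * X ^ 2 + 8 * X + 1)
      + C (3 / 2) * (X ^ 5 + 2 * X ^ 4 + X ^ 3) + (X ^ 4 + 2 * X ^ 3 + X ^ 2) := by
    unfold EE
    have h1 : (C (1 / 2) * 2 : K[X]) = 1 := by
      rw [two_eq_C, ← C_mul]; norm_num
    have h2 : (C (1 / 2) * 3 : K[X]) = C (3 / 2) := by
      rw [three_eq_C, ← C_mul]; norm_num
    rw [taylor_C]
    linear_combination (X ^ 4 + 2 * X ^ 3 + X ^ 2) * h1 + (X ^ 5 + 2 * X ^ 4 + X ^ 3) * h2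
  rw [e]
  have c9 : (9 : K[X]) = C 9 := (map_ofNat C 9).symm
  have c31 : (31 : K[X]) = C 31 := (map_ofNat C 31).symm
  have c41 : (41 : K[X]) = C 41 := (map_ofNat C 41).symm
  have c26 : (26 : K[X]) = C 26 := (map_ofNat C 26).symm
  have c8 : (8 : K[X]) = C 8 := (map_ofNat C 8).symm
  have c2 : (2 : K[X]) = C 2 := (map_ofNat C 2).symm
  rw [c9, c31, c41, c26, c8, c2]
  simp only [coeff_add, coeff_C_mul, coeff_X_pow, coeff_X, coeff_one]
  norm_num

/-- **the moments `mu` are the coefficients `cinf`.** -/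
theorem cinf_eq_mu (k : ℕ) : (cinf (k + 1) : K) = ((mu k : ℚ) : K) := by
  have := mu_unique (K := K) key_cinf ?_ ?_ ?_
  · exact congrFun this k
  · simp only [zero_add, cinf_one, mul_zero]
  · simp only [zero_add, cinf_one, mul_zero, add_zero]
    rw [show (1 + 1 : ℕ) = 2 from rfl, cinf_two]; norm_num
  · simp only [zero_add, cinf_one, mul_zero, add_zero]
    rw [show (1 + 1 : ℕ) = 2 from rfl, show (2 + 1 : ℕ) = 3 from rfl, cinf_two, cinf_three]
    norm_num

end key

/-- `TR mu (X ^ l)` is `tau l` -/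
theorem TR_mu_X_pow (l : ℕ) : TR mu (X ^ l : ℚ[X]) = tau l := by
  rw [X_pow_eq_monomial, TR_monomial, map_one, one_mul, tau]
  rw [← Finset.sum_range_reflect]
  refine Finset.sum_congr rfl fun d hd => ?_
  rw [Finset.mem_range] at hd
  have h := cinf_eq_mu (K := ℚ) (l - 1 - d)
  rw [show l - 1 - d + 1 = l - d by omega] at h
  rw [h, show l - 1 - (l - 1 - d) = d by omega]
  simp

/-- the forced part removes all the polynomial part -/
theorem Finf_TR_coeff (R : ℚ[X]) {M : ℕ} (hM : R.natDegree ≤ M) (d : ℕ) :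
    (Finf M R (TR mu R)).coeff (M + d) = 0 := by
  have e : R = ∑ l ∈ Finset.range (M + 1), C (R.coeff l) * X ^ l := by
    conv_lhs => rw [R.as_sum_range_C_mul_X_pow' (n := M + 1) (by omega)]
  have e2 : TR mu R = ∑ l ∈ Finset.range (M + 1), C (R.coeff l) * tau l := by
    conv_lhs => rw [e]
    rw [map_sum]
    refine Finset.sum_congr rfl fun l _ => ?_
    rw [← smul_eq_C_mul, map_smul, TR_mu_X_pow, smul_eq_C_mul]
  rw [e2]
  have h := Finf_comb_coeff (K := ℚ) (M := M) (k := M + 1) (q := 0) le_rfl R.coeff (fun _ => 0) d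
  rw [Finset.range_zero, Finset.sum_empty, add_zero, add_zero, ← e] at h
  exact h

theorem Finf_TR_natDegree (R : ℚ[X]) {M : ℕ} (hM : R.natDegree ≤ M) :
    (Finf M R (TR mu R)).natDegree ≤ M := by
  rw [natDegree_le_iff_coeff_eq_zero]
  intro N hN
  obtain ⟨d, rfl⟩ : ∃ d, N = M + d := ⟨N - M, by omega⟩
  exact Finf_TR_coeff R hM d

end Crest.Agent.R006.NV
end

-- ▼ part R006/NVDict_938

/-!
Row 6, block P2 (nonvanishing): from a kernel vector of the frozen matrix (`Defs`) to the
data `Orders` of the zero estimate (`NVMain_664`).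
-/

set_option autoImplicit false

namespace Crest.Agent.R006.D

open Polynomial Crest.Agent.R006.NV Crest.Agent.R006.PsiInf

/-! ### germs -/

lemma bi_add_smul {K : Type*} [Field K] (a b c : ℤ → PowerSeries K) (x y : PowerSeries K) (κ : K)
    (i : ℤ) : bi a b c (x + PowerSeries.C κ * y) i =
      bi a b c x i + PowerSeries.C κ * bi a b (fun _ => 0) y i := by
  rcases i with n | n
  · have : ∀ n : ℕ, bi a b c (x + PowerSeries.C κ * y) (n : ℤ) =
      bi a b c x (n : ℤ) + PowerSeries.C κ * bi a b (fun _ => 0) y (n : ℤ) := by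
      intro n
      induction n with
      | zero => rfl
      | succ n ih =>
        rw [bi_succ, bi_succ, bi_succ, ih]; ring
    exact this n
  · induction n with
    | zero =>
      have e : (Int.negSucc 0 : ℤ) = -1 := rfl
      rw [e, bi_negOne, bi_negOne, bi_negOne]; ring
    | succ n ih =>
      rw [bi_negSucc, bi_negSucc, bi_negSucc, ih]; ring

/-- superposition: the germ of `ψ` with value `-γ` at `0` -/
theorem PsiZ_eq (γ : ℚ) (i : ℤ) :
    PsiZ (-γ) i = PsiZ 0 i - PowerSeries.C γ * HomZ i := by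
  have h := bi_add_smul (K := ℚ) (fun i => pt ((i : ℚ) + 1) ^ 3)
    (fun i => (2 * pt (i : ℚ) + 1) ^ 3) (fun i => -(PowerSeries.C (1 / 2) * (3 * pt (i : ℚ) + 2)))
    (PowerSeries.C 0) 1 (-γ) i
  have e1 : (PowerSeries.C (0 : ℚ) + PowerSeries.C (-γ) * 1 : PowerSeries ℚ) =
      PowerSeries.C (-γ) := by rw [map_zero, zero_add, mul_one]
  rw [e1] at h
  have e2 : PowerSeries.C (-γ) = -PowerSeries.C γ := by rw [map_neg]
  have h' : PsiZ (-γ) i = PsiZ 0 i + PowerSeries.C (-γ) * HomZ i := h
  rw [h', e2]; ring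

theorem GamH_eq (i : ℤ) : GamH i = NV.GamH (1 : ℚ) i := by
  unfold GamH NV.GamH GamH0 NV.GamH0
  rw [map_one]

/-- the germ of `ψ` at a site for the value `γ` of `X` -/
noncomputable def psi (γ : ℚ) (z : Site) : PowerSeries ℚ := psi0 z - PowerSeries.C γ * psi1 z

lemma psi_Z (γ : ℚ) (i : ℤ) : psi γ (.Z i) = PsiZ (-γ) i := by rw [PsiZ_eq]; rfl

lemma psi_H (γ : ℚ) (i : ℤ) : psi γ (.H i) = PsiH i := by
  simp [psi, psi0, psi1]

/-! ### the polynomials of a kernel vector -/

section ker

variable (S : Shape) (u : ℕ) (x : Col S u → ℚ)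

/-- the cofactor of the gauge in `R` -/
noncomputable def kP : ℚ[X] := ∑ l : Fin (S.k * u), C (x (.inl l)) * bin (S.a1 * u + l)

noncomputable def kR : ℚ[X] := ∑ l : Fin (S.k * u), C (x (.inl l)) * polR S u l

noncomputable def kY : ℚ[X] := ∑ l : Fin (S.q * u), C (x (.inr (.inl l))) * bin l

noncomputable def kZ : ℚ[X] := ∑ l : Fin (S.g * u), C (x (.inr (.inr l))) * bin l

lemma kR_eq : kR S u x = gauge S u * kP S u x := by
  unfold kR kP polR
  rw [Finset.mul_sum]
  exact Finset.sum_congr rfl fun l _ => by ring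

lemma tau_kR : tau (kR S u x) = ∑ l : Fin (S.k * u), C (x (.inl l)) * tau (polR S u l) := by
  unfold kR tau
  rw [map_sum]
  refine Finset.sum_congr rfl fun l _ => ?_
  rw [← smul_eq_C_mul, map_smul, smul_eq_C_mul]

lemma gm_sum {ι : Type*} (s : Finset ι) (a : ℚ) (f : ι → ℚ[X]) :
    gm a (∑ i ∈ s, f i) = ∑ i ∈ s, gm a (f i) := by
  classical
  induction s using Finset.induction_on with
  | empty => simp [gm_zero]
  | insert b s hb ih => rw [Finset.sum_insert hb, Finset.sum_insert hb, gm_add, ih]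

/-- the row of a kernel vector is a coefficient of the germ of `F` -/
theorem sum_entry (γ : ℚ) (ρ : Row) :
    ∑ j : Col S u, (entry S u ρ j).eval γ * x j =
      PowerSeries.coeff ρ.2 (FF ρ.1.val (kR S u x) (tau (kR S u x) - kY S u x) (-kZ S u x)
        (psi γ ρ.1) (gam ρ.1)) := by
  have hR : ∑ l : Fin (S.k * u), (entry S u ρ (.inl l)).eval γ * x (.inl l) =
      PowerSeries.coeff ρ.2 (gm ρ.1.val (kR S u x) * psi γ ρ.1 - gm ρ.1.val (tau (kR S u x))) := by
    rw [tau_kR, gm_sum]
    unfold kR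
    rw [gm_sum, Finset.sum_mul, ← Finset.sum_sub_distrib, map_sum]
    refine Finset.sum_congr rfl fun l _ => ?_
    rw [gm_mul, gm_mul, gm_C]
    have e : (entry S u ρ (.inl l)).eval γ =
        PowerSeries.coeff ρ.2 (gm ρ.1.val (polR S u l) * psi γ ρ.1
          - gm ρ.1.val (tau (polR S u l))) := by
      simp only [entry, eval_sub, eval_mul, eval_C, eval_X, ent0, ent1]
      have : gm ρ.1.val (polR S u l) * psi γ ρ.1 - gm ρ.1.val (tau (polR S u l)) =
          (gm ρ.1.val (polR S u l) * psi0 ρ.1 - gm ρ.1.val (tau (polR S u l)))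
          - PowerSeries.C γ * (gm ρ.1.val (polR S u l) * psi1 ρ.1) := by
        unfold psi; ring
      rw [this]
      simp only [map_sub, PowerSeries.coeff_C_mul]
    rw [e]
    have : PowerSeries.C (x (.inl l)) * gm ρ.1.val (polR S u l) * psi γ ρ.1 -
        PowerSeries.C (x (.inl l)) * gm ρ.1.val (tau (polR S u l)) =
        PowerSeries.C (x (.inl l)) * (gm ρ.1.val (polR S u l) * psi γ ρ.1
          - gm ρ.1.val (tau (polR S u l))) := by ring
    rw [this, PowerSeries.coeff_C_mul]; ring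
  have hT : ∑ l : Fin (S.q * u), (entry S u ρ (.inr (.inl l))).eval γ * x (.inr (.inl l)) =
      PowerSeries.coeff ρ.2 (gm ρ.1.val (kY S u x)) := by
    unfold kY
    rw [gm_sum, map_sum]
    refine Finset.sum_congr rfl fun l _ => ?_
    rw [gm_mul, gm_C, PowerSeries.coeff_C_mul]
    simp only [entry, eval_C, entT]; ring
  have hQ : ∑ l : Fin (S.g * u), (entry S u ρ (.inr (.inr l))).eval γ * x (.inr (.inr l)) =
      PowerSeries.coeff ρ.2 (gm ρ.1.val (kZ S u x) * gam ρ.1) := by
    unfold kZ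
    rw [gm_sum, Finset.sum_mul, map_sum]
    refine Finset.sum_congr rfl fun l _ => ?_
    rw [gm_mul, gm_C, mul_assoc, PowerSeries.coeff_C_mul]
    simp only [entry, eval_C, entQ]; ring
  rw [Fintype.sum_sum_type, Fintype.sum_sum_type, hR, hT, hQ, ← map_add, ← map_add]
  congr 1
  unfold FF
  rw [gm_sub, gm_neg]
  ring

/-- kernel vectors: order of vanishing of `F` at the sites -/
theorem dvd_of_ker {γ : ℚ} {c : ℕ}
    (hx : ∀ ρ : Row, IsRow S u c ρ → ∑ j : Col S u, (entry S u ρ j).eval γ * x j = 0) (z : Site) :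
    PowerSeries.X ^ S.mult u c z ∣
      FF z.val (kR S u x) (tau (kR S u x) - kY S u x) (-kZ S u x) (psi γ z) (gam z) := by
  rw [PowerSeries.X_pow_dvd_iff]
  intro j hj
  have := hx (z, j) hj
  rw [sum_entry] at this
  exact this

end ker

/-! ### binomials -/

lemma bin_ne_zero (l : ℕ) : bin l ≠ 0 := by
  unfold bin
  apply mul_ne_zero
  · rw [Ne, C_eq_zero, inv_eq_zero]
    exact_mod_cast l.factorial_ne_zero
  · exact (monic_descPochhammer ℚ l).ne_zero

lemma natDegree_bin (l : ℕ) : (bin l).natDegree = l := by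
  unfold bin
  rw [natDegree_C_mul (inv_ne_zero (by exact_mod_cast l.factorial_ne_zero)),
    descPochhammer_natDegree]

lemma degree_bin (l : ℕ) : (bin l).degree = l := by
  rw [degree_eq_natDegree (bin_ne_zero l), natDegree_bin]

/-- the binomials as a polynomial sequence -/
noncomputable def binSeq : Polynomial.Sequence ℚ := ⟨bin, degree_bin⟩

lemma bin_indep {n a : ℕ} (x : Fin n → ℚ) (h : ∑ l : Fin n, C (x l) * bin (a + l) = 0) (l : Fin n) :
    x l = 0 := by
  have h1 := binSeq.linearIndependent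
  have h2 : LinearIndependent ℚ (fun l : Fin n => bin (a + l)) :=
    h1.comp (fun l : Fin n => a + (l : ℕ)) (fun i j hij => by
      have : a + (i : ℕ) = a + (j : ℕ) := hij
      ext; omega)
  rw [Fintype.linearIndependent_iff] at h2
  apply h2
  rw [← h]
  exact Finset.sum_congr rfl fun l _ => by rw [smul_eq_C_mul]

lemma gauge_ne_zero (S : Shape) (u : ℕ) : gauge S u ≠ 0 := by
  have hc : ∀ (l : ℕ) (a : ℚ), (bin l).comp (X + C a) ≠ 0 := by
    intro l a h
    rw [← taylor_apply] at h
    exact bin_ne_zero l ((taylor_injective a) (by rw [h, map_zero]))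
  unfold gauge
  exact mul_ne_zero (mul_ne_zero (bin_ne_zero _) (hc _ _)) (hc _ _)

lemma natDegree_gauge (S : Shape) (u : ℕ) :
    (gauge S u).natDegree ≤ S.a2 * u + S.i1 * u + S.r1 * u := by
  have hc : ∀ (l : ℕ) (a : ℚ), ((bin l).comp (X + C a)).natDegree = l := by
    intro l a
    rw [← taylor_apply, natDegree_taylor, natDegree_bin]
  unfold gauge
  refine natDegree_mul_le.trans ?_
  have h1 := natDegree_mul_le (p := bin (S.a2 * u))
    (q := (bin (S.i1 * u)).comp (X + C ((S.i1 * u : ℕ) - 1 / 2 : ℚ)))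
  rw [hc, natDegree_bin] at h1
  rw [hc]
  omega

/-- zero kernel data: the vector is zero -/
theorem eq_zero_of_k (S : Shape) (u : ℕ) (x : Col S u → ℚ) (hR : kR S u x = 0)
    (hT : tau (kR S u x) - kY S u x = 0) (hQ : -kZ S u x = 0) : x = 0 := by
  have hP : kP S u x = 0 := by
    rw [kR_eq] at hR
    exact (mul_eq_zero.mp hR).resolve_left (gauge_ne_zero S u)
  have hY : kY S u x = 0 := by
    rw [hR] at hT
    have : tau (0 : ℚ[X]) = 0 := by unfold tau; rw [map_zero]
    rw [this, zero_sub, neg_eq_zero] at hT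
    exact hT
  have hZ : kZ S u x = 0 := neg_eq_zero.mp hQ
  funext j
  rcases j with l | l | l
  · exact bin_indep (fun l => x (.inl l)) hP l
  · refine bin_indep (a := 0) (fun l => x (.inr (.inl l))) ?_ l
    rw [← hY]; unfold kY
    exact Finset.sum_congr rfl fun l _ => by rw [zero_add]
  · refine bin_indep (a := 0) (fun l => x (.inr (.inr l))) ?_ l
    rw [← hZ]; unfold kZ
    exact Finset.sum_congr rfl fun l _ => by rw [zero_add]

/-! ### zeros of the polynomials `R` -/

lemma bin_eval_zero {n : ℕ} {j : ℕ} (h : j < n) : (bin n).eval (j : ℚ) = 0 := by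
  unfold bin
  rw [eval_mul, descPochhammer_eval_eq_descFactorial, Nat.descFactorial_eq_zero_iff_lt.mpr h]
  simp

lemma X_dvd_gm {s : ℚ} {p : ℚ[X]} (h : p.eval s = 0) : PowerSeries.X ∣ gm s p := by
  rw [PowerSeries.X_dvd_iff]
  unfold gm
  rw [← PowerSeries.coeff_zero_eq_constantCoeff_apply, Polynomial.coeff_coe, taylor_coeff_zero, h]

lemma gm_bin_dvd (n : ℕ) (i : ℤ) :
    PowerSeries.X ^ (if 0 ≤ i ∧ i < n then 1 else 0) ∣ gm (i : ℚ) (bin n) := by
  split_ifs with h
  · rw [pow_one]
    apply X_dvd_gm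
    obtain ⟨j, rfl⟩ := Int.eq_ofNat_of_zero_le h.1
    have := bin_eval_zero (n := n) (j := j) (by omega)
    simpa using this
  · rw [pow_zero]; exact one_dvd _

end Crest.Agent.R006.D
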