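import Mathlib
import Crest.Agent.R006.ProdBound_481
import Crest.Agent.R006.PsiInf_294
import Crest.Agent.R006.P7_Det_241
import Crest.Agent.R006.Defs
import Crest.Agent.R006.P5_Germs_939

-- ▼ part R006/P57_Det_241
section

/-!
Row 6, blocks P5 and P7: the `N x N` interpolation determinant in the binomial bases, all odd primes
(helper241).

* `dP l = x (x-1) .. (x-l+1)`, `cP l = dP l / l!`;
* `TR_dP`, `TR_cP` : polynomial part of `C(x,l) ψ_∞` in the basis `C(x,i)`;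
* `fn x j φ P = [ε^j] P(x+ε) φ(ε)`;
* `mat` : rows = (site, order, germs ρ τ κ), columns = `C(x,l) ψ` (`l < k`), `C(x,i)` (`i < q`),
  `C(x,l) g` (`l < g`);
* `PB_mat` : `v_p(det) ≥ - w (k-q)^2 / 4 - O(N e)`.
-/

set_option autoImplicit false

namespace Crest.Agent.R006.P57

open Polynomial Matrix Finset Crest.Agent.R006.ProdBound481 Crest.Agent.R006.PsiInf

section TR

variable {K : Type*} [Field K] [CharZero K]

/-- falling factorial polynomial -/
noncomputable abbrev dP (K : Type*) [Field K] (l : ℕ) : K[X] := descPochhammer K l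

omit [CharZero K] in
lemma dP_comp_succ (m i : ℕ) :
    (dP K (m + 1)).comp (X - C (i : K)) =
      (X - C (i : K)) * (dP K m).comp (X - C ((i + 1 : ℕ) : K)) := by
  rw [dP, descPochhammer_succ_left, mul_comp, X_comp, comp_assoc]
  congr 2
  rw [sub_comp, X_comp, one_comp]
  push_cast
  rw [C_add, C_1]; ring

omit [CharZero K] in
lemma dP_divByMonic (l : ℕ) (x : K) :
    (dP K l) /ₘ (X - C x) =
      ∑ i ∈ range l, C ((dP K i).eval x) * (dP K (l - 1 - i)).comp (X - C ((i + 1 : ℕ) : K)) := by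
  have key : (X - C x) *
      (∑ i ∈ range l, C ((dP K i).eval x) * (dP K (l - 1 - i)).comp (X - C ((i + 1 : ℕ) : K))) =
      dP K l - C ((dP K l).eval x) := by
    rw [mul_sum]
    have h : ∀ i ∈ range l, (X - C x) * (C ((dP K i).eval x) *
        (dP K (l - 1 - i)).comp (X - C ((i + 1 : ℕ) : K))) =
        C ((dP K i).eval x) * (dP K (l - i)).comp (X - C (i : K)) -
        C ((dP K (i + 1)).eval x) * (dP K (l - (i + 1))).comp (X - C ((i + 1 : ℕ) : K)) := by
      intro i hi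
      have hi' := mem_range.mp hi
      have e1 : l - i = (l - 1 - i) + 1 := by omega
      have e2 : l - (i + 1) = l - 1 - i := by omega
      rw [e1, e2, dP_comp_succ, dP, dP, dP, descPochhammer_succ_right]
      simp only [eval_mul, eval_sub, eval_X, eval_natCast]
      rw [C_mul, C_sub]
      ring
    rw [sum_congr rfl h, sum_range_sub' (fun i => C ((dP K i).eval x) *
      (dP K (l - i)).comp (X - C (i : K)))]
    simp [dP]
  exact (div_modByMonic_unique (f := dP K l) (g := X - C x) _ (C ((dP K l).eval x))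
    (monic_X_sub_C x) ⟨by rw [key]; ring, by
      rw [degree_X_sub_C]
      exact (degree_C_le).trans_lt (by norm_num)⟩).1

/-- coefficients of the polynomial part, falling factorial basis -/
noncomputable def tD (m : ℕ → K) (l i : ℕ) : K :=
  if i < l then lin m ((dP K (l - 1 - i)).comp (X - C ((i + 1 : ℕ) : K))) else 0

theorem TR_dP (m : ℕ → K) (l : ℕ) : TR m (dP K l) = ∑ i ∈ range l, C (tD m l i) * dP K i := by
  apply Polynomial.funext
  intro x
  rw [eval_TR, dP_divByMonic, map_sum, eval_finsetSum]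
  refine sum_congr rfl fun i hi => ?_
  rw [lin_C_mul, eval_mul, eval_C, tD, if_pos (mem_range.mp hi)]
  ring

/-- binomial polynomial -/
noncomputable def cP (K : Type*) [Field K] (l : ℕ) : K[X] := C ((l.factorial : K)⁻¹) * dP K l

lemma dP_eq (l : ℕ) : dP K l = C (l.factorial : K) * cP K l := by
  rw [cP, ← mul_assoc, ← C_mul, mul_inv_cancel₀ (by exact_mod_cast l.factorial_ne_zero), C_1,
    one_mul]

/-- coefficients of the polynomial part, binomial basis -/
noncomputable def tC (m : ℕ → K) (l i : ℕ) : K :=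
  if i < l then ((l * (l - 1).choose i : ℕ) : K)⁻¹ *
    lin m ((cP K (l - 1 - i)).comp (X - C ((i + 1 : ℕ) : K))) else 0

theorem TR_cP (m : ℕ → K) (l : ℕ) : TR m (cP K l) = ∑ i ∈ range l, C (tC m l i) * cP K i := by
  have h1 : TR m (cP K l) = C ((l.factorial : K)⁻¹) * TR m (dP K l) := by
    rw [cP, ← smul_eq_C_mul, map_smul, smul_eq_C_mul]
  rw [h1, TR_dP, mul_sum]
  refine sum_congr rfl fun i hi => ?_
  have hi' := mem_range.mp hi
  rw [tD, tC, if_pos hi', if_pos hi', dP_eq i, ← mul_assoc, ← mul_assoc, ← C_mul, ← C_mul]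
  congr 2
  rw [dP_eq (l - 1 - i), mul_comp, C_comp, lin_C_mul]
  have hfac : ((l * (l - 1).choose i : ℕ) : K) * ((i.factorial : K) * ((l - 1 - i).factorial : K))
      = (l.factorial : K) := by
    have h2 : (l - 1).choose i * i.factorial * (l - 1 - i).factorial = (l - 1).factorial :=
      Nat.choose_mul_factorial_mul_factorial (by omega)
    have h3 : l * (l - 1).factorial = l.factorial := Nat.mul_factorial_pred (by omega)
    have h4 : (l * (l - 1).choose i) * (i.factorial * (l - 1 - i).factorial) = l.factorial := by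
      rw [← h3, ← h2]; ring
    exact_mod_cast h4
  have hne : (l.factorial : K) ≠ 0 := by exact_mod_cast l.factorial_ne_zero
  have hne2 : ((l * (l - 1).choose i : ℕ) : K) ≠ 0 := by
    intro h0
    rw [h0, zero_mul] at hfac
    exact hne hfac.symm
  have h5 : ((l.factorial : K)⁻¹) * ((i.factorial : K) * ((l - 1 - i).factorial : K)) =
      ((l * (l - 1).choose i : ℕ) : K)⁻¹ := by
    have h6 : (i.factorial : K) * ((l - 1 - i).factorial : K) ≠ 0 := by
      intro h0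
      rw [h0, mul_zero] at hfac
      exact hne hfac.symm
    rw [← hfac, mul_inv, mul_assoc, inv_mul_cancel₀ h6, mul_one]
  rw [← h5]; ring

end TR

section fn

/-- `[ε^j] P(x+ε) φ(ε)` -/
noncomputable def fn (x : ℚ) (j : ℕ) (φ : ℕ → ℚ[X]) (P : ℚ[X]) : ℚ[X] :=
  ∑ a ∈ range (j + 1), C ((taylor x P).coeff a) * φ (j - a)

lemma fn_sum {ι : Type*} (x : ℚ) (j : ℕ) (φ : ℕ → ℚ[X]) (s : Finset ι) (c : ι → ℚ)
    (P : ι → ℚ[X]) :
    fn x j φ (∑ i ∈ s, C (c i) * P i) = ∑ i ∈ s, C (c i) * fn x j φ (P i) := by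
  simp only [fn, map_sum, finsetSum_coeff, mul_sum]
  rw [sum_comm]
  refine sum_congr rfl fun a _ => ?_
  rw [sum_mul]
  refine sum_congr rfl fun i _ => ?_
  rw [taylor_mul, taylor_C, coeff_C_mul, C_mul]; ring

variable {p : ℕ} [hp : Fact p.Prime]

lemma PB_fn {x : ℚ} {j : ℕ} {φ : ℕ → ℚ[X]} {P : ℚ[X]} {e f : ℤ}
    (hP : ∀ a ≤ j, PB p (-e) (C ((taylor x P).coeff a) : ℚ[X]))
    (hφ : ∀ a ≤ j, PB p (-f) (φ a)) : PB p (-(e + f)) (fn x j φ P) := by
  refine PB.sum _ _ fun a ha => ?_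
  have ha' : a ≤ j := Nat.lt_succ_iff.mp (mem_range.mp ha)
  have := (hP a ha').mul (hφ (j - a) (Nat.sub_le _ _))
  exact this.mono (by linarith)

end fn

section tC

variable {p : ℕ} [hp : Fact p.Prime]

lemma padicValNat_mul_choose_le (l i : ℕ) (hi : i < l) :
    padicValNat p (l * (l - 1).choose i) ≤ 2 * Nat.log p l := by
  have hl : l ≠ 0 := by omega
  have hc : (l - 1).choose i ≠ 0 := (Nat.choose_pos (by omega)).ne'
  rw [padicValNat.mul hl hc]
  have h1 : padicValNat p l ≤ Nat.log p l := padicValNat_le_nat_log l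
  have h2 : padicValNat p ((l - 1).choose i) ≤ Nat.log p (l - 1) := by
    rw [← Nat.factorization_def _ hp.out]
    exact Nat.factorization_choose_le_log
  have h3 : Nat.log p (l - 1) ≤ Nat.log p l := Nat.log_mono_right (Nat.sub_le _ _)
  omega

/-- size of the coefficients of the polynomial part, from the size of the moment functional on
binomials -/
theorem PB_tC (m : ℕ → ℚ) (k : ℕ) (w f : ℤ) (hw : 0 ≤ w)
    (hL : ∀ d s : ℕ, d < k → s ≤ k →
      PB p (-(w * d) - f) (C (lin m ((cP ℚ d).comp (X - C (s : ℚ)))) : ℚ[X]))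
    (l i : ℕ) (hl : l < k) (hi : i < l) :
    PB p (-(w * ((l : ℤ) - i)) - (f + 2 * Nat.log p k)) (C (tC m l i) : ℚ[X]) := by
  rw [tC, if_pos hi, C_mul]
  have hn : l * (l - 1).choose i ≠ 0 :=
    mul_ne_zero (by omega) (Nat.choose_pos (by omega)).ne'
  have h1 : PB p (-(2 * Nat.log p k : ℤ)) (C (((l * (l - 1).choose i : ℕ) : ℚ)⁻¹) : ℚ[X]) := by
    apply PB.C
    rw [neg_neg, padicNorm.eq_zpow_of_nonzero (inv_ne_zero (by exact_mod_cast hn)),
      padicValRat.inv, neg_neg, padicValRat.of_nat]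
    apply zpow_le_zpow_right₀ (by exact_mod_cast hp.out.one_lt.le)
    have h2 := padicValNat_mul_choose_le (p := p) l i hi
    have h3 : Nat.log p l ≤ Nat.log p k := Nat.log_mono_right hl.le
    have h4 : padicValNat p (l * (l - 1).choose i) ≤ 2 * Nat.log p k := by omega
    exact_mod_cast h4
  have h2 := hL (l - 1 - i) (i + 1) (by omega) (by omega)
  refine (h1.mul h2).mono ?_
  have h3 : ((l - 1 - i : ℕ) : ℤ) = (l : ℤ) - 1 - i := by omega
  rw [h3]
  nlinarith

end tC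

section Mat

variable {p : ℕ} [hp : Fact p.Prime]




end Mat

end Crest.Agent.R006.P57
end

-- ▼ part R006/P57_Newton_241
section

/-!
Row 6, blocks P5 and P7: `p`-integral valued polynomials (helper241).

* `norm_cP_le` : `|C(z,l)|_p ≤ 1` for `|z|_p ≤ 1`;
* `nd f j` : finite differences at `0`; `newton` : `f = ∑ nd f j C(s,j)`; `norm_nd_le`;
* `norm_eval_le` : a polynomial bounded on `ℕ` is bounded on all `p`-integral rationals.
-/

set_option autoImplicit false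

namespace Crest.Agent.R006.P57

open Polynomial Finset Crest.Agent.R006.ProdBound481 Crest.Agent.R006.PsiInf

section Newton

variable {p : ℕ} [hp : Fact p.Prime]

lemma norm_descPochhammer_le (z : ℚ) (hz : padicNorm p z ≤ 1) (l : ℕ) :
    padicNorm p ((descPochhammer ℚ l).eval z) ≤ padicNorm p (l.factorial : ℚ) := by
  have hz' : ‖((z : ℚ) : ℚ_[p])‖ ≤ 1 := by
    rw [Padic.eq_padicNorm]; exact_mod_cast hz
  set x : ℤ_[p] := ⟨((z : ℚ) : ℚ_[p]), hz'⟩ with hx
  have hxc : ((x : ℤ_[p]) : ℚ_[p]) = ((z : ℚ) : ℚ_[p]) := rfl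
  have h1 := PadicInt.norm_ascPochhammer_le l (x - ((l : ℕ) : ℤ_[p]) + 1)
  rw [← descPochhammer_eval_eq_ascPochhammer] at h1
  have h2 : (((descPochhammer ℤ_[p] l).eval x : ℤ_[p]) : ℚ_[p]) =
      (((descPochhammer ℚ l).eval z : ℚ) : ℚ_[p]) := by
    rw [descPochhammer_eval_eq_prod_range, descPochhammer_eval_eq_prod_range]
    have e1 : ∀ y : ℤ_[p], (y : ℚ_[p]) = PadicInt.Coe.ringHom y := fun _ => rfl
    rw [e1, map_prod, Rat.cast_prod]
    refine prod_congr rfl fun j _ => ?_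
    rw [← e1, PadicInt.coe_sub, hxc, PadicInt.coe_natCast]
    push_cast
    rfl
  have h3 : ‖((descPochhammer ℤ_[p] l).eval x : ℤ_[p])‖ =
      ((padicNorm p ((descPochhammer ℚ l).eval z) : ℚ) : ℝ) := by
    rw [PadicInt.norm_def, h2, Padic.eq_padicNorm]
  have h4 : ‖((l.factorial : ℕ) : ℤ_[p])‖ = ((padicNorm p (l.factorial : ℚ) : ℚ) : ℝ) := by
    rw [PadicInt.norm_def, PadicInt.coe_natCast]
    have : ((l.factorial : ℕ) : ℚ_[p]) = (((l.factorial : ℕ) : ℚ) : ℚ_[p]) := by push_cast; rfl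
    rw [this, Padic.eq_padicNorm]
  rw [h3, h4] at h1
  exact_mod_cast h1

lemma norm_cP_le (z : ℚ) (hz : padicNorm p z ≤ 1) (l : ℕ) :
    padicNorm p ((cP ℚ l).eval z) ≤ 1 := by
  rw [cP, eval_mul, eval_C, padicNorm.mul]
  have h1 := norm_descPochhammer_le (p := p) z hz l
  have h0 : padicNorm p (l.factorial : ℚ) ≠ 0 :=
    padicNorm.nonzero (by exact_mod_cast l.factorial_ne_zero)
  have h2 : padicNorm p ((l.factorial : ℚ)⁻¹) * padicNorm p (l.factorial : ℚ) = 1 := by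
    rw [← padicNorm.mul, inv_mul_cancel₀ (by exact_mod_cast l.factorial_ne_zero), padicNorm.one]
  calc _ ≤ padicNorm p ((l.factorial : ℚ)⁻¹) * padicNorm p (l.factorial : ℚ) :=
        mul_le_mul_of_nonneg_left h1 (padicNorm.nonneg _)
    _ = 1 := h2

lemma cP_eval_nat (l n : ℕ) : (cP ℚ l).eval (n : ℚ) = (n.choose l : ℚ) := by
  rw [cP, eval_mul, eval_C, descPochhammer_eval_eq_descFactorial,
    Nat.descFactorial_eq_factorial_mul_choose, Nat.cast_mul, ← mul_assoc,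
    inv_mul_cancel₀ (by exact_mod_cast l.factorial_ne_zero), one_mul]

/-- finite differences at `0` -/
noncomputable def nd (f : ℚ[X]) (n : ℕ) : ℚ :=
  ∑ i ∈ range (n + 1), ((-1 : ℤ) ^ (n - i) * n.choose i) • f.eval (i : ℚ)

lemma eval_eq_sum_nd (f : ℚ[X]) (n : ℕ) :
    f.eval (n : ℚ) = ∑ k ∈ range (n + 1), (n.choose k : ℚ) * nd f k := by
  have h := shift_eq_sum_fwdDiff_iter (1 : ℕ) (fun m : ℕ => f.eval (m : ℚ)) n 0
  simp only [zero_add, smul_eq_mul, mul_one, nsmul_eq_mul] at h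
  rw [h]
  refine sum_congr rfl fun k _ => ?_
  rw [fwdDiff_iter_eq_sum_shift]
  simp [nd]

lemma natDegree_cP_le (l : ℕ) : (cP ℚ l).natDegree ≤ l := by
  rw [cP]
  exact (natDegree_C_mul_le _ _).trans (descPochhammer_natDegree ℚ l).le

theorem newton (f : ℚ[X]) (d : ℕ) (hf : f.natDegree ≤ d) :
    f = ∑ j ∈ range (d + 1), C (nd f j) * cP ℚ j := by
  apply eq_of_natDegree_lt_card_of_eval_eq' _ _
    ((range (d + 1)).image (fun n : ℕ => (n : ℚ)))
  · intro x hx
    obtain ⟨n, hn, rfl⟩ := mem_image.mp hx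
    have hn' := mem_range.mp hn
    rw [eval_eq_sum_nd, eval_finsetSum]
    have hsub : range (n + 1) ⊆ range (d + 1) := range_subset_range.mpr (by omega)
    rw [← sum_subset hsub]
    · refine sum_congr rfl fun k _ => ?_
      rw [eval_mul, eval_C, cP_eval_nat]; ring
    · intro k _ hk
      rw [eval_mul, cP_eval_nat, Nat.choose_eq_zero_of_lt (by simpa using hk)]
      simp
  · rw [card_image_of_injective _ Nat.cast_injective, card_range]
    refine Nat.lt_succ_of_le (max_le hf ?_)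
    refine natDegree_sum_le_of_forall_le _ _ fun j hj => ?_
    refine (natDegree_C_mul_le _ _).trans ((natDegree_cP_le j).trans ?_)
    exact Nat.lt_succ_iff.mp (mem_range.mp hj)

lemma norm_sum_le {ι : Type*} (s : Finset ι) (f : ι → ℚ) (e : ℚ) (he : 0 ≤ e)
    (h : ∀ i ∈ s, padicNorm p (f i) ≤ e) : padicNorm p (∑ i ∈ s, f i) ≤ e := by
  classical
  induction s using Finset.induction_on with
  | empty => simpa using he
  | insert a s ha ih =>
    rw [sum_insert ha]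
    exact (padicNorm.nonarchimedean).trans
      (max_le (h a (mem_insert_self _ _)) (ih fun i hi => h i (mem_insert_of_mem hi)))

lemma norm_nd_le (f : ℚ[X]) (e : ℚ) (he : 0 ≤ e) (hv : ∀ n : ℕ, padicNorm p (f.eval (n : ℚ)) ≤ e)
    (n : ℕ) : padicNorm p (nd f n) ≤ e := by
  refine norm_sum_le _ _ e he fun i _ => ?_
  rw [zsmul_eq_mul, padicNorm.mul]
  calc _ ≤ 1 * e := mul_le_mul (padicNorm.of_int _) (hv i) (padicNorm.nonneg _) zero_le_one
    _ = e := one_mul e


end Newton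

end Crest.Agent.R006.P57
end

-- ▼ part R006/P57_Minor_241
section

/-!
Row 6, blocks P5 and P7 for the frozen definitions `Defs.lean` (helper241).

`PB_minor` : for every odd prime `p`, `v_p(Minor) ≥ - w D^2 / 4 - O(N e)`,
`D = deg bound of R - q`.
-/

set_option autoImplicit false

namespace Crest.Agent.R006.P57M

open Polynomial Matrix Finset Crest.Agent.R006.ProdBound481 Crest.Agent.R006.PsiInf
  Crest.Agent.R006.P57 Crest.Agent.R006.NV Crest.Agent.R006.P7Det241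

section Det

variable {p : ℕ} [hp : Fact p.Prime]
variable {O : Type*} [Fintype O] [DecidableEq O]

/-- determinant step, the `R`-polynomials have degree `≤ δ + l` -/
theorem PB_det_poly' (k δ q : ℕ) (hqk : q ≤ δ + k) (w e : ℤ) (hw : 0 ≤ w) (he : 0 ≤ e)
    (A : Matrix (Fin k ⊕ O) (Fin k) ℚ[X]) (B : Matrix (Fin k ⊕ O) O ℚ[X])
    (s : Matrix O (Fin k) ℚ[X]) (U : Matrix (Fin k ⊕ O) (Fin (δ + k - q)) ℚ[X])
    (t : Matrix (Fin (δ + k - q)) (Fin k) ℚ[X])
    (hA : ∀ i l, PB p (-e) (A i l)) (hB : ∀ i o, PB p (-e) (B i o))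
    (hU : ∀ i j, PB p (-e) (U i j))
    (ht : ∀ (j : Fin (δ + k - q)) (l : Fin k),
      PB p (-(w * max 0 (((δ + (l : ℕ) : ℕ) : ℤ) - (q + (j : ℕ)))) - e) (t j l))
    (V : ℤ)
    (hV : 4 * V ≤ -(w * (((δ + k : ℕ) - (q : ℤ)) ^ 2 + 4 * ((δ + k : ℕ) - (q : ℤ)))) -
      4 * (e * (k + Fintype.card O + ((δ + k : ℕ) - (q : ℤ))))) :
    PB p V (fromCols (A - B * s - U * t) B).det := by
  classical
  set mid : ℕ := ((δ + k) + q) / 2 with hmid
  have key := PB_det_zcols (p := p) A B s U t (fun _ => -e)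
    (fun l => -(w * max 0 (((δ + (l : ℕ) : ℕ) : ℤ) - mid))) (fun _ => 0)
    (fun j => -(w * max 0 ((mid : ℤ) - (q + (j : ℕ)))) - e) (fun _ => 0)
    (fun i l => (hA i l).mono (by
      have : 0 ≤ w * max 0 (((δ + (l : ℕ) : ℕ) : ℤ) - mid) := mul_nonneg hw (le_max_left _ _)
      linarith))
    (fun i o => (hB i o).mono (by linarith))
    (fun i j => (hU i j).mono (by linarith))
    (fun j l => (ht j l).mono (by
      have h1 : max 0 (((δ + (l : ℕ) : ℕ) : ℤ) - (q + (j : ℕ))) ≤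
          max 0 ((mid : ℤ) - (q + (j : ℕ))) + max 0 (((δ + (l : ℕ) : ℕ) : ℤ) - mid) := by
        apply max_le
        · exact add_nonneg (le_max_left _ _) (le_max_left _ _)
        · have h2 := le_max_right (0 : ℤ) ((mid : ℤ) - (q + (j : ℕ)))
          have h3 := le_max_right (0 : ℤ) (((δ + (l : ℕ) : ℕ) : ℤ) - mid)
          linarith
      have h2 := mul_le_mul_of_nonneg_left h1 hw
      linarith))
    (fun j => by
      have : 0 ≤ w * max 0 ((mid : ℤ) - (q + (j : ℕ))) := mul_nonneg hw (le_max_left _ _)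
      linarith)
  refine key.mono ?_
  have hs := sum_weights (δ + k) q hqk
  rw [← hmid] at hs
  have hsub : ∑ l : Fin k, max 0 (((δ + (l : ℕ) : ℕ) : ℤ) - mid) ≤
      ∑ l : Fin (δ + k), max 0 ((l : ℤ) - mid) := by
    rw [Fin.sum_univ_eq_sum_range (fun l => max 0 (((δ + l : ℕ) : ℤ) - (mid : ℤ))) k,
      Fin.sum_univ_eq_sum_range (fun l => max 0 ((l : ℤ) - (mid : ℤ))) (δ + k),
      Finset.sum_range_add]
    have : 0 ≤ ∑ x ∈ range δ, max 0 ((x : ℤ) - (mid : ℤ)) :=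
      Finset.sum_nonneg fun _ _ => le_max_left _ _
    linarith
  have e1 : ∑ i : Fin k ⊕ O, (-e : ℤ) = -(e * (k + Fintype.card O)) := by
    rw [Finset.sum_const, Finset.card_univ, Fintype.card_sum, Fintype.card_fin, nsmul_eq_mul]
    push_cast; ring
  have e2 : ∑ l : Fin k, -(w * max 0 (((δ + (l : ℕ) : ℕ) : ℤ) - mid)) =
      -(w * ∑ l : Fin k, max 0 (((δ + (l : ℕ) : ℕ) : ℤ) - mid)) := by
    rw [Finset.sum_neg_distrib, Finset.mul_sum]
  have e3 : ∑ j : Fin (δ + k - q), (-(w * max 0 ((mid : ℤ) - (q + (j : ℕ)))) - e + 0) =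
      -(w * ∑ j : Fin (δ + k - q), max 0 ((mid : ℤ) - (q + (j : ℕ)))) -
        e * ((δ + k : ℕ) - (q : ℤ)) := by
    simp only [add_zero, Finset.sum_sub_distrib, Finset.sum_neg_distrib, Finset.mul_sum,
      Finset.sum_const, Finset.card_univ, Fintype.card_fin, nsmul_eq_mul]
    rw [Nat.cast_sub hqk]; ring
  rw [e1, e2, e3, Finset.sum_const_zero]
  have hs' := mul_le_mul_of_nonneg_left hs hw
  have hsub' := mul_le_mul_of_nonneg_left hsub hw
  nlinarith

end Det

section Tau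

/-- coefficients of `τ(R)` in the binomial basis -/
noncomputable def tcf (R : ℚ[X]) (n i : ℕ) : ℚ := ∑ j ∈ range (n + 1), nd R j * tC mu j i

lemma TR_C_mul (a : ℚ) (P : ℚ[X]) : TR mu (C a * P) = C a * TR mu P := by
  rw [← smul_eq_C_mul, map_smul, smul_eq_C_mul]

theorem TR_eq (R : ℚ[X]) (n N : ℕ) (hR : R.natDegree ≤ n) (hN : n ≤ N) :
    TR mu R = ∑ i ∈ range N, C (tcf R n i) * cP ℚ i := by
  conv_lhs => rw [newton R n hR]
  rw [map_sum]
  have h1 : ∀ j ∈ range (n + 1), TR mu (C (nd R j) * cP ℚ j) =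
      ∑ i ∈ range N, C (nd R j * tC mu j i) * cP ℚ i := by
    intro j hj
    have hj' := mem_range.mp hj
    rw [TR_C_mul, TR_cP, mul_sum]
    have h2 : ∑ i ∈ range j, C (nd R j) * (C (tC mu j i) * cP ℚ i) =
        ∑ i ∈ range j, C (nd R j * tC mu j i) * cP ℚ i :=
      sum_congr rfl fun i _ => by rw [C_mul, mul_assoc]
    rw [h2]
    refine sum_subset (range_subset_range.mpr (by omega)) fun i _ hi => ?_
    rw [tC, if_neg (by simpa using hi), mul_zero, C_0, zero_mul]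
  rw [sum_congr rfl h1, sum_comm]
  refine sum_congr rfl fun i _ => ?_
  rw [tcf, map_sum, sum_mul]

variable {p : ℕ} [hp : Fact p.Prime]

lemma PB_C_of_norm_le_one {a : ℚ} (h : padicNorm p a ≤ 1) : PB p 0 (C a : ℚ[X]) :=
  PB.C (by simpa using h)

theorem PB_tcf (R : ℚ[X]) (n i : ℕ) (hR : ∀ m : ℕ, padicNorm p (R.eval (m : ℚ)) ≤ 1) (w e : ℤ)
    (hw : 0 ≤ w)
    (ht : ∀ j, j ≤ n → i < j → PB p (-(w * ((j : ℤ) - i)) - e) (C (tC mu j i) : ℚ[X])) :
    PB p (-(w * max 0 ((n : ℤ) - i)) - e) (C (tcf R n i) : ℚ[X]) := by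
  rw [tcf, map_sum]
  refine PB.sum _ _ fun j hj => ?_
  have hj' : j ≤ n := Nat.lt_succ_iff.mp (mem_range.mp hj)
  rw [C_mul]
  by_cases h : i < j
  · have h1 := (PB_C_of_norm_le_one (norm_nd_le (p := p) R 1 zero_le_one hR j)).mul (ht j hj' h)
    refine h1.mono ?_
    have h2 : ((j : ℤ) - i) ≤ max 0 ((n : ℤ) - i) :=
      le_trans (by have : (j : ℤ) ≤ n := by exact_mod_cast hj'
                   linarith) (le_max_right _ _)
    have h3 := mul_le_mul_of_nonneg_left h2 hw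
    linarith
  · rw [tC, if_neg h, C_0, mul_zero]
    exact PB.zero _

end Tau

section Entry

lemma coeff_gm_mul (x : ℚ) (P : ℚ[X]) (φ : PowerSeries ℚ) (j : ℕ) :
    PowerSeries.coeff j (gm x P * φ) =
      ∑ a ∈ range (j + 1), (taylor x P).coeff a * PowerSeries.coeff (j - a) φ := by
  rw [PowerSeries.coeff_mul, Finset.Nat.sum_antidiagonal_eq_sum_range_succ
    (fun a b => PowerSeries.coeff a (gm x P) * PowerSeries.coeff b φ)]
  refine sum_congr rfl fun a _ => ?_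
  rw [gm, Polynomial.coeff_coe]

/-- germ of `ψ` over `ℚ[X]` -/
noncomputable def gR (z : D.Site) (a : ℕ) : ℚ[X] :=
  C (PowerSeries.coeff a (D.psi0 z)) - X * C (PowerSeries.coeff a (D.psi1 z))

/-- germ of `1` -/
noncomputable def gT (a : ℕ) : ℚ[X] := if a = 0 then 1 else 0

/-- germ of `g` over `ℚ[X]` -/
noncomputable def gK (z : D.Site) (a : ℕ) : ℚ[X] := C (PowerSeries.coeff a (D.gam z))

lemma fn_gT (x : ℚ) (j : ℕ) (P : ℚ[X]) : fn x j gT P = C ((taylor x P).coeff j) := by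
  rw [fn, sum_eq_single j]
  · rw [Nat.sub_self, gT, if_pos rfl, mul_one]
  · intro a ha hne
    have : j - a ≠ 0 := by have := mem_range.mp ha; omega
    rw [gT, if_neg this, mul_zero]
  · intro h; exact absurd (mem_range.mpr (Nat.lt_succ_self j)) h

lemma entT_eq (T : ℚ[X]) (ρ : D.Row) : (C (D.entT T ρ) : ℚ[X]) = fn ρ.1.val ρ.2 gT T := by
  rw [fn_gT, D.entT, gm, Polynomial.coeff_coe]

lemma entQ_eq (Q : ℚ[X]) (ρ : D.Row) : (C (D.entQ Q ρ) : ℚ[X]) = fn ρ.1.val ρ.2 (gK ρ.1) Q := by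
  rw [D.entQ, coeff_gm_mul, map_sum, fn]
  refine sum_congr rfl fun a _ => ?_
  rw [C_mul, gK]

lemma entR_eq (R : ℚ[X]) (ρ : D.Row) : (C (D.ent0 R ρ) - X * C (D.ent1 R ρ) : ℚ[X]) =
    fn ρ.1.val ρ.2 (gR ρ.1) R - fn ρ.1.val ρ.2 gT (TR mu R) := by
  rw [D.ent0, D.ent1, map_sub, fn_gT, coeff_gm_mul, coeff_gm_mul, C_sub, map_sum, map_sum, fn,
    gm, Polynomial.coeff_coe, mul_sum]
  have h : ∀ a, (C ((taylor ρ.1.val R).coeff a) * gR ρ.1 (ρ.2 - a) : ℚ[X]) =
      C ((taylor ρ.1.val R).coeff a * PowerSeries.coeff (ρ.2 - a) (D.psi0 ρ.1)) -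
      X * C ((taylor ρ.1.val R).coeff a * PowerSeries.coeff (ρ.2 - a) (D.psi1 ρ.1)) := by
    intro a
    rw [gR, C_mul, C_mul]; ring
  rw [sum_congr rfl fun a _ => h a, sum_sub_distrib, D.tau]
  ring

end Entry

section PolR

variable {p : ℕ} [hp : Fact p.Prime]

lemma norm_half (hp2 : p ≠ 2) : padicNorm p (1 / 2 : ℚ) = 1 := by
  have h2 : padicNorm p (2 : ℚ) = 1 := by
    have : ¬ p ∣ 2 := by
      intro h
      exact hp2 ((Nat.prime_dvd_prime_iff_eq hp.out Nat.prime_two).mp h)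
    exact_mod_cast (padicNorm.nat_eq_one_iff 2).mpr this
  rw [padicNorm.div, h2, padicNorm.one, div_one]

lemma norm_nat_sub_half (hp2 : p ≠ 2) (n : ℕ) : padicNorm p ((n : ℚ) - 1 / 2) ≤ 1 := by
  refine padicNorm.sub.trans (max_le (padicNorm.of_nat n) (norm_half hp2).le)


lemma norm_polR_le (hp2 : p ≠ 2) (S : D.Shape) (u l n : ℕ) :
    padicNorm p ((D.polR S u l).eval (n : ℚ)) ≤ 1 := by
  have hb : ∀ (z : ℚ) (m : ℕ), padicNorm p z ≤ 1 → padicNorm p ((D.bin m).eval z) ≤ 1 :=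
    fun z m hz => norm_cP_le z hz m
  have h1 := hb (n : ℚ) (S.a2 * u) (padicNorm.of_nat n)
  have h2 := hb ((n : ℚ) + ((S.i1 * u : ℕ) - 1 / 2 : ℚ)) (S.i1 * u) (by
    have := norm_nat_sub_half (p := p) hp2 (n + S.i1 * u)
    have e : (((n + S.i1 * u : ℕ) : ℚ) - 1 / 2) = (n : ℚ) + ((S.i1 * u : ℕ) - 1 / 2 : ℚ) := by
      push_cast; ring
    rwa [e] at this)
  have h3 := hb ((n : ℚ) + ((S.r1 * u : ℕ) : ℚ)) (S.r1 * u) (by
    have := padicNorm.of_nat (p := p) (n + S.r1 * u)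
    rwa [Nat.cast_add] at this)
  have h4 := hb (n : ℚ) (S.a1 * u + l) (padicNorm.of_nat n)
  rw [D.polR, D.gauge, eval_mul, eval_mul, eval_mul, eval_comp, eval_comp, eval_add, eval_X,
    eval_C, eval_add, eval_X, eval_C, padicNorm.mul, padicNorm.mul, padicNorm.mul]
  have hn := fun q : ℚ => padicNorm.nonneg (p := p) q
  exact mul_le_one₀ (mul_le_one₀ (mul_le_one₀ h1 (hn _) h2) (hn _) h3) (hn _) h4

lemma natDegree_polR_le (S : D.Shape) (u l : ℕ) :
    (D.polR S u l).natDegree ≤ (S.a1 + S.a2 + S.i1 + S.r1) * u + l := by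
  have hb : ∀ m, (D.bin m).natDegree ≤ m := fun m => natDegree_cP_le m
  have hc : ∀ (m : ℕ) (c : ℚ), ((D.bin m).comp (X + C c)).natDegree ≤ m := by
    intro m c
    refine natDegree_comp_le.trans ?_
    rw [natDegree_X_add_C, mul_one]
    exact hb m
  rw [D.polR, D.gauge]
  refine natDegree_mul_le.trans ?_
  have h1 := natDegree_mul_le (p := D.bin (S.a2 * u) * (D.bin (S.i1 * u)).comp
    (X + C ((S.i1 * u : ℕ) - 1 / 2 : ℚ))) (q := (D.bin (S.r1 * u)).comp
    (X + C ((S.r1 * u : ℕ) : ℚ)))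
  have h2 := natDegree_mul_le (p := D.bin (S.a2 * u)) (q := (D.bin (S.i1 * u)).comp
    (X + C ((S.i1 * u : ℕ) - 1 / 2 : ℚ)))
  have h3 := hb (S.a2 * u)
  have h4 := hc (S.i1 * u) ((S.i1 * u : ℕ) - 1 / 2 : ℚ)
  have h5 := hc (S.r1 * u) ((S.r1 * u : ℕ) : ℚ)
  have h6 := hb (S.a1 * u + l)
  have e : (S.a1 + S.a2 + S.i1 + S.r1) * u = S.a1 * u + S.a2 * u + S.i1 * u + S.r1 * u := by ring
  rw [e]
  omega

end PolR

section Main

variable {p : ℕ} [hp : Fact p.Prime]

/-- local bounds at one site: Taylor coefficients of the binomials of degree `≤ N0` and the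
germs -/
structure SiteB (p N0 : ℕ) (e : ℤ) (z : D.Site) : Prop where
  tay : ∀ l ≤ N0, ∀ a ≤ 2, PB p (-e) (C ((taylor z.val (D.bin l)).coeff a) : ℚ[X])
  p0 : ∀ a ≤ 2, PB p (-e) (C (PowerSeries.coeff a (D.psi0 z)) : ℚ[X])
  p1 : ∀ a ≤ 2, PB p (-e) (C (PowerSeries.coeff a (D.psi1 z)) : ℚ[X])
  ga : ∀ a ≤ 2, PB p (-e) (C (PowerSeries.coeff a (D.gam z)) : ℚ[X])

omit hp in
lemma PB_X : PB p 0 (X : ℚ[X]) := by
  intro k
  rw [coeff_X]
  split_ifs <;> simp

lemma SiteB.gR {N0 : ℕ} {e : ℤ} {z : D.Site} (h : SiteB p N0 e z) {a : ℕ} (ha : a ≤ 2) :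
    PB p (-e) (gR z a) := by
  refine (h.p0 a ha).sub ?_
  have := (PB_X (p := p)).mul (h.p1 a ha)
  rwa [zero_add] at this

lemma SiteB.gT {N0 : ℕ} {e : ℤ} (he : 0 ≤ e) {z : D.Site} (_h : SiteB p N0 e z) {a : ℕ} :
    PB p (-e) (gT a) := by
  rw [P57M.gT]
  split_ifs
  · exact (PB.one (p := p)).mono (by linarith)
  · exact PB.zero _

lemma SiteB.tayR {N0 : ℕ} {e : ℤ} {z : D.Site} (h : SiteB p N0 e z) (R : ℚ[X])
    (hR : ∀ m : ℕ, padicNorm p (R.eval (m : ℚ)) ≤ 1) (hd : R.natDegree ≤ N0) {a : ℕ}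
    (ha : a ≤ 2) : PB p (-e) (C ((taylor z.val R).coeff a) : ℚ[X]) := by
  rw [newton R N0 hd, map_sum, finsetSum_coeff, map_sum]
  refine PB.sum _ _ fun j hj => ?_
  have hj' : j ≤ N0 := Nat.lt_succ_iff.mp (mem_range.mp hj)
  rw [taylor_mul, taylor_C, coeff_C_mul, C_mul]
  have := (PB_C_of_norm_le_one (norm_nd_le (p := p) R 1 zero_le_one hR j)).mul (h.tay j hj' a ha)
  rwa [zero_add] at this

/-- the matrix in the form of the determinant lemma -/
theorem Mat_eq (S : D.Shape) (u : ℕ) (r : D.Col S u → D.Row)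
    (hqk : S.q * u ≤ (S.a1 + S.a2 + S.i1 + S.r1) * u + S.k * u) :
    ∃ s : Matrix (Fin (S.q * u) ⊕ Fin (S.g * u)) (Fin (S.k * u)) ℚ[X],
    D.Mat S u r = fromCols
      ((Matrix.of fun i (l : Fin (S.k * u)) =>
          fn (r i).1.val (r i).2 (gR (r i).1) (D.polR S u l)) -
        (Matrix.of fun i (c : Fin (S.q * u) ⊕ Fin (S.g * u)) => Sum.elim
          (fun j : Fin (S.q * u) => fn (r i).1.val (r i).2 gT (cP ℚ j))
          (fun j : Fin (S.g * u) => fn (r i).1.val (r i).2 (gK (r i).1) (cP ℚ j)) c) * s -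
        (Matrix.of fun i (j : Fin ((S.a1 + S.a2 + S.i1 + S.r1) * u + S.k * u - S.q * u)) =>
          fn (r i).1.val (r i).2 gT (cP ℚ (S.q * u + j))) *
        (Matrix.of fun (j : Fin ((S.a1 + S.a2 + S.i1 + S.r1) * u + S.k * u - S.q * u))
          (l : Fin (S.k * u)) =>
          (C (tcf (D.polR S u l) ((S.a1 + S.a2 + S.i1 + S.r1) * u + l) (S.q * u + j)) : ℚ[X])))
      (Matrix.of fun i (c : Fin (S.q * u) ⊕ Fin (S.g * u)) => Sum.elim
          (fun j : Fin (S.q * u) => fn (r i).1.val (r i).2 gT (cP ℚ j))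
          (fun j : Fin (S.g * u) => fn (r i).1.val (r i).2 (gK (r i).1) (cP ℚ j)) c) := by
  set δ := (S.a1 + S.a2 + S.i1 + S.r1) * u with hδ
  set k := S.k * u with hk
  set q := S.q * u with hq
  set g := S.g * u with hg
  refine ⟨Matrix.of fun c (l : Fin k) => Sum.elim
    (fun j : Fin q => (C (tcf (D.polR S u l) (δ + l) j) : ℚ[X])) (fun _ => 0) c, ?_⟩
  ext1 i c
  rcases c with l | c
  · have h1 : fn (r i).1.val (r i).2 gT (TR mu (D.polR S u (l : ℕ))) =
        ∑ j ∈ range (q + (δ + k - q)),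
          C (tcf (D.polR S u l) (δ + l) j) * fn (r i).1.val (r i).2 gT (cP ℚ j) := by
      rw [TR_eq (D.polR S u l) (δ + l) (q + (δ + k - q)) (natDegree_polR_le S u l)
        (by have := l.2; omega), fn_sum]
    rw [sum_range_add] at h1
    simp only [D.Mat, D.entry, fromCols_apply_inl, Matrix.of_apply, Matrix.sub_apply,
      Matrix.mul_apply, Fintype.sum_sum_type, Sum.elim_inl, Sum.elim_inr, mul_zero,
      sum_const_zero, add_zero]
    rw [entR_eq, h1, Fin.sum_univ_eq_sum_range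
        (fun j => fn (r i).1.val (r i).2 gT (cP ℚ j) * C (tcf (D.polR S u l) (δ + l) j)) q,
        Fin.sum_univ_eq_sum_range
        (fun j => fn (r i).1.val (r i).2 gT (cP ℚ (q + j)) *
          C (tcf (D.polR S u l) (δ + l) (q + j))) (δ + k - q)]
    have e1 : ∀ j, C (tcf (D.polR S u l) (δ + l) j) * fn (r i).1.val (r i).2 gT (cP ℚ j) =
        fn (r i).1.val (r i).2 gT (cP ℚ j) * C (tcf (D.polR S u l) (δ + l) j) :=
      fun j => mul_comm _ _
    rw [sum_congr rfl fun j _ => e1 j, sum_congr rfl fun j _ => e1 (q + j)]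
    ring
  · simp only [fromCols_apply_inr, Matrix.of_apply]
    rcases c with c | c
    · simp only [D.Mat, D.entry, Matrix.of_apply, Sum.elim_inl]
      rw [entT_eq]; rfl
    · simp only [D.Mat, D.entry, Matrix.of_apply, Sum.elim_inr]
      rw [entQ_eq]; rfl

/-- **the lower bound for the minor**, every odd prime -/
theorem PB_minor (hp2 : p ≠ 2) (S : D.Shape) (u : ℕ) (r : D.Col S u → D.Row)
    (w e : ℤ) (hw : 0 ≤ w) (he : 0 ≤ e) (N0 : ℕ)
    (hqk : S.q * u ≤ (S.a1 + S.a2 + S.i1 + S.r1) * u + S.k * u)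
    (hN1 : (S.a1 + S.a2 + S.i1 + S.r1) * u + S.k * u ≤ N0) (hN2 : S.g * u ≤ N0)
    (hj : ∀ i, (r i).2 ≤ 2) (hS : ∀ i, SiteB p N0 e (r i).1)
    (ht : ∀ j i, j ≤ N0 → i < j → PB p (-(w * ((j : ℤ) - i)) - e) (C (tC mu j i) : ℚ[X]))
    (V : ℤ)
    (hV : 4 * V ≤ -(w * ((((S.a1 + S.a2 + S.i1 + S.r1) * u + S.k * u : ℕ) - ((S.q * u : ℕ) : ℤ))
        ^ 2 + 4 * (((S.a1 + S.a2 + S.i1 + S.r1) * u + S.k * u : ℕ) - ((S.q * u : ℕ) : ℤ)))) -
      4 * (2 * e * ((S.k * u : ℕ) + (S.q * u + S.g * u : ℕ) +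
        (((S.a1 + S.a2 + S.i1 + S.r1) * u + S.k * u : ℕ) - ((S.q * u : ℕ) : ℤ))))) :
    PB p V (D.Minor S u r) := by
  obtain ⟨s, hs⟩ := Mat_eq S u r hqk
  rw [D.Minor, hs]
  have h2e : (-(2 * e) : ℤ) = -(e + e) := by ring
  have hcP : ∀ i, ∀ l ≤ N0, ∀ a ≤ (r i).2,
      PB p (-e) (C ((taylor (r i).1.val (cP ℚ l)).coeff a) : ℚ[X]) :=
    fun i l hl a ha => (hS i).tay l hl a (ha.trans (hj i))
  refine PB_det_poly' (p := p) (S.k * u) ((S.a1 + S.a2 + S.i1 + S.r1) * u) (S.q * u) hqk w (2 * e)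
    hw (by linarith) _ _ s _ _ ?_ ?_ ?_ ?_ V ?_
  · intro i l
    rw [h2e]
    refine PB_fn (fun a ha => (hS i).tayR (D.polR S u l) (norm_polR_le hp2 S u l) ?_
      (ha.trans (hj i))) (fun a ha => (hS i).gR (ha.trans (hj i)))
    refine (natDegree_polR_le S u l).trans ?_
    have := l.2
    omega
  · intro i o
    rw [h2e]
    rcases o with o | o
    · exact PB_fn (hcP i o (by have := o.2; omega)) (fun a _ => (hS i).gT he)
    · exact PB_fn (hcP i o (by have := o.2; omega)) (fun a ha => (hS i).ga a (ha.trans (hj i)))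
  · intro i j
    rw [h2e]
    exact PB_fn (hcP i _ (by have := j.2; omega)) (fun a _ => (hS i).gT he)
  · intro j l
    have h := PB_tcf (p := p) (D.polR S u l) ((S.a1 + S.a2 + S.i1 + S.r1) * u + l)
      (S.q * u + j) (norm_polR_le hp2 S u l) w e hw
      (fun j' hj' hi => ht j' _ (by have := l.2; omega) hi)
    refine h.mono ?_
    push_cast
    linarith
  · rw [Fintype.card_sum, Fintype.card_fin, Fintype.card_fin]
    exact hV

end Main

end Crest.Agent.R006.P57M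
end

-- ▼ part R006/P5_GermsPB_939
section

/-!
Row 6, blocks P5 / P7: denominators of the germs of `ψ`, `g` (chains of `NVChain_664`, `Defs`) and of
the Taylor coefficients of `C(x,l)`; applications of `P5_Germs_939` (helper939).

For `p` odd and `|2x| ≤ D` for all positions `x`:
* `norm_PsiZ`, `norm_PsiH0` : `|coeff k| ≤ p^((k+3) log_p D)`;
* `norm_GamZ`, `norm_GamH0` : `|coeff k| ≤ p^((k+2) log_p D)`;
* `norm_cP` : `|(taylor x (cP l)).coeff a| ≤ p^(a log_p D)`.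
-/

set_option autoImplicit false

namespace Crest.Agent.R006.Germ939

open PowerSeries Finset
open Crest.Agent.R006.NV (pt bi PsiZ GamZ PsiH0)
open Crest.Agent.R006.ProdBound481 (PB)
open Crest.Agent.R006.D (GamH0)

section chains

variable {S : Subring ℚ} {d : ℚ} {D : ℕ}

lemma bi_neg_step (a b c : ℤ → PowerSeries ℚ) (init : PowerSeries ℚ) (m : ℕ) :
    bi a b c init (-((m + 1 : ℕ) : ℤ)) =
      (c (-(m : ℤ) - 1) - a (-(m : ℤ) - 1) * bi a b c init (-(m : ℤ))) * (b (-(m : ℤ) - 1))⁻¹ := by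
  cases m with
  | zero =>
    have e1 : (-((0 + 1 : ℕ) : ℤ)) = -1 := by norm_num
    have e2 : (-((0 : ℕ) : ℤ) - 1) = -1 := by norm_num
    have e3 : (-((0 : ℕ) : ℤ)) = 0 := by norm_num
    rw [e1, e2, e3, NV.bi_zero, NV.bi_negOne]
  | succ m =>
    have e1 : (-((m + 1 + 1 : ℕ) : ℤ)) = Int.negSucc (m + 1) := by
      rw [Int.negSucc_eq]; push_cast; ring
    have e2 : (-((m + 1 : ℕ) : ℤ) - 1) = -(m : ℤ) - 2 := by push_cast; ring
    have e3 : (-((m + 1 : ℕ) : ℤ)) = Int.negSucc m := by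
      rw [Int.negSucc_eq]; push_cast; ring
    rw [e1, e2, e3, NV.bi_negSucc]

lemma HI_neg_half : HI (-1 / 2) := ⟨-1, by norm_num⟩

theorem Rd_PsiZ (hS : (1 / 2 : ℚ) ∈ S) (hd : d ∈ S) (hD : DD S d D) (c : ℚ) (hc : c ∈ S) (i : ℤ)
    (hi : |2 * i| ≤ D) : Rd S d 3 (PsiZ c i) := by
  rcases le_or_gt 0 i with h0 | h0
  · obtain ⟨n, rfl⟩ := Int.eq_ofNat_of_zero_le h0
    have hn : 2 * n ≤ D := by
      rw [abs_of_nonneg (by positivity)] at hi; exact_mod_cast hi
    refine Rd_forward hS hd hD 0 HI.zero (fun n : ℕ => PsiZ c (n : ℤ)) (fun n => ?_) n hn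
      (fun i h1 h2 => ?_) ?_
    · simp only [PsiZ]
      rw [NV.bi_succ]
      simp only [Int.cast_natCast, zero_add, cc]
    · have h3 : (1 : ℚ) ≤ i := by exact_mod_cast h1
      refine ⟨by linarith, ?_⟩
      rw [zero_add, abs_of_nonneg (by positivity)]
      exact_mod_cast (by omega : 2 * i ≤ D)
    · exact Rd.C c hc hd
  · obtain ⟨m, rfl⟩ : ∃ m : ℕ, i = -(m : ℤ) := ⟨(-i).toNat, by omega⟩
    have hm : 2 * m ≤ D := by
      rw [abs_of_nonpos (by omega)] at hi; omega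
    refine Rd_backward hS hd hD 0 HI.zero (fun m : ℕ => PsiZ c (-(m : ℤ))) (fun m => ?_) m hm
      (fun i h1 h2 => ?_) ?_
    · simp only [PsiZ]
      rw [bi_neg_step]
      have e1 : ((-(m : ℤ) - 1 : ℤ) : ℚ) = 0 - m - 1 := by push_cast; ring
      have e2 : (0 : ℚ) - m - 1 + 1 = 0 - m := by ring
      simp only [e1, e2, cc]
    · have h3 : (1 : ℚ) ≤ i := by exact_mod_cast h1
      refine ⟨by intro h; linarith, ?_⟩
      rw [abs_of_nonpos (by linarith)]
      have : (i : ℚ) ≤ m := by exact_mod_cast h2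
      have h4 : (2 * m : ℚ) ≤ D := by exact_mod_cast hm
      linarith
    · exact Rd.C c hc hd

theorem Rd_PsiH0 (hS : (1 / 2 : ℚ) ∈ S) (hd : d ∈ S) (hD : DD S d D) (i : ℤ)
    (hi : |2 * i| ≤ D) : Rd S d 3 (PsiH0 i : PowerSeries ℚ) := by
  rcases le_or_gt 0 i with h0 | h0
  · obtain ⟨n, rfl⟩ := Int.eq_ofNat_of_zero_le h0
    have hn : 2 * n ≤ D := by
      rw [abs_of_nonneg (by positivity)] at hi; exact_mod_cast hi
    refine Rd_forward hS hd hD (-1 / 2) HI_neg_half (fun n : ℕ => PsiH0 (n : ℤ)) (fun n => ?_) n hn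
      (fun i h1 h2 => ?_) ?_
    · simp only [PsiH0]
      rw [NV.bi_succ]
      have e1 : ((n : ℤ) : ℚ) - 1 / 2 = -1 / 2 + n := by push_cast; ring
      simp only [e1, cc]
    · have h3 : (1 : ℚ) ≤ i := by exact_mod_cast h1
      refine ⟨by linarith, ?_⟩
      rw [abs_of_nonneg (by linarith)]
      have : (i : ℚ) ≤ n := by exact_mod_cast h2
      have h4 : (2 * n : ℚ) ≤ D := by exact_mod_cast hn
      linarith
    · simpa [NV.PsiH0_zero] using (Rd.zero : Rd S d 0 0)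
  · obtain ⟨m, rfl⟩ : ∃ m : ℕ, i = -(m : ℤ) := ⟨(-i).toNat, by omega⟩
    have hm : 2 * m ≤ D := by
      rw [abs_of_nonpos (by omega)] at hi; omega
    refine Rd_backward hS hd hD (-1 / 2) HI_neg_half (fun m : ℕ => PsiH0 (-(m : ℤ))) (fun m => ?_) m hm
      (fun i h1 h2 => ?_) ?_
    · simp only [PsiH0]
      rw [bi_neg_step]
      have e1 : ((-(m : ℤ) - 1 : ℤ) : ℚ) - 1 / 2 = -1 / 2 - m - 1 := by push_cast; ring
      have e2 : (-1 / 2 : ℚ) - m - 1 + 1 = -1 / 2 - m := by ring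
      simp only [e1, e2, cc]
    · have h3 : (1 : ℚ) ≤ i := by exact_mod_cast h1
      have e3 : (-1 / 2 : ℚ) + 1 / 2 - i = -i := by ring
      rw [e3]
      refine ⟨by intro h; linarith, ?_⟩
      rw [abs_of_nonpos (by linarith)]
      have : (i : ℚ) ≤ m := by exact_mod_cast h2
      have h4 : (2 * m : ℚ) ≤ D := by exact_mod_cast hm
      linarith
    · simpa [NV.PsiH0_zero] using (Rd.zero : Rd S d 0 0)

/-! ### `g` -/

theorem gforward (x0 : ℚ) (γ : ℕ → PowerSeries ℚ)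
    (h : ∀ n : ℕ, γ (n + 1) = (0 - -(PowerSeries.C (1 / 4) * (2 * pt (x0 + n) + 1) ^ 2) * γ n)
      * (pt (x0 + n + 1) ^ 2)⁻¹) (n : ℕ) :
    γ n = PowerSeries.C ((1 / 4 : ℚ) ^ n) * (e (x0 + n) n ^ 2 * γ 0) := by
  induction n with
  | zero => simp [e_zero]
  | succ n ih =>
    have hinv : (pt (x0 + n + 1) ^ 2)⁻¹ = (pt (x0 + n + 1))⁻¹ ^ 2 := by
      rw [pow_succ, pow_one, PowerSeries.mul_inv_rev]; ring
    have ec : x0 + ((n + 1 : ℕ) : ℚ) = x0 + n + 1 := by push_cast; ring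
    rw [h n, hinv, ec, e_succ, ih, pow_succ (1 / 4 : ℚ) n, map_mul]
    ring

theorem gbackward (y0 : ℚ) (γ : ℕ → PowerSeries ℚ)
    (h : ∀ m : ℕ, γ (m + 1) = (0 - pt (y0 - m) ^ 2 * γ m)
      * (-(PowerSeries.C (1 / 4) * (2 * pt (y0 - m - 1) + 1) ^ 2))⁻¹) (m : ℕ) :
    γ m = PowerSeries.C ((4 : ℚ) ^ m) * (e' y0 m ^ 2 * γ 0) := by
  induction m with
  | zero => simp [e'_zero]
  | succ m ih =>
    have hinv : (-(PowerSeries.C (1 / 4) * (2 * pt (y0 - m - 1) + 1) ^ 2))⁻¹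
        = -(PowerSeries.C 4 * (2 * pt (y0 - m - 1) + 1)⁻¹ ^ 2) := by
      have e1 : -(PowerSeries.C (1 / 4) * (2 * pt (y0 - m - 1) + 1) ^ 2)
          = PowerSeries.C (-(1 / 4)) * ((2 * pt (y0 - m - 1) + 1) * (2 * pt (y0 - m - 1) + 1)) := by
        rw [map_neg]; ring
      rw [e1, PowerSeries.mul_inv_rev, PowerSeries.mul_inv_rev, C_inv _ (by norm_num)]
      have e2 : (-(1 / 4 : ℚ))⁻¹ = -4 := by norm_num
      rw [e2, map_neg]; ring
    rw [h m, hinv, e'_succ, ih, pow_succ (4 : ℚ) m, map_mul]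
    ring

theorem Rd_gforward (hS : (1 / 2 : ℚ) ∈ S) (hd : d ∈ S) (hD : DD S d D) (x0 : ℚ) (hx0 : HI x0)
    (γ : ℕ → PowerSeries ℚ)
    (h : ∀ n : ℕ, γ (n + 1) = (0 - -(PowerSeries.C (1 / 4) * (2 * pt (x0 + n) + 1) ^ 2) * γ n)
      * (pt (x0 + n + 1) ^ 2)⁻¹) (n : ℕ) (hn : 2 * n ≤ D)
    (hx : ∀ i : ℕ, 1 ≤ i → i ≤ n → x0 + i ≠ 0 ∧ |2 * (x0 + i)| ≤ D) (h0 : Rd S d 0 (γ 0)) :
    Rd S d 2 (γ n) := by
  rw [gforward x0 γ h n]
  have hy : HI (x0 + n) := hx0.add_nat n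
  have hcond : ∀ i < n, x0 + n - (i : ℚ) ≠ 0 ∧ |2 * (x0 + n - (i : ℚ))| ≤ D := by
    intro i hi
    have := hx (n - i) (by omega) (by omega)
    rw [Nat.cast_sub hi.le] at this
    rw [add_sub_assoc]
    exact this
  have h4 : (1 / 4 : ℚ) ^ n ∈ S := by
    have : (1 / 4 : ℚ) = (1 / 2) ^ 2 := by norm_num
    rw [this]
    exact S.pow_mem (S.pow_mem hS _) _
  refine Rd.C_mul _ h4 ?_
  have := ((Rd_e hS hd hD hy n hn hcond).pow hd 2).mul h0
  simpa using this

theorem Rd_gbackward (hS : (1 / 2 : ℚ) ∈ S) (hd : d ∈ S) (hD : DD S d D) (y0 : ℚ) (hy0 : HI y0)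
    (γ : ℕ → PowerSeries ℚ)
    (h : ∀ m : ℕ, γ (m + 1) = (0 - pt (y0 - m) ^ 2 * γ m)
      * (-(PowerSeries.C (1 / 4) * (2 * pt (y0 - m - 1) + 1) ^ 2))⁻¹) (m : ℕ) (hm : 2 * m ≤ D)
    (hx : ∀ i : ℕ, 1 ≤ i → i ≤ m → y0 + 1 / 2 - i ≠ 0 ∧ |2 * (y0 + 1 / 2 - i)| ≤ D)
    (h0 : Rd S d 0 (γ 0)) :
    Rd S d 2 (γ m) := by
  rw [gbackward y0 γ h m]
  have h4 : (4 : ℚ) ^ m ∈ S := S.pow_mem (by simpa using natCast_mem S 4) _
  refine Rd.C_mul _ h4 ?_
  have := ((Rd_e' hS hd hD hy0 m hm fun i hi => ?_).pow hd 2).mul h0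
  · simpa using this
  · have := hx (i + 1) (by omega) (by omega)
    push_cast at this
    rw [show y0 - 1 / 2 - (i : ℚ) = y0 + 1 / 2 - (i + 1) by ring]
    exact this

theorem Rd_GamZ (hS : (1 / 2 : ℚ) ∈ S) (hd : d ∈ S) (hD : DD S d D) (i : ℤ)
    (hi : |2 * i| ≤ D) : Rd S d 2 (GamZ i : PowerSeries ℚ) := by
  rcases le_or_gt 0 i with h0 | h0
  · obtain ⟨n, rfl⟩ := Int.eq_ofNat_of_zero_le h0
    have hn : 2 * n ≤ D := by
      rw [abs_of_nonneg (by positivity)] at hi; exact_mod_cast hi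
    refine Rd_gforward hS hd hD 0 HI.zero (fun n : ℕ => GamZ (n : ℤ)) (fun n => ?_) n hn
      (fun i h1 h2 => ?_) ?_
    · simp only [GamZ]
      rw [NV.bi_succ]
      simp only [Int.cast_natCast, zero_add]
    · have h3 : (1 : ℚ) ≤ i := by exact_mod_cast h1
      refine ⟨by linarith, ?_⟩
      rw [zero_add, abs_of_nonneg (by positivity)]
      exact_mod_cast (by omega : 2 * i ≤ D)
    · simpa [NV.GamZ_zero] using (Rd.one hd : Rd S d 0 1)
  · obtain ⟨m, rfl⟩ : ∃ m : ℕ, i = -(m : ℤ) := ⟨(-i).toNat, by omega⟩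
    have hm : 2 * m ≤ D := by
      rw [abs_of_nonpos (by omega)] at hi; omega
    refine Rd_gbackward hS hd hD 0 HI.zero (fun m : ℕ => GamZ (-(m : ℤ))) (fun m => ?_) m hm
      (fun i h1 h2 => ?_) ?_
    · simp only [GamZ]
      rw [bi_neg_step]
      have e1 : ((-(m : ℤ) - 1 : ℤ) : ℚ) = 0 - m - 1 := by push_cast; ring
      have e2 : (0 : ℚ) - m - 1 + 1 = 0 - m := by ring
      simp only [e1, e2]
    · have h3 : (1 : ℚ) ≤ i := by exact_mod_cast h1
      refine ⟨by intro h; linarith, ?_⟩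
      rw [abs_of_nonpos (by linarith)]
      have : (i : ℚ) ≤ m := by exact_mod_cast h2
      have h4 : (2 * m : ℚ) ≤ D := by exact_mod_cast hm
      linarith
    · simpa [NV.GamZ_zero] using (Rd.one hd : Rd S d 0 1)

lemma GamH0_zero : (GamH0 0 : PowerSeries ℚ) = 1 := rfl

theorem Rd_GamH0 (hS : (1 / 2 : ℚ) ∈ S) (hd : d ∈ S) (hD : DD S d D) (i : ℤ)
    (hi : |2 * i| ≤ D) : Rd S d 2 (GamH0 i : PowerSeries ℚ) := by
  rcases le_or_gt 0 i with h0 | h0
  · obtain ⟨n, rfl⟩ := Int.eq_ofNat_of_zero_le h0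
    have hn : 2 * n ≤ D := by
      rw [abs_of_nonneg (by positivity)] at hi; exact_mod_cast hi
    refine Rd_gforward hS hd hD (-1 / 2) HI_neg_half (fun n : ℕ => GamH0 (n : ℤ)) (fun n => ?_) n hn
      (fun i h1 h2 => ?_) ?_
    · simp only [GamH0]
      rw [NV.bi_succ]
      have e1 : ((n : ℤ) : ℚ) - 1 / 2 = -1 / 2 + n := by push_cast; ring
      simp only [e1]
    · have h3 : (1 : ℚ) ≤ i := by exact_mod_cast h1
      refine ⟨by linarith, ?_⟩
      rw [abs_of_nonneg (by linarith)]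
      have : (i : ℚ) ≤ n := by exact_mod_cast h2
      have h4 : (2 * n : ℚ) ≤ D := by exact_mod_cast hn
      linarith
    · simpa [GamH0_zero] using (Rd.one hd : Rd S d 0 1)
  · obtain ⟨m, rfl⟩ : ∃ m : ℕ, i = -(m : ℤ) := ⟨(-i).toNat, by omega⟩
    have hm : 2 * m ≤ D := by
      rw [abs_of_nonpos (by omega)] at hi; omega
    refine Rd_gbackward hS hd hD (-1 / 2) HI_neg_half (fun m : ℕ => GamH0 (-(m : ℤ))) (fun m => ?_) m hm
      (fun i h1 h2 => ?_) ?_
    · simp only [GamH0]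
      rw [bi_neg_step]
      have e1 : ((-(m : ℤ) - 1 : ℤ) : ℚ) - 1 / 2 = -1 / 2 - m - 1 := by push_cast; ring
      have e2 : (-1 / 2 : ℚ) - m - 1 + 1 = -1 / 2 - m := by ring
      simp only [e1, e2]
    · have h3 : (1 : ℚ) ≤ i := by exact_mod_cast h1
      have e3 : (-1 / 2 : ℚ) + 1 / 2 - i = -i := by ring
      rw [e3]
      refine ⟨by intro h; linarith, ?_⟩
      rw [abs_of_nonpos (by linarith)]
      have : (i : ℚ) ≤ m := by exact_mod_cast h2
      have h4 : (2 * m : ℚ) ≤ D := by exact_mod_cast hm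
      linarith
    · simpa [GamH0_zero] using (Rd.one hd : Rd S d 0 1)

end chains

/-! ### the `p`-adic form -/

section padic

variable (p : ℕ) [hp : Fact p.Prime]

/-- `ℤ_(p)` as a subring of `ℚ` -/
def Zp : Subring ℚ where
  carrier := {x | padicNorm p x ≤ 1}
  mul_mem' := by
    intro a b ha hb
    have h : padicNorm p (a * b) = padicNorm p a * padicNorm p b := padicNorm.mul a b
    show padicNorm p (a * b) ≤ 1
    rw [h]
    exact mul_le_one₀ ha (padicNorm.nonneg b) hb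
  one_mem' := by show padicNorm p 1 ≤ 1; rw [padicNorm.one]
  add_mem' := by
    intro a b ha hb
    exact padicNorm.nonarchimedean.trans (max_le ha hb)
  zero_mem' := by show padicNorm p 0 ≤ 1; rw [padicNorm.zero]; norm_num
  neg_mem' := by
    intro a ha
    show padicNorm p (-a) ≤ 1
    rw [padicNorm.neg]; exact ha

variable {p}

lemma mem_Zp {x : ℚ} : x ∈ Zp p ↔ padicNorm p x ≤ 1 := Iff.rfl

lemma half_mem_Zp (h2 : p ≠ 2) : (1 / 2 : ℚ) ∈ Zp p := by
  rw [mem_Zp]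
  have h2' : padicNorm p (2 : ℚ) = 1 := by
    have : ¬ (p ∣ 2) := by
      intro hd
      have := (Nat.prime_dvd_prime_iff_eq hp.out Nat.prime_two).mp hd
      exact h2 this
    have := (padicNorm.nat_eq_one_iff (p := p) 2).mpr this
    simpa using this
  have h3 : padicNorm p (1 / 2 : ℚ) = padicNorm p 1 / padicNorm p 2 := padicNorm.div 1 2
  rw [h3, h2', padicNorm.one]; norm_num

/-- `p ^ log_p D` -/
def dp (p D : ℕ) : ℚ := (p : ℚ) ^ Nat.log p D

lemma norm_dp (D : ℕ) : padicNorm p (dp p D) = (p : ℚ) ^ (-(Nat.log p D : ℤ)) := by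
  have hp0 : (p : ℚ) ≠ 0 := by exact_mod_cast hp.out.ne_zero
  have h1 : dp p D ≠ 0 := pow_ne_zero _ hp0
  have h2 : padicValRat p (dp p D) = Nat.log p D := by
    have : dp p D = ((p ^ Nat.log p D : ℕ) : ℚ) := by simp [dp]
    rw [this, padicValRat.of_nat, padicValNat.prime_pow]
  rw [padicNorm.eq_zpow_of_nonzero h1, h2]

lemma dp_mem (D : ℕ) : dp p D ∈ Zp p := by
  rw [mem_Zp, norm_dp]
  have hp1 : (1 : ℚ) ≤ p := by exact_mod_cast hp.out.one_lt.le
  exact zpow_le_one_of_nonpos₀ hp1 (by simp)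

lemma DD_dp (D : ℕ) : DD (Zp p) (dp p D) D := by
  intro z hz hzD
  rw [mem_Zp, padicNorm.mul, norm_dp]
  have hz' : (z : ℚ) ≠ 0 := by exact_mod_cast hz
  have hp0 : (0 : ℚ) < p := by exact_mod_cast hp.out.pos
  have hp1 : (1 : ℚ) ≤ p := by exact_mod_cast hp.out.one_lt.le
  rw [padicNorm.eq_zpow_of_nonzero (inv_ne_zero hz'), padicValRat.inv, neg_neg, ← zpow_add₀ hp0.ne']
  apply zpow_le_one_of_nonpos₀ hp1
  rw [padicValRat.of_int]
  have h1 : padicValInt p z ≤ Nat.log p z.natAbs := by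
    unfold padicValInt
    exact padicValNat_le_nat_log _
  have h2 : z.natAbs ≤ D := by
    have := Int.natCast_natAbs z
    omega
  have h3 : Nat.log p z.natAbs ≤ Nat.log p D := Nat.log_mono_right h2
  have h4 : (padicValInt p z : ℤ) ≤ Nat.log p D := by exact_mod_cast h1.trans h3
  linarith

lemma Rd.norm_le {D w : ℕ} {f : PowerSeries ℚ} (h : Rd (Zp p) (dp p D) w f) (k : ℕ) :
    padicNorm p (coeff k f) ≤ (p : ℚ) ^ ((k + w) * Nat.log p D) := by
  have h1 := mem_Zp.mp (h k)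
  have hp0 : (0 : ℚ) < p := by exact_mod_cast hp.out.pos
  have h2 : padicNorm p (dp p D ^ (k + w)) = ((p : ℚ) ^ ((k + w) * Nat.log p D))⁻¹ := by
    have : ∀ n : ℕ, padicNorm p (dp p D ^ n) = ((p : ℚ) ^ (n * Nat.log p D))⁻¹ := by
      intro n
      induction n with
      | zero => simp
      | succ n ih =>
        rw [pow_succ, padicNorm.mul, ih, norm_dp, Nat.succ_mul, pow_add, mul_inv, zpow_neg,
          zpow_natCast]
    exact this _
  rw [padicNorm.mul, h2, inv_mul_le_iff₀ (by positivity), mul_one] at h1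
  exact h1

variable (h2 : p ≠ 2)
include h2

theorem norm_PsiZ {D : ℕ} (c : ℚ) (hc : padicNorm p c ≤ 1) (i : ℤ) (hi : |2 * i| ≤ D) (k : ℕ) :
    padicNorm p (coeff k (PsiZ c i)) ≤ (p : ℚ) ^ ((k + 3) * Nat.log p D) :=
  (Rd_PsiZ (half_mem_Zp h2) (dp_mem D) (DD_dp D) c hc i hi).norm_le k

theorem norm_PsiH0 {D : ℕ} (i : ℤ) (hi : |2 * i| ≤ D) (k : ℕ) :
    padicNorm p (coeff k (PsiH0 i : PowerSeries ℚ)) ≤ (p : ℚ) ^ ((k + 3) * Nat.log p D) :=
  (Rd_PsiH0 (half_mem_Zp h2) (dp_mem D) (DD_dp D) i hi).norm_le k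

theorem norm_GamZ {D : ℕ} (i : ℤ) (hi : |2 * i| ≤ D) (k : ℕ) :
    padicNorm p (coeff k (GamZ i : PowerSeries ℚ)) ≤ (p : ℚ) ^ ((k + 2) * Nat.log p D) :=
  (Rd_GamZ (half_mem_Zp h2) (dp_mem D) (DD_dp D) i hi).norm_le k

theorem norm_GamH0 {D : ℕ} (i : ℤ) (hi : |2 * i| ≤ D) (k : ℕ) :
    padicNorm p (coeff k (GamH0 i : PowerSeries ℚ)) ≤ (p : ℚ) ^ ((k + 2) * Nat.log p D) :=
  (Rd_GamH0 (half_mem_Zp h2) (dp_mem D) (DD_dp D) i hi).norm_le k

theorem norm_Cb {D : ℕ} {x : ℚ} (hx : HI x) (l : ℕ) (hl : 2 * l ≤ D) (k : ℕ) :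
    padicNorm p (coeff k (Cb x l)) ≤ (p : ℚ) ^ (k * Nat.log p D) := by
  have := (Rd_Cb (half_mem_Zp h2) (dp_mem D) (DD_dp D) hx l hl l le_rfl).norm_le k
  simpa using this

omit h2 hp

lemma gm_descPochhammer (x : ℚ) (l : ℕ) : NV.gm x (descPochhammer ℚ l) = PP x l := by
  induction l with
  | zero => rw [descPochhammer_zero, PP_zero, NV.gm_one]
  | succ l ih =>
    rw [descPochhammer_succ_right, NV.gm_mul, ih, PP_succ, NV.gm_sub, NV.gm_X]
    congr 1
    have : ((l : ℕ) : Polynomial ℚ) = Polynomial.C (l : ℚ) := (map_natCast Polynomial.C l).symm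
    rw [this, NV.gm_C, pt_eq, pt_eq, map_sub]
    ring

lemma coeff_taylor_cP (x : ℚ) (l a : ℕ) :
    (Polynomial.taylor x (P57.cP ℚ l)).coeff a = coeff a (Cb x l) := by
  have h : NV.gm x (P57.cP ℚ l) = Cb x l := by
    rw [P57.cP, NV.gm_mul, NV.gm_C, gm_descPochhammer, Cb]
  rw [← h, NV.gm, Polynomial.coeff_coe]

include hp h2

theorem norm_cP {D : ℕ} {x : ℚ} (hx : HI x) (l : ℕ) (hl : 2 * l ≤ D) (a : ℕ) :
    padicNorm p ((Polynomial.taylor x (P57.cP ℚ l)).coeff a) ≤ (p : ℚ) ^ (a * Nat.log p D) := by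
  rw [coeff_taylor_cP]; exact norm_Cb h2 hx l hl a

/-! ### `PB` forms -/

omit h2 in
lemma PB_of_norm {a : ℚ} {n : ℕ} {e : ℤ} (h : padicNorm p a ≤ (p : ℚ) ^ n) (he : (n : ℤ) ≤ e) :
    PB p (-e) (Polynomial.C a) := by
  apply ProdBound481.PB.C
  rw [neg_neg]
  have hp1 : (1 : ℚ) ≤ p := by exact_mod_cast hp.out.one_lt.le
  refine h.trans ?_
  rw [← zpow_natCast]
  exact zpow_le_zpow_right₀ hp1 he

theorem PB_cP {D : ℕ} {x : ℚ} (hx : HI x) (l : ℕ) (hl : 2 * l ≤ D) (a : ℕ) {e : ℤ}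
    (he : ((a * Nat.log p D : ℕ) : ℤ) ≤ e) :
    PB p (-e) (Polynomial.C ((Polynomial.taylor x (P57.cP ℚ l)).coeff a)) :=
  PB_of_norm (norm_cP h2 hx l hl a) he

theorem PB_PsiZ {D : ℕ} (c : ℚ) (hc : padicNorm p c ≤ 1) (i : ℤ) (hi : |2 * i| ≤ D) (k : ℕ) {e : ℤ}
    (he : (((k + 3) * Nat.log p D : ℕ) : ℤ) ≤ e) : PB p (-e) (Polynomial.C (coeff k (PsiZ c i))) :=
  PB_of_norm (norm_PsiZ h2 c hc i hi k) he

theorem PB_PsiH0 {D : ℕ} (i : ℤ) (hi : |2 * i| ≤ D) (k : ℕ) {e : ℤ}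
    (he : (((k + 3) * Nat.log p D : ℕ) : ℤ) ≤ e) :
    PB p (-e) (Polynomial.C (coeff k (PsiH0 i : PowerSeries ℚ))) :=
  PB_of_norm (norm_PsiH0 h2 i hi k) he

theorem PB_GamZ {D : ℕ} (i : ℤ) (hi : |2 * i| ≤ D) (k : ℕ) {e : ℤ}
    (he : (((k + 2) * Nat.log p D : ℕ) : ℤ) ≤ e) :
    PB p (-e) (Polynomial.C (coeff k (GamZ i : PowerSeries ℚ))) :=
  PB_of_norm (norm_GamZ h2 i hi k) he

theorem PB_GamH0 {D : ℕ} (i : ℤ) (hi : |2 * i| ≤ D) (k : ℕ) {e : ℤ}
    (he : (((k + 2) * Nat.log p D : ℕ) : ℤ) ≤ e) :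
    PB p (-e) (Polynomial.C (coeff k (GamH0 i : PowerSeries ℚ))) :=
  PB_of_norm (norm_GamH0 h2 i hi k) he

end padic

end Crest.Agent.R006.Germ939
end

-- ▼ part R006/P57_Main_241
section

/-!
Row 6, blocks P5 and P7, final form for the frozen definitions (helper241).
-/

set_option autoImplicit false

namespace Crest.Agent.R006.P57M

open Polynomial Finset Crest.Agent.R006.ProdBound481 Crest.Agent.R006.PsiInf
  Crest.Agent.R006.P57 Crest.Agent.R006.NV

section Hom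

variable {K : Type*} [Field K]

lemma bi_sub (a b c : ℤ → PowerSeries K) (x y : PowerSeries K) (i : ℤ) :
    bi a b c x i - bi a b c y i = bi a b (fun _ => 0) (x - y) i := by
  cases i with
  | ofNat n =>
    induction n with
    | zero => rfl
    | succ n ih =>
      have h := fun (c : ℤ → PowerSeries K) (x : PowerSeries K) => bi_succ a b c x n
      have e : Int.ofNat (n + 1) = ((n + 1 : ℕ) : ℤ) := rfl
      have e' : Int.ofNat n = (n : ℤ) := rfl
      rw [e, h, h, h]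
      rw [e'] at ih
      rw [← ih]; ring
  | negSucc n =>
    induction n with
    | zero =>
      have e : (Int.negSucc 0 : ℤ) = -1 := rfl
      rw [e, bi_negOne, bi_negOne, bi_negOne]; ring
    | succ n ih =>
      rw [bi_negSucc, bi_negSucc, bi_negSucc, ← ih]; ring

lemma HomZ_eq (i : ℤ) : D.HomZ i = PsiZ 1 i - PsiZ 0 i := by
  rw [PsiZ, PsiZ, bi_sub, D.HomZ]
  congr 1
  simp

end Hom

section Site

/-- size of a site -/
def sAbs : D.Site → ℕ
  | .Z i => i.natAbs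
  | .H i => i.natAbs

variable {p : ℕ} [hp : Fact p.Prime]

theorem siteB (hp2 : p ≠ 2) (N : ℕ) (z : D.Site) (hz : sAbs z ≤ N) :
    SiteB p N (5 * Nat.log p (2 * N + 2) : ℕ) z := by
  have hle : ∀ a ≤ 2, (((a + 3) * Nat.log p (2 * N + 2) : ℕ) : ℤ) ≤
      ((5 * Nat.log p (2 * N + 2) : ℕ) : ℤ) := by
    intro a ha
    exact_mod_cast Nat.mul_le_mul_right _ (by omega)
  have hle2 : ∀ a ≤ 2, (((a + 2) * Nat.log p (2 * N + 2) : ℕ) : ℤ) ≤
      ((5 * Nat.log p (2 * N + 2) : ℕ) : ℤ) := by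
    intro a ha
    exact_mod_cast Nat.mul_le_mul_right _ (by omega)
  have hle0 : ∀ a ≤ 2, ((a * Nat.log p (2 * N + 2) : ℕ) : ℤ) ≤
      ((5 * Nat.log p (2 * N + 2) : ℕ) : ℤ) := by
    intro a ha
    exact_mod_cast Nat.mul_le_mul_right _ (by omega)
  have h0 : padicNorm p (0 : ℚ) ≤ 1 := by rw [padicNorm.zero]; norm_num
  have h1 : padicNorm p (1 : ℚ) ≤ 1 := by rw [padicNorm.one]
  rcases z with i | i
  · have hi : |2 * i| ≤ ((2 * N + 2 : ℕ) : ℤ) := by
      simp only [sAbs] at hz; rw [abs_le]; constructor <;> omega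
    have hH : Germ939.HI (D.Site.Z i).val := ⟨2 * i, by simp [D.Site.val]⟩
    constructor
    · intro l hl a ha
      exact Germ939.PB_cP hp2 hH l (by omega) a (hle0 a ha)
    · intro a ha
      exact Germ939.PB_PsiZ hp2 0 h0 i hi a (hle a ha)
    · intro a ha
      have e : PowerSeries.coeff a (D.psi1 (.Z i)) =
          PowerSeries.coeff a (PsiZ 1 i) - PowerSeries.coeff a (PsiZ 0 i) := by
        rw [D.psi1, HomZ_eq, map_sub]
      rw [e, C_sub]
      exact (Germ939.PB_PsiZ hp2 1 h1 i hi a (hle a ha)).sub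
        (Germ939.PB_PsiZ hp2 0 h0 i hi a (hle a ha))
    · intro a ha
      exact Germ939.PB_GamZ hp2 i hi a (hle2 a ha)
  · have hi : |2 * (i + 1)| ≤ ((2 * N + 2 : ℕ) : ℤ) := by
      simp only [sAbs] at hz; rw [abs_le]; constructor <;> omega
    have hH : Germ939.HI (D.Site.H i).val := ⟨2 * i + 1, by simp [D.Site.val]; ring⟩
    constructor
    · intro l hl a ha
      exact Germ939.PB_cP hp2 hH l (by omega) a (hle0 a ha)
    · intro a ha
      exact Germ939.PB_PsiH0 hp2 (i + 1) hi a (hle a ha)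
    · intro a ha
      rw [D.psi1, map_zero, C_0]
      exact PB.zero _
    · intro a ha
      exact Germ939.PB_GamH0 hp2 (i + 1) hi a (hle2 a ha)

end Site

section Lam

variable {p : ℕ} [hp : Fact p.Prime]

/-- what is used of the size of the moment functional -/
def LamB (p : ℕ) : Prop := ∀ d s : ℕ, padicNorm p (lin mu ((cP ℚ d).comp (X - C (s : ℚ)))) ≤
  (p : ℚ) ^ (2 * Nat.log p (d + 1)) * ((padicNorm p 9)⁻¹) ^ d

/-- `2` for `p = 3`, `0` for `p ≥ 5` -/
def wt (p : ℕ) : ℤ := if p = 3 then 2 else 0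

lemma wt_nonneg (p : ℕ) : 0 ≤ wt p := by unfold wt; split_ifs <;> norm_num

lemma norm_nine_inv : (padicNorm p 9)⁻¹ = (p : ℚ) ^ (wt p) := by
  unfold wt
  split_ifs with h
  · subst h
    have : padicNorm 3 (9 : ℚ) = (3 : ℚ)⁻¹ * (3 : ℚ)⁻¹ := by
      have h3 : padicNorm 3 (3 : ℚ) = (3 : ℚ)⁻¹ := by
        have := padicNorm.padicNorm_p_of_prime (p := 3)
        exact_mod_cast this
      have h9 : (9 : ℚ) = 3 * 3 := by norm_num
      rw [h9, padicNorm.mul, h3]
    rw [this]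
    norm_num
  · have h9 : padicNorm p (9 : ℚ) = 1 := by
      have : ¬ p ∣ 9 := by
        intro hd
        have h3 : p ∣ 3 ^ 2 := by norm_num; exact hd
        have := hp.out.dvd_of_dvd_pow h3
        exact h ((Nat.prime_dvd_prime_iff_eq hp.out Nat.prime_three).mp this)
      exact_mod_cast (padicNorm.nat_eq_one_iff 9).mpr this
    rw [h9]; simp

theorem ht_of_LamB (hL : LamB p) (N : ℕ) (j i : ℕ) (hj : j ≤ N) (hi : i < j) :
    PB p (-(wt p * ((j : ℤ) - i)) - (5 * Nat.log p (2 * N + 2) : ℕ))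
      (C (tC mu j i) : ℚ[X]) := by
  have hp0 : (p : ℚ) ≠ 0 := by exact_mod_cast hp.out.ne_zero
  have key := PB_tC (p := p) mu (N + 1) (wt p) (2 * Nat.log p (N + 1) : ℕ) (wt_nonneg p)
    (fun d s hd _ => by
      apply PB.C
      refine (hL d s).trans ?_
      rw [norm_nine_inv, ← zpow_natCast ((p : ℚ) ^ wt p) d, ← zpow_mul, ← zpow_natCast,
        ← zpow_add₀ hp0]
      apply zpow_le_zpow_right₀ (by exact_mod_cast hp.out.one_lt.le)
      have h1 : Nat.log p (d + 1) ≤ Nat.log p (N + 1) := Nat.log_mono_right (by omega)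
      have h2 : ((2 * Nat.log p (d + 1) : ℕ) : ℤ) ≤ ((2 * Nat.log p (N + 1) : ℕ) : ℤ) := by
        exact_mod_cast Nat.mul_le_mul_left 2 h1
      linarith) j i (by omega) hi
  refine key.mono ?_
  have h1 : Nat.log p (N + 1) ≤ Nat.log p (2 * N + 2) := Nat.log_mono_right (by omega)
  have h2 : ((2 * Nat.log p (N + 1) : ℕ) : ℤ) + 2 * (Nat.log p (N + 1) : ℕ) ≤
      ((5 * Nat.log p (2 * N + 2) : ℕ) : ℤ) := by
    push_cast
    have : ((Nat.log p (N + 1) : ℕ) : ℤ) ≤ (Nat.log p (2 * N + 2) : ℕ) := by exact_mod_cast h1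
    have h0 : (0 : ℤ) ≤ (Nat.log p (2 * N + 2) : ℕ) := Int.natCast_nonneg _
    linarith
  linarith

end Lam

section Rows

/-- a bound for all sites and degrees -/
def NN (S : D.Shape) (u c : ℕ) : ℕ :=
  (S.B + S.e1 + S.e2 + S.e3 + S.h1 + S.h2 + S.h3 + S.w + S.a1 + S.a2 + S.i1 + S.r1 + S.k + S.q
    + S.g) * u + c

lemma row_bound (S : D.Shape) (u c : ℕ) (ρ : D.Row) (h : D.IsRow S u c ρ) :
    ρ.2 ≤ 2 ∧ sAbs ρ.1 ≤ NN S u c := by
  obtain ⟨z, j⟩ := ρ
  have hN : ∀ x : ℕ, x ≤ (S.B + S.e1 + S.e2 + S.e3 + S.h1 + S.h2 + S.h3 + S.w) * u + c →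
      x ≤ NN S u c := by
    intro x hx
    refine hx.trans ?_
    unfold NN
    refine Nat.add_le_add_right (Nat.mul_le_mul_right _ (by omega)) _
  have e : (S.B + S.e1 + S.e2 + S.e3 + S.h1 + S.h2 + S.h3 + S.w) * u =
    S.B * u + S.e1 * u + S.e2 * u + S.e3 * u + S.h1 * u + S.h2 * u + S.h3 * u + S.w * u := by ring
  rw [e] at hN
  unfold D.IsRow at h
  rcases z with i | i
  · simp only [D.Shape.mult, ← Nat.cast_mul] at h
    simp only [sAbs]
    generalize S.B * u = x1 at *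
    generalize S.e1 * u = x2 at *
    generalize S.e2 * u = x3 at *
    generalize S.e3 * u = x4 at *
    constructor
    · split_ifs at h <;> omega
    · apply hN
      split_ifs at h <;> omega
  · simp only [D.Shape.mult, ← Nat.cast_mul] at h
    simp only [sAbs]
    generalize S.h1 * u = x1 at *
    generalize S.h2 * u = x2 at *
    generalize S.h3 * u = x3 at *
    generalize S.w * u = x4 at *
    constructor
    · split_ifs at h <;> omega
    · apply hN
      split_ifs at h <;> omega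

end Rows

section Final

variable {p : ℕ} [hp : Fact p.Prime]

/-- degree bound of the `R`-space minus number of `T`-columns, per unit -/
def DD (S : D.Shape) : ℤ := (S.a1 + S.a2 + S.i1 + S.r1 + S.k : ℕ) - (S.q : ℤ)

/-- the loss at an odd prime -/
def lossZ (p : ℕ) (S : D.Shape) (u c : ℕ) : ℤ :=
  wt p * (DD S * u) ^ 2 / 4 + 1 + wt p * (DD S * u) +
    8 * (5 * Nat.log p (2 * NN S u c + 2) : ℕ) * NN S u c

theorem PB_final (hp2 : p ≠ 2) (hL : LamB p) (S : D.Shape) (u c : ℕ)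
    (hq : S.q ≤ S.a1 + S.a2 + S.i1 + S.r1 + S.k) (r : D.Col S u → D.Row)
    (hr : D.Adm S u c r) : PB p (-lossZ p S u c) (D.Minor S u r) := by
  have hqk : S.q * u ≤ (S.a1 + S.a2 + S.i1 + S.r1) * u + S.k * u := by
    rw [← Nat.add_mul]; exact Nat.mul_le_mul_right _ hq
  have hNN : NN S u c = S.B * u + S.e1 * u + S.e2 * u + S.e3 * u + S.h1 * u + S.h2 * u + S.h3 * u
      + S.w * u + (S.a1 + S.a2 + S.i1 + S.r1) * u + S.k * u + S.q * u + S.g * u + c := by
    unfold NN; ring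
  refine PB_minor hp2 S u r (wt p) (5 * Nat.log p (2 * NN S u c + 2) : ℕ) (wt_nonneg p)
    (Int.natCast_nonneg _) (NN S u c) hqk (by rw [hNN]; omega) (by rw [hNN]; omega)
    (fun i => (row_bound S u c _ (hr.2 i)).1)
    (fun i => siteB hp2 _ _ (row_bound S u c _ (hr.2 i)).2)
    (fun j i hj hi => ht_of_LamB hL _ j i hj hi) _ ?_
  have hD : (((S.a1 + S.a2 + S.i1 + S.r1) * u + S.k * u : ℕ) : ℤ) - ((S.q * u : ℕ) : ℤ) =
      DD S * u := by
    unfold DD; push_cast; ring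
  rw [hD]
  have hN : ((S.k * u : ℕ) : ℤ) + (S.q * u + S.g * u : ℕ) + DD S * u ≤ 4 * NN S u c := by
    have h1 : DD S * u ≤ ((S.a1 + S.a2 + S.i1 + S.r1) * u + S.k * u : ℕ) := by
      rw [← hD]
      have : (0 : ℤ) ≤ ((S.q * u : ℕ) : ℤ) := Int.natCast_nonneg _
      linarith
    have h2 : ((S.k * u + (S.q * u + S.g * u) + ((S.a1 + S.a2 + S.i1 + S.r1) * u + S.k * u) : ℕ)
        : ℤ) ≤ ((4 * NN S u c : ℕ) : ℤ) := by
      exact_mod_cast (by rw [hNN]; omega)
    push_cast at h1 h2 ⊢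
    linarith
  have he : (0 : ℤ) ≤ ((5 * Nat.log p (2 * NN S u c + 2) : ℕ) : ℤ) := Int.natCast_nonneg _
  have h3 := mul_le_mul_of_nonneg_left hN he
  have hdiv : wt p * (DD S * u) ^ 2 ≤ 4 * (wt p * (DD S * u) ^ 2 / 4 + 1) := by
    have := Int.emod_add_mul_ediv (wt p * (DD S * u) ^ 2) 4
    have h4 := Int.emod_lt_of_pos (wt p * (DD S * u) ^ 2) (show (0 : ℤ) < 4 by norm_num)
    linarith
  unfold lossZ
  generalize wt p * (DD S * u) ^ 2 / 4 = y at *
  nlinarith

theorem Loss_of_PB {P : ℚ[X]} {E : ℤ} {E' : ℝ} (h : PB p (-E) P) (hE : (E : ℝ) ≤ E') :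
    D.Loss p P E' := by
  intro i hi
  have h1 := h.le_padicValRat i hi
  have h2 : ((-E : ℤ) : ℝ) ≤ ((padicValRat p (P.coeff i) : ℤ) : ℝ) := by exact_mod_cast h1
  push_cast at h2
  linarith

end Final

section Asym

/-- slope and constant of `NN` -/
def A1 (S : D.Shape) (c : ℕ) : ℕ := 2 * NN S 1 c + 2

lemma NN_le (S : D.Shape) (u c : ℕ) (hu : 1 ≤ u) : NN S u c ≤ A1 S c * u ∧
    2 * NN S u c + 2 ≤ A1 S c * u := by
  unfold A1 NN
  generalize (S.B + S.e1 + S.e2 + S.e3 + S.h1 + S.h2 + S.h3 + S.w + S.a1 + S.a2 + S.i1 + S.r1 +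
    S.k + S.q + S.g) = x
  have h1 : c ≤ c * u := Nat.le_mul_of_pos_right _ hu
  have h2 : 2 ≤ 2 * u := by omega
  constructor
  · nlinarith
  · nlinarith

lemma log_mul_le (p a u : ℕ) (hp : 1 < p) (ha : a ≠ 0) (hu : u ≠ 0) :
    Nat.log p (a * u) ≤ (a + 1) * (1 + Nat.log p u) := by
  have h1 : a * u < p ^ (Nat.log p a + 1 + (Nat.log p u + 1)) := by
    rw [pow_add]
    exact Nat.mul_lt_mul'' (Nat.lt_pow_succ_log_self hp a) (Nat.lt_pow_succ_log_self hp u)
  have h2 : Nat.log p (a * u) < Nat.log p a + 1 + (Nat.log p u + 1) :=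
    Nat.log_lt_of_lt_pow (mul_ne_zero ha hu) h1
  have h3 : Nat.log p a ≤ a := (Nat.log_lt_self p ha).le
  have h4 : (a + 1) * (1 + Nat.log p u) = a + 1 + Nat.log p u + a * Nat.log p u := by ring
  rw [h4]
  have := Nat.zero_le (a * Nat.log p u)
  omega

/-- explicit constant of the crude bound -/
def KK (S : D.Shape) (c : ℕ) : ℕ := 40 * (A1 S c + 1) * A1 S c + 1

theorem crude_loss (p : ℕ) (hp : 1 < p) (S : D.Shape) (u c : ℕ) (hu : 1 ≤ u) :
    (1 : ℤ) + 8 * (5 * Nat.log p (2 * NN S u c + 2) : ℕ) * NN S u c ≤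
      KK S c * u * (1 + Nat.log p u) := by
  obtain ⟨h1, h2⟩ := NN_le S u c hu
  have hA : A1 S c ≠ 0 := by unfold A1; omega
  have h3 : Nat.log p (2 * NN S u c + 2) ≤ (A1 S c + 1) * (1 + Nat.log p u) :=
    (Nat.log_mono_right h2).trans (log_mul_le p _ u hp hA (by omega))
  have h4 : 1 + 8 * (5 * Nat.log p (2 * NN S u c + 2)) * NN S u c ≤
      KK S c * u * (1 + Nat.log p u) := by
    have h5 : 8 * (5 * Nat.log p (2 * NN S u c + 2)) * NN S u c ≤
        8 * (5 * ((A1 S c + 1) * (1 + Nat.log p u))) * (A1 S c * u) :=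
      Nat.mul_le_mul (Nat.mul_le_mul_left _ (Nat.mul_le_mul_left _ h3)) h1
    have h6 : 1 ≤ u * (1 + Nat.log p u) := Nat.mul_pos (by omega) (by omega)
    calc _ ≤ u * (1 + Nat.log p u) + 8 * (5 * ((A1 S c + 1) * (1 + Nat.log p u))) * (A1 S c * u) :=
          Nat.add_le_add h6 h5
      _ = KK S c * u * (1 + Nat.log p u) := by unfold KK; ring
  exact_mod_cast h4

/-- **P5**: the crude bound for all primes `p ≥ 5` -/
theorem crude (hL : ∀ p : ℕ, p.Prime → 5 ≤ p → LamB p) (S : D.Shape) (c : ℕ)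
    (hq : S.q ≤ S.a1 + S.a2 + S.i1 + S.r1 + S.k) : D.Crude S c (KK S c) := by
  unfold D.Crude
  filter_upwards [Filter.eventually_ge_atTop 1] with u hu r hr p hp h5
  have : Fact p.Prime := ⟨hp⟩
  refine Loss_of_PB (PB_final (by omega) (hL p hp h5) S u c hq r hr) ?_
  have h1 := crude_loss p hp.one_lt S u c hu
  have hw : wt p = 0 := by unfold wt; rw [if_neg (by omega)]
  have h2 : lossZ p S u c = 1 + 8 * (5 * Nat.log p (2 * NN S u c + 2) : ℕ) * NN S u c := by
    unfold lossZ; rw [hw]; simp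
  rw [h2]
  exact_mod_cast h1

lemma log_small (C δ : ℝ) (hδ : 0 < δ) :
    ∀ᶠ u : ℕ in Filter.atTop, C * u * (1 + Nat.log 3 u) ≤ δ * (u : ℝ) ^ 2 := by
  have h1 : (fun x : ℝ => 1 + Real.log x) =o[Filter.atTop] (fun x : ℝ => x) :=
    (Asymptotics.isLittleO_const_id_atTop (1 : ℝ)).add Real.isLittleO_log_id_atTop
  have h2 := (h1.comp_tendsto tendsto_natCast_atTop_atTop).def
    (show (0 : ℝ) < δ / (|C| + 1) by positivity)
  filter_upwards [h2, Filter.eventually_ge_atTop 1] with u hu hu1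
  simp only [Function.comp, Real.norm_eq_abs] at hu
  have hu' : (1 : ℝ) ≤ u := by exact_mod_cast hu1
  have hlog : 0 ≤ Real.log u := Real.log_nonneg hu'
  rw [abs_of_nonneg (by linarith), abs_of_nonneg (by linarith : (0 : ℝ) ≤ u)] at hu
  have h3 : (Nat.log 3 u : ℝ) ≤ Real.log u := by
    refine (Real.natLog_le_logb u 3).trans ?_
    rw [Real.logb, div_le_iff₀ (Real.log_pos (by norm_num))]
    have : (1 : ℝ) ≤ Real.log (3 : ℕ) := by
      have h := Real.add_one_le_exp (1 : ℝ)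
      rw [Real.le_log_iff_exp_le (by norm_num)]
      have := Real.exp_one_lt_d9
      push_cast
      linarith
    nlinarith
  have hC : (0 : ℝ) < |C| + 1 := by positivity
  have h4 : (|C| + 1) * (1 + Real.log u) ≤ δ * u := by
    have := mul_le_mul_of_nonneg_left hu hC.le
    rw [← mul_assoc, mul_div_cancel₀ _ hC.ne'] at this
    exact this
  calc C * u * (1 + Nat.log 3 u) ≤ (|C| + 1) * u * (1 + Real.log u) := by
        apply mul_le_mul _ (by linarith) (by positivity) (by positivity)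
        apply mul_le_mul_of_nonneg_right _ (by linarith)
        linarith [le_abs_self C]
    _ = u * ((|C| + 1) * (1 + Real.log u)) := by ring
    _ ≤ u * (δ * u) := mul_le_mul_of_nonneg_left h4 (by linarith)
    _ = δ * (u : ℝ) ^ 2 := by ring

/-- **P7**: the prime `3` -/
theorem p7 (hL : LamB 3) (S : D.Shape) (c : ℕ)
    (hq : S.q ≤ S.a1 + S.a2 + S.i1 + S.r1 + S.k) :
    D.AtPrime S c 3 (((S.a1 + S.a2 + S.i1 + S.r1 + S.k : ℕ) - (S.q : ℝ)) ^ 2 / 2) := by
  intro δ hδ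
  have : Fact (Nat.Prime 3) := ⟨Nat.prime_three⟩
  have hDD : (0 : ℤ) ≤ DD S := by unfold DD; omega
  have hs := log_small (KK S c + 2 * (DD S : ℝ)) δ hδ
  filter_upwards [hs, Filter.eventually_ge_atTop 1] with u hu hu1 r hr
  refine Loss_of_PB (PB_final (by norm_num) hL S u c hq r hr) ?_
  have h1 := crude_loss 3 (by norm_num) S u c hu1
  have hw : wt 3 = 2 := by unfold wt; rw [if_pos rfl]
  have h2 : 2 * lossZ 3 S u c ≤ (DD S * u) ^ 2 + 4 * (DD S * u) +
      2 * (KK S c * u * (1 + Nat.log 3 u)) := by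
    unfold lossZ
    rw [hw]
    generalize (DD S * u) ^ 2 = y
    generalize hz : (DD S * (u : ℤ)) = z
    have := Int.mul_ediv_self_le (x := 2 * y) (k := 4) (by norm_num)
    linarith
  have h3 : (2 : ℝ) * lossZ 3 S u c ≤ ((DD S : ℝ) * u) ^ 2 + 4 * ((DD S : ℝ) * u) +
      2 * (KK S c * u * (1 + Nat.log 3 u)) := by exact_mod_cast h2
  have h4 : ((DD S : ℤ) : ℝ) = ((S.a1 + S.a2 + S.i1 + S.r1 + S.k : ℕ) : ℝ) - (S.q : ℝ) := by
    unfold DD; push_cast; ring
  rw [← h4]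
  have hDr : (0 : ℝ) ≤ (DD S : ℝ) := by exact_mod_cast hDD
  have h5 : 2 * ((DD S : ℝ) * u) ≤ 2 * (DD S : ℝ) * u * (1 + Nat.log 3 u) := by
    have : (0 : ℝ) ≤ 2 * (DD S : ℝ) * u * Nat.log 3 u := by positivity
    linarith
  nlinarith

end Asym

end Crest.Agent.R006.P57M
private theorem rz_f5e085a7fb : type_of% @_root_.Crest.Agent.R006.P57M.sAbs.eq_1 := @_root_.Crest.Agent.R006.P57M.sAbs.eq_1 -- L50
end

-- ▼ part R006/LB1_537
section

/-!
Row 6 (Catalan), block P5/P7 input, part 1: the discrete arcsine weights, divided differences of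
polynomials and the telescoping identity.
-/

set_option autoImplicit false

open Polynomial Finset

namespace Crest.Agent.R006.LB537

noncomputable section

/-- `g i = C(2i,i)/4^i`. -/
def g (i : ℕ) : ℚ := (Nat.centralBinom i : ℚ) / 4 ^ i

lemma g_zero : g 0 = 1 := by simp [g]

lemma g_succ (i : ℕ) : ((i : ℚ) + 1) * g (i + 1) = ((i : ℚ) + 1 / 2) * g i := by
  have h := Nat.succ_mul_centralBinom_succ i
  have h' : ((i : ℚ) + 1) * (Nat.centralBinom (i + 1) : ℚ)
      = 2 * (2 * (i : ℚ) + 1) * (Nat.centralBinom i : ℚ) := by exact_mod_cast h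
  unfold g
  rw [pow_succ]
  have h4 : (4 : ℚ) ^ i ≠ 0 := by positivity
  field_simp
  linarith

/-- weights -/
def be (J i : ℕ) : ℚ := g i * g (J - i)

/-- the functional `E_J F = ∑_{i ≤ J} g(i) g(J-i) F(i)` -/
def E (J : ℕ) (F : ℕ → ℚ) : ℚ := ∑ i ∈ range (J + 1), be J i * F i

lemma E_add (J : ℕ) (F G : ℕ → ℚ) : E J (fun i => F i + G i) = E J F + E J G := by
  simp [E, mul_add, sum_add_distrib]


lemma E_mul (J : ℕ) (c : ℚ) (F : ℕ → ℚ) : E J (fun i => c * F i) = c * E J F := by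
  simp only [E, mul_sum]
  exact sum_congr rfl fun i _ => by ring

lemma E_mul' (J : ℕ) (c : ℚ) (F : ℕ → ℚ) : E J (fun i => F i * c) = E J F * c := by
  simp only [E, sum_mul]
  exact sum_congr rfl fun i _ => by ring

lemma E_sum {ι : Type*} (J : ℕ) (s : Finset ι) (F : ι → ℕ → ℚ) :
    E J (fun i => ∑ x ∈ s, F x i) = ∑ x ∈ s, E J (F x) := by
  simp only [E, mul_sum]
  exact sum_comm

lemma be_succ_succ (J i : ℕ) :
    ((i : ℚ) + 1) * be (J + 1) (i + 1) = ((i : ℚ) + 1 / 2) * be J i := by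
  unfold be
  rw [Nat.add_sub_add_right, ← mul_assoc, g_succ, mul_assoc]

lemma be_succ_left (J i : ℕ) (h : i ≤ J) :
    ((J : ℚ) + 1 - i) * be (J + 1) i = ((J : ℚ) - i + 1 / 2) * be J i := by
  unfold be
  obtain ⟨m, rfl⟩ := Nat.exists_eq_add_of_le h
  have e1 : i + m + 1 - i = m + 1 := by omega
  have e2 : i + m - i = m := by omega
  rw [e1, e2]
  have := g_succ m
  push_cast
  linear_combination (g i) * this

/-- shift identity -/
lemma E_shift (J : ℕ) (F : ℕ → ℚ) :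
    E (J + 1) (fun i => (i : ℚ) * F i) = E J (fun i => ((i : ℚ) + 1 / 2) * F (i + 1)) := by
  unfold E
  rw [sum_range_succ']
  simp only [Nat.cast_zero, zero_mul, mul_zero, add_zero]
  refine sum_congr rfl fun i _ => ?_
  have := be_succ_succ J i
  push_cast
  linear_combination (F (i + 1)) * this

lemma E_left (J : ℕ) (F : ℕ → ℚ) :
    E (J + 1) (fun i => ((J : ℚ) + 1 - i) * F i)
      = E J (fun i => ((J : ℚ) - i + 1 / 2) * F i) := by
  unfold E
  rw [sum_range_succ _ (J + 1)]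
  have : be (J + 1) (J + 1) * (((J : ℚ) + 1 - ((J + 1 : ℕ) : ℚ)) * F (J + 1)) = 0 := by
    push_cast; ring
  rw [this, add_zero]
  refine sum_congr rfl fun i hi => ?_
  have hi' : i ≤ J := by have := mem_range.1 hi; omega
  have := be_succ_left J i hi'
  linear_combination (F i) * this

lemma E_rec (J : ℕ) (F : ℕ → ℚ) :
    ((J : ℚ) + 1) * E (J + 1) F
      = E J (fun i => ((i : ℚ) + 1 / 2) * F (i + 1) + ((J : ℚ) - i + 1 / 2) * F i) := by
  rw [E_add, ← E_shift, ← E_left, ← E_add, ← E_mul]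
  congr 1
  funext i
  ring

lemma choose_id1 (n r : ℕ) : (n : ℚ) * (n.choose r : ℚ)
    = ((r : ℚ) + 1) * (n.choose (r + 1) : ℚ) + (r : ℚ) * (n.choose r : ℚ) := by
  rcases le_or_gt r n with h | h
  · have := Nat.choose_succ_right_eq n r
    have h2 : ((n.choose (r + 1) : ℚ)) * ((r : ℚ) + 1) = (n.choose r : ℚ) * ((n : ℚ) - r) := by
      have h3 : ((n - r : ℕ) : ℚ) = (n : ℚ) - r := by push_cast [h]; ring
      rw [← h3]
      exact_mod_cast this
    linarith
  · rw [Nat.choose_eq_zero_of_lt h, Nat.choose_eq_zero_of_lt (by omega)]; simp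

/-- moments of the arcsine weights -/
lemma E_choose (J : ℕ) : ∀ r : ℕ, E J (fun i => (i.choose r : ℚ)) = g r * (J.choose r : ℚ) := by
  induction J with
  | zero =>
    intro r
    simp only [E, be, zero_add, range_one, sum_singleton, Nat.sub_zero, g_zero, one_mul, mul_one]
    rcases r with _ | r
    · simp [g_zero]
    · simp
  | succ J ih =>
    intro r
    have hJ : ((J : ℚ) + 1) ≠ 0 := by positivity
    apply mul_left_cancel₀ hJ
    rw [E_rec]
    rcases r with _ | r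
    · have : (fun i : ℕ => ((i : ℚ) + 1 / 2) * (((i + 1).choose 0 : ℕ) : ℚ)
          + ((J : ℚ) - i + 1 / 2) * ((i.choose 0 : ℕ) : ℚ))
          = fun i : ℕ => ((J : ℚ) + 1) * ((i.choose 0 : ℕ) : ℚ) := by
        funext i; simp; ring
      rw [this, E_mul, ih 0]
      simp
    · have : (fun i : ℕ => ((i : ℚ) + 1 / 2) * (((i + 1).choose (r + 1) : ℕ) : ℚ)
          + ((J : ℚ) - i + 1 / 2) * ((i.choose (r + 1) : ℕ) : ℚ))
          = fun i : ℕ => ((J : ℚ) + 1 + (r + 1)) * ((i.choose (r + 1) : ℕ) : ℚ)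
            + ((r : ℚ) + 1 / 2) * ((i.choose r : ℕ) : ℚ) := by
        funext i
        have h1 := choose_id1 i r
        rw [Nat.choose_succ_succ]
        push_cast
        linarith
      rw [this, E_add, E_mul, E_mul, ih, ih]
      have h2 := g_succ r
      have h3 : (((J + 1).choose (r + 1) : ℕ) : ℚ) = (J.choose r : ℚ) + (J.choose (r + 1) : ℚ) := by
        rw [Nat.choose_succ_succ]; push_cast; ring
      have h4 := choose_id1 J r
      rw [h3]
      linear_combination (-(J.choose r : ℚ)) * h2 - g (r + 1) * h4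

lemma E_one (J : ℕ) : E J (fun _ => 1) = 1 := by
  have := E_choose J 0
  simpa [g_zero] using this

lemma E_const (J : ℕ) (c : ℚ) : E J (fun _ => c) = c := by
  have := E_mul J c (fun _ => 1)
  simpa [E_one] using this

end

end Crest.Agent.R006.LB537
end

-- ▼ part R006/LB2_537
section

/-!
Row 6 (Catalan), block P5/P7 input, part 2: divided differences of polynomials, the triple
functional `T J` and the telescoping identity.
-/

set_option autoImplicit false

open Polynomial Finset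

namespace Crest.Agent.R006.LB537

noncomputable section

/-- `D a f = (f - f(a)) / (X - a)` -/
def D (a : ℚ) (f : ℚ[X]) : ℚ[X] := f /ₘ (X - C a)

lemma D_spec (a : ℚ) (f : ℚ[X]) : (X - C a) * D a f = f - C (f.eval a) := by
  have h := modByMonic_add_div f (X - C a)
  rw [modByMonic_X_sub_C_eq_C_eval] at h
  unfold D
  linear_combination h

lemma D_unique {a : ℚ} {f q : ℚ[X]} (h : (X - C a) * q = f - C (f.eval a)) : D a f = q := by
  have := D_spec a f
  exact mul_left_cancel₀ (X_sub_C_ne_zero a) (this.trans h.symm)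

lemma D_add (a : ℚ) (f h : ℚ[X]) : D a (f + h) = D a f + D a h := by
  apply D_unique
  rw [mul_add, D_spec, D_spec, eval_add, C_add]; ring

lemma D_smul (a c : ℚ) (f : ℚ[X]) : D a (C c * f) = C c * D a f := by
  apply D_unique
  rw [eval_mul, eval_C, C_mul]
  linear_combination (C c) * D_spec a f

lemma D_C (a c : ℚ) : D a (C c) = 0 := by
  apply D_unique; simp

lemma D_zero (a : ℚ) : D a 0 = 0 := by
  have := D_C a 0
  simpa using this

lemma D_X_mul (a : ℚ) (f : ℚ[X]) : D a (X * f) = f + C a * D a f := by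
  apply D_unique
  rw [eval_mul, eval_X, C_mul]
  linear_combination (C a) * D_spec a f

lemma D_sum {ι : Type*} (a : ℚ) (s : Finset ι) (f : ι → ℚ[X]) :
    D a (∑ i ∈ s, f i) = ∑ i ∈ s, D a (f i) := by
  classical
  induction s using Finset.induction_on with
  | empty => simp [D_zero]
  | insert i s hi ih => rw [sum_insert hi, sum_insert hi, D_add, ih]

lemma D_comm (a b : ℚ) (f : ℚ[X]) : D a (D b f) = D b (D a f) := by
  -- both are the quotient by `(X-a)(X-b)`
  have h1 := D_spec a (D b f)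
  have h2 := D_spec b f
  have h3 := D_spec b (D a f)
  have h4 := D_spec a f
  have key : (X - C a) * (X - C b) * (D a (D b f) - D b (D a f))
      = C (f.eval a) - C (f.eval b) - (X - C b) * C ((D b f).eval a)
        + (X - C a) * C ((D a f).eval b) := by
    linear_combination (X - C b) * h1 + h2 - (X - C a) * h3 - h4
  have hm : ((X - C a) * (X - C b) : ℚ[X]).Monic := (monic_X_sub_C a).mul (monic_X_sub_C b)
  by_contra hne
  have hne' : D a (D b f) - D b (D a f) ≠ 0 := sub_ne_zero.2 hne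
  have hdeg : ((X - C a) * (X - C b) * (D a (D b f) - D b (D a f)) : ℚ[X]).degree
      = 2 + (D a (D b f) - D b (D a f)).degree := by
    rw [degree_mul, degree_mul, degree_X_sub_C, degree_X_sub_C]
    rfl
  have hlow : (C (f.eval a) - C (f.eval b) - (X - C b) * C ((D b f).eval a)
        + (X - C a) * C ((D a f).eval b) : ℚ[X]).degree ≤ 1 := by
    refine (degree_add_le _ _).trans (max_le ((degree_sub_le _ _).trans (max_le
      ((degree_sub_le _ _).trans (max_le ?_ ?_)) ?_)) ?_)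
    · exact degree_C_le.trans (by norm_num)
    · exact degree_C_le.trans (by norm_num)
    · exact (degree_mul_le _ _).trans (by
        rw [degree_X_sub_C]
        calc (1 : WithBot ℕ) + degree (C ((D b f).eval a)) ≤ 1 + 0 := by gcongr; exact degree_C_le
          _ = 1 := by norm_num)
    · exact (degree_mul_le _ _).trans (by
        rw [degree_X_sub_C]
        calc (1 : WithBot ℕ) + degree (C ((D a f).eval b)) ≤ 1 + 0 := by gcongr; exact degree_C_le
          _ = 1 := by norm_num)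
  rw [key] at hdeg
  rw [hdeg] at hlow
  have h0 : (0 : WithBot ℕ) ≤ (D a (D b f) - D b (D a f)).degree :=
    zero_le_degree_iff.2 hne'
  have : (2 : WithBot ℕ) ≤ 1 := by
    calc (2 : WithBot ℕ) = 2 + 0 := by norm_num
      _ ≤ 2 + (D a (D b f) - D b (D a f)).degree := by gcongr
      _ ≤ 1 := hlow
  exact absurd this (by decide)

/-- second divided difference `f[a,b]` -/
def dd2 (f : ℚ[X]) (a b : ℚ) : ℚ := (D a f).eval b

/-- third divided difference `f[a,b,c]` -/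
def dd3 (f : ℚ[X]) (a b c : ℚ) : ℚ := (D b (D a f)).eval c

lemma dd2_symm (f : ℚ[X]) (a b : ℚ) : dd2 f a b = dd2 f b a := by
  rcases eq_or_ne a b with rfl | h
  · rfl
  have h1 := congrArg (eval b) (D_spec a f)
  have h2 := congrArg (eval a) (D_spec b f)
  simp only [eval_mul, eval_sub, eval_X, eval_C] at h1 h2
  have hab : b - a ≠ 0 := sub_ne_zero.2 h.symm
  apply mul_left_cancel₀ hab
  unfold dd2
  linear_combination h1 + h2

lemma dd3_symm_bc (f : ℚ[X]) (a b c : ℚ) : dd3 f a b c = dd3 f a c b := dd2_symm (D a f) b c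

lemma dd3_symm_ab (f : ℚ[X]) (a b c : ℚ) : dd3 f a b c = dd3 f b a c := by
  unfold dd3; rw [D_comm]

lemma dd2_X_mul (f : ℚ[X]) (a b : ℚ) : dd2 (X * f) a b = f.eval b + a * dd2 f a b := by
  unfold dd2; rw [D_X_mul]; simp

lemma dd2_X_mul' (f : ℚ[X]) (a b : ℚ) : dd2 (X * f) a b = f.eval a + b * dd2 f a b := by
  rw [dd2_symm, dd2_X_mul, dd2_symm]

lemma dd3_X_mul_a (f : ℚ[X]) (a b c : ℚ) :
    dd3 (X * f) a b c = dd2 f b c + a * dd3 f a b c := by
  unfold dd3 dd2; rw [D_X_mul, D_add, D_smul]; simp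

lemma dd3_X_mul_b (f : ℚ[X]) (a b c : ℚ) :
    dd3 (X * f) a b c = dd2 f a c + b * dd3 f a b c := by
  rw [dd3_symm_ab, dd3_X_mul_a, dd3_symm_ab]

lemma dd3_X_mul_c (f : ℚ[X]) (a b c : ℚ) :
    dd3 (X * f) a b c = dd2 f a b + c * dd3 f a b c := by
  rw [dd3_symm_bc, dd3_X_mul_b, dd3_symm_bc]

/-- the symmetric Leibniz rule for `X^3 f` -/
lemma dd3_X3 (f : ℚ[X]) (a b c : ℚ) :
    dd3 (X ^ 3 * f) a b c = a * b * c * dd3 f a b c + a * b * dd2 f a b + a * c * dd2 f a c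
      + b * c * dd2 f b c + a * f.eval a + b * f.eval b + c * f.eval c := by
  have e : (X ^ 3 * f : ℚ[X]) = X * (X * (X * f)) := by ring
  rw [e, dd3_X_mul_a, dd3_X_mul_b, dd3_X_mul_c, dd2_X_mul, dd2_X_mul', dd2_X_mul', eval_mul, eval_X]
  ring

lemma D_comp (a s : ℚ) (f : ℚ[X]) : D a (f.comp (X + C s)) = (D (a + s) f).comp (X + C s) := by
  apply D_unique
  have h := congrArg (fun q : ℚ[X] => q.comp (X + C s)) (D_spec (a + s) f)
  simp only [mul_comp, sub_comp, X_comp, C_comp] at h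
  rw [eval_comp, eval_add, eval_X, eval_C, ← h]
  rw [C_add]; ring

lemma dd2_comp (f : ℚ[X]) (a b s : ℚ) :
    dd2 (f.comp (X + C s)) a b = dd2 f (a + s) (b + s) := by
  unfold dd2; rw [D_comp, eval_comp]; simp

lemma dd3_comp (f : ℚ[X]) (a b c s : ℚ) :
    dd3 (f.comp (X + C s)) a b c = dd3 f (a + s) (b + s) (c + s) := by
  unfold dd3; rw [D_comp, D_comp, eval_comp]; simp

lemma dd3_half (f : ℚ[X]) (a b c : ℚ) :
    dd3 ((X + C (1 / 2)) ^ 3 * f.comp (X + C 1)) a b c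
      = (a + 1 / 2) * (b + 1 / 2) * (c + 1 / 2) * dd3 f (a + 1) (b + 1) (c + 1)
        + (a + 1 / 2) * (b + 1 / 2) * dd2 f (a + 1) (b + 1)
        + (a + 1 / 2) * (c + 1 / 2) * dd2 f (a + 1) (c + 1)
        + (b + 1 / 2) * (c + 1 / 2) * dd2 f (b + 1) (c + 1)
        + (a + 1 / 2) * f.eval (a + 1) + (b + 1 / 2) * f.eval (b + 1)
        + (c + 1 / 2) * f.eval (c + 1) := by
  have e : ((X + C (1 / 2)) ^ 3 * f.comp (X + C 1) : ℚ[X])
      = (X ^ 3 * f.comp (X + C (1 / 2))).comp (X + C (1 / 2)) := by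
    rw [mul_comp, pow_comp, X_comp, comp_assoc]
    congr 2
    rw [add_comp, X_comp, C_comp, add_assoc, ← C_add]
    norm_num
  have h2 : ∀ x : ℚ, x + 1 / 2 + 1 / 2 = x + 1 := fun x => by ring
  rw [e, dd3_comp, dd3_X3, dd3_comp, dd2_comp, dd2_comp, dd2_comp]
  simp only [eval_comp, eval_add, eval_X, eval_C, h2]

/-- triple functional -/
def T (J : ℕ) (f : ℚ[X]) : ℚ :=
  E J (fun a => E J (fun b => E J (fun c => dd3 f a b c)))

lemma dd3_add (f h : ℚ[X]) (a b c : ℚ) : dd3 (f + h) a b c = dd3 f a b c + dd3 h a b c := by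
  unfold dd3; rw [D_add, D_add, eval_add]

lemma dd3_smul (r : ℚ) (f : ℚ[X]) (a b c : ℚ) : dd3 (C r * f) a b c = r * dd3 f a b c := by
  unfold dd3; rw [D_smul, D_smul, eval_mul, eval_C]

lemma T_add (J : ℕ) (f h : ℚ[X]) : T J (f + h) = T J f + T J h := by
  unfold T
  simp only [dd3_add, E_add]

lemma T_smul (J : ℕ) (r : ℚ) (f : ℚ[X]) : T J (C r * f) = r * T J f := by
  unfold T
  simp only [dd3_smul, E_mul]

lemma T_zero (J : ℕ) : T J 0 = 0 := by
  have := T_smul J 0 0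
  simpa using this

lemma T_sum {ι : Type*} (J : ℕ) (s : Finset ι) (f : ι → ℚ[X]) :
    T J (∑ i ∈ s, f i) = ∑ i ∈ s, T J (f i) := by
  classical
  induction s using Finset.induction_on with
  | empty => simp [T_zero]
  | insert i s hi ih => rw [sum_insert hi, sum_insert hi, T_add, ih]

/-- THE TELESCOPING IDENTITY -/
theorem T_succ (J : ℕ) (f : ℚ[X]) :
    T (J + 1) (X ^ 3 * f) = T J ((X + C (1 / 2)) ^ 3 * f.comp (X + C 1)) := by
  unfold T
  simp only [dd3_X3, dd3_half]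
  -- abbreviations
  have S : ∀ F : ℕ → ℚ, E (J + 1) (fun i => (i : ℚ) * F i)
      = E J (fun i => ((i : ℚ) + 1 / 2) * F (i + 1)) := E_shift J
  have e3 : E (J + 1) (fun a => E (J + 1) (fun b => E (J + 1) (fun c =>
      (a : ℚ) * b * c * dd3 f a b c)))
      = E J (fun a => E J (fun b => E J (fun c =>
      ((a : ℚ) + 1 / 2) * (b + 1 / 2) * (c + 1 / 2) * dd3 f (a + 1) (b + 1) (c + 1)))) := by
    have h1 : ∀ a b : ℕ, E (J + 1) (fun c => (a : ℚ) * b * c * dd3 f a b c)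
        = (a : ℚ) * (b * E J (fun c => ((c : ℚ) + 1 / 2) * dd3 f a b (c + 1))) := by
      intro a b
      have := S (fun c => dd3 f a b c)
      push_cast at this
      rw [← this, ← E_mul, ← E_mul]
      congr 1; funext c; ring
    simp only [h1]
    have h2 : ∀ a : ℕ, E (J + 1) (fun b => (a : ℚ) * (b * E J (fun c => ((c : ℚ) + 1 / 2)
        * dd3 f a b (c + 1))))
        = (a : ℚ) * E J (fun b => ((b : ℚ) + 1 / 2) * E J (fun c => ((c : ℚ) + 1 / 2)
        * dd3 f a (b + 1) (c + 1))) := by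
      intro a
      rw [E_mul]
      have := S (fun b => E J (fun c => ((c : ℚ) + 1 / 2) * dd3 f a b (c + 1)))
      push_cast at this
      rw [this]
    simp only [h2]
    have := S (fun a => E J (fun b => ((b : ℚ) + 1 / 2) * E J (fun c => ((c : ℚ) + 1 / 2)
        * dd3 f a (b + 1) (c + 1))))
    push_cast at this
    rw [this]
    congr 1; funext a
    rw [← E_mul]
    congr 1; funext b
    rw [← E_mul, ← E_mul]
    congr 1; funext c
    ring
  have e2 : E (J + 1) (fun a => E (J + 1) (fun b => (a : ℚ) * b * dd2 f a b))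
      = E J (fun a => E J (fun b =>
      ((a : ℚ) + 1 / 2) * (b + 1 / 2) * dd2 f (a + 1) (b + 1))) := by
    have h2 : ∀ a : ℕ, E (J + 1) (fun b => (a : ℚ) * b * dd2 f a b)
        = (a : ℚ) * E J (fun b => ((b : ℚ) + 1 / 2) * dd2 f a (b + 1)) := by
      intro a
      have := S (fun b => dd2 f a b)
      push_cast at this
      rw [← this, ← E_mul]
      congr 1; funext b; ring
    simp only [h2]
    have := S (fun a => E J (fun b => ((b : ℚ) + 1 / 2) * dd2 f a (b + 1)))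
    push_cast at this
    rw [this]
    congr 1; funext a
    rw [← E_mul]
    congr 1; funext b
    ring
  have e1 : E (J + 1) (fun a => (a : ℚ) * f.eval (a : ℚ))
      = E J (fun a => ((a : ℚ) + 1 / 2) * f.eval ((a : ℚ) + 1)) := by
    have := S (fun a => f.eval (a : ℚ))
    push_cast at this
    exact this
  simp only [E_add, E_const]
  rw [e3, e2, e1]

end

end Crest.Agent.R006.LB537
end

-- ▼ part R006/LB3_537
section

/-!
Row 6 (Catalan), block P5/P7 input, part 3: Newton differences, polynomiality in `J`, the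
functional `Lp` and its identification with the moment functional.
-/

set_option autoImplicit false

open Polynomial Finset

namespace Crest.Agent.R006.LB537

noncomputable section

/-- Newton coefficients at 0 -/
def nd (h : ℕ → ℚ) (i : ℕ) : ℚ := (fwdDiff 1)^[i] h 0

lemma nd_zero_idx (h : ℕ → ℚ) : nd h 0 = h 0 := rfl

lemma nd_eq_sum (h : ℕ → ℚ) (i : ℕ) :
    nd h i = ∑ k ∈ range (i + 1), ((-1 : ℤ) ^ (i - k) * i.choose k) • h k := by
  unfold nd
  rw [fwdDiff_iter_eq_sum_shift]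
  simp

lemma nd_add (h k : ℕ → ℚ) (i : ℕ) : nd (fun n => h n + k n) i = nd h i + nd k i := by
  simp only [nd_eq_sum, smul_add, sum_add_distrib]

lemma nd_smul (c : ℚ) (h : ℕ → ℚ) (i : ℕ) : nd (fun n => c * h n) i = c * nd h i := by
  simp only [nd_eq_sum, mul_sum]
  refine sum_congr rfl fun k _ => ?_
  simp only [zsmul_eq_mul]; ring

lemma nd_shift (h : ℕ → ℚ) (i : ℕ) : nd (fun n => h (n + 1)) i = nd h (i + 1) + nd h i := by
  unfold nd
  rw [Function.iterate_succ_apply']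
  have := fwdDiff_iter_comp_add (1 : ℕ) h 1 i 0
  rw [this]
  unfold fwdDiff
  ring

lemma nd_congr {h k : ℕ → ℚ} (H : ∀ n, h n = k n) (i : ℕ) : nd h i = nd k i := by
  have : h = k := funext H
  rw [this]

/-- polynomial functions of degree `≤ n` -/
def PN (h : ℕ → ℚ) (n : ℕ) : Prop := ∃ Q : ℚ[X], Q.natDegree ≤ n ∧ ∀ J : ℕ, h J = Q.eval (J : ℚ)

lemma iter_eval (Q : ℚ[X]) (i J : ℕ) :
    (fwdDiff 1)^[i] (fun n : ℕ => Q.eval (n : ℚ)) J = (fwdDiff (1 : ℚ))^[i] Q.eval (J : ℚ) := by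
  rw [fwdDiff_iter_eq_sum_shift, fwdDiff_iter_eq_sum_shift]
  refine sum_congr rfl fun k _ => ?_
  simp

lemma PN.nd_eq_zero {h : ℕ → ℚ} {n : ℕ} (H : PN h n) {i : ℕ} (hi : n < i) : nd h i = 0 := by
  obtain ⟨Q, hQ, hQ'⟩ := H
  have : h = fun m : ℕ => Q.eval (m : ℚ) := funext hQ'
  rw [this]
  unfold nd
  rw [iter_eval, Polynomial.fwdDiff_iter_eq_zero_of_degree_lt (lt_of_le_of_lt hQ hi)]
  rfl

lemma PN.mono {h : ℕ → ℚ} {n m : ℕ} (H : PN h n) (hnm : n ≤ m) : PN h m := by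
  obtain ⟨Q, hQ, hQ'⟩ := H
  exact ⟨Q, hQ.trans hnm, hQ'⟩

lemma PN.add {h k : ℕ → ℚ} {n : ℕ} (H : PN h n) (K : PN k n) : PN (fun J => h J + k J) n := by
  obtain ⟨Q, hQ, hQ'⟩ := H
  obtain ⟨R, hR, hR'⟩ := K
  exact ⟨Q + R, (natDegree_add_le _ _).trans (max_le hQ hR), fun J => by
    simp only [hQ', hR', eval_add]⟩

lemma PN.mul {h k : ℕ → ℚ} {n m : ℕ} (H : PN h n) (K : PN k m) :
    PN (fun J => h J * k J) (n + m) := by
  obtain ⟨Q, hQ, hQ'⟩ := H
  obtain ⟨R, hR, hR'⟩ := K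
  exact ⟨Q * R, natDegree_mul_le.trans (add_le_add hQ hR), fun J => by
    simp only [hQ', hR', eval_mul]⟩

lemma PN_const (c : ℚ) (n : ℕ) : PN (fun _ => c) n := ⟨C c, by simp, fun J => by simp⟩

lemma PN.smul {h : ℕ → ℚ} {n : ℕ} (c : ℚ) (H : PN h n) : PN (fun J => c * h J) n := by
  have := (PN_const c 0).mul H
  rwa [zero_add] at this

lemma PN_sum {ι : Type*} (s : Finset ι) (h : ι → ℕ → ℚ) (n : ℕ) (H : ∀ i ∈ s, PN (h i) n) :
    PN (fun J => ∑ i ∈ s, h i J) n := by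
  classical
  induction s using Finset.induction_on with
  | empty => simpa using PN_const 0 n
  | insert i s hi ih =>
    simp only [sum_insert hi]
    exact (H i (mem_insert_self _ _)).add (ih fun j hj => H j (mem_insert_of_mem hj))

lemma PN_choose (r : ℕ) : PN (fun J => (J.choose r : ℚ)) r := by
  refine ⟨C ((r.factorial : ℚ)⁻¹) * descPochhammer ℚ r, ?_, fun J => ?_⟩
  · refine natDegree_mul_le.trans ?_
    rw [natDegree_C, descPochhammer_natDegree, zero_add]
  · rw [eval_mul, eval_C, descPochhammer_eval_eq_descFactorial,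
      Nat.descFactorial_eq_factorial_mul_choose]
    have : (r.factorial : ℚ) ≠ 0 := by exact_mod_cast r.factorial_ne_zero
    push_cast
    field_simp

/-- Newton expansion of a polynomial at the naturals -/
lemma newton (F : ℚ[X]) (u : ℕ) (hF : F.natDegree ≤ u) (i : ℕ) :
    F.eval (i : ℚ) = ∑ k ∈ range (u + 1), (nd (fun n : ℕ => F.eval (n : ℚ)) k) * (i.choose k : ℚ) := by
  have h := shift_eq_sum_fwdDiff_iter (1 : ℕ) (fun n : ℕ => F.eval (n : ℚ)) i 0
  simp only [smul_eq_mul, mul_one, zero_add] at h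
  rw [h]
  have hz : ∀ k, u < k → nd (fun n : ℕ => F.eval (n : ℚ)) k = 0 := fun k hk =>
    PN.nd_eq_zero (n := u) ⟨F, hF, fun _ => rfl⟩ hk
  have e1 : ∑ k ∈ range (i + 1), i.choose k • (fwdDiff 1)^[k] (fun n : ℕ => F.eval (n : ℚ)) 0
      = ∑ k ∈ range (i + u + 1), (nd (fun n : ℕ => F.eval (n : ℚ)) k) * (i.choose k : ℚ) := by
    have e2 : ∑ k ∈ range (i + 1), i.choose k • (fwdDiff 1)^[k] (fun n : ℕ => F.eval (n : ℚ)) 0
      = ∑ k ∈ range (i + 1), (nd (fun n : ℕ => F.eval (n : ℚ)) k) * (i.choose k : ℚ) := by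
      refine sum_congr rfl fun k _ => ?_
      rw [nsmul_eq_mul, mul_comm]
      rfl
    rw [e2]
    refine sum_subset (range_subset_range.2 (by omega)) fun k _ hk => ?_
    have : i < k := by
      have := mt mem_range.2 hk
      omega
    rw [Nat.choose_eq_zero_of_lt this]
    simp
  rw [e1]
  symm
  refine sum_subset (range_subset_range.2 (by omega)) fun k _ hk => ?_
  have : u < k := by
    have := mt mem_range.2 hk
    omega
  rw [hz k this, zero_mul]

end

end Crest.Agent.R006.LB537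
end

-- ▼ part R006/LB4_537
section

/-!
Row 6 (Catalan), block P5/P7 input, part 4: `T J F` is polynomial in `J`; the functional `Lp`,
its functional equation and its initial values.
-/

set_option autoImplicit false

open Polynomial Finset

namespace Crest.Agent.R006.LB537

noncomputable section

lemma E_PN (F : ℚ[X]) (u : ℕ) (hF : F.natDegree ≤ u) :
    PN (fun J => E J (fun i => F.eval (i : ℚ))) u := by
  have h : ∀ J, E J (fun i => F.eval (i : ℚ))
      = ∑ k ∈ range (u + 1), (nd (fun n : ℕ => F.eval (n : ℚ)) k * g k) * (J.choose k : ℚ) := by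
    intro J
    have : (fun i : ℕ => F.eval (i : ℚ)) = fun i : ℕ =>
        ∑ k ∈ range (u + 1), (nd (fun n : ℕ => F.eval (n : ℚ)) k) * (i.choose k : ℚ) :=
      funext fun i => newton F u hF i
    rw [this, E_sum]
    refine sum_congr rfl fun k _ => ?_
    rw [E_mul, E_choose]
    have h2 : (fun i : ℕ =>
        ∑ k ∈ range (u + 1), (nd (fun n : ℕ => F.eval (n : ℚ)) k) * (i.choose k : ℚ))
        = (fun i : ℕ => F.eval (i : ℚ)) := this.symm
    rw [h2]
    ring
  have h' : (fun J => E J (fun i => F.eval (i : ℚ))) = fun J =>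
      ∑ k ∈ range (u + 1), (nd (fun n : ℕ => F.eval (n : ℚ)) k * g k) * (J.choose k : ℚ) :=
    funext h
  rw [h']
  refine PN_sum _ _ _ fun k hk => ?_
  exact ((PN_choose k).smul _).mono (by have := mem_range.1 hk; omega)

/-- moments -/
def M (J r : ℕ) : ℚ := E J (fun i => (i : ℚ) ^ r)

lemma M_PN (r : ℕ) : PN (fun J => M J r) r := by
  have := E_PN (X ^ r) r (natDegree_X_pow_le r)
  simpa [M] using this

lemma M_zero (J : ℕ) : M J 0 = 1 := by simp [M, E_one]

lemma D_X_pow (a : ℚ) (m : ℕ) :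
    D a (X ^ m) = ∑ i ∈ range m, C (a ^ (m - 1 - i)) * X ^ i := by
  apply D_unique
  have h := (Commute.all (X : ℚ[X]) (C a)).mul_geom_sum₂ m
  rw [eval_pow, eval_X, C_pow, ← h]
  congr 1
  refine sum_congr rfl fun i _ => ?_
  rw [C_pow, mul_comm]

lemma dd3_X_pow (a b c : ℚ) (m : ℕ) :
    dd3 (X ^ m) a b c
      = ∑ i ∈ range m, ∑ l ∈ range i, a ^ (m - 1 - i) * (b ^ (i - 1 - l) * c ^ l) := by
  unfold dd3
  rw [D_X_pow, D_sum, eval_finsetSum]
  refine sum_congr rfl fun i _ => ?_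
  rw [D_smul, D_X_pow, eval_mul, eval_C, eval_finsetSum, mul_sum]
  refine sum_congr rfl fun l _ => ?_
  simp

lemma T_X_pow (J m : ℕ) :
    T J (X ^ m) = ∑ i ∈ range m, ∑ l ∈ range i, M J (m - 1 - i) * (M J (i - 1 - l) * M J l) := by
  unfold T
  simp only [dd3_X_pow, E_sum, E_mul, E_mul']
  rfl

lemma T_X_pow_PN (m : ℕ) : PN (fun J => T J (X ^ m)) (m - 2) := by
  simp only [T_X_pow]
  refine PN_sum _ _ _ fun i hi => PN_sum _ _ _ fun l hl => ?_
  have hi' := mem_range.1 hi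
  have hl' := mem_range.1 hl
  exact ((M_PN _).mul ((M_PN _).mul (M_PN _))).mono (by omega)

lemma T_eq_sum (J : ℕ) (F : ℚ[X]) (k : ℕ) (hF : F.natDegree ≤ k) :
    T J F = ∑ m ∈ range (k + 1), F.coeff m * T J (X ^ m) := by
  conv_lhs => rw [F.as_sum_range_C_mul_X_pow' (Nat.lt_succ_of_le hF)]
  rw [T_sum]
  refine sum_congr rfl fun m _ => ?_
  rw [T_smul]

lemma T_PN (F : ℚ[X]) (k : ℕ) (hF : F.natDegree ≤ k) : PN (fun J => T J F) (k - 2) := by
  have : (fun J => T J F) = fun J => ∑ m ∈ range (k + 1), F.coeff m * T J (X ^ m) :=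
    funext fun J => T_eq_sum J F k hF
  rw [this]
  refine PN_sum _ _ _ fun m hm => ?_
  have hm' := mem_range.1 hm
  exact ((T_X_pow_PN m).smul _).mono (by omega)

lemma T_zero_of_le_one (J : ℕ) (F : ℚ[X]) (hF : F.natDegree ≤ 1) : T J F = 0 := by
  rw [T_eq_sum J F 1 hF]
  refine sum_eq_zero fun m hm => ?_
  have hm' := mem_range.1 hm
  rw [T_X_pow]
  have : ∑ i ∈ range m, ∑ l ∈ range i, M J (m - 1 - i) * (M J (i - 1 - l) * M J l) = 0 := by
    refine sum_eq_zero fun i hi => ?_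
    have hi' := mem_range.1 hi
    have : i = 0 := by omega
    subst this
    simp
  rw [this, mul_zero]

/-- the linear weight -/
def W (J : ℕ) : ℚ[X] := C ((6 * (J : ℚ) + 1) / 4) - C (3 / 2) * X

lemma W_shift (J : ℕ) : (W (J + 1)).comp (X + C 1) = W J := by
  unfold W
  rw [sub_comp, C_comp, mul_comp, C_comp, X_comp]
  have e : (6 * (((J + 1 : ℕ)) : ℚ) + 1) / 4 = (6 * (J : ℚ) + 1) / 4 + 3 / 2 := by
    push_cast; ring
  rw [e, C_add, mul_add, ← C_mul]
  simp

/-- the sequence attached to `F` -/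
def q (F : ℚ[X]) (J : ℕ) : ℚ := T J (F * W J)

lemma q_eq (F : ℚ[X]) (J : ℕ) :
    q F J = ((6 * (J : ℚ) + 1) / 4) * T J F + (-(3 / 2)) * T J (X * F) := by
  unfold q W
  have : F * (C ((6 * (J : ℚ) + 1) / 4) - C (3 / 2) * X)
      = C ((6 * (J : ℚ) + 1) / 4) * F + C (-(3 / 2)) * (X * F) := by
    rw [C_neg]; ring
  rw [this, T_add, T_smul, T_smul]

lemma q_add (F G : ℚ[X]) (J : ℕ) : q (F + G) J = q F J + q G J := by
  unfold q; rw [add_mul, T_add]

lemma q_smul (c : ℚ) (F : ℚ[X]) (J : ℕ) : q (C c * F) J = c * q F J := by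
  unfold q; rw [mul_assoc, T_smul]

lemma q_shift (F : ℚ[X]) (J : ℕ) :
    q ((X + C (1 / 2)) ^ 3 * F.comp (X + C 1)) J = q (X ^ 3 * F) (J + 1) := by
  unfold q
  rw [mul_assoc (X ^ 3), T_succ, mul_comp, W_shift, mul_assoc]

lemma q_X3_zero (F : ℚ[X]) : q (X ^ 3 * F) 0 = 0 := by
  unfold q T
  rw [mul_assoc]
  simp only [E, be, zero_add, range_one, sum_singleton, Nat.sub_zero, g_zero, one_mul,
    Nat.cast_zero, dd3_X3]
  ring

lemma natDegree_X_mul_le' (F : ℚ[X]) (k : ℕ) (hF : F.natDegree ≤ k) :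
    (X * F).natDegree ≤ k + 1 := by
  refine natDegree_mul_le.trans ?_
  have : (X : ℚ[X]).natDegree ≤ 1 := natDegree_X_le
  omega

lemma q_zero (F : ℚ[X]) (hF : F.natDegree ≤ 0) (J : ℕ) : q F J = 0 := by
  rw [q_eq, T_zero_of_le_one J F (by omega),
    T_zero_of_le_one J (X * F) (natDegree_X_mul_le' F 0 hF)]
  ring

lemma q_PN (F : ℚ[X]) (k : ℕ) (hF : F.natDegree ≤ k) : PN (q F) (k - 1) := by
  rcases Nat.eq_zero_or_pos k with rfl | hk
  · have : q F = fun _ => 0 := funext fun J => q_zero F hF J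
    rw [this]
    exact PN_const 0 _
  have h2 : PN (fun J => (-(3 / 2)) * T J (X * F)) (k - 1) :=
    ((T_PN (X * F) (k + 1) (natDegree_X_mul_le' F k hF)).smul _).mono (by omega)
  have h3 : PN (fun J : ℕ => (6 * (J : ℚ) + 1) / 4) 1 := by
    refine ⟨C (3 / 2) * X + C (1 / 4), ?_, fun J => ?_⟩
    · exact natDegree_linear_le
    · simp; ring
  have h1 : PN (fun J => ((6 * (J : ℚ) + 1) / 4) * T J F) (k - 1) := by
    rcases Nat.lt_or_ge k 2 with h | h
    · have : (fun J : ℕ => ((6 * (J : ℚ) + 1) / 4) * T J F) = fun _ => 0 := by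
        funext J
        rw [T_zero_of_le_one J F (by omega), mul_zero]
      rw [this]
      exact PN_const 0 _
    · exact (h3.mul (T_PN F k hF)).mono (by omega)
  have : q F = fun J : ℕ => ((6 * (J : ℚ) + 1) / 4) * T J F + (-(3 / 2)) * T J (X * F) :=
    funext fun J => q_eq F J
  rw [this]
  exact h1.add h2

/-- truncated sum -/
def S (d : ℕ) (h : ℕ → ℚ) : ℚ := ∑ i ∈ range d, nd h i * (-1 / 9) ^ (i + 1)

lemma S_shift (d : ℕ) (h : ℕ → ℚ) (hd : nd h d = 0) :
    S d (fun n => h (n + 1)) = -8 * S d h - h 0 := by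
  have e1 : S (d + 1) h = S d h := by
    unfold S; rw [sum_range_succ, hd]; simp
  have e2 : S (d + 1) h = (∑ i ∈ range d, nd h (i + 1) * (-1 / 9) ^ (i + 1 + 1)) + h 0 * (-1 / 9) := by
    unfold S; rw [sum_range_succ']; simp [nd_zero_idx]
  have e3 : S d (fun n => h (n + 1))
      = -9 * (∑ i ∈ range d, nd h (i + 1) * (-1 / 9) ^ (i + 1 + 1)) + S d h := by
    unfold S
    rw [mul_sum, ← sum_add_distrib]
    refine sum_congr rfl fun i _ => ?_
    rw [nd_shift, pow_succ _ (i + 1)]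
    ring
  rw [e3]
  linear_combination 9 * e2 - 9 * e1

/-- the functional -/
def Lp (F : ℚ[X]) : ℚ := S F.natDegree (q F)

lemma nd_q_zero (F : ℚ[X]) (i : ℕ) (hi : F.natDegree ≤ i) : nd (q F) i = 0 := by
  rcases Nat.eq_zero_or_pos F.natDegree with h0 | h0
  · rw [nd_congr (k := fun _ => 0) (fun J => q_zero F h0.le J)]
    rw [nd_eq_sum]; simp
  · exact (q_PN F _ le_rfl).nd_eq_zero (by omega)

lemma Lp_eq (F : ℚ[X]) (d : ℕ) (hd : F.natDegree ≤ d) : Lp F = S d (q F) := by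
  unfold Lp S
  refine sum_subset (range_subset_range.2 hd) fun i _ hi => ?_
  have : F.natDegree ≤ i := by
    have := mt mem_range.2 hi
    omega
  rw [nd_q_zero F i this, zero_mul]

lemma Lp_add (F G : ℚ[X]) : Lp (F + G) = Lp F + Lp G := by
  set d := max F.natDegree G.natDegree
  rw [Lp_eq (F + G) d (natDegree_add_le _ _), Lp_eq F d (le_max_left _ _),
    Lp_eq G d (le_max_right _ _)]
  unfold S
  rw [← sum_add_distrib]
  refine sum_congr rfl fun i _ => ?_
  rw [nd_congr (fun J => q_add F G J), nd_add]; ring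

lemma Lp_smul (c : ℚ) (F : ℚ[X]) : Lp (C c * F) = c * Lp F := by
  rw [Lp_eq (C c * F) F.natDegree (natDegree_C_mul_le _ _)]
  unfold Lp S
  rw [mul_sum]
  refine sum_congr rfl fun i _ => ?_
  rw [nd_congr (fun J => q_smul c F J), nd_smul]; ring

/-- functional equation -/
lemma Lp_fe (F : ℚ[X]) :
    Lp ((X + C (1 / 2)) ^ 3 * F.comp (X + C 1)) + 8 * Lp (X ^ 3 * F) = 0 := by
  set d := max ((X + C (1 / 2)) ^ 3 * F.comp (X + C 1)).natDegree (X ^ 3 * F).natDegree
  rw [Lp_eq _ d (le_max_left _ _), Lp_eq (X ^ 3 * F) d (le_max_right _ _)]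
  have h1 : S d (q ((X + C (1 / 2)) ^ 3 * F.comp (X + C 1))) = S d (fun n => q (X ^ 3 * F) (n + 1)) := by
    unfold S
    refine sum_congr rfl fun i _ => ?_
    rw [nd_congr (fun J => q_shift F J)]
  rw [h1, S_shift d _ (nd_q_zero _ _ (le_max_right _ _)), q_X3_zero]
  ring

lemma M_zero_pos (r : ℕ) (hr : 0 < r) : M 0 r = 0 := by
  simp [M, E, be, g_zero, hr.ne']

lemma Lp_one : Lp 1 = 0 := by
  simp [Lp, S]

lemma Lp_X : Lp X = 1 / 6 := by
  rw [Lp_eq X 1 natDegree_X_le]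
  unfold S
  rw [sum_range_one, nd_zero_idx, q_eq, T_zero_of_le_one 0 X natDegree_X_le]
  have : (X * X : ℚ[X]) = X ^ 2 := by ring
  rw [this, T_X_pow]
  simp [sum_range_succ, M_zero]
  norm_num

lemma M_one_one : M 1 1 = 1 / 2 := by
  have := E_choose 1 1
  simp only [Nat.choose_one_right, Nat.cast_one, mul_one] at this
  simp only [M, pow_one]
  rw [this]
  have := g_succ 0
  rw [g_zero] at this
  simp at this
  linarith

lemma Lp_X2 : Lp (X ^ 2) = -1 / 27 := by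
  rw [Lp_eq (X ^ 2) 2 (natDegree_X_pow_le 2)]
  unfold S
  have q0 : q (X ^ 2) 0 = 1 / 4 := by
    rw [q_eq]
    have : (X * X ^ 2 : ℚ[X]) = X ^ 3 := by ring
    rw [this, T_X_pow, T_X_pow]
    simp [sum_range_succ, M_zero, M_zero_pos]
  have q1 : q (X ^ 2) 1 = -1 / 2 := by
    rw [q_eq]
    have : (X * X ^ 2 : ℚ[X]) = X ^ 3 := by ring
    rw [this, T_X_pow, T_X_pow]
    simp [sum_range_succ, M_zero, M_one_one]
    norm_num
  have n1 : nd (q (X ^ 2)) 1 = q (X ^ 2) 1 - q (X ^ 2) 0 := by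
    unfold nd
    simp [fwdDiff]
  rw [sum_range_succ, sum_range_one, nd_zero_idx, n1, q0, q1]
  norm_num

end

end Crest.Agent.R006.LB537
end

-- ▼ part R006/LB5_537
section

/-!
Row 6 (Catalan), block P5/P7 input, part 5: uniqueness of the functional.
-/

set_option autoImplicit false

open Polynomial Finset

namespace Crest.Agent.R006.LB537

noncomputable section

/-- `Lp` as a linear map -/
def LpL : ℚ[X] →ₗ[ℚ] ℚ where
  toFun := Lp
  map_add' := Lp_add
  map_smul' c F := by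
    rw [smul_eq_C_mul, Lp_smul]; rfl

lemma LpL_apply (F : ℚ[X]) : LpL F = Lp F := rfl

lemma lm_C (Δ : ℚ[X] →ₗ[ℚ] ℚ) (c : ℚ) (F : ℚ[X]) : Δ (C c * F) = c * Δ F := by
  rw [← smul_eq_C_mul, map_smul, smul_eq_mul]

/-- uniqueness -/
lemma uniq (Δ : ℚ[X] →ₗ[ℚ] ℚ) (h0 : Δ 1 = 0) (h1 : Δ X = 0) (h2 : Δ (X ^ 2) = 0)
    (hfe : ∀ F : ℚ[X], Δ ((X + C (1 / 2)) ^ 3 * F.comp (X + C 1)) + 8 * Δ (X ^ 3 * F) = 0) :
    ∀ F : ℚ[X], Δ F = 0 := by
  have key : ∀ n : ℕ, ∀ F : ℚ[X], F.natDegree ≤ n → Δ F = 0 := by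
    intro n
    induction n using Nat.strong_induction_on with
    | _ n ih =>
      intro F hF
      rcases Nat.lt_or_ge n 3 with hn | hn
      · have e : F = C (F.coeff 0) * 1 + C (F.coeff 1) * X + C (F.coeff 2) * X ^ 2 := by
          conv_lhs => rw [F.as_sum_range_C_mul_X_pow' (n := 3) (by omega)]
          simp [sum_range_succ]
        rw [e, map_add, map_add, lm_C, lm_C, lm_C, h0, h1, h2]
        ring
      · obtain ⟨m, rfl⟩ : ∃ m, n = m + 3 := ⟨n - 3, by omega⟩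
        set A : ℚ[X] := (X + C (1 / 2)) ^ 3 * (X ^ m : ℚ[X]).comp (X + C 1) with hA
        have hAm : A.Monic := by
          rw [hA, X_pow_comp]
          exact ((monic_X_add_C _).pow 3).mul ((monic_X_add_C _).pow m)
        have hAd : A.natDegree = m + 3 := by
          rw [hA, X_pow_comp, Monic.natDegree_mul ((monic_X_add_C _).pow 3)
            ((monic_X_add_C _).pow m), (monic_X_add_C _).natDegree_pow,
            (monic_X_add_C _).natDegree_pow, natDegree_X_add_C, natDegree_X_add_C]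
          omega
        have hfe' := hfe (X ^ m)
        rw [← hA, ← pow_add] at hfe'
        -- subtract the right multiple
        set c := F.coeff (m + 3) with hc
        have hG : (C (9 : ℚ) * F - C c * (A + C 8 * X ^ (3 + m))).natDegree ≤ m + 2 := by
          rw [natDegree_le_iff_coeff_eq_zero]
          intro N hN
          rcases Nat.lt_or_ge (m + 3) N with h | h
          · have z1 : F.coeff N = 0 := coeff_eq_zero_of_natDegree_lt (by omega)
            have z2 : A.coeff N = 0 := coeff_eq_zero_of_natDegree_lt (by omega)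
            have z3 : (X ^ (3 + m) : ℚ[X]).coeff N = 0 := by
              rw [coeff_X_pow, if_neg (by omega)]
            simp only [coeff_sub, coeff_C_mul, coeff_add, z1, z2, z3]
            ring
          · have hN' : N = m + 3 := by omega
            subst hN'
            have z2 : A.coeff (m + 3) = 1 := by
              have := hAm.coeff_natDegree
              rwa [hAd] at this
            have z3 : (X ^ (3 + m) : ℚ[X]).coeff (m + 3) = 1 := by
              rw [coeff_X_pow, if_pos (by omega)]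
            simp only [coeff_sub, coeff_C_mul, coeff_add, z2, z3, ← hc]
            ring
        have hz := ih (m + 2) (by omega) _ hG
        rw [map_sub, lm_C, lm_C, map_add, lm_C, hfe'] at hz
        linarith
  exact fun F => key _ F le_rfl

/-- the reflection `-1/2 - X` -/
def io : ℚ[X] := C (-1 / 2) - X

lemma io_comp : io.comp io = X := by
  unfold io; rw [sub_comp, C_comp, X_comp]; ring

lemma comp_io_io (f : ℚ[X]) : (f.comp io).comp io = f := by
  rw [comp_assoc, io_comp, comp_X]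

/-- precomposition -/
def compL (P : ℚ[X]) : ℚ[X] →ₗ[ℚ] ℚ[X] where
  toFun F := F.comp P
  map_add' F G := add_comp
  map_smul' c F := by rw [smul_comp]; rfl

lemma compL_apply (P F : ℚ[X]) : compL P F = F.comp P := rfl

lemma io_fe (F : ℚ[X]) :
    ((X + C (1 / 2)) ^ 3 * F.comp (X + C 1)).comp io + C 8 * (X ^ 3 * F).comp io
      = - (X ^ 3 * (F.comp (C (1 / 2) - X))
        + (2 * X + 1) ^ 3 * (F.comp (C (1 / 2) - X)).comp (X + 1)) := by
  have a1 : (X + C 1 : ℚ[X]).comp io = C (1 / 2) - X := by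
    unfold io
    rw [add_comp, X_comp, C_comp, sub_add_eq_add_sub, ← C_add]
    norm_num
  have a2 : (C (1 / 2) - X : ℚ[X]).comp (X + 1) = io := by
    unfold io
    rw [sub_comp, C_comp, X_comp]
    have : (C (-1 / 2) : ℚ[X]) = C (1 / 2) - 1 := by
      rw [← C_1, ← C_sub]; norm_num
    rw [this]; ring
  have a3 : (X + C (1 / 2) : ℚ[X]).comp io = - X := by
    unfold io
    rw [add_comp, X_comp, C_comp, sub_add_eq_add_sub, ← C_add]
    norm_num
  have a4 : C 8 * io ^ 3 = - (2 * X + 1) ^ 3 := by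
    have e : (2 * X + 1 : ℚ[X]) = - (C 2 * io) := by
      unfold io
      rw [mul_sub, ← C_mul]
      have : (C ((2 : ℚ) * (-1 / 2)) : ℚ[X]) = -1 := by
        rw [← C_1, ← C_neg]; norm_num
      rw [this]
      have : (C (2 : ℚ) : ℚ[X]) = 2 := map_ofNat C 2
      rw [this]; ring
    have : (C 8 : ℚ[X]) = C 2 ^ 3 := by rw [← C_pow]; norm_num
    rw [e, this]; ring
  rw [mul_comp, mul_comp, pow_comp, pow_comp, X_comp, comp_assoc, comp_assoc, a1, a2, a3]
  linear_combination (F.comp io) * a4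

theorem Lam_eq (Λ : ℚ[X] →ₗ[ℚ] ℚ) (h0 : Λ 1 = 0) (h1 : Λ X = -1 / 6) (h2 : Λ (X ^ 2) = 7 / 54)
    (hK : ∀ P : ℚ[X], Λ (X ^ 3 * P + (2 * X + 1) ^ 3 * P.comp (X + 1)) = 0) (f : ℚ[X]) :
    Λ f = Lp (f.comp io) := by
  have e1 : (X : ℚ[X]).comp io = C (-1 / 2) * 1 + C (-1) * X := by
    unfold io; rw [X_comp, C_neg]; simp; ring
  have e2 : (X ^ 2 : ℚ[X]).comp io = C (1 / 4) * 1 + C 1 * X + X ^ 2 := by
    unfold io
    rw [X_pow_comp]
    have : (C (1 / 4) : ℚ[X]) = C (-1 / 2) ^ 2 := by rw [← C_pow]; norm_num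
    have h3 : (C (-1 / 2) : ℚ[X]) * 2 = - 1 := by
      have : (2 : ℚ[X]) = C 2 := (map_ofNat C 2).symm
      rw [this, ← C_mul, ← C_1, ← C_neg]; norm_num
    rw [this, C_1]
    linear_combination (-X) * h3
  have hu := uniq (Λ.comp (compL io) - LpL) ?_ ?_ ?_ ?_ (f.comp io)
  · rw [LinearMap.sub_apply, LinearMap.comp_apply, compL_apply, LpL_apply, comp_io_io] at hu
    linarith
  · rw [LinearMap.sub_apply, LinearMap.comp_apply, compL_apply, LpL_apply, one_comp, h0, Lp_one]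
    ring
  · rw [LinearMap.sub_apply, LinearMap.comp_apply, compL_apply, LpL_apply, e1, map_add, lm_C, lm_C,
      h0, h1, Lp_X]
    ring
  · rw [LinearMap.sub_apply, LinearMap.comp_apply, compL_apply, LpL_apply, e2, map_add, map_add,
      lm_C, lm_C, h0, h1, h2, Lp_X2]
    ring
  · intro F
    have := hK (F.comp (C (1 / 2) - X))
    have e := congrArg Λ (io_fe F)
    rw [map_neg, this, map_add, lm_C] at e
    have l := Lp_fe F
    simp only [LinearMap.sub_apply, LinearMap.comp_apply, compL_apply, LpL_apply]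
    linarith

end

end Crest.Agent.R006.LB537
end

-- ▼ part R006/LB6_537
section

/-!
Row 6 (Catalan), block P5/P7 input, part 6: p-adic bounds of divided differences.
-/

set_option autoImplicit false

open Polynomial Finset

namespace Crest.Agent.R006.LB537

noncomputable section

variable (p : ℕ) [hp : Fact p.Prime]

lemma pn_nat_le (n : ℕ) : padicNorm p (n : ℚ) ≤ 1 := padicNorm.of_nat n

lemma one_le_p : (1 : ℚ) ≤ (p : ℚ) := by exact_mod_cast hp.out.one_lt.le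

lemma pn_inv_nat (i k : ℕ) (hi : 1 ≤ i) (hik : i ≤ k) :
    padicNorm p ((i : ℚ)⁻¹) ≤ (p : ℚ) ^ (Nat.log p k) := by
  have hi0 : (i : ℚ) ≠ 0 := by exact_mod_cast (by omega : i ≠ 0)
  have h1 : padicNorm p ((i : ℚ)⁻¹) = (padicNorm p (i : ℚ))⁻¹ := by
    have := padicNorm.mul (p := p) (i : ℚ) ((i : ℚ)⁻¹)
    rw [mul_inv_cancel₀ hi0, padicNorm.one] at this
    exact eq_inv_of_mul_eq_one_right this.symm
  rw [h1, padicNorm.eq_zpow_of_nonzero hi0, ← zpow_neg, neg_neg, padicValRat.of_nat]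
  have : padicValNat p i ≤ Nat.log p k :=
    (padicValNat_le_nat_log i).trans (Nat.log_mono_right hik)
  rw [zpow_natCast]
  exact pow_le_pow_right₀ (one_le_p p) this

lemma pn_mul_le {x y a b : ℚ} (hx : padicNorm p x ≤ a) (hy : padicNorm p y ≤ b) (ha : 0 ≤ a) :
    padicNorm p (x * y) ≤ a * b := by
  rw [padicNorm.mul]
  exact mul_le_mul hx hy (padicNorm.nonneg _) ha

lemma pn_sub_le {x y a : ℚ} (hx : padicNorm p x ≤ a) (hy : padicNorm p y ≤ a) :
    padicNorm p (x - y) ≤ a := padicNorm.sub.trans (max_le hx hy)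


/-- iterated differences of a bounded function are bounded -/
lemma pn_fwd {h : ℕ → ℚ} {e : ℚ} (he : 0 ≤ e) (hh : ∀ n, padicNorm p (h n) ≤ e) (i n : ℕ) :
    padicNorm p ((fwdDiff 1)^[i] h n) ≤ e := by
  rw [fwdDiff_iter_eq_sum_shift]
  refine padicNorm.sum_le' (fun k _ => ?_) he
  rw [zsmul_eq_mul, padicNorm.mul]
  calc _ ≤ 1 * e := mul_le_mul (padicNorm.of_int _) (hh _) (padicNorm.nonneg _) zero_le_one
    _ = e := one_mul e

lemma pn_nd {h : ℕ → ℚ} {e : ℚ} (he : 0 ≤ e) (hh : ∀ n, padicNorm p (h n) ≤ e) (i : ℕ) :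
    padicNorm p (nd h i) ≤ e := pn_fwd p he hh i 0

lemma natDegree_D_le (a : ℚ) (F : ℚ[X]) : (D a F).natDegree ≤ F.natDegree := by
  unfold D
  rw [natDegree_divByMonic _ (monic_X_sub_C a)]
  omega

lemma natDegree_D_lt (a : ℚ) (F : ℚ[X]) (k : ℕ) (hF : F.natDegree ≤ k) (hk : 0 < k) :
    (D a F).natDegree < k := by
  unfold D
  rw [natDegree_divByMonic _ (monic_X_sub_C a), natDegree_X_sub_C]
  omega

lemma choose_div (m i : ℕ) :
    ((m + 1).choose (i + 1) : ℚ) = ((m : ℚ) + 1) * ((m.choose i : ℚ) * ((i : ℚ) + 1)⁻¹) := by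
  have h := Nat.add_one_mul_choose_eq m i
  have h' : ((m : ℚ) + 1) * (m.choose i : ℚ) = ((m + 1).choose (i + 1) : ℚ) * ((i : ℚ) + 1) := by
    exact_mod_cast h
  have : ((i : ℚ) + 1) ≠ 0 := by positivity
  field_simp
  linarith

/-- divided differences to the right -/
lemma dd2_right (F : ℚ[X]) (k : ℕ) (hF : F.natDegree ≤ k) {e : ℚ} (he : 0 ≤ e)
    (hh : ∀ n : ℕ, padicNorm p (F.eval (n : ℚ)) ≤ e) (a m : ℕ) :
    padicNorm p (dd2 F (a : ℚ) ((a + (m + 1) : ℕ) : ℚ)) ≤ e * (p : ℚ) ^ (Nat.log p k) := by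
  set h : ℕ → ℚ := fun n => F.eval (n : ℚ) with hh'
  have hsum := shift_eq_sum_fwdDiff_iter (1 : ℕ) h (m + 1) a
  simp only [smul_eq_mul, mul_one] at hsum
  rw [sum_range_succ'] at hsum
  simp only [Nat.choose_zero_right, one_smul, Function.iterate_zero, id] at hsum
  have hspec := congrArg (eval (((a + (m + 1) : ℕ)) : ℚ)) (D_spec (a : ℚ) F)
  simp only [eval_mul, eval_sub, eval_X, eval_C] at hspec
  have hm : ((m : ℚ) + 1) ≠ 0 := by positivity
  have key : dd2 F (a : ℚ) ((a + (m + 1) : ℕ) : ℚ)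
      = ∑ i ∈ range (m + 1), (m.choose i : ℚ) * (((i + 1 : ℕ) : ℚ)⁻¹ * (fwdDiff 1)^[i + 1] h a) := by
    apply mul_left_cancel₀ hm
    have e1 : ((m : ℚ) + 1) * dd2 F (a : ℚ) ((a + (m + 1) : ℕ) : ℚ) = h (a + (m + 1)) - h a := by
      unfold dd2
      rw [hh']
      simp only
      rw [← hspec]
      push_cast; ring
    rw [e1, hsum, add_sub_cancel_right, mul_sum]
    refine sum_congr rfl fun i _ => ?_
    rw [nsmul_eq_mul, choose_div]
    push_cast
    ring
  rw [key]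
  have hP : (0 : ℚ) ≤ (p : ℚ) ^ (Nat.log p k) := by positivity
  refine padicNorm.sum_le' (fun i _ => ?_) (mul_nonneg he hP)
  rcases Nat.lt_or_ge k (i + 1) with hi | hi
  · have : (fwdDiff 1)^[i + 1] h a = 0 := by
      rw [hh', iter_eval, Polynomial.fwdDiff_iter_eq_zero_of_degree_lt (lt_of_le_of_lt hF hi)]
      rfl
    rw [this]
    simp only [mul_zero, padicNorm.zero]
    exact mul_nonneg he hP
  · have b1 := pn_inv_nat p (i + 1) k (by omega) hi
    have b2 := pn_fwd p he hh (i + 1) a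
    have b3 := pn_mul_le p b1 b2 hP
    have b4 := pn_mul_le p (pn_nat_le p (m.choose i)) b3 zero_le_one
    calc _ ≤ _ := b4
      _ = _ := by ring

/-- all divided differences at naturals -/
lemma dd2_bound (F : ℚ[X]) (k : ℕ) (hF : F.natDegree ≤ k) {e : ℚ} (he : 0 ≤ e)
    (hh : ∀ n : ℕ, padicNorm p (F.eval (n : ℚ)) ≤ e) (a b : ℕ) :
    padicNorm p (dd2 F (a : ℚ) (b : ℚ)) ≤ e * (p : ℚ) ^ (Nat.log p k) := by
  have hP : (0 : ℚ) ≤ (p : ℚ) ^ (Nat.log p k) := by positivity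
  rcases lt_trichotomy a b with h | h | h
  · obtain ⟨m, rfl⟩ : ∃ m, b = a + (m + 1) := ⟨b - a - 1, by omega⟩
    exact dd2_right p F k hF he hh a m
  · subst h
    rcases Nat.eq_zero_or_pos k with hk | hk
    · have : D (a : ℚ) F = 0 := by
        rw [eq_C_of_natDegree_le_zero (hF.trans hk.le), D_C]
      unfold dd2
      rw [this]
      simp only [eval_zero, padicNorm.zero]
      exact mul_nonneg he hP
    -- the `k`-th difference of `D a F` at `a` vanishes
    have hz : (fwdDiff 1)^[k] (fun n : ℕ => (D (a : ℚ) F).eval (n : ℚ)) a = 0 := by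
      rw [iter_eval, Polynomial.fwdDiff_iter_eq_zero_of_degree_lt (natDegree_D_lt _ F k hF hk)]
      rfl
    rw [fwdDiff_iter_eq_sum_shift, sum_range_succ'] at hz
    simp only [Nat.sub_zero, Nat.choose_zero_right, Nat.cast_one, mul_one, add_zero,
      smul_eq_mul] at hz
    have hsum : padicNorm p (∑ i ∈ range k, ((-1 : ℤ) ^ (k - (i + 1)) * (k.choose (i + 1) : ℕ))
        • (D (a : ℚ) F).eval ((a + (i + 1) : ℕ) : ℚ)) ≤ e * (p : ℚ) ^ (Nat.log p k) := by
      refine padicNorm.sum_le' (fun i _ => ?_) (mul_nonneg he hP)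
      rw [zsmul_eq_mul, padicNorm.mul]
      have := dd2_right p F k hF he hh a i
      calc _ ≤ 1 * (e * (p : ℚ) ^ (Nat.log p k)) :=
            mul_le_mul (padicNorm.of_int _) this (padicNorm.nonneg _) zero_le_one
        _ = _ := one_mul _
    have h2 : (((-1 : ℤ) ^ k) : ℤ) • (D (a : ℚ) F).eval (a : ℚ)
        = - ∑ i ∈ range k, ((-1 : ℤ) ^ (k - (i + 1)) * (k.choose (i + 1) : ℕ))
        • (D (a : ℚ) F).eval ((a + (i + 1) : ℕ) : ℚ) := by
      linear_combination hz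
    have h3 : padicNorm p ((((-1 : ℤ) ^ k) : ℤ) • (D (a : ℚ) F).eval (a : ℚ))
        = padicNorm p ((D (a : ℚ) F).eval (a : ℚ)) := by
      rcases neg_one_pow_eq_or ℤ k with h | h <;> rw [h] <;> simp
    unfold dd2
    rw [← h3, h2, padicNorm.neg]
    exact hsum
  · obtain ⟨m, rfl⟩ : ∃ m, a = b + (m + 1) := ⟨a - b - 1, by omega⟩
    rw [dd2_symm]
    exact dd2_right p F k hF he hh b m

lemma dd3_bound (F : ℚ[X]) (k : ℕ) (hF : F.natDegree ≤ k) {e : ℚ} (he : 0 ≤ e)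
    (hh : ∀ n : ℕ, padicNorm p (F.eval (n : ℚ)) ≤ e) (a b c : ℕ) :
    padicNorm p (dd3 F (a : ℚ) (b : ℚ) (c : ℚ)) ≤ e * (p : ℚ) ^ (2 * Nat.log p k) := by
  have hP : (0 : ℚ) ≤ (p : ℚ) ^ (Nat.log p k) := by positivity
  have := dd2_bound p (D (a : ℚ) F) k ((natDegree_D_le _ _).trans hF) (mul_nonneg he hP)
    (fun n => dd2_bound p F k hF he hh a n) b c
  calc _ ≤ _ := this
    _ = _ := by rw [two_mul, pow_add]; ring

variable {p}

lemma pn_pow_eq_one {c : ℚ} (hc : padicNorm p c = 1) (i : ℕ) : padicNorm p (c ^ i) = 1 := by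
  induction i with
  | zero => simp
  | succ i ih => rw [pow_succ, padicNorm.mul, ih, hc, one_mul]

lemma pn_div_one {x y : ℚ} (hx : padicNorm p x ≤ 1) (hy : padicNorm p y = 1) :
    padicNorm p (x / y) ≤ 1 := by
  rw [padicNorm.div, hy, div_one]; exact hx

lemma pn_two (hp2 : p ≠ 2) : padicNorm p (2 : ℚ) = 1 := by
  have := padicNorm.nat_eq_one_iff (p := p) 2
  rw [show ((2 : ℕ) : ℚ) = 2 by norm_num] at this
  rw [this]
  intro h
  exact hp2 ((Nat.prime_dvd_prime_iff_eq hp.out Nat.prime_two).1 h)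

lemma pn_four (hp2 : p ≠ 2) : padicNorm p (4 : ℚ) = 1 := by
  have : (4 : ℚ) = 2 * 2 := by norm_num
  rw [this, padicNorm.mul, pn_two hp2, one_mul]

lemma pn_g (hp2 : p ≠ 2) (i : ℕ) : padicNorm p (g i) ≤ 1 :=
  pn_div_one (padicNorm.of_nat _) (pn_pow_eq_one (pn_four hp2) i)

lemma pn_be (hp2 : p ≠ 2) (J i : ℕ) : padicNorm p (be J i) ≤ 1 := by
  have := pn_mul_le p (pn_g hp2 i) (pn_g hp2 (J - i)) zero_le_one
  rwa [one_mul] at this

lemma pn_E (hp2 : p ≠ 2) {F : ℕ → ℚ} {e : ℚ} (he : 0 ≤ e) (hF : ∀ n, padicNorm p (F n) ≤ e)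
    (J : ℕ) : padicNorm p (E J F) ≤ e := by
  unfold E
  refine padicNorm.sum_le' (fun i _ => ?_) he
  have := pn_mul_le p (pn_be hp2 J i) (hF i) zero_le_one
  rwa [one_mul] at this

lemma pn_T (hp2 : p ≠ 2) (F : ℚ[X]) (k : ℕ) (hF : F.natDegree ≤ k) {e : ℚ} (he : 0 ≤ e)
    (hh : ∀ n : ℕ, padicNorm p (F.eval (n : ℚ)) ≤ e) (J : ℕ) :
    padicNorm p (T J F) ≤ e * (p : ℚ) ^ (2 * Nat.log p k) := by
  have hP : (0 : ℚ) ≤ e * (p : ℚ) ^ (2 * Nat.log p k) := by positivity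
  exact pn_E hp2 hP (fun a => pn_E hp2 hP (fun b => pn_E hp2 hP
    (fun c => dd3_bound p F k hF he hh a b c) J) J) J

lemma W_natDegree (J : ℕ) : (W J).natDegree ≤ 1 := by
  unfold W
  refine (natDegree_sub_le _ _).trans (max_le (by simp) ?_)
  exact (natDegree_C_mul_le _ _).trans natDegree_X_le

lemma pn_W (hp2 : p ≠ 2) (J n : ℕ) : padicNorm p ((W J).eval (n : ℚ)) ≤ 1 := by
  unfold W
  simp only [eval_sub, eval_mul, eval_C, eval_X]
  refine pn_sub_le p (pn_div_one ?_ (pn_four hp2)) ?_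
  · have : (6 * (J : ℚ) + 1) = ((6 * J + 1 : ℕ) : ℚ) := by push_cast; ring
    rw [this]
    exact padicNorm.of_nat _
  · have : (3 / 2 * (n : ℚ)) = ((3 * n : ℕ) : ℚ) / 2 := by push_cast; ring
    rw [this]
    exact pn_div_one (padicNorm.of_nat _) (pn_two hp2)

lemma pn_q (hp2 : p ≠ 2) (F : ℚ[X]) (k : ℕ) (hF : F.natDegree ≤ k) {e : ℚ} (he : 0 ≤ e)
    (hh : ∀ n : ℕ, padicNorm p (F.eval (n : ℚ)) ≤ e) (J : ℕ) :
    padicNorm p (q F J) ≤ e * (p : ℚ) ^ (2 * Nat.log p (k + 1)) := by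
  refine pn_T hp2 (F * W J) (k + 1) ?_ he ?_ J
  · exact natDegree_mul_le.trans (add_le_add hF (W_natDegree J))
  · intro n
    rw [eval_mul]
    have := pn_mul_le p (hh n) (pn_W hp2 J n) he
    rwa [mul_one] at this

lemma pn_Lp (hp2 : p ≠ 2) (F : ℚ[X]) (k : ℕ) (hF : F.natDegree ≤ k) {e : ℚ} (he : 0 ≤ e)
    (hh : ∀ n : ℕ, padicNorm p (F.eval (n : ℚ)) ≤ e) :
    padicNorm p (Lp F) ≤ e * (p : ℚ) ^ (2 * Nat.log p (k + 1)) * ((padicNorm p 9)⁻¹) ^ k := by
  have h9 : padicNorm p (9 : ℚ) ≤ 1 := by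
    have := padicNorm.of_nat (p := p) 9
    exact_mod_cast this
  have h9' : padicNorm p (9 : ℚ) ≠ 0 := padicNorm.nonzero (by norm_num)
  have h9pos : 0 < padicNorm p (9 : ℚ) := lt_of_le_of_ne (padicNorm.nonneg _) h9'.symm
  have hinv : 1 ≤ (padicNorm p (9 : ℚ))⁻¹ := (one_le_inv₀ h9pos).2 h9
  have hP : (0 : ℚ) ≤ e * (p : ℚ) ^ (2 * Nat.log p (k + 1)) := by positivity
  have hn : padicNorm p (-1 / 9 : ℚ) = (padicNorm p (9 : ℚ))⁻¹ := by
    rw [padicNorm.div, padicNorm.neg, padicNorm.one, one_div]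
  have hpow : ∀ i : ℕ, padicNorm p ((-1 / 9 : ℚ) ^ i) = ((padicNorm p (9 : ℚ))⁻¹) ^ i := by
    intro i
    induction i with
    | zero => simp
    | succ i ih => rw [pow_succ, padicNorm.mul, ih, hn, pow_succ]
  rw [Lp_eq F k hF]
  unfold S
  refine padicNorm.sum_le' (fun i hi => ?_) (by positivity)
  rw [padicNorm.mul, hpow]
  refine mul_le_mul (pn_nd p hP (fun n => pn_q hp2 F k hF he hh n) i) ?_ (by positivity) hP
  exact pow_le_pow_right₀ hinv (by have := mem_range.1 hi; omega)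

end

end Crest.Agent.R006.LB537
end

-- ▼ part R006/LamBound_537
section

/-!
Row 6 (Catalan), block P5/P7 input: THE BOUND for the moment functional.
`LamBound`: `|Λ f|_p ≤ e · p^(2 log_p(k+1)) · |9|_p^(-k)` for `deg f ≤ k`, `|f|_p ≤ e` on `ℕ`,
`p` odd.  Own proof (note 2598).
-/

set_option autoImplicit false

open Polynomial Finset

namespace Crest.Agent.R006.LB537

noncomputable section

variable {p : ℕ} [hp : Fact p.Prime]

/-- a polynomial bounded at the naturals is bounded on `ℤ_(p)` -/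
theorem pn_eval_of_nat (f : ℚ[X]) (e : ℚ) (hf : ∀ n : ℕ, padicNorm p (f.eval (n : ℚ)) ≤ e)
    (z : ℚ) (hz : padicNorm p z ≤ 1) : padicNorm p (f.eval z) ≤ e := by
  set fp : ℚ_[p][X] := f.map (algebraMap ℚ ℚ_[p]) with hfp
  have hev : ∀ q : ℚ, fp.eval (q : ℚ_[p]) = ((f.eval q : ℚ) : ℚ_[p]) := by
    intro q
    rw [hfp]
    have := Polynomial.eval_map_algebraMap (B := ℚ_[p]) f (q : ℚ_[p])
    rw [this]
    have h2 := Polynomial.aeval_algebraMap_apply (B := ℚ_[p]) q f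
    simpa using h2
  have hcl : IsClosed {x : ℤ_[p] | ‖fp.eval (x : ℚ_[p])‖ ≤ (e : ℝ)} := by
    refine isClosed_le ?_ continuous_const
    exact ((Polynomial.continuous fp).comp continuous_subtype_val).norm
  have hall : ∀ x : ℤ_[p], ‖fp.eval (x : ℚ_[p])‖ ≤ (e : ℝ) := by
    intro x
    refine PadicInt.denseRange_natCast.induction_on (p := fun x : ℤ_[p] => ‖fp.eval (x : ℚ_[p])‖ ≤ (e : ℝ)) x hcl ?_
    intro n
    have h1 : ((n : ℤ_[p]) : ℚ_[p]) = ((n : ℚ) : ℚ_[p]) := by simp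
    rw [h1, hev, Padic.eq_padicNorm]
    exact_mod_cast hf n
  have hz' : ‖(z : ℚ_[p])‖ ≤ 1 := by
    rw [Padic.eq_padicNorm]; exact_mod_cast hz
  have := hall ⟨(z : ℚ_[p]), hz'⟩
  simp only at this
  rw [hev, Padic.eq_padicNorm] at this
  exact_mod_cast this

theorem LamBound (Λ : ℚ[X] →ₗ[ℚ] ℚ) (h0 : Λ 1 = 0) (h1 : Λ X = -1 / 6) (h2 : Λ (X ^ 2) = 7 / 54)
    (hK : ∀ P : ℚ[X], Λ (X ^ 3 * P + (2 * X + 1) ^ 3 * P.comp (X + 1)) = 0)
    (p : ℕ) [Fact p.Prime] (hp : p ≠ 2)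
    (k : ℕ) (f : ℚ[X]) (hf : f.natDegree ≤ k) (e : ℚ) (he : 0 ≤ e)
    (hv : ∀ n : ℕ, padicNorm p (f.eval (n : ℚ)) ≤ e) :
    padicNorm p (Λ f) ≤ e * (p : ℚ) ^ (2 * Nat.log p (k + 1)) * ((padicNorm p 9)⁻¹) ^ k := by
  rw [Lam_eq Λ h0 h1 h2 hK f]
  refine pn_Lp hp (f.comp io) k ?_ he ?_
  · refine natDegree_comp_le.trans ?_
    have : io.natDegree ≤ 1 := by
      unfold io
      refine (natDegree_sub_le _ _).trans (max_le (by simp) natDegree_X_le)
    calc f.natDegree * io.natDegree ≤ k * 1 := Nat.mul_le_mul hf this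
      _ = k := mul_one k
  · intro n
    rw [eval_comp]
    refine pn_eval_of_nat f e hv _ ?_
    have : io.eval (n : ℚ) = ((-(2 * n + 1) : ℤ) : ℚ) / 2 := by
      unfold io
      simp only [eval_sub, eval_C, eval_X]
      push_cast; ring
    rw [this]
    exact pn_div_one (padicNorm.of_int _) (pn_two hp)


end

end Crest.Agent.R006.LB537
end

-- ▼ part R006/P57_Close_939

/-!
Row 6, blocks P5 / P7 closed (helper939): 241's hypothesis `LamB p` from 537's `LamBound`, and the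
unconditional forms of the crude bound (all `p ≥ 5`) and of the bound at `p = 3`.
-/

set_option autoImplicit false

namespace Crest.Agent.R006.P57M

open Polynomial Crest.Agent.R006.PsiInf Crest.Agent.R006.P57

theorem lamB (p : ℕ) [hp : Fact p.Prime] (h2 : p ≠ 2) : LamB p := by
  intro d s
  have h := LB537.LamBound (lin mu) (by simpa using lin_X_pow mu 0) (by simpa using lin_X_pow mu 1)
    (by simpa using lin_X_pow mu 2) key_mu p h2 d ((cP ℚ d).comp (X - C (s : ℚ))) ?_ 1 zero_le_one ?_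
  · simpa using h
  · refine natDegree_comp_le.trans ?_
    rw [natDegree_X_sub_C, mul_one]
    exact natDegree_cP_le d
  · intro n
    rw [eval_comp, eval_sub, eval_X, eval_C]
    refine norm_cP_le _ ?_ d
    have : ((n : ℚ) - s) = (((n : ℤ) - s : ℤ) : ℚ) := by push_cast; ring
    rw [this]
    exact padicNorm.of_int _

/-- **P5**: the crude bound for all primes `p ≥ 5` -/
theorem crude_939 (S : D.Shape) (c : ℕ)
    (hq : S.q ≤ S.a1 + S.a2 + S.i1 + S.r1 + S.k) : D.Crude S c (KK S c) :=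
  crude (fun p hp h5 => by have : Fact p.Prime := ⟨hp⟩; exact lamB p (by omega)) S c hq

/-- **P7**: the bound at `p = 3` -/
theorem p7_939 (S : D.Shape) (c : ℕ) (hq : S.q ≤ S.a1 + S.a2 + S.i1 + S.r1 + S.k) :
    D.AtPrime S c 3 ((((S.a1 + S.a2 + S.i1 + S.r1 + S.k : ℕ) : ℝ) - S.q) ^ 2 / 2) := by
  have : Fact (Nat.Prime 3) := ⟨Nat.prime_three⟩
  have h := p7 (lamB 3 (by norm_num)) S c hq
  simpa using h

end Crest.Agent.R006.P57M
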