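import Crest.Agent.R006.Defs_89

/-!
# Row 6: base change of the germs (helper189)

All germs of `Defs_89` commute with a homomorphism `f : K →+* K'` of fields.

* `map_inv`, `map_bi`, `map_pt`: the basic facts; `map_PsiZ`, `map_GamZ`, `map_PsiH0`, `map_GamH0`,
  `map_psiG`, `map_gG`;
* `map_EE`, `map_pinf`, `map_cinf`, `map_Tpart`;
* `map_germ`, `map_Nhat`, `map_NS`, `map_wt`, `map_u`, `map_lam`, `map_lam_alg`;
* `map_Fgerm`, `map_colK`, `map_lam_colK`, `map_det_colK`.
-/

set_option autoImplicit false

namespace Crest.Agent.R006.Map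

open Polynomial Finset

variable {K K' : Type*} [Field K] [Field K'] (f : K →+* K')

/-! ### inverses of power series -/

lemma constantCoeff_map (x : PowerSeries K) :
    PowerSeries.constantCoeff (PowerSeries.map f x) = f (PowerSeries.constantCoeff x) := by
  rw [← PowerSeries.coeff_zero_eq_constantCoeff_apply, PowerSeries.coeff_map,
    PowerSeries.coeff_zero_eq_constantCoeff_apply]

lemma map_inv (x : PowerSeries K) : PowerSeries.map f x⁻¹ = (PowerSeries.map f x)⁻¹ := by
  by_cases h : PowerSeries.constantCoeff x = 0
  · have h' : PowerSeries.constantCoeff (PowerSeries.map f x) = 0 := by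
      rw [constantCoeff_map, h, map_zero]
    rw [PowerSeries.inv_eq_zero.mpr h, PowerSeries.inv_eq_zero.mpr h', map_zero]
  · have h' : PowerSeries.constantCoeff (PowerSeries.map f x) ≠ 0 := by
      rw [constantCoeff_map]
      exact fun h0 => h ((map_eq_zero f).mp h0)
    rw [PowerSeries.eq_inv_iff_mul_eq_one h', ← map_mul, PowerSeries.inv_mul_cancel x h, map_one]

/-! ### the chains -/

lemma map_pt (s : K) : PowerSeries.map f (NV.pt s) = NV.pt (f s) := by
  simp [NV.pt]

lemma map_bi (a b c : ℤ → PowerSeries K) (init : PowerSeries K) (i : ℤ) :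
    PowerSeries.map f (NV.bi a b c init i) =
      NV.bi (fun i => PowerSeries.map f (a i)) (fun i => PowerSeries.map f (b i))
        (fun i => PowerSeries.map f (c i)) (PowerSeries.map f init) i := by
  rcases i with n | n
  · induction n with
    | zero => rfl
    | succ n ih =>
      have e : (Int.ofNat (n + 1) : ℤ) = ((n + 1 : ℕ) : ℤ) := rfl
      have e' : (Int.ofNat n : ℤ) = ((n : ℕ) : ℤ) := rfl
      rw [e'] at ih
      rw [e, NV.bi_succ, NV.bi_succ, map_mul, map_inv, map_sub, map_mul, ih]
  · induction n with
    | zero =>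
      have e2 : (Int.negSucc 0 : ℤ) = -1 := rfl
      rw [e2, NV.bi_negOne, NV.bi_negOne, map_mul, map_inv, map_sub, map_mul]
    | succ n ih =>
      rw [NV.bi_negSucc, NV.bi_negSucc, map_mul, map_inv, map_sub, map_mul, ih]

lemma map_two : PowerSeries.map f (2 : PowerSeries K) = 2 := map_ofNat _ 2



lemma map_quarter : f (1 / 4) = 1 / 4 := by
  rw [map_div₀, map_one, map_ofNat]


theorem map_GamZ (i : ℤ) :
    PowerSeries.map f (NV.GamZ i) = NV.GamZ i := by
  unfold NV.GamZ
  rw [map_bi]
  congr 1
  · funext i
    rw [map_pow, map_pt, map_add, map_intCast, map_one]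
  · funext i
    rw [map_neg, map_mul, map_pow, map_add, map_mul, map_two, map_pt, map_intCast, map_one,
      PowerSeries.map_C, map_quarter]
  · funext i
    rw [map_zero]
  · rw [map_one]








/-! ### the solution at infinity -/






/-! ### germs of polynomials and the functionals -/

theorem map_germ (x : K) (p : K[X]) :
    PowerSeries.map f (Lam.germ x p) = Lam.germ (f x) (p.map f) := by
  unfold Lam.germ
  rw [← Polynomial.polynomial_map_coe, Polynomial.map_taylor]



section
variable {ι : Type*} [Fintype ι] (z : ι → K) (m : ι → ℕ)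


variable [DecidableEq ι]

theorem map_Nhat (i : ι) : (Lam.Nhat z m i).map f = Lam.Nhat (fun i => f (z i)) m i := by
  unfold Lam.Nhat
  rw [Polynomial.map_prod]
  refine Finset.prod_congr rfl fun l _ => ?_
  rw [Polynomial.map_pow, Polynomial.map_sub, Polynomial.map_X, Polynomial.map_C]

theorem map_wt (p : K[X]) (i : ι) :
    PowerSeries.map f (Lam.wt z m p i) = Lam.wt (fun i => f (z i)) m (p.map f) i := by
  unfold Lam.wt
  rw [map_mul, map_inv, map_germ, map_germ, map_Nhat]

theorem map_u (p : K[X]) (r : Lam.Row m) :
    f (Lam.u z m p r) = Lam.u (fun i => f (z i)) m (p.map f) r := by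
  unfold Lam.u
  rw [← map_wt, PowerSeries.coeff_map]




/-- `lam` commutes with a homomorphism of algebras over a homomorphism of fields -/
theorem map_lam_alg {A A' : Type*} [CommRing A] [CommRing A'] [Algebra K A] [Algebra K' A']
    (g : A →+* A') (hg : ∀ x : K, g (algebraMap K A x) = algebraMap K' A' (f x))
    (p : K[X]) (F : ι → PowerSeries A) :
    g (Lam.lam z m p F) =
      Lam.lam (fun i => f (z i)) m (p.map f) (fun i => PowerSeries.map g (F i)) := by
  unfold Lam.lam
  rw [map_sum]
  refine Finset.sum_congr rfl fun r _ => ?_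
  rw [map_mul, hg, map_u, PowerSeries.coeff_map]



end


/-! ### the germs of `F` -/


section design
variable (D : Design)



variable [CharZero K] [CharZero K']




end design

end Crest.Agent.R006.Map
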