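import Mathlib
import Crest.Agent.R006.G1Base_186
import Crest.Agent.R006.PsiJ2_576
import Crest.Agent.R006.PsiJ3_576
import Crest.Agent.R006.Germ_724
import Crest.Agent.R006.Map_189
import Crest.Agent.R006.Defs
import Crest.Agent.R006.LamR_724

-- ▼ part R006/HalfPlane_186
section

/-!
Row 6, helper186: Cauchy / Poisson formulas on half-planes for bounded holomorphic functions, and the
jump representation `fR z = (1/2π) ∫ J(c+iy)/(z-c-iy) dy`, `J = fR - fL`.
-/

set_option autoImplicit false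

namespace Crest.Agent.R006.HalfPlanex186

open Complex Filter Topology MeasureTheory Set

theorem integral_line_eq_zero_right {F : ℂ → ℂ} {c C R0 : ℝ} (hR0 : 0 < R0)
    (hd : DifferentiableOn ℂ F {s | c ≤ s.re})
    (hb : ∀ s : ℂ, c ≤ s.re → R0 ≤ ‖s - c‖ → ‖F s‖ ≤ C / ‖s - c‖ ^ 2)
    (hi : Integrable fun y : ℝ => F (c + y * I)) : ∫ y : ℝ, F (c + y * I) = 0 := by
  have h1 : Tendsto (fun R : ℝ => ∫ y in (-R)..R, F (c + y * I)) atTop
      (𝓝 (∫ y : ℝ, F (c + y * I))) :=
    intervalIntegral_tendsto_integral hi tendsto_neg_atTop_atBot tendsto_id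
  have hbound : ∀ R : ℝ, R0 ≤ R → ‖∫ y in (-R)..R, F (c + y * I)‖ ≤ 4 * C / R := by
    intro R hR
    have hRpos : 0 < R := lt_of_lt_of_le hR0 hR
    have hCnn : 0 ≤ C / R ^ 2 := by
      have := hb ((c + R : ℝ) : ℂ) (by simp; exact hRpos.le)
        (by simp [abs_of_pos hRpos, hR])
      have h2 := (norm_nonneg _).trans this
      simpa [abs_of_pos hRpos] using h2
    have hrect := Complex.integral_boundary_rect_eq_zero_of_differentiableOn F
      (⟨c, -R⟩ : ℂ) (⟨c + R, R⟩ : ℂ) (by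
        apply hd.mono
        intro s hs
        rw [mem_reProdIm] at hs
        have := hs.1
        simp only at this
        rw [Set.uIcc_of_le (by linarith)] at this
        exact this.1)
    simp only at hrect
    have hB : ∀ s : ℂ, c ≤ s.re → R ≤ ‖s - c‖ → ‖F s‖ ≤ C / R ^ 2 := by
      intro s hs hsR
      refine (hb s hs (hR.trans hsR)).trans ?_
      have hC : 0 ≤ C := by
        have := mul_nonneg hCnn (sq_nonneg R)
        rwa [div_mul_cancel₀ _ (pow_ne_zero 2 hRpos.ne')] at this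
      exact div_le_div_of_nonneg_left hC (by positivity) (pow_le_pow_left₀ hRpos.le hsR 2)
    have hbot : ‖∫ x in c..(c + R), F ((x : ℂ) + ((-R : ℝ) : ℂ) * I)‖ ≤ C / R ^ 2 * |c + R - c| := by
      apply intervalIntegral.norm_integral_le_of_norm_le_const
      intro x hx
      rw [Set.uIoc_of_le (by linarith)] at hx
      apply hB
      · simp; exact hx.1.le
      · have : |((x : ℂ) + ((-R : ℝ) : ℂ) * I - (c : ℂ)).im| ≤ ‖(x : ℂ) + ((-R : ℝ) : ℂ) * I - (c : ℂ)‖ :=
          Complex.abs_im_le_norm _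
        simp at this
        rw [abs_of_pos hRpos] at this
        simpa using this
    have htop : ‖∫ x in c..(c + R), F ((x : ℂ) + ((R : ℝ) : ℂ) * I)‖ ≤ C / R ^ 2 * |c + R - c| := by
      apply intervalIntegral.norm_integral_le_of_norm_le_const
      intro x hx
      rw [Set.uIoc_of_le (by linarith)] at hx
      apply hB
      · simp; exact hx.1.le
      · have : |((x : ℂ) + ((R : ℝ) : ℂ) * I - (c : ℂ)).im| ≤ ‖(x : ℂ) + ((R : ℝ) : ℂ) * I - (c : ℂ)‖ :=
          Complex.abs_im_le_norm _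
        simp at this
        rw [abs_of_pos hRpos] at this
        simpa using this
    have hright : ‖∫ y in (-R)..R, F (((c + R : ℝ) : ℂ) + (y : ℂ) * I)‖ ≤ C / R ^ 2 * |R - -R| := by
      apply intervalIntegral.norm_integral_le_of_norm_le_const
      intro y hy
      apply hB
      · simp; exact hRpos.le
      · have : |(((c + R : ℝ) : ℂ) + (y : ℂ) * I - (c : ℂ)).re| ≤ ‖((c + R : ℝ) : ℂ) + (y : ℂ) * I - (c : ℂ)‖ :=
          Complex.abs_re_le_norm _
        simp at this
        rw [abs_of_pos hRpos] at this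
        simpa using this
    have e1 : |c + R - c| = R := by rw [add_sub_cancel_left, abs_of_pos hRpos]
    have e2 : |R - -R| = 2 * R := by rw [abs_of_pos (by linarith)]; ring
    rw [e1] at hbot htop
    rw [e2] at hright
    have hsolve : I * (∫ y in (-R)..R, F (c + y * I)) =
        (∫ x in c..(c + R), F ((x : ℂ) + ((-R : ℝ) : ℂ) * I))
          - (∫ x in c..(c + R), F ((x : ℂ) + ((R : ℝ) : ℂ) * I))
          + I * (∫ y in (-R)..R, F (((c + R : ℝ) : ℂ) + (y : ℂ) * I)) := by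
      simp only [smul_eq_mul] at hrect
      linear_combination -hrect
    calc ‖∫ y in (-R)..R, F (c + y * I)‖ = ‖I * (∫ y in (-R)..R, F (c + y * I))‖ := by
          rw [norm_mul, Complex.norm_I, one_mul]
      _ ≤ C / R ^ 2 * R + C / R ^ 2 * R + C / R ^ 2 * (2 * R) := by
          rw [hsolve]
          refine (norm_add_le _ _).trans (add_le_add ((norm_sub_le _ _).trans (add_le_add hbot htop)) ?_)
          rw [norm_mul, Complex.norm_I, one_mul]
          exact hright
      _ = 4 * C / R := by field_simp; ring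
  have h2 : Tendsto (fun R : ℝ => 4 * C / R) atTop (𝓝 0) :=
    tendsto_const_nhds.div_atTop tendsto_id
  have h3 : Tendsto (fun R : ℝ => ∫ y in (-R)..R, F (c + y * I)) atTop (𝓝 0) := by
    rw [tendsto_zero_iff_norm_tendsto_zero]
    refine squeeze_zero' (Eventually.of_forall fun R => norm_nonneg _) ?_ h2
    filter_upwards [eventually_ge_atTop R0] with R hR using hbound R hR
  exact tendsto_nhds_unique h1 h3

/-- left version, by the substitution `s ↦ 2c - s`. -/
theorem integral_line_eq_zero_left {F : ℂ → ℂ} {c C R0 : ℝ} (hR0 : 0 < R0)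
    (hd : DifferentiableOn ℂ F {s | s.re ≤ c})
    (hb : ∀ s : ℂ, s.re ≤ c → R0 ≤ ‖s - c‖ → ‖F s‖ ≤ C / ‖s - c‖ ^ 2)
    (hi : Integrable fun y : ℝ => F (c + y * I)) : ∫ y : ℝ, F (c + y * I) = 0 := by
  have h := integral_line_eq_zero_right (F := fun s => F (2 * c - s)) (c := c) (C := C) hR0 (by
      apply hd.comp (by fun_prop)
      intro s hs
      simp only [Set.mem_ofPred_eq] at hs ⊢
      simp
      linarith) (by
      intro s hs hR
      have e : (2 * (c : ℂ) - s - c) = -(s - c) := by ring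
      have := hb (2 * c - s) (by simp; linarith) (by rw [e, norm_neg]; exact hR)
      rwa [e, norm_neg] at this) (by
      have h1 := hi.comp_neg
      refine h1.congr (Eventually.of_forall fun y => ?_)
      simp only
      congr 1
      push_cast
      ring)
  rw [← h, ← integral_neg_eq_self]
  congr 1
  ext y
  congr 1
  push_cast
  ring

/-- distance estimate on a vertical line. -/
lemma one_add_abs_le {a : ℂ} {c : ℝ} (ha : a.re ≠ c) :
    ∃ M : ℝ, 0 < M ∧ ∀ y : ℝ, 1 + |y| ≤ M * ‖a - (c + y * I)‖ := by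
  have hδ : 0 < |a.re - c| := abs_pos.mpr (sub_ne_zero.mpr ha)
  refine ⟨1 + (1 + |a.im|) / |a.re - c|, by positivity, fun y => ?_⟩
  have h1 : |a.re - c| ≤ ‖a - (c + y * I)‖ := by
    have := Complex.abs_re_le_norm (a - (c + y * I))
    simpa using this
  have h2 : |a.im - y| ≤ ‖a - (c + y * I)‖ := by
    have := Complex.abs_im_le_norm (a - (c + y * I))
    simpa using this
  have h3 : |y| ≤ |a.im| + |a.im - y| := by
    have : y = a.im - (a.im - y) := by ring
    calc |y| = |a.im - (a.im - y)| := by rw [← this]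
      _ ≤ |a.im| + |a.im - y| := abs_sub _ _
  have h4 : (1 + |a.im|) ≤ (1 + |a.im|) / |a.re - c| * ‖a - (c + y * I)‖ := by
    rw [div_mul_eq_mul_div, le_div_iff₀ hδ]
    exact mul_le_mul_of_nonneg_left h1 (by positivity)
  linarith

lemma sub_line_ne_zero {a : ℂ} {c : ℝ} (ha : a.re ≠ c) (y : ℝ) : a - (c + y * I) ≠ 0 := by
  intro h
  apply ha
  have := congrArg Complex.re h
  simp at this
  linarith

/-- integrability of a bounded continuous function against the difference kernel. -/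
lemma integrable_kernel {f : ℂ → ℂ} {c C : ℝ} (hc : Continuous fun y : ℝ => f (c + y * I))
    (hb : ∀ y : ℝ, ‖f (c + y * I)‖ ≤ C) {a b : ℂ} (ha : a.re ≠ c) (hb' : b.re ≠ c) :
    Integrable fun y : ℝ => f (c + y * I) * (1 / (a - (c + y * I)) - 1 / (b - (c + y * I))) := by
  obtain ⟨Ma, hMa, hMa'⟩ := one_add_abs_le ha
  obtain ⟨Mb, hMb, hMb'⟩ := one_add_abs_le hb'
  have hC : 0 ≤ C := (norm_nonneg _).trans (hb 0)
  have hint : Integrable fun y : ℝ => (C * ‖b - a‖ * Ma * Mb) * (1 + y ^ 2)⁻¹ :=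
    integrable_inv_one_add_sq.const_mul _
  refine hint.mono' ?_ ?_
  · apply Continuous.aestronglyMeasurable
    apply hc.mul
    apply Continuous.sub
    · exact continuous_const.div (by fun_prop) (fun y => sub_line_ne_zero ha y)
    · exact continuous_const.div (by fun_prop) (fun y => sub_line_ne_zero hb' y)
  · refine Eventually.of_forall fun y => ?_
    have h1 := sub_line_ne_zero ha y
    have h2 := sub_line_ne_zero hb' y
    have e : 1 / (a - (c + y * I)) - 1 / (b - (c + y * I))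
        = (b - a) / ((a - (c + y * I)) * (b - (c + y * I))) := by
      rw [div_sub_div _ _ h1 h2]
      congr 1
      ring
    rw [norm_mul, e, norm_div, norm_mul]
    have h3 : 0 < ‖a - (c + y * I)‖ := norm_pos_iff.mpr h1
    have h4 : 0 < ‖b - (c + y * I)‖ := norm_pos_iff.mpr h2
    have h5 : (1 + y ^ 2) ≤ (Ma * ‖a - (c + y * I)‖) * (Mb * ‖b - (c + y * I)‖) := by
      have := mul_le_mul (hMa' y) (hMb' y) (by positivity) (by positivity)
      have h6 : 1 + y ^ 2 ≤ (1 + |y|) * (1 + |y|) := by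
        nlinarith [abs_nonneg y, sq_abs y]
      exact h6.trans this
    have h6 : ‖b - a‖ / (‖a - (c + y * I)‖ * ‖b - (c + y * I)‖) ≤ ‖b - a‖ * Ma * Mb * (1 + y ^ 2)⁻¹ := by
      rw [div_le_iff₀ (by positivity)]
      have h7 : 1 ≤ (Ma * ‖a - (c + y * I)‖) * (Mb * ‖b - (c + y * I)‖) * (1 + y ^ 2)⁻¹ := by
        rw [← div_eq_mul_inv, le_div_iff₀ (by positivity), one_mul]
        exact h5
      calc ‖b - a‖ = ‖b - a‖ * 1 := (mul_one _).symm
        _ ≤ ‖b - a‖ * ((Ma * ‖a - (c + y * I)‖) * (Mb * ‖b - (c + y * I)‖) * (1 + y ^ 2)⁻¹) :=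
          mul_le_mul_of_nonneg_left h7 (norm_nonneg _)
        _ = _ := by ring
    calc ‖f (c + y * I)‖ * (‖b - a‖ / (‖a - (c + y * I)‖ * ‖b - (c + y * I)‖))
        ≤ C * (‖b - a‖ * Ma * Mb * (1 + y ^ 2)⁻¹) :=
          mul_le_mul (hb y) h6 (by positivity) hC
      _ = _ := by ring

/-- bound of the kernel far away. -/
lemma kernel_bound {a b s : ℂ} {c : ℝ} (h : 2 * (‖a - c‖ + ‖b - c‖) + 1 ≤ ‖s - c‖) :
    ‖1 / (a - s) - 1 / (b - s)‖ ≤ (4 * ‖b - a‖) / ‖s - c‖ ^ 2 := by
  have hs : 0 < ‖s - c‖ := by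
    have := norm_nonneg (a - c); have := norm_nonneg (b - c); linarith
  have h1 : ‖s - c‖ / 2 ≤ ‖a - s‖ := by
    have e : s - c = (a - c) - (a - s) := by ring
    have h3 : ‖s - c‖ ≤ ‖a - c‖ + ‖a - s‖ := by rw [e]; exact norm_sub_le _ _
    have := norm_nonneg (b - c)
    linarith
  have h2 : ‖s - c‖ / 2 ≤ ‖b - s‖ := by
    have e : s - c = (b - c) - (b - s) := by ring
    have h3 : ‖s - c‖ ≤ ‖b - c‖ + ‖b - s‖ := by rw [e]; exact norm_sub_le _ _
    have := norm_nonneg (a - c)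
    linarith
  have ha : a - s ≠ 0 := norm_pos_iff.mp (by linarith)
  have hb : b - s ≠ 0 := norm_pos_iff.mp (by linarith)
  have e : 1 / (a - s) - 1 / (b - s) = (b - a) / ((a - s) * (b - s)) := by
    rw [div_sub_div _ _ ha hb]
    congr 1
    ring
  rw [e, norm_div, norm_mul, div_le_div_iff₀ (by positivity) (by positivity)]
  have h3 : ‖s - c‖ / 2 * (‖s - c‖ / 2) ≤ ‖a - s‖ * ‖b - s‖ :=
    mul_le_mul h1 h2 (by positivity) (norm_nonneg _)
  nlinarith [norm_nonneg (b - a), mul_le_mul_of_nonneg_left h3 (norm_nonneg (b - a))]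

lemma line_continuous {f : ℂ → ℂ} {c : ℝ} {S : Set ℂ} (hd : DifferentiableOn ℂ f S)
    (hS : ∀ y : ℝ, (c : ℂ) + y * I ∈ S) : Continuous fun y : ℝ => f (c + y * I) :=
  hd.continuousOn.comp_continuous (by fun_prop) hS

/-- the reflected point. -/
noncomputable def refl (c : ℝ) (z : ℂ) : ℂ := 2 * c - (starRingEnd ℂ) z

lemma refl_re (c : ℝ) (z : ℂ) : (refl c z).re = 2 * c - z.re := by simp [refl]

/-- `∫ (1/(z-s) - 1/(z*-s)) dy = 2π`. -/
lemma integral_poisson_kernel {c : ℝ} {z : ℂ} (hz : c < z.re) :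
    ∫ y : ℝ, (1 / (z - (c + y * I)) - 1 / (refl c z - (c + y * I))) = 2 * Real.pi := by
  set a := z.re - c with ha
  have hapos : 0 < a := by rw [ha]; linarith
  have e : ∀ y : ℝ, (1 / (z - (c + y * I)) - 1 / (refl c z - (c + y * I)))
      = (((2 / a) * (1 + ((y - z.im) / a) ^ 2)⁻¹ : ℝ) : ℂ) := by
    intro y
    have h1 : z - (c + y * I) ≠ 0 := sub_line_ne_zero (by linarith) y
    have h2 : refl c z - (c + y * I) ≠ 0 := sub_line_ne_zero (by rw [refl_re]; linarith) y
    have hz' : z - (c + y * I) = (a : ℂ) + ((z.im - y : ℝ) : ℂ) * I := by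
      apply Complex.ext <;> simp [ha]
    have hr' : refl c z - (c + y * I) = -(a : ℂ) + ((z.im - y : ℝ) : ℂ) * I := by
      apply Complex.ext
      · simp [ha, refl]; ring
      · simp [ha, refl]
    rw [hz'] at h1 ⊢
    rw [hr'] at h2 ⊢
    have h3 : (1 + ((y - z.im) / a) ^ 2 : ℝ) ≠ 0 := by positivity
    have h3' : ((1 + ((y - z.im) / a) ^ 2 : ℝ) : ℂ) ≠ 0 := by exact_mod_cast h3
    have ha' : (a : ℂ) ≠ 0 := by exact_mod_cast hapos.ne'
    rw [div_sub_div _ _ h1 h2]
    rw [Complex.ofReal_mul, Complex.ofReal_inv, ← div_eq_mul_inv, div_eq_div_iff (mul_ne_zero h1 h2) h3']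
    push_cast
    field_simp
    ring_nf
    rw [Complex.I_sq]
    ring
  simp_rw [e]
  rw [integral_complex_ofReal]
  have h1 : ∫ y : ℝ, (2 / a) * (1 + ((y - z.im) / a) ^ 2)⁻¹ = 2 * Real.pi := by
    rw [integral_const_mul]
    have h2 : ∫ y : ℝ, (1 + ((y - z.im) / a) ^ 2)⁻¹ = a * Real.pi := by
      have h3 := integral_sub_right_eq_self (μ := volume) (fun y : ℝ => (1 + (y / a) ^ 2)⁻¹) z.im
      rw [h3]
      have h4 := MeasureTheory.Measure.integral_comp_div (fun y : ℝ => (1 + y ^ 2)⁻¹) a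
      rw [h4, integral_univ_inv_one_add_sq, abs_of_pos hapos, smul_eq_mul]
    rw [h2]
    field_simp
  rw [h1]
  push_cast
  rfl

/-- Poisson formula on the right half-plane. -/
theorem poisson_right {f : ℂ → ℂ} {c C : ℝ} (hd : DifferentiableOn ℂ f {s | c ≤ s.re})
    (hb : ∀ s : ℂ, c ≤ s.re → ‖f s‖ ≤ C) {z : ℂ} (hz : c < z.re) :
    ∫ y : ℝ, f (c + y * I) * (1 / (z - (c + y * I)) - 1 / (refl c z - (c + y * I)))
      = 2 * Real.pi * f z := by
  have hmem : ∀ y : ℝ, (c : ℂ) + y * I ∈ {s : ℂ | c ≤ s.re} := by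
    intro y; simp
  have hza : z.re ≠ c := by linarith
  have hra : (refl c z).re ≠ c := by rw [refl_re]; linarith
  have hnhds : {s : ℂ | c ≤ s.re} ∈ 𝓝 z :=
    mem_of_superset ((isOpen_lt continuous_const Complex.continuous_re).mem_nhds hz)
      (fun s hs => show c ≤ s.re from le_of_lt hs)
  -- the function with removed singularity
  have hd2 : DifferentiableOn ℂ (dslope f z) {s : ℂ | c ≤ s.re} :=
    (Complex.differentiableOn_dslope hnhds).mpr hd
  have hC : 0 ≤ C := (norm_nonneg _).trans (hb z hz.le)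
  have heq : ∀ y : ℝ, (f (c + y * I) - f z) * (1 / (z - (c + y * I)) - 1 / (refl c z - (c + y * I)))
      = -(dslope f z (c + y * I)) * ((refl c z - z) / (refl c z - (c + y * I))) := by
    intro y
    have h1 := sub_line_ne_zero hza y
    have h2 := sub_line_ne_zero hra y
    have hne : (c : ℂ) + y * I ≠ z := fun h => h1 (by rw [h, sub_self])
    rw [dslope_of_ne _ hne, slope_def_field, div_sub_div _ _ h1 h2]
    have h3 : (c : ℂ) + y * I - z ≠ 0 := sub_ne_zero.mpr hne
    field_simp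
    ring
  have h0 : ∫ y : ℝ, (f (c + y * I) - f z) *
      (1 / (z - (c + y * I)) - 1 / (refl c z - (c + y * I))) = 0 := by
    have hint : Integrable fun y : ℝ => (f (c + y * I) - f z) *
        (1 / (z - (c + y * I)) - 1 / (refl c z - (c + y * I))) :=
      integrable_kernel (f := fun s => f s - f z) (C := C + C)
        ((line_continuous hd hmem).sub continuous_const)
        (fun y => (norm_sub_le _ _).trans (add_le_add (hb _ (hmem y)) (hb z hz.le))) hza hra
    have hI : Integrable fun y : ℝ =>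
        (fun s : ℂ => -(dslope f z s) * ((refl c z - z) / (refl c z - s))) (c + y * I) :=
      hint.congr (Eventually.of_forall heq)
    rw [show (fun y : ℝ => (f (c + y * I) - f z) *
        (1 / (z - (c + y * I)) - 1 / (refl c z - (c + y * I))))
        = fun y : ℝ => (fun s : ℂ => -(dslope f z s) * ((refl c z - z) / (refl c z - s))) (c + y * I)
        from funext heq]
    apply integral_line_eq_zero_right (F := fun s : ℂ => -(dslope f z s) *
      ((refl c z - z) / (refl c z - s))) (c := c) (C := (C + C) * (4 * ‖refl c z - z‖))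
      (R0 := 2 * (‖z - c‖ + ‖refl c z - c‖) + 1) (by positivity)
    · apply hd2.neg.mul
      apply DifferentiableOn.div (by fun_prop) (by fun_prop)
      intro s hs h
      have h1 := congrArg Complex.re h
      simp only [Complex.sub_re, refl_re, Complex.zero_re] at h1
      have : c ≤ s.re := hs
      linarith
    · intro s hs hR
      have hspos : 0 < ‖s - c‖ := by
        have := norm_nonneg (z - c); have := norm_nonneg (refl c z - c); linarith
      have hne : s ≠ z := by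
        intro h
        rw [h] at hR
        have := norm_nonneg (z - c); have := norm_nonneg (refl c z - c)
        linarith
      have h2 : refl c z - s ≠ 0 := by
        intro h
        have h1 := congrArg Complex.re h
        simp only [Complex.sub_re, refl_re, Complex.zero_re] at h1
        linarith
      have h1 : z - s ≠ 0 := sub_ne_zero.mpr hne.symm
      have e1 : -(dslope f z s) * ((refl c z - z) / (refl c z - s))
          = (f s - f z) * (1 / (z - s) - 1 / (refl c z - s)) := by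
        rw [dslope_of_ne _ hne, slope_def_field, div_sub_div _ _ h1 h2]
        have h3 : s - z ≠ 0 := sub_ne_zero.mpr hne
        field_simp
        ring
      rw [e1, norm_mul]
      calc ‖f s - f z‖ * ‖1 / (z - s) - 1 / (refl c z - s)‖
          ≤ (C + C) * ((4 * ‖refl c z - z‖) / ‖s - c‖ ^ 2) :=
            mul_le_mul ((norm_sub_le _ _).trans (add_le_add (hb _ hs) (hb z hz.le)))
              (kernel_bound hR) (norm_nonneg _) (by positivity)
        _ = _ := by ring
    · exact hI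
  have hkint : Integrable fun y : ℝ => (1 / (z - (c + y * I)) - 1 / (refl c z - (c + y * I))) := by
    have := integrable_kernel (f := fun _ => (1 : ℂ)) (c := c) (C := 1) continuous_const
      (fun y => by simp) hza hra
    simpa using this
  have h1 : ∫ y : ℝ, f z * (1 / (z - (c + y * I)) - 1 / (refl c z - (c + y * I)))
      = f z * (2 * Real.pi) := by
    rw [integral_const_mul, integral_poisson_kernel hz]
  have h2 : ∫ y : ℝ, (f (c + y * I) - f z) *
      (1 / (z - (c + y * I)) - 1 / (refl c z - (c + y * I)))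
      = (∫ y : ℝ, f (c + y * I) * (1 / (z - (c + y * I)) - 1 / (refl c z - (c + y * I))))
        - ∫ y : ℝ, f z * (1 / (z - (c + y * I)) - 1 / (refl c z - (c + y * I))) := by
    rw [← integral_sub]
    · congr 1
      ext y
      ring
    · exact integrable_kernel (line_continuous hd hmem) (fun y => hb _ (hmem y)) hza hra
    · exact hkint.const_mul _
  rw [h0, h1] at h2
  linear_combination -h2

/-- bounded function holomorphic on the right, both kernel points on the left: integral `0`. -/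
theorem kernel_zero_right {f : ℂ → ℂ} {c C : ℝ} (hd : DifferentiableOn ℂ f {s | c ≤ s.re})
    (hb : ∀ s : ℂ, c ≤ s.re → ‖f s‖ ≤ C) {z w : ℂ} (hz : z.re < c) (hw : w.re < c) :
    ∫ y : ℝ, f (c + y * I) * (1 / (z - (c + y * I)) - 1 / (w - (c + y * I))) = 0 := by
  have hmem : ∀ y : ℝ, (c : ℂ) + y * I ∈ {s : ℂ | c ≤ s.re} := by
    intro y; simp
  have hC : 0 ≤ C := (norm_nonneg _).trans (hb _ (hmem 0))
  apply integral_line_eq_zero_right (F := fun s : ℂ => f s * (1 / (z - s) - 1 / (w - s)))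
    (C := C * (4 * ‖w - z‖)) (R0 := 2 * (‖z - c‖ + ‖w - c‖) + 1) (by positivity)
  · apply hd.mul
    apply DifferentiableOn.sub
    · apply DifferentiableOn.div (by fun_prop) (by fun_prop)
      intro s hs h
      have h1 := congrArg Complex.re h
      simp only [Complex.sub_re, Complex.zero_re] at h1
      have : c ≤ s.re := hs
      linarith
    · apply DifferentiableOn.div (by fun_prop) (by fun_prop)
      intro s hs h
      have h1 := congrArg Complex.re h
      simp only [Complex.sub_re, Complex.zero_re] at h1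
      have : c ≤ s.re := hs
      linarith
  · intro s hs hR
    rw [norm_mul]
    calc ‖f s‖ * ‖1 / (z - s) - 1 / (w - s)‖
        ≤ C * ((4 * ‖w - z‖) / ‖s - c‖ ^ 2) :=
          mul_le_mul (hb _ hs) (kernel_bound hR) (norm_nonneg _) (by positivity)
      _ = _ := by ring
  · exact integrable_kernel (line_continuous hd hmem) (fun y => hb _ (hmem y)) hz.ne hw.ne

/-- bounded function holomorphic on the left, both kernel points on the right: integral `0`. -/
theorem kernel_zero_left {f : ℂ → ℂ} {c C : ℝ} (hd : DifferentiableOn ℂ f {s | s.re ≤ c})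
    (hb : ∀ s : ℂ, s.re ≤ c → ‖f s‖ ≤ C) {z w : ℂ} (hz : c < z.re) (hw : c < w.re) :
    ∫ y : ℝ, f (c + y * I) * (1 / (z - (c + y * I)) - 1 / (w - (c + y * I))) = 0 := by
  have hmem : ∀ y : ℝ, (c : ℂ) + y * I ∈ {s : ℂ | s.re ≤ c} := by
    intro y; simp
  have hC : 0 ≤ C := (norm_nonneg _).trans (hb _ (hmem 0))
  apply integral_line_eq_zero_left (F := fun s : ℂ => f s * (1 / (z - s) - 1 / (w - s)))
    (C := C * (4 * ‖w - z‖)) (R0 := 2 * (‖z - c‖ + ‖w - c‖) + 1) (by positivity)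
  · apply hd.mul
    apply DifferentiableOn.sub
    · apply DifferentiableOn.div (by fun_prop) (by fun_prop)
      intro s hs h
      have h1 := congrArg Complex.re h
      simp only [Complex.sub_re, Complex.zero_re] at h1
      have : s.re ≤ c := hs
      linarith
    · apply DifferentiableOn.div (by fun_prop) (by fun_prop)
      intro s hs h
      have h1 := congrArg Complex.re h
      simp only [Complex.sub_re, Complex.zero_re] at h1
      have : s.re ≤ c := hs
      linarith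
  · intro s hs hR
    rw [norm_mul]
    calc ‖f s‖ * ‖1 / (z - s) - 1 / (w - s)‖
        ≤ C * ((4 * ‖w - z‖) / ‖s - c‖ ^ 2) :=
          mul_le_mul (hb _ hs) (kernel_bound hR) (norm_nonneg _) (by positivity)
      _ = _ := by ring
  · exact integrable_kernel (line_continuous hd hmem) (fun y => hb _ (hmem y)) hz.ne' hw.ne'

/-- Cauchy formula on the right half-plane in difference form. -/
theorem cauchy_right {f : ℂ → ℂ} {c C : ℝ} (hd : DifferentiableOn ℂ f {s | c ≤ s.re})
    (hb : ∀ s : ℂ, c ≤ s.re → ‖f s‖ ≤ C) {z w : ℂ} (hz : c < z.re) (hw : c < w.re) :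
    ∫ y : ℝ, f (c + y * I) * (1 / (z - (c + y * I)) - 1 / (w - (c + y * I)))
      = 2 * Real.pi * (f z - f w) := by
  have hmem : ∀ y : ℝ, (c : ℂ) + y * I ∈ {s : ℂ | c ≤ s.re} := by
    intro y; simp
  have hrz : (refl c z).re < c := by rw [refl_re]; linarith
  have hrw : (refl c w).re < c := by rw [refl_re]; linarith
  have hc := line_continuous hd hmem
  have hb' : ∀ y : ℝ, ‖f (c + y * I)‖ ≤ C := fun y => hb _ (hmem y)
  have h1 := poisson_right hd hb hz
  have h2 := poisson_right hd hb hw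
  have h3 := kernel_zero_right hd hb hrz hrw
  have i1 := integrable_kernel hc hb' hz.ne' hrz.ne
  have i2 := integrable_kernel hc hb' hw.ne' hrw.ne
  have i3 := integrable_kernel hc hb' hrz.ne hrw.ne
  have e : (fun y : ℝ => f (c + y * I) * (1 / (z - (c + y * I)) - 1 / (w - (c + y * I))))
      = fun y : ℝ => (f (c + y * I) * (1 / (z - (c + y * I)) - 1 / (refl c z - (c + y * I)))
        - f (c + y * I) * (1 / (w - (c + y * I)) - 1 / (refl c w - (c + y * I))))
        + f (c + y * I) * (1 / (refl c z - (c + y * I)) - 1 / (refl c w - (c + y * I))) := by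
    ext y
    ring
  have hadd := integral_add (i1.sub i2) i3
  simp only [Pi.sub_apply] at hadd
  rw [e, hadd, integral_sub i1 i2, h1, h2, h3]
  ring

/-- **Jump representation.**  `fR` bounded and holomorphic on `Re s ≥ c`, tending to `0` along the
positive reals, `fL` bounded and holomorphic on `Re s ≤ c`, and `J = fR - fL` integrable on the
line: then `fR z = (1/2π) ∫ J(c+iy)/(z-c-iy) dy` for `Re z > c`. -/
theorem jump_repr {fR fL J : ℂ → ℂ} {c C C' : ℝ}
    (hdR : DifferentiableOn ℂ fR {s | c ≤ s.re}) (hbR : ∀ s : ℂ, c ≤ s.re → ‖fR s‖ ≤ C)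
    (hdL : DifferentiableOn ℂ fL {s | s.re ≤ c}) (hbL : ∀ s : ℂ, s.re ≤ c → ‖fL s‖ ≤ C')
    (hlim : Tendsto (fun x : ℝ => fR x) atTop (𝓝 0))
    (hJ : ∀ y : ℝ, J (c + y * I) = fR (c + y * I) - fL (c + y * I))
    (hJi : Integrable fun y : ℝ => J (c + y * I)) {z : ℂ} (hz : c < z.re) :
    fR z = (1 / (2 * Real.pi)) * ∫ y : ℝ, J (c + y * I) / (z - (c + y * I)) := by
  have hmemR : ∀ y : ℝ, (c : ℂ) + y * I ∈ {s : ℂ | c ≤ s.re} := by
    intro y; simp
  have hmemL : ∀ y : ℝ, (c : ℂ) + y * I ∈ {s : ℂ | s.re ≤ c} := by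
    intro y; simp
  -- integrability of `J/(a-s)`
  have hJk : ∀ a : ℂ, c < a.re → Integrable fun y : ℝ => J (c + y * I) / (a - (c + y * I)) := by
    intro a ha
    have hpos : 0 < a.re - c := by linarith
    have : Integrable fun y : ℝ => (1 / (a - (c + y * I))) * J (c + y * I) := by
      apply hJi.bdd_mul (c := 1 / (a.re - c))
      · exact (continuous_const.div (by fun_prop)
          (fun y => sub_line_ne_zero ha.ne' y)).aestronglyMeasurable
      · refine Eventually.of_forall fun y => ?_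
        rw [norm_div, norm_one]
        apply one_div_le_one_div_of_le hpos
        have := Complex.abs_re_le_norm (a - (c + y * I))
        simp at this
        exact (le_abs_self _).trans this
    refine this.congr (Eventually.of_forall fun y => ?_)
    simp only
    ring
  have hdiff : ∀ w : ℂ, c < w.re →
      (∫ y : ℝ, J (c + y * I) / (z - (c + y * I))) - ∫ y : ℝ, J (c + y * I) / (w - (c + y * I))
        = 2 * Real.pi * (fR z - fR w) := by
    intro w hw
    have h1 := cauchy_right hdR hbR hz hw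
    have h2 := kernel_zero_left hdL hbL hz hw
    have i1 := integrable_kernel (line_continuous hdR hmemR) (fun y => hbR _ (hmemR y)) hz.ne' hw.ne'
    have i2 := integrable_kernel (line_continuous hdL hmemL) (fun y => hbL _ (hmemL y)) hz.ne' hw.ne'
    rw [← integral_sub (hJk z hz) (hJk w hw), ← h1, ← sub_zero (∫ y : ℝ, fR (c + y * I) * _), ← h2,
      ← integral_sub i1 i2]
    congr 1
    ext y
    rw [hJ y]
    ring
  -- limit `w → +∞`
  have hlimJ : Tendsto (fun x : ℝ => ∫ y : ℝ, J (c + y * I) / ((x : ℂ) - (c + y * I))) atTop (𝓝 0) := by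
    rw [tendsto_zero_iff_norm_tendsto_zero]
    have hb1 : Tendsto (fun x : ℝ => (∫ y : ℝ, ‖J (c + y * I)‖) / (x - c)) atTop (𝓝 0) :=
      tendsto_const_nhds.div_atTop (tendsto_atTop_add_const_right _ (-c) tendsto_id)
    refine squeeze_zero' (Eventually.of_forall fun x => norm_nonneg _) ?_ hb1
    filter_upwards [eventually_gt_atTop c] with x hx
    have hpos : 0 < x - c := by linarith
    refine (norm_integral_le_integral_norm _).trans ?_
    rw [div_eq_mul_inv, ← integral_mul_const]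
    apply integral_mono (hJk x (by simpa using hx)).norm (hJi.norm.mul_const _)
    intro y
    simp only
    rw [norm_div, div_eq_mul_inv]
    apply mul_le_mul_of_nonneg_left _ (norm_nonneg _)
    apply inv_anti₀ hpos
    have := Complex.abs_re_le_norm ((x : ℂ) - (c + y * I))
    simp at this
    exact (le_abs_self _).trans this
  have hfin : Tendsto (fun x : ℝ => (∫ y : ℝ, J (c + y * I) / (z - (c + y * I)))
      - ∫ y : ℝ, J (c + y * I) / ((x : ℂ) - (c + y * I))) atTop
      (𝓝 ((∫ y : ℝ, J (c + y * I) / (z - (c + y * I))) - 0)) := tendsto_const_nhds.sub hlimJ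
  have hfin2 : Tendsto (fun x : ℝ => 2 * (Real.pi : ℂ) * (fR z - fR x)) atTop
      (𝓝 (2 * (Real.pi : ℂ) * (fR z - 0))) :=
    tendsto_const_nhds.mul (tendsto_const_nhds.sub hlim)
  have heq : (fun x : ℝ => (∫ y : ℝ, J (c + y * I) / (z - (c + y * I)))
      - ∫ y : ℝ, J (c + y * I) / ((x : ℂ) - (c + y * I))) =ᶠ[atTop]
      fun x : ℝ => 2 * (Real.pi : ℂ) * (fR z - fR x) := by
    filter_upwards [eventually_gt_atTop c] with x hx
    exact hdiff x (by simpa using hx)
  have h := tendsto_nhds_unique (hfin.congr' heq) hfin2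
  rw [sub_zero, sub_zero] at h
  rw [h]
  have hpi : (Real.pi : ℂ) ≠ 0 := by exact_mod_cast Real.pi_ne_zero
  field_simp

end Crest.Agent.R006.HalfPlanex186
end

-- ▼ part R006/P3_Ray_606
section

/-!
# Row 6, block P3: turning a ray (helper606)

`ray z0 θ r = z0 + r e^{iθ}`, `rayInt f z0 θ = ∫_0^∞ f(z0 + r e^{iθ}) e^{iθ} dr`.
`ray_shift`: for `f` holomorphic on a closed sector with `r sup |f| → 0` at both ends the ray
integrals over the two sides of the sector agree.  Only Cauchy's theorem for rectangles is used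
(in the coordinate `s = z0 + e^w`).
-/

set_option autoImplicit false

namespace Crest.Agent.R006.P3R

open Set Filter Topology MeasureTheory Complex

/-- the point at distance `r` on the ray from `z0` with angle `θ` -/
noncomputable def ray (z0 : ℂ) (θ : ℝ) (r : ℝ) : ℂ := z0 + r * cexp (θ * I)






end Crest.Agent.R006.P3R
end

-- ▼ part R006/P3_Rect_606
section

/-!
# Row 6, block P3: rectangles with one pole (helper606)

`rectInt f x1 x2 y1 y2` = integral of `f` over the boundary of `[x1,x2] × [y1,y2]`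
(counterclockwise).  `rectInt_pole`: for `f = h(s) (s-p)^{-k}` with `h` holomorphic on the closed
rectangle centred at `p` it equals the circle integral over `C(p,r)`.
`strip_pole`: the same for a vertical strip.
-/

set_option autoImplicit false

namespace Crest.Agent.R006.P3R

open Set Filter Topology MeasureTheory Complex

/-- integral over the boundary of a rectangle, counterclockwise -/
noncomputable def rectInt (f : ℂ → ℂ) (x1 x2 y1 y2 : ℝ) : ℂ :=
  (∫ x in x1..x2, f (x + y1 * I)) - (∫ x in x1..x2, f (x + y2 * I)) +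
    I • (∫ y in y1..y2, f (x2 + y * I)) - I • (∫ y in y1..y2, f (x1 + y * I))

/-- the boundary of the rectangle -/
def rectBd (x1 x2 y1 y2 : ℝ) : Set ℂ :=
  {s | (s.re ∈ Icc x1 x2 ∧ (s.im = y1 ∨ s.im = y2)) ∨ (s.im ∈ Icc y1 y2 ∧ (s.re = x1 ∨ s.re = x2))}

lemma mem_bd1 {x1 x2 y1 y2 x : ℝ} (h : x1 ≤ x2) (hx : x ∈ uIcc x1 x2) :
    ((x : ℂ) + y1 * I) ∈ rectBd x1 x2 y1 y2 := by
  rw [uIcc_of_le h] at hx
  left; simpa using hx

lemma mem_bd2 {x1 x2 y1 y2 x : ℝ} (h : x1 ≤ x2) (hx : x ∈ uIcc x1 x2) :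
    ((x : ℂ) + y2 * I) ∈ rectBd x1 x2 y1 y2 := by
  rw [uIcc_of_le h] at hx
  left; simpa using hx

lemma mem_bd3 {x1 x2 y1 y2 y : ℝ} (h : y1 ≤ y2) (hy : y ∈ uIcc y1 y2) :
    ((x1 : ℂ) + y * I) ∈ rectBd x1 x2 y1 y2 := by
  rw [uIcc_of_le h] at hy
  right; simpa using hy

lemma mem_bd4 {x1 x2 y1 y2 y : ℝ} (h : y1 ≤ y2) (hy : y ∈ uIcc y1 y2) :
    ((x2 : ℂ) + y * I) ∈ rectBd x1 x2 y1 y2 := by
  rw [uIcc_of_le h] at hy
  right; simpa using hy

section
variable {f g : ℂ → ℂ} {x1 x2 y1 y2 : ℝ}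

lemma rectInt_congr (hx : x1 ≤ x2) (hy : y1 ≤ y2) (h : EqOn f g (rectBd x1 x2 y1 y2)) :
    rectInt f x1 x2 y1 y2 = rectInt g x1 x2 y1 y2 := by
  unfold rectInt
  rw [intervalIntegral.integral_congr (fun x h' => h (mem_bd1 (y1 := y1) (y2 := y2) hx h')),
    intervalIntegral.integral_congr (fun x h' => h (mem_bd2 (y1 := y1) (y2 := y2) hx h')),
    intervalIntegral.integral_congr (fun x h' => h (mem_bd3 (x1 := x1) (x2 := x2) hy h')),
    intervalIntegral.integral_congr (fun x h' => h (mem_bd4 (x1 := x1) (x2 := x2) hy h'))]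

lemma side_int (hf : ContinuousOn f (rectBd x1 x2 y1 y2)) (hx : x1 ≤ x2) (hy : y1 ≤ y2) :
    IntervalIntegrable (fun x : ℝ => f (x + y1 * I)) volume x1 x2 ∧
    IntervalIntegrable (fun x : ℝ => f (x + y2 * I)) volume x1 x2 ∧
    IntervalIntegrable (fun y : ℝ => f (x2 + y * I)) volume y1 y2 ∧
    IntervalIntegrable (fun y : ℝ => f (x1 + y * I)) volume y1 y2 := by
  refine ⟨ContinuousOn.intervalIntegrable ?_, ContinuousOn.intervalIntegrable ?_,
    ContinuousOn.intervalIntegrable ?_, ContinuousOn.intervalIntegrable ?_⟩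
  · exact hf.comp (by fun_prop) fun x h => mem_bd1 hx h
  · exact hf.comp (by fun_prop) fun x h => mem_bd2 hx h
  · exact hf.comp (by fun_prop) fun x h => mem_bd4 hy h
  · exact hf.comp (by fun_prop) fun x h => mem_bd3 hy h

lemma rectInt_add (hx : x1 ≤ x2) (hy : y1 ≤ y2) (hf : ContinuousOn f (rectBd x1 x2 y1 y2))
    (hg : ContinuousOn g (rectBd x1 x2 y1 y2)) :
    rectInt (fun s => f s + g s) x1 x2 y1 y2 = rectInt f x1 x2 y1 y2 + rectInt g x1 x2 y1 y2 := by
  obtain ⟨a1, a2, a3, a4⟩ := side_int hf hx hy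
  obtain ⟨b1, b2, b3, b4⟩ := side_int hg hx hy
  unfold rectInt
  rw [intervalIntegral.integral_add a1 b1, intervalIntegral.integral_add a2 b2,
    intervalIntegral.integral_add a3 b3, intervalIntegral.integral_add a4 b4]
  simp only [smul_eq_mul]; ring

lemma rectInt_const_mul (c : ℂ) :
    rectInt (fun s => c * f s) x1 x2 y1 y2 = c * rectInt f x1 x2 y1 y2 := by
  unfold rectInt
  simp only [intervalIntegral.integral_const_mul, smul_eq_mul]; ring

/-- Cauchy's theorem -/
lemma rectInt_zero (hx : x1 ≤ x2) (hy : y1 ≤ y2)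
    (hf : DifferentiableOn ℂ f (Icc x1 x2 ×ℂ Icc y1 y2)) : rectInt f x1 x2 y1 y2 = 0 := by
  have key := Complex.integral_boundary_rect_eq_zero_of_differentiableOn f
    ((x1 : ℂ) + y1 * I) ((x2 : ℂ) + y2 * I) (by
      have e1 : ((x1 : ℂ) + y1 * I).re = x1 := by simp
      have e2 : ((x1 : ℂ) + y1 * I).im = y1 := by simp
      have e3 : ((x2 : ℂ) + y2 * I).re = x2 := by simp
      have e4 : ((x2 : ℂ) + y2 * I).im = y2 := by simp
      rw [e1, e2, e3, e4, uIcc_of_le hx, uIcc_of_le hy]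
      exact hf)
  simpa [rectInt] using key

/-- a function with a primitive on the boundary -/
lemma rectInt_deriv {F : ℂ → ℂ} (hx : x1 ≤ x2) (hy : y1 ≤ y2)
    (hf : ContinuousOn f (rectBd x1 x2 y1 y2))
    (hF : ∀ s ∈ rectBd x1 x2 y1 y2, HasDerivAt F (f s) s) : rectInt f x1 x2 y1 y2 = 0 := by
  obtain ⟨a1, a2, a3, a4⟩ := side_int hf hx hy
  have hor : ∀ y : ℝ, (∀ x ∈ uIcc x1 x2, ((x : ℂ) + y * I) ∈ rectBd x1 x2 y1 y2) →
      IntervalIntegrable (fun x : ℝ => f (x + y * I)) volume x1 x2 →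
      (∫ x in x1..x2, f (x + y * I)) = F (x2 + y * I) - F (x1 + y * I) := by
    intro y h1 h2
    refine intervalIntegral.integral_eq_sub_of_hasDerivAt (f := fun x : ℝ => F (x + y * I))
      (fun x hx' => ?_) h2
    have h3 := hF _ (h1 x hx')
    have h4 : HasDerivAt (fun x : ℝ => ((x : ℂ) + y * I)) 1 x := by
      simpa using (Complex.ofRealCLM.hasDerivAt (x := x)).add_const (y * I : ℂ)
    have h5 := h3.comp_of_eq x h4 rfl
    rw [mul_one] at h5
    exact h5
  have ver : ∀ x : ℝ, (∀ y ∈ uIcc y1 y2, ((x : ℂ) + y * I) ∈ rectBd x1 x2 y1 y2) →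
      IntervalIntegrable (fun y : ℝ => f (x + y * I)) volume y1 y2 →
      I • (∫ y in y1..y2, f (x + y * I)) = F (x + y2 * I) - F (x + y1 * I) := by
    intro x h1 h2
    rw [← intervalIntegral.integral_smul]
    refine intervalIntegral.integral_eq_sub_of_hasDerivAt (f := fun y : ℝ => F (x + y * I))
      (f' := fun y : ℝ => I • f (x + y * I)) (fun y hy' => ?_) (h2.smul I)
    have h3 := hF _ (h1 y hy')
    have h4 : HasDerivAt (fun y : ℝ => ((x : ℂ) + y * I)) I y := by
      simpa using ((Complex.ofRealCLM.hasDerivAt (x := y)).mul_const I).const_add (x : ℂ)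
    have h5 := h3.comp_of_eq y h4 rfl
    rw [smul_eq_mul, mul_comm]
    exact h5
  unfold rectInt
  rw [hor y1 (fun x h => mem_bd1 hx h) a1, hor y2 (fun x h => mem_bd2 hx h) a2,
    ver x2 (fun x h => mem_bd4 hy h) a3, ver x1 (fun x h => mem_bd3 hy h) a4]
  ring

end

/-- real integral used below -/
lemma integral_arctan_aux {a b : ℝ} (hb : 0 < b) (c : ℝ) :
    (∫ t in (c - a)..(c + a), 2 * b / ((t - c) ^ 2 + b ^ 2)) = 4 * Real.arctan (a / b) := by
  have h := intervalIntegral.integral_eq_sub_of_hasDerivAt (a := c - a) (b := c + a)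
    (f := fun t => 2 * Real.arctan ((t - c) / b)) (f' := fun t => 2 * b / ((t - c) ^ 2 + b ^ 2))
    (fun t _ => by
      have h1 : HasDerivAt (fun t : ℝ => (t - c) / b) (1 / b) t :=
        ((hasDerivAt_id t).sub_const c).div_const b
      have h2 := (h1.arctan).const_mul 2
      have h6 : 2 * b / ((t - c) ^ 2 + b ^ 2) = 2 * (1 / (1 + ((t - c) / b) ^ 2) * (1 / b)) := by
        have : b ≠ 0 := hb.ne'
        have h5 : (t - c) ^ 2 + b ^ 2 ≠ 0 := by positivity
        field_simp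
        ring
      rw [h6]; exact h2)
    (by
      apply Continuous.intervalIntegrable
      refine Continuous.div continuous_const (by fun_prop) fun t => ?_
      positivity)
  rw [h]
  have e1 : (c + a - c) / b = a / b := by ring
  have e2 : (c - a - c) / b = -(a / b) := by ring
  rw [e1, e2, Real.arctan_neg]
  ring

lemma not_bd_center {p : ℂ} {a b : ℝ} (ha : 0 < a) (hb : 0 < b) {s : ℂ}
    (hs : s ∈ rectBd (p.re - a) (p.re + a) (p.im - b) (p.im + b)) : s - p ≠ 0 := by
  intro h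
  have h1 : s.re - p.re = 0 := by simpa using congrArg Complex.re h
  have h2 : s.im - p.im = 0 := by simpa using congrArg Complex.im h
  rcases hs with ⟨_, h3 | h3⟩ | ⟨_, h3 | h3⟩ <;> linarith

lemma cont_zpow_bd {p : ℂ} {a b : ℝ} (ha : 0 < a) (hb : 0 < b) (n : ℤ) :
    ContinuousOn (fun s : ℂ => (s - p) ^ n)
      (rectBd (p.re - a) (p.re + a) (p.im - b) (p.im + b)) := by
  refine ContinuousOn.zpow₀ (by fun_prop) n fun s hs => Or.inl ?_
  exact not_bd_center ha hb hs

lemma rectInt_zpow {p : ℂ} {a b : ℝ} (ha : 0 < a) (hb : 0 < b) {n : ℤ} (hn : n ≠ -1) :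
    rectInt (fun s => (s - p) ^ n) (p.re - a) (p.re + a) (p.im - b) (p.im + b) = 0 := by
  have hn' : (n + 1 : ℂ) ≠ 0 := by
    have : n + 1 ≠ 0 := by omega
    exact_mod_cast this
  refine rectInt_deriv (F := fun s => (s - p) ^ (n + 1) / (n + 1)) (by linarith) (by linarith)
    (cont_zpow_bd ha hb n) fun s hs => ?_
  have h0 := not_bd_center ha hb hs
  have h1 : HasDerivAt (fun s : ℂ => s - p) 1 s := (hasDerivAt_id s).sub_const p
  have h2 := (hasDerivAt_zpow (n + 1) (s - p) (Or.inl h0)).comp_of_eq s h1 rfl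
  have h3 := h2.div_const (n + 1 : ℂ)
  have h4 : ((n + 1 : ℤ) : ℂ) * (s - p) ^ (n + 1 - 1) * 1 / ((n : ℂ) + 1) = (s - p) ^ n := by
    rw [add_sub_cancel_right]
    push_cast
    field_simp
  rw [h4] at h3
  exact h3

lemma rectInt_inv {p : ℂ} {a b : ℝ} (ha : 0 < a) (hb : 0 < b) :
    rectInt (fun s => (s - p)⁻¹) (p.re - a) (p.re + a) (p.im - b) (p.im + b) =
      2 * Real.pi * I := by
  have hc : ContinuousOn (fun s : ℂ => (s - p)⁻¹)
      (rectBd (p.re - a) (p.re + a) (p.im - b) (p.im + b)) := by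
    simpa using cont_zpow_bd (p := p) ha hb (-1)
  obtain ⟨a1, a2, a3, a4⟩ := side_int hc (by linarith) (by linarith)
  have hp : (p : ℂ) = p.re + p.im * I := (Complex.re_add_im p).symm
  have hI : I * I = -1 := Complex.I_mul_I
  have hor : (∫ x in (p.re - a)..(p.re + a), ((x : ℂ) + ((p.im - b : ℝ) : ℂ) * I - p)⁻¹) -
      (∫ x in (p.re - a)..(p.re + a), ((x : ℂ) + ((p.im + b : ℝ) : ℂ) * I - p)⁻¹) =
      I * ((4 * Real.arctan (a / b) : ℝ) : ℂ) := by
    rw [← intervalIntegral.integral_sub a1 a2, ← integral_arctan_aux hb p.re,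
      ← intervalIntegral.integral_ofReal, ← intervalIntegral.integral_const_mul]
    refine intervalIntegral.integral_congr fun x _ => ?_
    have e1 : (x : ℂ) + ((p.im - b : ℝ) : ℂ) * I - p = ((x - p.re : ℝ) : ℂ) - b * I := by
      apply Complex.ext <;> simp
    have e2 : (x : ℂ) + ((p.im + b : ℝ) : ℂ) * I - p = ((x - p.re : ℝ) : ℂ) + b * I := by
      apply Complex.ext <;> simp
    simp only [e1, e2]
    have h3 : ((x - p.re : ℝ) : ℂ) - b * I ≠ 0 := by
      intro h; have := congrArg Complex.im h; simp at this; linarith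
    have h4 : ((x - p.re : ℝ) : ℂ) + b * I ≠ 0 := by
      intro h; have := congrArg Complex.im h; simp at this; linarith
    have h5 : (((x - p.re) ^ 2 + b ^ 2 : ℝ) : ℂ) ≠ 0 := by
      have : (x - p.re) ^ 2 + b ^ 2 ≠ 0 := by positivity
      exact_mod_cast this
    have h6 : (((x - p.re : ℝ) : ℂ) - b * I) * (((x - p.re : ℝ) : ℂ) + b * I) =
        (((x - p.re) ^ 2 + b ^ 2 : ℝ) : ℂ) := by
      push_cast
      linear_combination (-(b : ℂ) ^ 2) * hI
    have h7 : (2 * b / ((x - p.re) ^ 2 + b ^ 2) : ℝ) =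
        (2 * (b : ℂ)) / (((x - p.re) ^ 2 + b ^ 2 : ℝ) : ℂ) := by push_cast; ring
    rw [h7, inv_sub_inv h3 h4, h6]
    ring
  have hver : (∫ y in (p.im - b)..(p.im + b), (((p.re + a : ℝ) : ℂ) + y * I - p)⁻¹) -
      (∫ y in (p.im - b)..(p.im + b), (((p.re - a : ℝ) : ℂ) + y * I - p)⁻¹) =
      ((4 * Real.arctan (b / a) : ℝ) : ℂ) := by
    rw [← intervalIntegral.integral_sub a3 a4, ← integral_arctan_aux ha p.im,
      ← intervalIntegral.integral_ofReal]
    refine intervalIntegral.integral_congr fun y _ => ?_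
    have e1 : ((p.re + a : ℝ) : ℂ) + y * I - p = a + ((y - p.im : ℝ) : ℂ) * I := by
      apply Complex.ext <;> simp
    have e2 : ((p.re - a : ℝ) : ℂ) + y * I - p = -a + ((y - p.im : ℝ) : ℂ) * I := by
      apply Complex.ext <;> simp
    simp only [e1, e2]
    have h3 : (a : ℂ) + ((y - p.im : ℝ) : ℂ) * I ≠ 0 := by
      intro h; have := congrArg Complex.re h; simp at this; linarith
    have h4 : -(a : ℂ) + ((y - p.im : ℝ) : ℂ) * I ≠ 0 := by
      intro h; have := congrArg Complex.re h; simp at this; linarith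
    have h5 : (((y - p.im) ^ 2 + a ^ 2 : ℝ) : ℂ) ≠ 0 := by
      have : (y - p.im) ^ 2 + a ^ 2 ≠ 0 := by positivity
      exact_mod_cast this
    have h6 : ((a : ℂ) + ((y - p.im : ℝ) : ℂ) * I) * (-(a : ℂ) + ((y - p.im : ℝ) : ℂ) * I) =
        -(((y - p.im) ^ 2 + a ^ 2 : ℝ) : ℂ) := by
      push_cast
      linear_combination ((y : ℂ) - p.im) ^ 2 * hI
    have h7 : (2 * a / ((y - p.im) ^ 2 + a ^ 2) : ℝ) =
        (2 * (a : ℂ)) / (((y - p.im) ^ 2 + a ^ 2 : ℝ) : ℂ) := by push_cast; ring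
    rw [h7, inv_sub_inv h3 h4, h6]
    field_simp
    ring
  have harc : Real.arctan (a / b) + Real.arctan (b / a) = Real.pi / 2 := by
    have h1 : b / a = (a / b)⁻¹ := (inv_div a b).symm
    rw [h1, Real.arctan_inv_of_pos (by positivity)]
    ring
  have hver' := congrArg (fun z : ℂ => I * z) hver
  simp only [mul_sub] at hver'
  unfold rectInt
  simp only [smul_eq_mul]
  rw [hor, add_sub_assoc, hver', ← mul_add, ← ofReal_add, ← mul_add, harc]
  push_cast
  ring

/-- one pole of order `≤ k` in the centre -/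
theorem rectInt_pole {p : ℂ} {a b r : ℝ} (hr : 0 < r) (hra : r ≤ a) (hrb : r ≤ b) (k : ℕ) :
    ∀ h : ℂ → ℂ, DifferentiableOn ℂ h
      (Icc (p.re - a) (p.re + a) ×ℂ Icc (p.im - b) (p.im + b)) →
    rectInt (fun s => h s * (s - p) ^ (-(k : ℤ))) (p.re - a) (p.re + a) (p.im - b) (p.im + b) =
      ∮ s in C(p, r), h s * (s - p) ^ (-(k : ℤ)) := by
  have ha : 0 < a := lt_of_lt_of_le hr hra
  have hb : 0 < b := lt_of_lt_of_le hr hrb
  have hbd : rectBd (p.re - a) (p.re + a) (p.im - b) (p.im + b) ⊆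
      Icc (p.re - a) (p.re + a) ×ℂ Icc (p.im - b) (p.im + b) := by
    intro s hs
    rcases hs with ⟨h1, h3 | h3⟩ | ⟨h1, h3 | h3⟩
    · exact Complex.mem_reProdIm.2 ⟨h1, by rw [h3]; exact ⟨le_rfl, by linarith⟩⟩
    · exact Complex.mem_reProdIm.2 ⟨h1, by rw [h3]; exact ⟨by linarith, le_rfl⟩⟩
    · exact Complex.mem_reProdIm.2 ⟨by rw [h3]; exact ⟨le_rfl, by linarith⟩, h1⟩
    · exact Complex.mem_reProdIm.2 ⟨by rw [h3]; exact ⟨by linarith, le_rfl⟩, h1⟩
  have hball : Metric.closedBall p r ⊆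
      Icc (p.re - a) (p.re + a) ×ℂ Icc (p.im - b) (p.im + b) := by
    intro s hs
    rw [Metric.mem_closedBall, dist_eq_norm] at hs
    have h1 := (Complex.abs_re_le_norm (s - p)).trans hs
    have h2 := (Complex.abs_im_le_norm (s - p)).trans hs
    rw [Complex.sub_re, abs_le] at h1
    rw [Complex.sub_im, abs_le] at h2
    exact ⟨⟨by linarith [h1.1], by linarith [h1.2]⟩, ⟨by linarith [h2.1], by linarith [h2.2]⟩⟩
  have hnhds : (Icc (p.re - a) (p.re + a) ×ℂ Icc (p.im - b) (p.im + b)) ∈ 𝓝 p :=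
    mem_of_superset (Metric.closedBall_mem_nhds p hr) hball
  have hsph : ∀ s ∈ Metric.sphere p r, s - p ≠ 0 := by
    intro s hs h
    rw [mem_sphere_iff_norm, h, norm_zero] at hs
    linarith
  induction k with
  | zero =>
    intro h hh
    have e : (fun s => h s * (s - p) ^ (-((0 : ℕ) : ℤ))) = h := by
      ext s; simp
    rw [e, rectInt_zero (by linarith) (by linarith) hh]
    symm
    exact Complex.circleIntegral_eq_zero_of_differentiable_on_off_countable hr.le
      (s := ∅) countable_empty (hh.continuousOn.mono hball) (fun z hz => by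
        have hz' : z ∈ Metric.ball p r := hz.1
        exact (hh z (hball (Metric.ball_subset_closedBall hz'))).differentiableAt
          (mem_of_superset (Metric.isOpen_ball.mem_nhds hz')
            (Metric.ball_subset_closedBall.trans hball)))
  | succ k ih =>
    intro h hh
    have hd : DifferentiableOn ℂ (dslope h p)
        (Icc (p.re - a) (p.re + a) ×ℂ Icc (p.im - b) (p.im + b)) :=
      (Complex.differentiableOn_dslope hnhds).2 hh
    have hsplit : ∀ s : ℂ, s - p ≠ 0 → h s * (s - p) ^ (-((k + 1 : ℕ) : ℤ)) =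
        h p * (s - p) ^ (-((k + 1 : ℕ) : ℤ)) + dslope h p s * (s - p) ^ (-(k : ℤ)) := by
      intro s hs
      have h1 : (s - p) * dslope h p s = h s - h p := by
        have := sub_smul_dslope h p s
        simpa using this
      have h2 : (s - p) ^ (-(k : ℤ)) = (s - p) * (s - p) ^ (-((k + 1 : ℕ) : ℤ)) := by
        rw [← zpow_one_add₀ hs]
        congr 1
        push_cast; ring
      rw [h2]
      have h3 : h s = h p + (s - p) * dslope h p s := by rw [h1]; ring
      rw [h3]; ring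
    have c1 : ContinuousOn (fun s : ℂ => h p * (s - p) ^ (-((k + 1 : ℕ) : ℤ)))
        (rectBd (p.re - a) (p.re + a) (p.im - b) (p.im + b)) :=
      (cont_zpow_bd ha hb _).const_mul _
    have c2 : ContinuousOn (fun s : ℂ => dslope h p s * (s - p) ^ (-(k : ℤ)))
        (rectBd (p.re - a) (p.re + a) (p.im - b) (p.im + b)) :=
      (hd.continuousOn.mono hbd).mul (cont_zpow_bd ha hb _)
    have d0 : ∀ n : ℤ, ContinuousOn (fun s : ℂ => (s - p) ^ n) (Metric.sphere p r) := by
      intro n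
      exact ContinuousOn.zpow₀ (by fun_prop) n fun s hs => Or.inl (hsph s hs)
    have d1 : ContinuousOn (fun s : ℂ => h p * (s - p) ^ (-((k + 1 : ℕ) : ℤ)))
        (Metric.sphere p r) := (d0 _).const_mul _
    have d2 : ContinuousOn (fun s : ℂ => dslope h p s * (s - p) ^ (-(k : ℤ)))
        (Metric.sphere p r) :=
      (hd.continuousOn.mono (Metric.sphere_subset_closedBall.trans hball)).mul (d0 _)
    rw [rectInt_congr (g := fun s => h p * (s - p) ^ (-((k + 1 : ℕ) : ℤ)) +
        dslope h p s * (s - p) ^ (-(k : ℤ))) (by linarith) (by linarith)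
        (fun s hs => hsplit s (not_bd_center ha hb hs)),
      rectInt_add (by linarith) (by linarith) c1 c2, rectInt_const_mul, ih _ hd,
      circleIntegral.integral_congr (g := fun s => h p * (s - p) ^ (-((k + 1 : ℕ) : ℤ)) +
        dslope h p s * (s - p) ^ (-(k : ℤ))) hr.le (fun s hs => hsplit s (hsph s hs)),
      circleIntegral.integral_add (d1.circleIntegrable hr.le) (d2.circleIntegrable hr.le),
      circleIntegral.integral_const_mul]
    congr 2
    rcases Nat.eq_zero_or_pos k with hk | hk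
    · subst hk
      have e1 : (fun s : ℂ => (s - p) ^ (-((0 + 1 : ℕ) : ℤ))) = fun s => (s - p)⁻¹ := by
        ext s; simp
      rw [e1, rectInt_inv ha hb]
      have e2 := circleIntegral.integral_sub_center_inv p (ne_of_gt hr)
      rw [← e2]
    · have hk' : (-((k + 1 : ℕ) : ℤ)) ≠ -1 := by push_cast; omega
      rw [rectInt_zpow ha hb hk', circleIntegral.integral_sub_zpow_of_ne hk']

end Crest.Agent.R006.P3R
end

-- ▼ part R006/P3_Strip_606
section

/-!
# Row 6, block P3: strips with one pole, telescoping, two-ray contours (helper606)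

* `h_of_div`      : `g / c^k` with a simple zero of `c` at `p` has the form `h(s) (s-p)^{-k}`.
* `strip_pole`    : right line - left line = circle integral.
* `line_tendsto`  : `∑_{l < n} ∮_{C(-1/2-(k0+l), r)} f → i ∫ f(-k0 + i y) dy`.
* `line_eq_twoRay`, `twoRay_shift` : the vertical line as two rays, and turning them.
-/

set_option autoImplicit false

namespace Crest.Agent.R006.P3R

open Set Filter Topology MeasureTheory Complex

/-- `g / c^k` near a simple zero of `c` -/
lemma h_of_div {g c : ℂ → ℂ} {S : Set ℂ} {p : ℂ} (hS : S ∈ 𝓝 p) (hg : DifferentiableOn ℂ g S)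
    (hc : DifferentiableOn ℂ c S) (hc0 : c p = 0) (hc1 : deriv c p ≠ 0)
    (hne : ∀ s ∈ S, s ≠ p → c s ≠ 0) (k : ℕ) :
    ∃ h : ℂ → ℂ, DifferentiableOn ℂ h S ∧
      ∀ s ∈ S, s ≠ p → g s / (c s) ^ k = h s * (s - p) ^ (-(k : ℤ)) := by
  have hd : DifferentiableOn ℂ (dslope c p) S := (Complex.differentiableOn_dslope hS).2 hc
  have hmul : ∀ s, (s - p) * dslope c p s = c s := by
    intro s
    have := sub_smul_dslope c p s
    rw [hc0, sub_zero, smul_eq_mul] at this
    exact this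
  have hdne : ∀ s ∈ S, dslope c p s ≠ 0 := by
    intro s hs
    by_cases h : s = p
    · subst h; rwa [dslope_same]
    · intro h0
      have := hmul s
      rw [h0, mul_zero] at this
      exact hne s hs h this.symm
  refine ⟨fun s => g s / (dslope c p s) ^ k, hg.div (hd.pow k) fun s hs => pow_ne_zero _ (hdne s hs),
    fun s hs hsp => ?_⟩
  have h1 : s - p ≠ 0 := sub_ne_zero.2 hsp
  rw [← hmul s, mul_pow, zpow_neg, zpow_natCast]
  have h2 := hdne s hs
  field_simp

/-- a strip with one pole -/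
theorem strip_pole {f h : ℂ → ℂ} {p : ℂ} {a r : ℝ} (hr : 0 < r) (hra : r ≤ a) (k : ℕ)
    (hh : DifferentiableOn ℂ h {s | |s.re - p.re| ≤ a})
    (hf : ∀ s : ℂ, |s.re - p.re| ≤ a → s ≠ p → f s = h s * (s - p) ^ (-(k : ℤ)))
    (hdec : ∀ ε : ℝ, 0 < ε → ∃ Y : ℝ, ∀ s : ℂ, |s.re - p.re| ≤ a → Y ≤ |s.im| → ‖f s‖ ≤ ε)
    (i1 : Integrable (fun y : ℝ => f (((p.re + a : ℝ) : ℂ) + y * I)))
    (i2 : Integrable (fun y : ℝ => f (((p.re - a : ℝ) : ℂ) + y * I))) :
    I • (∫ y : ℝ, f (((p.re + a : ℝ) : ℂ) + y * I)) -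
      I • (∫ y : ℝ, f (((p.re - a : ℝ) : ℂ) + y * I)) = ∮ s in C(p, r), f s := by
  have ha : 0 < a := lt_of_lt_of_le hr hra
  have hsph : ∀ s ∈ Metric.sphere p r, s - p ≠ 0 := by
    intro s hs h
    rw [mem_sphere_iff_norm, h, norm_zero] at hs
    linarith
  have hrect : ∀ b : ℝ, r ≤ b →
      rectInt f (p.re - a) (p.re + a) (p.im - b) (p.im + b) = ∮ s in C(p, r), f s := by
    intro b hb
    have hb0 : 0 < b := lt_of_lt_of_le hr hb
    have key := rectInt_pole (p := p) hr hra hb k h (hh.mono (by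
      intro s hs
      have h1 := (Complex.mem_reProdIm.1 hs).1
      change |s.re - p.re| ≤ a
      rw [abs_le]
      exact ⟨by linarith [h1.1], by linarith [h1.2]⟩))
    rw [rectInt_congr (f := f) (g := fun s => h s * (s - p) ^ (-(k : ℤ))) (by linarith)
      (by linarith) (fun s hs => by
        refine hf s ?_ (sub_ne_zero.1 (not_bd_center ha hb0 hs))
        rw [abs_le]
        rcases hs with ⟨h1, _⟩ | ⟨_, h3 | h3⟩
        · exact ⟨by linarith [h1.1], by linarith [h1.2]⟩
        · rw [h3]; exact ⟨by linarith, by linarith⟩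
        · rw [h3]; exact ⟨by linarith, by linarith⟩), key]
    refine circleIntegral.integral_congr hr.le fun s hs => ?_
    refine (hf s ?_ (sub_ne_zero.1 (hsph s hs))).symm
    have h1 := Complex.abs_re_le_norm (s - p)
    rw [mem_sphere_iff_norm.1 hs, Complex.sub_re] at h1
    exact h1.trans hra
  have t1 : Tendsto (fun b : ℝ => ∫ y in (p.im - b)..(p.im + b),
      f (((p.re + a : ℝ) : ℂ) + y * I)) atTop
      (𝓝 (∫ y : ℝ, f (((p.re + a : ℝ) : ℂ) + y * I))) :=
    intervalIntegral_tendsto_integral i1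
      (tendsto_atBot_add_const_left atTop p.im tendsto_neg_atTop_atBot |>.congr
        fun b => by ring)
      (tendsto_atTop_add_const_left atTop p.im tendsto_id)
  have t2 : Tendsto (fun b : ℝ => ∫ y in (p.im - b)..(p.im + b),
      f (((p.re - a : ℝ) : ℂ) + y * I)) atTop
      (𝓝 (∫ y : ℝ, f (((p.re - a : ℝ) : ℂ) + y * I))) :=
    intervalIntegral_tendsto_integral i2
      (tendsto_atBot_add_const_left atTop p.im tendsto_neg_atTop_atBot |>.congr
        fun b => by ring)
      (tendsto_atTop_add_const_left atTop p.im tendsto_id)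
  have hhor : ∀ u : ℝ → ℝ, Tendsto (fun b => |u b|) atTop atTop →
      Tendsto (fun b : ℝ => ∫ x in (p.re - a)..(p.re + a), f (x + (u b) * I)) atTop (𝓝 0) := by
    intro u hu
    rw [Metric.tendsto_nhds]
    intro ε hε
    obtain ⟨Y, hY⟩ := hdec (ε / (4 * a)) (by positivity)
    filter_upwards [hu.eventually_ge_atTop Y] with b hb
    rw [dist_zero_right]
    have h1 : ‖∫ x in (p.re - a)..(p.re + a), f (x + (u b) * I)‖ ≤
        ε / (4 * a) * |(p.re + a) - (p.re - a)| := by
      refine intervalIntegral.norm_integral_le_of_norm_le_const fun x hx => ?_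
      rw [uIoc_of_le (by linarith)] at hx
      refine hY _ ?_ ?_
      · have : ((x : ℂ) + (u b) * I).re = x := by simp
        rw [this, abs_le]
        exact ⟨by linarith [hx.1], by linarith [hx.2]⟩
      · have : ((x : ℂ) + (u b) * I).im = u b := by simp
        rw [this]; exact hb
    refine lt_of_le_of_lt h1 ?_
    have e : (p.re + a) - (p.re - a) = 2 * a := by ring
    rw [e, abs_of_pos (by linarith)]
    have : ε / (4 * a) * (2 * a) = ε / 2 := by field_simp; ring
    rw [this]; linarith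
  have u1 : Tendsto (fun b : ℝ => |p.im - b|) atTop atTop :=
    tendsto_abs_atBot_atTop.comp
      (tendsto_atBot_add_const_left atTop p.im tendsto_neg_atTop_atBot |>.congr fun b => by ring)
  have u2 : Tendsto (fun b : ℝ => |p.im + b|) atTop atTop :=
    tendsto_abs_atTop_atTop.comp (tendsto_atTop_add_const_left atTop p.im tendsto_id)
  have t3 := hhor (fun b => p.im - b) u1
  have t4 := hhor (fun b => p.im + b) u2
  have tt := ((t3.sub t4).add (t1.const_smul I)).sub (t2.const_smul I)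
  have tc : Tendsto (fun b : ℝ => rectInt f (p.re - a) (p.re + a) (p.im - b) (p.im + b)) atTop
      (𝓝 (∮ s in C(p, r), f s)) := by
    refine Tendsto.congr' ?_ tendsto_const_nhds
    filter_upwards [eventually_ge_atTop r] with b hb
    exact (hrect b hb).symm
  have := tendsto_nhds_unique (f := fun b : ℝ =>
    rectInt f (p.re - a) (p.re + a) (p.im - b) (p.im + b)) tt tc
  rw [← this]
  simp

/-- **telescoping**: the vertical line at `-k0` is the sum of the circles to its left -/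
theorem line_tendsto {f : ℂ → ℂ} {r : ℝ} (hr : 0 < r) (hr2 : r ≤ 1 / 2) (k0 k : ℕ)
    (hpole : ∀ l : ℕ, k0 ≤ l → ∃ h : ℂ → ℂ,
      DifferentiableOn ℂ h {s | |s.re - (-1 / 2 - l)| ≤ 1 / 2} ∧
      ∀ s : ℂ, |s.re - (-1 / 2 - l)| ≤ 1 / 2 → s ≠ -1 / 2 - l →
        f s = h s * (s - (-1 / 2 - l)) ^ (-(k : ℤ)))
    (hdec : ∀ l : ℕ, k0 ≤ l → ∀ ε : ℝ, 0 < ε → ∃ Y : ℝ, ∀ s : ℂ,
      |s.re - (-1 / 2 - l)| ≤ 1 / 2 → Y ≤ |s.im| → ‖f s‖ ≤ ε)
    (hint : ∀ l : ℕ, k0 ≤ l → Integrable (fun y : ℝ => f (-l + y * I)))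
    (hlim : Tendsto (fun l : ℕ => ∫ y : ℝ, f (-l + y * I)) atTop (𝓝 0)) :
    Tendsto (fun n : ℕ => ∑ l ∈ Finset.range n, ∮ s in C(-1 / 2 - ((k0 + l : ℕ) : ℂ), r), f s)
      atTop (𝓝 (I • ∫ y : ℝ, f (-k0 + y * I))) := by
  have hstep : ∀ l : ℕ, k0 ≤ l → (∮ s in C(-1 / 2 - (l : ℂ), r), f s) =
      I • (∫ y : ℝ, f (-l + y * I)) - I • (∫ y : ℝ, f (-((l + 1 : ℕ) : ℂ) + y * I)) := by
    intro l hl
    obtain ⟨h, hh, hf⟩ := hpole l hl
    have hre : (-1 / 2 - (l : ℂ)).re = -1 / 2 - l := by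
      simp only [Complex.sub_re, Complex.natCast_re]
      norm_num
    have e1 : (((-1 / 2 - (l : ℂ)).re + 1 / 2 : ℝ) : ℂ) = -(l : ℂ) := by
      rw [hre]; push_cast; ring
    have e2 : (((-1 / 2 - (l : ℂ)).re - 1 / 2 : ℝ) : ℂ) = -((l + 1 : ℕ) : ℂ) := by
      rw [hre]; push_cast; ring
    have key := strip_pole (f := f) (h := h) (p := -1 / 2 - (l : ℂ)) (a := 1 / 2) hr hr2 k
      (by rw [hre]; exact hh) (by rw [hre]; exact hf) (by rw [hre]; exact hdec l hl)
      (by rw [e1]; exact hint l hl)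
      (by rw [e2]; exact hint (l + 1) (by omega))
    rw [e1, e2] at key
    exact key.symm
  have hsum : ∀ n : ℕ, ∑ l ∈ Finset.range n, (∮ s in C(-1 / 2 - ((k0 + l : ℕ) : ℂ), r), f s) =
      I • (∫ y : ℝ, f (-(k0 : ℂ) + y * I)) -
        I • (∫ y : ℝ, f (-((k0 + n : ℕ) : ℂ) + y * I)) := by
    intro n
    induction n with
    | zero => simp
    | succ n ih =>
      rw [Finset.sum_range_succ, ih, hstep (k0 + n) (by omega)]
      have : k0 + (n + 1) = k0 + n + 1 := by ring
      rw [this]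
      ring
  have h1 : Tendsto (fun n : ℕ => ∫ y : ℝ, f (-((k0 + n : ℕ) : ℂ) + y * I)) atTop (𝓝 0) :=
    hlim.comp (tendsto_add_atTop_nat k0 |>.congr fun n => add_comm n k0)
  have h2 := (tendsto_const_nhds (x := I • (∫ y : ℝ, f (-(k0 : ℂ) + y * I)))
    (f := atTop (α := ℕ))).sub (h1.const_smul I)
  rw [smul_zero, sub_zero] at h2
  exact h2.congr fun n => (hsum n).symm






end Crest.Agent.R006.P3R
end

-- ▼ part R006/VShift_724
section

/-!
Row 6: vertical contour shifts and the half-plane Cauchy formula (helper724).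

* `vshift` : `∫ f(a+iy) dy = ∫ f(b+iy) dy` for `f` holomorphic in the strip, `O(1/(1+y^2))`.
* `vshift_top` : `∫ f(a+iy) dy = 0` if `f` is holomorphic right of the line and `O(1/(1+|z|)^2)`.

-/

set_option autoImplicit false

namespace Crest.Agent.R006.VShift724

open Complex MeasureTheory Filter Topology Set

lemma integrable_line {g : ℝ → ℂ} (hc : Continuous g) {C : ℝ}
    (hb : ∀ y, ‖g y‖ ≤ C / (1 + y ^ 2)) : Integrable g := by
  have h1 : Integrable (fun y : ℝ => C * (1 + y ^ 2)⁻¹) := integrable_inv_one_add_sq.const_mul C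
  refine h1.mono' hc.aestronglyMeasurable (Eventually.of_forall fun y => ?_)
  rw [← div_eq_mul_inv]
  exact hb y

lemma line_continuous {f : ℂ → ℂ} {S : Set ℂ} {a : ℝ} (hc : ContinuousOn f S)
    (h : ∀ y : ℝ, ((a : ℂ) + y * I) ∈ S) : Continuous (fun y : ℝ => f (a + y * I)) := by
  have h1 : Continuous (fun y : ℝ => ((a : ℂ) + y * I)) := by fun_prop
  exact hc.comp_continuous h1 h

theorem vshift {f : ℂ → ℂ} {a b : ℝ} (hab : a ≤ b)
    (hc : ContinuousOn f {z | a ≤ z.re ∧ z.re ≤ b})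
    (hd : ∀ z : ℂ, a < z.re → z.re < b → DifferentiableAt ℂ f z)
    {C : ℝ} (hb : ∀ z : ℂ, a ≤ z.re → z.re ≤ b → ‖f z‖ ≤ C / (1 + z.im ^ 2)) :
    ∫ y : ℝ, f (a + y * I) = ∫ y : ℝ, f (b + y * I) := by
  have hCa : ∀ y : ℝ, ‖f (a + y * I)‖ ≤ C / (1 + y ^ 2) := fun y => by
    have := hb (a + y * I) (by simp) (by simpa using hab)
    simpa using this
  have hCb : ∀ y : ℝ, ‖f (b + y * I)‖ ≤ C / (1 + y ^ 2) := fun y => by
    have := hb (b + y * I) (by simpa using hab) (by simp)
    simpa using this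
  have hia : Integrable (fun y : ℝ => f (a + y * I)) :=
    integrable_line (line_continuous hc (fun y => by simpa using hab)) hCa
  have hib : Integrable (fun y : ℝ => f (b + y * I)) :=
    integrable_line (line_continuous hc (fun y => by simpa using hab)) hCb
  have hrect : ∀ T : ℝ, 0 < T →
      (∫ x : ℝ in a..b, f (x + ((-T : ℝ) : ℂ) * I)) - (∫ x : ℝ in a..b, f (x + (T : ℂ) * I)) +
      I • (∫ y : ℝ in (-T)..T, f (b + y * I)) - I • (∫ y : ℝ in (-T)..T, f (a + y * I)) = 0 := by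
    intro T hT
    have := Complex.integral_boundary_rect_eq_zero_of_continuousOn_of_differentiableOn f
      (⟨a, -T⟩ : ℂ) (⟨b, T⟩ : ℂ) ?_ ?_
    · simpa using this
    · apply hc.mono
      intro z hz
      rw [mem_reProdIm] at hz
      have h1 := hz.1
      simp only [uIcc_of_le hab, mem_Icc] at h1
      exact h1
    · intro z hz
      rw [mem_reProdIm] at hz
      have h1 := hz.1
      simp only [min_eq_left hab, max_eq_right hab, mem_Ioo] at h1
      exact (hd z h1.1 h1.2).differentiableWithinAt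
  have hC0 : 0 ≤ C := by
    have := hCa 0
    simp at this
    exact (norm_nonneg _).trans this
  have hh : ∀ (T : ℝ), ‖∫ x : ℝ in a..b, f (x + (T : ℂ) * I)‖ ≤ C / (1 + T ^ 2) * |b - a| := by
    intro T
    apply intervalIntegral.norm_integral_le_of_norm_le_const
    intro x hx
    rw [uIoc_of_le hab] at hx
    have := hb (x + (T : ℂ) * I) (by simpa using hx.1.le) (by simpa using hx.2)
    simpa using this
  have hz : Tendsto (fun T : ℝ => C / (1 + T ^ 2) * |b - a|) atTop (𝓝 0) := by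
    have h1 : Tendsto (fun T : ℝ => 1 + T ^ 2) atTop atTop :=
      tendsto_atTop_add_const_left _ _ (tendsto_pow_atTop (by norm_num))
    have h2 := (h1.const_div_atTop C).mul_const (|b - a|)
    simpa using h2
  have t1 : Tendsto (fun T : ℝ => ∫ x : ℝ in a..b, f (x + (T : ℂ) * I)) atTop (𝓝 0) :=
    squeeze_zero_norm (fun T => hh T) hz
  have t2 : Tendsto (fun T : ℝ => ∫ x : ℝ in a..b, f (x + ((-T : ℝ) : ℂ) * I)) atTop (𝓝 0) := by
    apply squeeze_zero_norm (fun T => ?_) hz
    have := hh (-T)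
    simpa using this
  have t3 : Tendsto (fun T : ℝ => ∫ y : ℝ in (-T)..T, f (b + y * I)) atTop (𝓝 (∫ y : ℝ, f (b + y * I))) :=
    intervalIntegral_tendsto_integral hib tendsto_neg_atTop_atBot tendsto_id
  have t4 : Tendsto (fun T : ℝ => ∫ y : ℝ in (-T)..T, f (a + y * I)) atTop (𝓝 (∫ y : ℝ, f (a + y * I))) :=
    intervalIntegral_tendsto_integral hia tendsto_neg_atTop_atBot tendsto_id
  have t5 := ((t2.sub t1).add (t3.const_smul I)).sub (t4.const_smul I)
  have t6 : Tendsto (fun _ : ℝ => (0 : ℂ)) atTop (𝓝 (0 - 0 + I • (∫ y : ℝ, f (b + y * I)) - I • (∫ y : ℝ, f (a + y * I)))) := by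
    refine t5.congr' ?_
    filter_upwards [eventually_gt_atTop 0] with T hT
    exact hrect T hT
  have h7 := tendsto_nhds_unique t6 tendsto_const_nhds
  have h8 : I * ((∫ y : ℝ, f (b + y * I)) - (∫ y : ℝ, f (a + y * I))) = 0 := by
    have : I • (∫ y : ℝ, f (b + y * I)) - I • (∫ y : ℝ, f (a + y * I)) = 0 := by
      simpa using h7
    rw [mul_sub]; simpa [smul_eq_mul] using this
  have h9 : (∫ y : ℝ, f (b + y * I)) - (∫ y : ℝ, f (a + y * I)) = 0 := by
    rcases mul_eq_zero.mp h8 with h | h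
    · exact absurd h I_ne_zero
    · exact h
  exact (sub_eq_zero.mp h9).symm


end Crest.Agent.R006.VShift724
end

-- ▼ part R006/G1Main_186
section

/-!
Row 6 (Catalan's constant), g1 side (helper186): circle representation of `g1`.
-/

set_option autoImplicit false

namespace Crest.Agent.R006.G1x186

open Complex Filter Topology MeasureTheory Set Metric
open Crest.Agent.R006.PsiJ

lemma ce_eq (l : ℕ) : ce l = -1 / 2 - (l : ℂ) := by unfold ce; ring

lemma cos_ce (l : ℕ) : Complex.cos (Real.pi * ce l) = 0 := by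
  rw [Complex.cos_eq_zero_iff]
  refine ⟨-1 - (l : ℤ), ?_⟩
  unfold ce
  push_cast
  ring

lemma J1_differentiableAt {s : ℂ} (hs : s.re < 0) (hd : ∀ l : ℕ, s ≠ ce l) :
    DifferentiableAt ℂ J1 s := by
  have hc := cos_ne_zero_of_left hs hd
  unfold J1
  refine (differentiableAt_g1L hs).div ?_ (pow_ne_zero 2 hc)
  fun_prop

/-- shape of `J1 φ` near a site. -/
lemma J1_pole (l : ℕ) {a : ℝ} (ha : 0 < a) (ha' : a ≤ 1 / 2) (hneg : a < 1 / 2 + l) {φ : ℂ → ℂ}
    (hφ : DifferentiableOn ℂ φ {s | |s.re - (-1 / 2 - l)| ≤ a}) :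
    ∃ h : ℂ → ℂ, DifferentiableOn ℂ h {s | |s.re - (-1 / 2 - l)| ≤ a} ∧
      ∀ s : ℂ, |s.re - (-1 / 2 - l)| ≤ a → s ≠ ce l →
        J1 s * φ s = h s * (s - ce l) ^ (-((2 : ℕ) : ℤ)) := by
  have hre : ∀ s : ℂ, |s.re - (-1 / 2 - l)| ≤ a → s.re < 0 := by
    intro s hs
    have := (abs_le.mp hs).2
    linarith
  have hce : (ce l).re = -1 / 2 - l := by rw [ce_re]; ring
  obtain ⟨h, hh, hf⟩ := P3R.h_of_div (g := fun s => g1L s * φ s)
    (c := fun s => Complex.cos (Real.pi * s)) (S := {s | |s.re - (-1 / 2 - l)| ≤ a}) (p := ce l)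
    (by
      have : {s : ℂ | |s.re - (-1 / 2 - l)| < a} ∈ 𝓝 (ce l) := by
        apply (isOpen_lt (by fun_prop) continuous_const).mem_nhds
        simp only [Set.mem_ofPred_eq]
        rw [hce, sub_self, abs_zero]
        exact ha
      exact mem_of_superset this (fun s hs => show |s.re - (-1 / 2 - l)| ≤ a from le_of_lt hs))
    (by
      apply DifferentiableOn.mul _ hφ
      intro s hs
      exact (differentiableAt_g1L (hre s hs)).differentiableWithinAt)
    (by fun_prop) (cos_ce l)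
    (by
      have hd : HasDerivAt (fun s : ℂ => Complex.cos (Real.pi * s))
          (-Complex.sin (Real.pi * ce l) * (Real.pi * 1)) (ce l) :=
        ((hasDerivAt_id (ce l)).const_mul (Real.pi : ℂ)).ccos
      rw [hd.deriv]
      have h1 := Complex.sin_sq_add_cos_sq (Real.pi * ce l)
      rw [cos_ce] at h1
      have h2 : Complex.sin (Real.pi * ce l) ≠ 0 := by
        intro h0
        rw [h0] at h1
        norm_num at h1
      have hpi : (Real.pi : ℂ) ≠ 0 := by exact_mod_cast Real.pi_ne_zero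
      exact mul_ne_zero (neg_ne_zero.mpr h2) (mul_ne_zero hpi one_ne_zero))
    (by
      intro s hs hne
      apply cos_ne_zero_of_left (hre s hs)
      intro l' hl'
      by_cases h : l' = l
      · subst h; exact hne hl'
      · have h3 : |s.re - (-1 / 2 - l)| ≤ a := hs
        rw [hl', ce_re] at h3
        have h4 : |(l : ℝ) - l'| ≤ 1 / 2 := by
          have : -(1 / 2) - (l' : ℝ) - (-1 / 2 - l) = l - l' := by ring
          rw [this] at h3
          exact h3.trans ha'
        have h5 : (1 : ℝ) ≤ |(l : ℝ) - l'| := by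
          have : (1 : ℤ) ≤ |(l : ℤ) - l'| := Int.one_le_abs (by omega)
          exact_mod_cast this
        linarith)
    2
  refine ⟨h, hh, fun s hs hne => ?_⟩
  rw [← hf s hs hne]
  unfold J1
  ring

/-- polynomial form of the bound. -/
lemma norm_J1_le' {s : ℂ} (hs : s.re ≤ -1 / 4) (hd : ∀ l : ℕ, 1 / 8 ≤ ‖s - ce l‖) :
    ‖J1 s‖ ≤ (36 / (-s.re)) / (1 + s.im ^ 2) := by
  have h := norm_J1_le hs (fun l => by rw [← ce_eq]; exact hd l)
  have hpos : 0 < -s.re := by linarith
  refine h.trans ?_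
  rw [div_eq_mul_inv (36 / -s.re)]
  apply mul_le_mul_of_nonneg_left _ (by positivity)
  rw [Real.exp_neg]
  apply inv_anti₀ (by positivity)
  have h1 := Real.quadratic_le_exp_of_nonneg (x := 2 * Real.pi * |s.im|) (by positivity)
  have h2 : s.im ^ 2 ≤ (2 * Real.pi * |s.im|) ^ 2 / 2 := by
    have h3 : (2 * Real.pi * |s.im|) ^ 2 = 4 * Real.pi ^ 2 * s.im ^ 2 := by
      rw [mul_pow, sq_abs]; ring
    rw [h3]
    nlinarith [Real.pi_gt_three, sq_nonneg s.im, mul_nonneg (sq_nonneg s.im) (show 0 ≤ Real.pi ^ 2 - 9 by nlinarith [Real.pi_gt_three])]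
  have h4 : 0 ≤ 2 * Real.pi * |s.im| := by positivity
  linarith

/-- distance of a line point to the sites. -/
lemma dist_line {c : ℝ} (hc : ∀ l : ℕ, 1 / 8 ≤ |c - (-1 / 2 - l)|) (s : ℂ) (hs : s.re = c) (l : ℕ) :
    1 / 8 ≤ ‖s - ce l‖ := by
  have h := Complex.abs_re_le_norm (s - ce l)
  rw [Complex.sub_re, hs, ce_re] at h
  have h2 := hc l
  have : c - (-1 / 2 - (l : ℝ)) = c - (-(1 / 2) - l) := by ring
  rw [this] at h2
  exact h2.trans h

/-- distance of a point with large imaginary part. -/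
lemma dist_im (s : ℂ) (hs : 1 / 8 ≤ |s.im|) (l : ℕ) : 1 / 8 ≤ ‖s - ce l‖ := by
  have h := Complex.abs_im_le_norm (s - ce l)
  rw [Complex.sub_im, ce_im, sub_zero] at h
  exact hs.trans h

/-- integrability of `J1 φ` on a line for bounded `φ`. -/
lemma integrable_J1 {c : ℝ} (hc0 : c ≤ -1 / 4) (hc : ∀ l : ℕ, 1 / 8 ≤ |c - (-1 / 2 - l)|)
    {φ : ℂ → ℂ} {B : ℝ} (hφc : Continuous fun y : ℝ => φ (c + y * I))
    (hφ : ∀ y : ℝ, ‖φ (c + y * I)‖ ≤ B) :
    Integrable (fun y : ℝ => J1 (c + y * I) * φ (c + y * I)) ∧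
      ∀ y : ℝ, ‖J1 (c + y * I) * φ (c + y * I)‖ ≤ (36 / (-c) * B) * (1 + y ^ 2)⁻¹ := by
  have hB : 0 ≤ B := (norm_nonneg _).trans (hφ 0)
  have hre : ∀ y : ℝ, ((c : ℂ) + y * I).re = c := by intro y; simp
  have him : ∀ y : ℝ, ((c : ℂ) + y * I).im = y := by intro y; simp
  have hcpos : 0 < -c := by linarith
  have hcont : Continuous fun y : ℝ => J1 (c + y * I) := by
    rw [continuous_iff_continuousAt]
    intro y
    have h1 : DifferentiableAt ℂ J1 ((c : ℂ) + y * I) := by
      apply J1_differentiableAt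
      · rw [hre]; linarith
      · intro l h
        have := dist_line hc _ (hre y) l
        rw [h, sub_self, norm_zero] at this
        norm_num at this
    exact ContinuousAt.comp (f := fun y : ℝ => (c : ℂ) + y * I) h1.continuousAt (by fun_prop)
  have hbd : ∀ y : ℝ, ‖J1 (c + y * I) * φ (c + y * I)‖ ≤ (36 / (-c) * B) * (1 + y ^ 2)⁻¹ := by
    intro y
    rw [norm_mul]
    have h1 := norm_J1_le' (s := (c : ℂ) + y * I) (by rw [hre]; linarith) (dist_line hc _ (hre y))
    rw [hre, him] at h1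
    calc ‖J1 (c + y * I)‖ * ‖φ (c + y * I)‖ ≤ (36 / (-c)) / (1 + y ^ 2) * B :=
          mul_le_mul h1 (hφ y) (norm_nonneg _) (by positivity)
      _ = _ := by rw [div_eq_mul_inv]; ring
  exact ⟨(integrable_inv_one_add_sq.const_mul (36 / (-c) * B)).mono'
    (hcont.mul hφc).aestronglyMeasurable (Eventually.of_forall hbd), hbd⟩

/-- `(x+1/2)/x^2`-bound of `g1` on the line. -/
lemma norm_g1_le' {z : ℂ} (hz : -1 / 4 ≤ z.re) : ‖g1 z‖ ≤ (z.re + 1) / (z.re + 1 / 2) ^ 2 := by
  have h1 := norm_g1_le (z := z) (by linarith)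
  have h2 := grR_sq_le (x := z.re + 1 / 2) (by linarith)
  refine h1.trans ?_
  have h3 : grR (z.re + 1 / 2) ^ 2 / Real.pi ≤ grR (z.re + 1 / 2) ^ 2 :=
    div_le_self (sq_nonneg _) (by linarith [Real.pi_gt_three])
  refine h3.trans (h2.trans (le_of_eq ?_))
  congr 1
  ring

lemma norm_g1L_le' {z : ℂ} (hz : z.re ≤ -1 / 4) : ‖g1L z‖ ≤ 12 := by
  have h1 := norm_g1L_le (z := z) (by linarith)
  have h2 := grR_sq_le (x := -z.re) (by linarith)
  refine h1.trans ?_
  have h3 : grR (-z.re) ^ 2 / Real.pi ≤ grR (-z.re) ^ 2 :=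
    div_le_self (sq_nonneg _) (by linarith [Real.pi_gt_three])
  refine h3.trans (h2.trans ?_)
  have hpos : 0 < -z.re := by linarith
  rw [div_le_iff₀ (by positivity)]
  nlinarith

/-- the line representation at `Re s = -1/4`. -/
theorem g1_line {z : ℂ} (hz : -1 / 4 < z.re) :
    g1 z = (1 / (2 * Real.pi)) * ∫ y : ℝ, J1 (((-1 / 4 : ℝ) : ℂ) + y * I) /
      (z - (((-1 / 4 : ℝ) : ℂ) + y * I)) := by
  have hc : ∀ l : ℕ, 1 / 8 ≤ |(-1 / 4 : ℝ) - (-1 / 2 - l)| := by
    intro l
    have h : (0 : ℝ) ≤ l := Nat.cast_nonneg l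
    rw [abs_of_nonneg (by linarith)]
    linarith
  apply HalfPlanex186.jump_repr (fR := g1) (fL := fun s => -g1L s) (J := J1) (c := -1 / 4)
    (C := 12) (C' := 12)
  · intro s hs
    apply (differentiableAt_g1 _).differentiableWithinAt
    intro l h
    have h1 := congrArg Complex.re h
    have hs' : (-1 / 4 : ℝ) ≤ s.re := hs
    have h2 : (-1 / 2 - (l : ℂ)).re = -1 / 2 - l := by
      rw [← ce_eq, ce_re]; ring
    rw [h2] at h1
    have h3 : (0 : ℝ) ≤ l := Nat.cast_nonneg l
    linarith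
  · intro s hs
    refine (norm_g1_le' hs).trans ?_
    have hs' : (-1 / 4 : ℝ) ≤ s.re := hs
    have hpos : 0 < s.re + 1 / 2 := by linarith
    rw [div_le_iff₀ (by positivity)]
    nlinarith
  · intro s hs
    have hs' : s.re ≤ (-1 / 4 : ℝ) := hs
    exact (differentiableAt_g1L (by linarith)).neg.differentiableWithinAt
  · intro s hs
    rw [norm_neg]
    exact norm_g1L_le' hs
  · rw [tendsto_zero_iff_norm_tendsto_zero]
    have h1 : Tendsto (fun x : ℝ => 4 / (x + 1 / 2)) atTop (𝓝 0) :=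
      tendsto_const_nhds.div_atTop (tendsto_atTop_add_const_right _ _ tendsto_id)
    refine squeeze_zero' (Eventually.of_forall fun x => norm_nonneg _) ?_ h1
    filter_upwards [eventually_ge_atTop (0 : ℝ)] with x hx
    have h2 := norm_g1_le' (z := (x : ℂ)) (by simp; linarith)
    rw [Complex.ofReal_re] at h2
    refine h2.trans ?_
    rw [div_le_div_iff₀ (by positivity) (by positivity)]
    nlinarith
  · intro y
    have h1 : ((((-1 / 4 : ℝ) : ℂ)) + y * I).re < 0 := by simp; norm_num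
    rw [J1_eq h1]
    · ring
    · apply cos_ne_zero_of_left h1
      intro l h
      have := dist_line hc ((((-1 / 4 : ℝ) : ℂ)) + y * I) (by simp) l
      rw [h, sub_self, norm_zero] at this
      norm_num at this
  · have h := (integrable_J1 (c := -1 / 4) le_rfl hc (φ := fun _ => 1) (B := 1) continuous_const
      (fun y => by simp)).1
    simpa using h
  · exact hz

/-- circle functional for `J1` at the `l`-th site. -/
noncomputable def Lg (l : ℕ) (φ : ℂ → ℂ) : ℂ :=
  (2 * Real.pi * I)⁻¹ * ∮ s in C(ce l, 1 / 4), J1 s * φ s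

lemma norm_J1_sphere {l : ℕ} {s : ℂ} (hs : ‖s - ce l‖ = 1 / 4) : ‖J1 s‖ ≤ 36 / ((l : ℝ) + 1 / 4) := by
  have h1 : |(s - ce l).re| ≤ 1 / 4 := by rw [← hs]; exact Complex.abs_re_le_norm _
  rw [Complex.sub_re, ce_re] at h1
  have h2 := (abs_le.mp h1).2
  have hl : (0 : ℝ) ≤ l := Nat.cast_nonneg l
  have h3 := norm_J1_le' (s := s) (by linarith) (fun l' => dist_ce_of_mem hs l')
  refine h3.trans ?_
  rw [div_div]
  apply div_le_div_of_nonneg_left (by norm_num) (by positivity)
  have h4 : (l : ℝ) + 1 / 4 ≤ -s.re := by linarith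
  have h5 : 0 ≤ s.im ^ 2 := sq_nonneg _
  nlinarith

lemma norm_Lg_le (l : ℕ) {φ : ℂ → ℂ} {B : ℝ}
    (hφ : ∀ s, ‖s - ce l‖ = 1 / 4 → ‖φ s‖ ≤ B) : ‖Lg l φ‖ ≤ 9 / ((l : ℝ) + 1 / 4) * B := by
  unfold Lg
  have h := circleIntegral.norm_two_pi_i_inv_smul_integral_le_of_norm_le_const
    (f := fun s => J1 s * φ s) (c := ce l) (R := 1 / 4) (C := 36 / ((l : ℝ) + 1 / 4) * B)
    (by norm_num) (by
      intro s hs
      rw [mem_sphere, dist_eq_norm] at hs
      rw [norm_mul]
      exact mul_le_mul (norm_J1_sphere hs) (hφ s hs) (norm_nonneg _) (by positivity))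
  rw [smul_eq_mul] at h
  refine h.trans (le_of_eq ?_)
  ring

lemma kernel_norm {z s : ℂ} (hz : -1 / 4 < z.re) (hs : s.re ≤ -1 / 4) :
    ‖1 / (z - s)‖ ≤ 1 / (z.re + 1 / 4) := by
  rw [norm_div, norm_one]
  apply one_div_le_one_div_of_le (by linarith)
  have h := Complex.abs_re_le_norm (z - s)
  rw [Complex.sub_re] at h
  have := (le_abs_self (z.re - s.re)).trans h
  linarith

lemma kernel_ne {z s : ℂ} (hz : -1 / 4 < z.re) (hs : s.re ≤ -1 / 4) : z - s ≠ 0 := by
  intro h
  have := congrArg Complex.re h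
  rw [Complex.sub_re, Complex.zero_re] at this
  linarith

lemma norm_J1k_le {z s : ℂ} (hz : -1 / 4 < z.re) (hs : s.re ≤ -1 / 4)
    (hd : ∀ l : ℕ, 1 / 8 ≤ ‖s - ce l‖) :
    ‖J1 s * (1 / (z - s))‖ ≤ (144 * (1 / (z.re + 1 / 4))) / (1 + s.im ^ 2) := by
  have h1 := norm_J1_le' hs hd
  have h2 := kernel_norm hz hs
  have hpos : 0 < -s.re := by linarith
  have hz' : 0 < z.re + 1 / 4 := by linarith
  rw [norm_mul]
  have h3 : 36 / (-s.re) ≤ 144 := by
    rw [div_le_iff₀ hpos]; linarith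
  calc ‖J1 s‖ * ‖1 / (z - s)‖ ≤ (144 / (1 + s.im ^ 2)) * (1 / (z.re + 1 / 4)) := by
        apply mul_le_mul _ h2 (norm_nonneg _) (by positivity)
        refine h1.trans ?_
        exact div_le_div_of_nonneg_right h3 (by positivity)
    _ = _ := by ring

lemma J1k_dec {z : ℂ} (hz : -1 / 4 < z.re) {ε : ℝ} (hε : 0 < ε) :
    ∃ Y : ℝ, ∀ s : ℂ, s.re ≤ -1 / 4 → Y ≤ |s.im| → ‖J1 s * (1 / (z - s))‖ ≤ ε := by
  have hz' : 0 < z.re + 1 / 4 := by linarith
  refine ⟨max 1 ((144 * (1 / (z.re + 1 / 4))) / ε), fun s hs hY => ?_⟩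
  have h1 : 1 ≤ |s.im| := (le_max_left _ _).trans hY
  have h2 : (144 * (1 / (z.re + 1 / 4))) / ε ≤ |s.im| := (le_max_right _ _).trans hY
  refine (norm_J1k_le hz hs (fun l => dist_im s (by linarith) l)).trans ?_
  rw [div_le_iff₀ (by positivity)]
  rw [div_le_iff₀ hε] at h2
  have h3 : |s.im| ≤ 1 + s.im ^ 2 := by
    rw [← sq_abs]; nlinarith [sq_nonneg (|s.im| - 1)]
  nlinarith

lemma hc_line (l : ℕ) (l' : ℕ) : 1 / 8 ≤ |(-(l : ℝ)) - (-1 / 2 - l')| := by
  have h : (-(l : ℝ)) - (-1 / 2 - l') = (((2 * ((l' : ℤ) - l) + 1 : ℤ) : ℝ)) / 2 := by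
    push_cast; ring
  rw [h, abs_div]
  have h1 : (1 : ℝ) ≤ |((2 * ((l' : ℤ) - l) + 1 : ℤ) : ℝ)| := by
    have : (1 : ℤ) ≤ |2 * ((l' : ℤ) - l) + 1| := Int.one_le_abs (by omega)
    exact_mod_cast this
  rw [abs_of_pos (by norm_num : (0 : ℝ) < 2)]
  linarith

/-- integrability and size of `J1(s)/(z-s)` on `Re s = c`. -/
lemma J1k_line {z : ℂ} (hz : -1 / 4 < z.re) {c : ℝ} (hc0 : c ≤ -1 / 4)
    (hc : ∀ l : ℕ, 1 / 8 ≤ |c - (-1 / 2 - l)|) :
    Integrable (fun y : ℝ => J1 (c + y * I) * (1 / (z - (c + y * I)))) ∧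
      ∀ y : ℝ, ‖J1 (c + y * I) * (1 / (z - (c + y * I)))‖ ≤
        (36 / (-c) * (1 / (z.re + 1 / 4))) * (1 + y ^ 2)⁻¹ := by
  have hre : ∀ y : ℝ, ((c : ℂ) + y * I).re = c := by intro y; simp
  apply integrable_J1 hc0 hc (φ := fun s => 1 / (z - s))
  · exact continuous_const.div (by fun_prop) (fun y => kernel_ne hz (by rw [hre]; exact hc0))
  · intro y
    exact kernel_norm hz (by rw [hre]; exact hc0)

/-- the integrand `J1(s)/(z-s)` shifted over the first site. -/
theorem g1_step {z : ℂ} (hz : -1 / 4 < z.re) :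
    I • (∫ y : ℝ, J1 (((-1 / 4 : ℝ) : ℂ) + y * I) * (1 / (z - (((-1 / 4 : ℝ) : ℂ) + y * I)))) =
      (∮ s in C(ce 0, 1 / 4), J1 s * (1 / (z - s))) +
      I • (∫ y : ℝ, J1 (((-1 : ℝ) : ℂ) + y * I) * (1 / (z - (((-1 : ℝ) : ℂ) + y * I)))) := by
  have hp : (ce 0).re = -1 / 2 - ((0 : ℕ) : ℝ) := by rw [ce_re]; ring
  have hcl : ∀ c : ℝ, |c - (-1 / 2)| = 1 / 4 ∨ c = -1 → ∀ l : ℕ, 1 / 8 ≤ |c - (-1 / 2 - l)| := by
    intro c hc l
    rcases hc with hc | hc
    · rcases Nat.eq_zero_or_pos l with h | h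
      · subst h
        have : c - (-1 / 2 - ((0 : ℕ) : ℝ)) = c - (-1 / 2) := by push_cast; ring
        rw [this, hc]; norm_num
      · have hl : (1 : ℝ) ≤ l := by exact_mod_cast h
        have h2 := (abs_le.mp hc.le).1
        have : 1 / 4 ≤ c - (-1 / 2 - (l : ℝ)) := by linarith
        exact (by linarith : (1 : ℝ) / 8 ≤ c - (-1 / 2 - (l : ℝ))).trans (le_abs_self _)
    · rw [hc]
      have := hc_line 1 l
      simpa using this
  obtain ⟨h, hh, hf⟩ := J1_pole 0 (a := 1 / 4) (by norm_num) (by norm_num) (by norm_num)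
    (φ := fun s => 1 / (z - s)) (by
      intro s hs
      have h1 : |s.re - (-1 / 2 - ((0 : ℕ) : ℝ))| ≤ 1 / 4 := hs
      have h2 := (abs_le.mp h1).2
      push_cast at h2
      apply DifferentiableAt.differentiableWithinAt
      exact (differentiableAt_const _).div (by fun_prop) (kernel_ne hz (by linarith)))
  have key := P3R.strip_pole (f := fun s => J1 s * (1 / (z - s))) (h := h) (p := ce 0)
    (a := 1 / 4) (r := 1 / 4) (by norm_num) le_rfl 2
    (by rw [hp]; exact hh) (by rw [hp]; exact hf)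
    (by
      rw [hp]
      intro ε hε
      obtain ⟨Y, hY⟩ := J1k_dec hz hε
      refine ⟨Y, fun s hs hsY => hY s ?_ hsY⟩
      have h2 := (abs_le.mp hs).2
      push_cast at h2
      linarith)
    (by
      have e : (ce 0).re + 1 / 4 = -1 / 4 := by rw [hp]; norm_num
      rw [e]
      exact (J1k_line hz (by norm_num) (hcl _ (Or.inl (by norm_num)))).1)
    (by
      have e : (ce 0).re - 1 / 4 = -3 / 4 := by rw [hp]; norm_num
      rw [e]
      exact (J1k_line hz (by norm_num) (hcl _ (Or.inl (by norm_num [abs_of_neg])))).1)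
  have e1 : (ce 0).re + 1 / 4 = -1 / 4 := by rw [hp]; norm_num
  have e2 : (ce 0).re - 1 / 4 = -3 / 4 := by rw [hp]; norm_num
  rw [e1, e2] at key
  have hsh := VShift724.vshift (f := fun s => J1 s * (1 / (z - s))) (a := -1) (b := -3 / 4)
    (C := 144 * (1 / (z.re + 1 / 4))) (by norm_num)
    (by
      intro s hs
      obtain ⟨h1, h2⟩ := hs
      apply ContinuousAt.continuousWithinAt
      apply DifferentiableAt.continuousAt (𝕜 := ℂ)
      apply DifferentiableAt.mul
      · apply J1_differentiableAt (by linarith)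
        intro l hl
        rw [hl, ce_re] at h1 h2
        have h3 : (l : ℝ) ≤ 1 / 2 := by linarith
        have h4 : l = 0 := by
          by_contra h0
          have : (1 : ℝ) ≤ l := by exact_mod_cast Nat.one_le_iff_ne_zero.mpr h0
          linarith
        subst h4
        norm_num at h2
      · exact (differentiableAt_const _).div (by fun_prop) (kernel_ne hz (by linarith)))
    (by
      intro s h1 h2
      apply DifferentiableAt.mul
      · apply J1_differentiableAt (by linarith)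
        intro l hl
        rw [hl, ce_re] at h1 h2
        have h3 : (l : ℝ) ≤ 1 / 2 := by linarith
        have h4 : l = 0 := by
          by_contra h0
          have : (1 : ℝ) ≤ l := by exact_mod_cast Nat.one_le_iff_ne_zero.mpr h0
          linarith
        subst h4
        norm_num at h2
      · exact (differentiableAt_const _).div (by fun_prop) (kernel_ne hz (by linarith)))
    (by
      intro s h1 h2
      apply norm_J1k_le hz (by linarith)
      intro l
      have h := Complex.abs_re_le_norm (s - ce l)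
      rw [Complex.sub_re, ce_re] at h
      rcases Nat.eq_zero_or_pos l with h0 | h0
      · subst h0
        have := neg_le_abs (s.re - (-(1 / 2) - ((0 : ℕ) : ℝ)))
        push_cast at this h
        linarith
      · have hl : (1 : ℝ) ≤ l := by exact_mod_cast h0
        have := le_abs_self (s.re - (-(1 / 2) - (l : ℝ)))
        linarith)
  rw [hsh]
  linear_combination key

/-- Tendsto form of the circle representation for `Re z > -1/4`. -/
theorem g1_tendsto {z : ℂ} (hz : -1 / 4 < z.re) :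
    Tendsto (fun n : ℕ => ∑ l ∈ Finset.range n, Lg l (fun s => 1 / (z - s))) atTop (𝓝 (g1 z)) := by
  have hlt := P3R.line_tendsto (f := fun s => J1 s * (1 / (z - s))) (r := 1 / 4) (by norm_num)
    (by norm_num) 1 2
    (by
      intro l hl
      have hl' : (1 : ℝ) ≤ l := by exact_mod_cast hl
      obtain ⟨h, hh, hf⟩ := J1_pole l (a := 1 / 2) (by norm_num) le_rfl (by linarith)
        (φ := fun s => 1 / (z - s)) (by
          intro s hs
          have h1 : |s.re - (-1 / 2 - (l : ℝ))| ≤ 1 / 2 := hs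
          have h2 := (abs_le.mp h1).2
          apply DifferentiableAt.differentiableWithinAt
          exact (differentiableAt_const _).div (by fun_prop) (kernel_ne hz (by linarith)))
      refine ⟨h, hh, fun s hs hne => ?_⟩
      rw [← ce_eq] at hne ⊢
      exact hf s hs hne)
    (by
      intro l hl ε hε
      have hl' : (1 : ℝ) ≤ l := by exact_mod_cast hl
      obtain ⟨Y, hY⟩ := J1k_dec hz hε
      refine ⟨Y, fun s hs hsY => hY s ?_ hsY⟩
      have h2 := (abs_le.mp hs).2
      linarith)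
    (by
      intro l hl
      have hl' : (1 : ℝ) ≤ l := by exact_mod_cast hl
      have h := (J1k_line hz (c := -(l : ℝ)) (by linarith) (hc_line l)).1
      have e : (((-(l : ℝ)) : ℝ) : ℂ) = -(l : ℂ) := by push_cast; ring
      rw [e] at h
      exact h)
    (by
      rw [tendsto_zero_iff_norm_tendsto_zero]
      have h1 : Tendsto (fun l : ℕ => (36 * (1 / (z.re + 1 / 4)) * Real.pi) / (l : ℝ)) atTop (𝓝 0) :=
        tendsto_const_nhds.div_atTop tendsto_natCast_atTop_atTop
      refine squeeze_zero' (Eventually.of_forall fun x => norm_nonneg _) ?_ h1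
      filter_upwards [eventually_ge_atTop 1] with l hl
      have hl' : (1 : ℝ) ≤ l := by exact_mod_cast hl
      obtain ⟨_, h2⟩ := (J1k_line hz (c := -(l : ℝ)) (by linarith) (hc_line l))
      have e : (((-(l : ℝ)) : ℝ) : ℂ) = -(l : ℂ) := by push_cast; ring
      rw [e] at h2
      refine (norm_integral_le_of_norm_le (integrable_inv_one_add_sq.const_mul
        (36 / (- -(l : ℝ)) * (1 / (z.re + 1 / 4)))) (Eventually.of_forall h2)).trans ?_
      rw [integral_const_mul, integral_univ_inv_one_add_sq, neg_neg]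
      apply le_of_eq
      ring)
  have h1 := g1_line hz
  have h2 := g1_step hz
  have hpi : (Real.pi : ℂ) ≠ 0 := by exact_mod_cast Real.pi_ne_zero
  have h3 : (∫ y : ℝ, J1 (((-1 / 4 : ℝ) : ℂ) + y * I) /
      (z - (((-1 / 4 : ℝ) : ℂ) + y * I))) =
      ∫ y : ℝ, J1 (((-1 / 4 : ℝ) : ℂ) + y * I) * (1 / (z - (((-1 / 4 : ℝ) : ℂ) + y * I))) := by
    congr 1
    ext y
    rw [mul_one_div]
  rw [h3] at h1
  -- partial sums
  have h4 : Tendsto (fun n : ℕ => (2 * Real.pi * I)⁻¹ * ((∮ s in C(ce 0, 1 / 4), J1 s * (1 / (z - s))) +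
      ∑ l ∈ Finset.range n, ∮ s in C(-1 / 2 - ((1 + l : ℕ) : ℂ), 1 / 4), J1 s * (1 / (z - s))))
      atTop (𝓝 ((2 * Real.pi * I)⁻¹ * ((∮ s in C(ce 0, 1 / 4), J1 s * (1 / (z - s))) +
        I • ∫ y : ℝ, J1 (-((1 : ℕ) : ℂ) + y * I) * (1 / (z - (-((1 : ℕ) : ℂ) + y * I)))))) :=
    (tendsto_const_nhds.add hlt).const_mul _
  have e5 : (-((1 : ℕ) : ℂ)) = ((-1 : ℝ) : ℂ) := by push_cast; ring
  rw [e5, ← h2] at h4
  have h6 : (2 * Real.pi * I)⁻¹ * (I • ∫ y : ℝ, J1 (((-1 / 4 : ℝ) : ℂ) + y * I) *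
      (1 / (z - (((-1 / 4 : ℝ) : ℂ) + y * I)))) = g1 z := by
    rw [h1, smul_eq_mul]
    field_simp
  rw [h6] at h4
  rw [← tendsto_add_atTop_iff_nat 1]
  refine h4.congr (fun n => ?_)
  rw [Finset.sum_range_succ', add_comm (∑ l ∈ Finset.range n, _) (Lg 0 _), mul_add, Finset.mul_sum]
  congr 1
  apply Finset.sum_congr rfl
  intro l _
  unfold Lg
  rw [ce_eq, add_comm 1 l]

end Crest.Agent.R006.G1x186
end

-- ▼ part R006/G1Polar_186
section

/-!
Row 6 (Catalan's constant), g1 side (helper186): residue formula for the circle functionals,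
polar form of the representation of `g1`, valid off the sites, and its derivatives.
-/

set_option autoImplicit false

namespace Crest.Agent.R006.G1x186

open Complex Filter Topology MeasureTheory Set Metric
open Crest.Agent.R006.PsiJ

/-! ### the circle functional -/

lemma J1_cont_sphere (l : ℕ) : ContinuousOn J1 (sphere (ce l) (1 / 4)) := by
  intro s hs
  rw [mem_sphere, dist_eq_norm] at hs
  apply ContinuousAt.continuousWithinAt
  apply DifferentiableAt.continuousAt (𝕜 := ℂ)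
  apply J1_differentiableAt (by linarith [re_le_of_mem hs.le])
  intro l' h
  have := dist_ce_of_mem hs l'
  rw [h, sub_self, norm_zero] at this
  norm_num at this

lemma circInt_g (l : ℕ) {φ : ℂ → ℂ} (hφ : ContinuousOn φ (sphere (ce l) (1 / 4))) :
    CircleIntegrable (fun s => J1 s * φ s) (ce l) (1 / 4) :=
  ((J1_cont_sphere l).mul hφ).circleIntegrable (by norm_num)

lemma Lg_add (l : ℕ) {φ ψ : ℂ → ℂ} (hφ : ContinuousOn φ (sphere (ce l) (1 / 4)))
    (hψ : ContinuousOn ψ (sphere (ce l) (1 / 4))) :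
    Lg l (fun s => φ s + ψ s) = Lg l φ + Lg l ψ := by
  unfold Lg
  rw [← mul_add, ← circleIntegral.integral_add (circInt_g l hφ) (circInt_g l hψ)]
  congr 2
  funext s
  ring

lemma Lg_const_mul (l : ℕ) (c : ℂ) (φ : ℂ → ℂ) : Lg l (fun s => c * φ s) = c * Lg l φ := by
  unfold Lg
  have : (fun s => J1 s * (c * φ s)) = fun s => c * (J1 s * φ s) := by funext s; ring
  rw [this, circleIntegral.integral_const_mul]
  ring

lemma Lg_congr (l : ℕ) {φ ψ : ℂ → ℂ} (h : ∀ s ∈ sphere (ce l) (1 / 4), φ s = ψ s) :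
    Lg l φ = Lg l ψ := by
  unfold Lg
  congr 1
  apply circleIntegral.integral_congr (by norm_num)
  intro s hs
  simp only
  rw [h s hs]

/-- holomorphic multiples of `(s - ce l)^2` are killed. -/
lemma Lg_kill (l : ℕ) {φ : ℂ → ℂ} (hφ : DifferentiableOn ℂ φ (closedBall (ce l) (1 / 4))) :
    Lg l (fun s => (s - ce l) ^ 2 * φ s) = 0 := by
  obtain ⟨h, hh, hf⟩ := J1_pole l (a := 1 / 4) (by norm_num) (by norm_num)
    (by have : (0 : ℝ) ≤ l := Nat.cast_nonneg l; linarith)
    (φ := fun _ => 1) (differentiableOn_const _)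
  have hsub : closedBall (ce l) (1 / 4) ⊆ {s : ℂ | |s.re - (-1 / 2 - l)| ≤ 1 / 4} := by
    intro s hs
    rw [mem_closedBall, dist_eq_norm] at hs
    have h1 := Complex.abs_re_le_norm (s - ce l)
    rw [Complex.sub_re, ce_re] at h1
    show |s.re - (-1 / 2 - l)| ≤ 1 / 4
    have e : s.re - (-1 / 2 - (l : ℝ)) = s.re - (-(1 / 2) - l) := by ring
    rw [e]
    exact h1.trans hs
  have e : (∮ s in C(ce l, 1 / 4), J1 s * ((s - ce l) ^ 2 * φ s)) =
      ∮ s in C(ce l, 1 / 4), h s * φ s := by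
    apply circleIntegral.integral_congr (by norm_num)
    intro s hs
    have hs' : ‖s - ce l‖ = 1 / 4 := by rwa [mem_sphere, dist_eq_norm] at hs
    have hne : s ≠ ce l := by
      intro h0
      rw [h0, sub_self, norm_zero] at hs'
      norm_num at hs'
    have h1 := hf s (hsub (sphere_subset_closedBall hs)) hne
    simp only
    rw [mul_one] at h1
    rw [h1]
    have h2 : s - ce l ≠ 0 := sub_ne_zero.mpr hne
    rw [zpow_neg, zpow_natCast]
    field_simp
  unfold Lg
  rw [e]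
  have hd : DifferentiableOn ℂ (fun s => h s * φ s) (closedBall (ce l) (1 / 4)) :=
    (hh.mono hsub).mul hφ
  have := Complex.circleIntegral_eq_zero_of_differentiable_on_off_countable
    (f := fun s => h s * φ s) (c := ce l) (R := 1 / 4) (by norm_num) Set.countable_empty
    hd.continuousOn (fun z hz => hd.differentiableAt (closedBall_mem_nhds_of_mem hz.1))
  rw [this, mul_zero]

/-- residue coefficients -/
noncomputable def aL (l : ℕ) : ℂ := Lg l (fun _ => 1)
noncomputable def bL (l : ℕ) : ℂ := Lg l (fun s => s - ce l)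

/-- **Residue formula.** -/
theorem Lg_eq (l : ℕ) {φ : ℂ → ℂ} (hφ : DifferentiableOn ℂ φ (closedBall (ce l) (1 / 4))) :
    Lg l φ = φ (ce l) * aL l + deriv φ (ce l) * bL l := by
  have hn : closedBall (ce l) (1 / 4) ∈ 𝓝 (ce l) := closedBall_mem_nhds _ (by norm_num)
  have h1 : DifferentiableOn ℂ (dslope φ (ce l)) (closedBall (ce l) (1 / 4)) :=
    (Complex.differentiableOn_dslope hn).2 hφ
  have h2 : DifferentiableOn ℂ (dslope (dslope φ (ce l)) (ce l)) (closedBall (ce l) (1 / 4)) :=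
    (Complex.differentiableOn_dslope hn).2 h1
  have e : φ = fun s => (φ (ce l) * 1 + deriv φ (ce l) * (s - ce l)) +
      (s - ce l) ^ 2 * dslope (dslope φ (ce l)) (ce l) s := by
    funext s
    have e1 := sub_smul_dslope φ (ce l) s
    have e2 := sub_smul_dslope (dslope φ (ce l)) (ce l) s
    rw [dslope_same] at e2
    simp only [smul_eq_mul] at e1 e2
    linear_combination -e1 - (s - ce l) * e2
  have hc : ∀ (f : ℂ → ℂ), DifferentiableOn ℂ f (closedBall (ce l) (1 / 4)) →
      ContinuousOn f (sphere (ce l) (1 / 4)) :=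
    fun f hf => hf.continuousOn.mono sphere_subset_closedBall
  have c1 : ContinuousOn (fun s : ℂ => φ (ce l) * 1) (sphere (ce l) (1 / 4)) := continuousOn_const
  have c2 : ContinuousOn (fun s : ℂ => deriv φ (ce l) * (s - ce l)) (sphere (ce l) (1 / 4)) := by
    fun_prop
  have c3 : ContinuousOn (fun s : ℂ => (s - ce l) ^ 2 * dslope (dslope φ (ce l)) (ce l) s)
      (sphere (ce l) (1 / 4)) := by
    apply ContinuousOn.mul (by fun_prop) (hc _ h2)
  calc Lg l φ = Lg l (fun s => (φ (ce l) * 1 + deriv φ (ce l) * (s - ce l)) +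
      (s - ce l) ^ 2 * dslope (dslope φ (ce l)) (ce l) s) := by rw [← e]
    _ = φ (ce l) * aL l + deriv φ (ce l) * bL l := by
      have c12 : ContinuousOn (fun s : ℂ => φ (ce l) * 1 + deriv φ (ce l) * (s - ce l))
        (sphere (ce l) (1 / 4)) := c1.add c2
      rw [Lg_add l c12 c3, Lg_add l c1 c2, Lg_const_mul, Lg_const_mul, Lg_kill l h2, add_zero]
      rfl

lemma norm_aL_le (l : ℕ) : ‖aL l‖ ≤ 36 / ((l : ℝ) + 1) := by
  have h := norm_Lg_le l (φ := fun _ => 1) (B := 1) (fun s _ => by simp)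
  refine h.trans ?_
  have hl : (0 : ℝ) ≤ l := Nat.cast_nonneg l
  rw [mul_one, div_le_div_iff₀ (by positivity) (by positivity)]
  linarith

lemma norm_bL_le (l : ℕ) : ‖bL l‖ ≤ 9 / ((l : ℝ) + 1) := by
  have h := norm_Lg_le l (φ := fun s => s - ce l) (B := 1 / 4) (fun s hs => hs.le)
  refine h.trans ?_
  have hl : (0 : ℝ) ≤ l := Nat.cast_nonneg l
  rw [div_mul_eq_mul_div, div_le_div_iff₀ (by positivity) (by positivity)]
  linarith

/-! ### the polar sums -/

/-- `j`-th jet (up to sign) of the polar part at the site `l` -/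
noncomputable def gk (j l : ℕ) (z : ℂ) : ℂ :=
  aL l * ((z - ce l) ^ (j + 1))⁻¹ + ((j : ℂ) + 1) * bL l * ((z - ce l) ^ (j + 2))⁻¹

lemma dist_lower {z : ℂ} (hz : ∀ l, z ≠ ce l) :
    ∃ δ : ℝ, 0 < δ ∧ ∀ l : ℕ, δ * ((l : ℝ) + 1) ≤ ‖z - ce l‖ := by
  obtain ⟨δ, h0, h1, h2⟩ := exists_dist z hz
  have hM : 0 < 2 * ‖z‖ + 3 := by positivity
  refine ⟨δ / (2 * ‖z‖ + 3), by positivity, fun l => ?_⟩
  have hl : (0 : ℝ) ≤ l := Nat.cast_nonneg l
  rcases le_or_gt ((l : ℝ) + 1) (2 * ‖z‖ + 3) with h | h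
  · calc δ / (2 * ‖z‖ + 3) * ((l : ℝ) + 1) ≤ δ / (2 * ‖z‖ + 3) * (2 * ‖z‖ + 3) :=
          mul_le_mul_of_nonneg_left h (by positivity)
      _ = δ := by field_simp
      _ ≤ _ := (h2 l).le
  · have h3 : (l : ℝ) + 1 / 2 ≤ ‖ce l‖ := by
      have : |(ce l).re| ≤ ‖ce l‖ := Complex.abs_re_le_norm _
      rw [ce_re] at this
      have h3 : |-(1 / 2) - (l : ℝ)| = 1 / 2 + l := by
        rw [abs_of_nonpos (by linarith)]; ring
      rw [h3] at this
      linarith
    have h4 : ‖ce l‖ - ‖z‖ ≤ ‖z - ce l‖ := by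
      rw [norm_sub_rev]; exact norm_sub_norm_le _ _
    have h5 : δ / (2 * ‖z‖ + 3) ≤ 1 / 2 := by
      rw [div_le_iff₀ hM]
      nlinarith [norm_nonneg z]
    have h6 : δ / (2 * ‖z‖ + 3) * ((l : ℝ) + 1) ≤ 1 / 2 * ((l : ℝ) + 1) :=
      mul_le_mul_of_nonneg_right h5 (by linarith)
    linarith

/-- the majorant -/
noncomputable def maj (j : ℕ) (δ : ℝ) (l : ℕ) : ℝ :=
  (36 * (δ ^ (j + 1))⁻¹ + ((j : ℝ) + 1) * 9 * (δ ^ (j + 2))⁻¹) * (1 / ((l : ℝ) + 1) ^ 2)

lemma summable_maj (j : ℕ) (δ : ℝ) : Summable (maj j δ) := by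
  unfold maj
  apply Summable.mul_left
  have h := (summable_nat_add_iff 1).2 (Real.summable_one_div_nat_pow.2 (by norm_num : 1 < 2))
  refine h.congr (fun l => ?_)
  push_cast
  rfl

lemma norm_gk_le {δ : ℝ} (hδ : 0 < δ) (j l : ℕ) {w : ℂ} (h : δ * ((l : ℝ) + 1) ≤ ‖w - ce l‖) :
    ‖gk j l w‖ ≤ maj j δ l := by
  have hl : (0 : ℝ) ≤ l := Nat.cast_nonneg l
  have hl1 : (0 : ℝ) < (l : ℝ) + 1 := by linarith
  have hpow : ∀ n : ℕ, ‖((w - ce l) ^ (n + 1))⁻¹‖ ≤ (δ ^ (n + 1))⁻¹ * (1 / ((l : ℝ) + 1)) := by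
    intro n
    rw [norm_inv, norm_pow]
    have h1 : (δ * ((l : ℝ) + 1)) ^ (n + 1) ≤ ‖w - ce l‖ ^ (n + 1) :=
      pow_le_pow_left₀ (by positivity) h _
    refine (inv_anti₀ (by positivity) h1).trans ?_
    rw [mul_pow, mul_inv]
    apply mul_le_mul_of_nonneg_left _ (by positivity)
    rw [one_div]
    apply inv_anti₀ hl1
    calc (l : ℝ) + 1 = ((l : ℝ) + 1) ^ 1 := (pow_one _).symm
      _ ≤ ((l : ℝ) + 1) ^ (n + 1) := pow_le_pow_right₀ (by linarith) (by omega)
  unfold gk maj
  refine (norm_add_le _ _).trans ?_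
  rw [norm_mul, norm_mul, norm_mul]
  have e1 : ‖(j : ℂ) + 1‖ = (j : ℝ) + 1 := by
    have : (j : ℂ) + 1 = ((j + 1 : ℕ) : ℂ) := by push_cast; ring
    rw [this, Complex.norm_natCast]; push_cast; ring
  rw [e1]
  have a1 := norm_aL_le l
  have b1 := norm_bL_le l
  have p1 := hpow j
  have p2 := hpow (j + 1)
  have t1 : ‖aL l‖ * ‖((w - ce l) ^ (j + 1))⁻¹‖ ≤
      36 / ((l : ℝ) + 1) * ((δ ^ (j + 1))⁻¹ * (1 / ((l : ℝ) + 1))) :=
    mul_le_mul a1 p1 (norm_nonneg _) (by positivity)
  have t2 : ((j : ℝ) + 1) * ‖bL l‖ * ‖((w - ce l) ^ (j + 2))⁻¹‖ ≤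
      ((j : ℝ) + 1) * (9 / ((l : ℝ) + 1)) * ((δ ^ (j + 2))⁻¹ * (1 / ((l : ℝ) + 1))) :=
    mul_le_mul (mul_le_mul_of_nonneg_left b1 (by positivity)) p2 (norm_nonneg _) (by positivity)
  refine (add_le_add t1 t2).trans (le_of_eq ?_)
  field_simp

lemma dist_ball {z : ℂ} {δ : ℝ} (hδ : 0 < δ) (h : ∀ l : ℕ, δ * ((l : ℝ) + 1) ≤ ‖z - ce l‖)
    {w : ℂ} (hw : w ∈ ball z (δ / 2)) (l : ℕ) : δ / 2 * ((l : ℝ) + 1) ≤ ‖w - ce l‖ := by
  rw [mem_ball, dist_eq_norm] at hw
  have h1 : ‖z - ce l‖ ≤ ‖w - ce l‖ + ‖w - z‖ := by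
    have : z - ce l = (w - ce l) - (w - z) := by ring
    rw [this]; exact norm_sub_le _ _
  have hl : (0 : ℝ) ≤ l := Nat.cast_nonneg l
  have := h l
  nlinarith

lemma summable_gk (j : ℕ) {z : ℂ} (hz : ∀ l, z ≠ ce l) : Summable (fun l => gk j l z) := by
  obtain ⟨δ, hδ, h⟩ := dist_lower hz
  exact Summable.of_norm_bounded (summable_maj j δ) (fun l => norm_gk_le hδ j l (h l))

lemma hasDerivAt_gk (j l : ℕ) {z : ℂ} (hz : z ≠ ce l) :
    HasDerivAt (gk j l) (-((j : ℂ) + 1) * gk (j + 1) l z) z := by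
  have hne : z - ce l ≠ 0 := sub_ne_zero.mpr hz
  have hp : ∀ n : ℕ, HasDerivAt (fun w : ℂ => ((w - ce l) ^ (n + 1))⁻¹)
      (-((n : ℂ) + 1) * ((z - ce l) ^ (n + 2))⁻¹) z := by
    intro n
    have h1 : HasDerivAt (fun w : ℂ => (w - ce l) ^ (n + 1)) (((n + 1 : ℕ) : ℂ) * (z - ce l) ^ n * 1) z :=
      ((hasDerivAt_id z).sub_const (ce l)).pow (n + 1)
    have h2 := h1.inv (pow_ne_zero _ hne)
    refine h2.congr_deriv ?_
    push_cast
    have h3 : (z - ce l) ^ (n + 1) ≠ 0 := pow_ne_zero _ hne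
    have h4 : (z - ce l) ^ (n + 2) ≠ 0 := pow_ne_zero _ hne
    rw [div_eq_iff (pow_ne_zero 2 h3)]
    have h5 : ((z - ce l) ^ (n + 1)) ^ 2 = (z - ce l) ^ (n + 2) * (z - ce l) ^ n := by
      rw [← pow_mul, ← pow_add]; congr 1; ring
    rw [h5]
    have h6 := inv_mul_cancel₀ h4
    linear_combination ((n : ℂ) + 1) * (z - ce l) ^ n * h6
  have h := ((hp j).const_mul (aL l)).add ((hp (j + 1)).const_mul (((j : ℂ) + 1) * bL l))
  refine h.congr_deriv ?_
  unfold gk
  push_cast
  ring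

/-- the sum of the jets -/
noncomputable def Sg (j : ℕ) (z : ℂ) : ℂ := ∑' l, gk j l z

theorem hasDerivAt_Sg (j : ℕ) {z : ℂ} (hz : ∀ l, z ≠ ce l) :
    HasDerivAt (Sg j) (-((j : ℂ) + 1) * Sg (j + 1) z) z := by
  obtain ⟨δ, hδ, h⟩ := dist_lower hz
  have hδ2 : 0 < δ / 2 := by positivity
  have hball : ∀ w ∈ ball z (δ / 2), ∀ l : ℕ, w ≠ ce l := by
    intro w hw l hl
    have := dist_ball hδ h hw l
    rw [hl, sub_self, norm_zero] at this
    have hl' : (0 : ℝ) ≤ l := Nat.cast_nonneg l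
    have : 0 < δ / 2 * ((l : ℝ) + 1) := by positivity
    linarith
  have key := hasDerivAt_tsum_of_isPreconnected (𝕜 := ℂ) (F := ℂ)
    (u := fun l => ((j : ℝ) + 1) * maj (j + 1) (δ / 2) l)
    (g := fun l w => gk j l w) (g' := fun l w => -((j : ℂ) + 1) * gk (j + 1) l w)
    (t := ball z (δ / 2)) ((summable_maj (j + 1) (δ / 2)).mul_left _) isOpen_ball
    (convex_ball z (δ / 2)).isPreconnected
    (fun l w hw => hasDerivAt_gk j l (hball w hw l))
    (fun l w hw => by
      rw [norm_mul]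
      have e1 : ‖-((j : ℂ) + 1)‖ = (j : ℝ) + 1 := by
        have : (j : ℂ) + 1 = ((j + 1 : ℕ) : ℂ) := by push_cast; ring
        rw [norm_neg, this, Complex.norm_natCast]; push_cast; ring
      rw [e1]
      exact mul_le_mul_of_nonneg_left (norm_gk_le hδ2 (j + 1) l (dist_ball hδ h hw l)) (by positivity))
    (mem_ball_self hδ2) (summable_gk j hz) (mem_ball_self hδ2)
  have e2 : (∑' l, -((j : ℂ) + 1) * gk (j + 1) l z) = -((j : ℂ) + 1) * Sg (j + 1) z := by
    unfold Sg
    rw [tsum_mul_left]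
  rw [e2] at key
  exact key

/-- off the sites -/
def OffU : Set ℂ := {z | ∀ l, z ≠ ce l}

lemma isOpen_OffU : IsOpen OffU := by
  rw [Metric.isOpen_iff]
  intro z hz
  obtain ⟨δ, hδ, h⟩ := dist_lower hz
  refine ⟨δ / 2, by positivity, fun w hw l hl => ?_⟩
  have := dist_ball hδ h hw l
  rw [hl, sub_self, norm_zero] at this
  have hl' : (0 : ℝ) ≤ l := Nat.cast_nonneg l
  have : 0 < δ / 2 * ((l : ℝ) + 1) := by positivity
  linarith

lemma isPreconnected_OffU : IsPreconnected OffU := by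
  have e : OffU = (Set.range ce)ᶜ := by
    ext z
    simp only [OffU, Set.mem_ofPred_eq, Set.mem_compl_iff, Set.mem_range, not_exists]
    constructor
    · intro h l hl; exact h l hl.symm
    · intro h l hl; exact h l hl.symm
  rw [e]
  have hr : 1 < Module.rank ℝ ℂ := by
    rw [Complex.rank_real_complex]
    exact_mod_cast (by norm_num : (1 : ℕ) < 2)
  exact ((Set.countable_range ce).isPathConnected_compl_of_one_lt_rank hr).isConnected.isPreconnected

lemma Lg_kernel (l : ℕ) {z : ℂ} (hz : 1 / 4 < ‖z - ce l‖) :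
    Lg l (fun s => 1 / (z - s)) = gk 0 l z := by
  have hne : z - ce l ≠ 0 := by
    intro h; rw [h, norm_zero] at hz; norm_num at hz
  have hd : DifferentiableOn ℂ (fun s => 1 / (z - s)) (closedBall (ce l) (1 / 4)) := by
    intro s hs
    apply DifferentiableAt.differentiableWithinAt
    apply (differentiableAt_const _).div (by fun_prop)
    intro h0
    rw [mem_closedBall, dist_eq_norm] at hs
    rw [sub_eq_zero] at h0
    rw [h0] at hz
    linarith
  rw [Lg_eq l hd]
  have h1 : HasDerivAt (fun s : ℂ => 1 / (z - s)) ((0 * (z - ce l) - 1 * (-1)) / (z - ce l) ^ 2) (ce l) := by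
    apply (hasDerivAt_const (ce l) (1 : ℂ)).div _ hne
    simpa using (hasDerivAt_id (ce l)).const_sub z
  rw [h1.deriv]
  unfold gk
  push_cast
  field_simp
  ring

/-- the circle representation for `Re z > -1/4` in polar form -/
lemma Sg_zero_right {z : ℂ} (hz : 0 ≤ z.re) : Sg 0 z = g1 z := by
  have hz' : -1 / 4 < z.re := by linarith
  have hoff : ∀ l, z ≠ ce l := by
    intro l h
    rw [h, ce_re] at hz
    have hl : (0 : ℝ) ≤ l := Nat.cast_nonneg l
    linarith
  have h1 := g1_tendsto hz'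
  have h2 := (summable_gk 0 hoff).hasSum.tendsto_sum_nat
  refine tendsto_nhds_unique h2 (h1.congr fun n => ?_)
  apply Finset.sum_congr rfl
  intro l _
  apply Lg_kernel
  have h := Complex.abs_re_le_norm (z - ce l)
  rw [Complex.sub_re, ce_re] at h
  have hl : (0 : ℝ) ≤ l := Nat.cast_nonneg l
  have := le_abs_self (z.re - (-(1 / 2) - (l : ℝ)))
  linarith

/-- **`g1` is the sum of its polar parts, everywhere off the sites.** -/
theorem Sg_zero {z : ℂ} (hz : ∀ l, z ≠ ce l) : Sg 0 z = g1 z := by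
  have hA : AnalyticOnNhd ℂ (Sg 0) OffU :=
    DifferentiableOn.analyticOnNhd
      (fun w hw => (hasDerivAt_Sg 0 hw).differentiableAt.differentiableWithinAt) isOpen_OffU
  have hB : AnalyticOnNhd ℂ g1 OffU :=
    DifferentiableOn.analyticOnNhd
      (fun w hw => (differentiableAt_g1 (fun l => by rw [← ce_eq]; exact hw l)).differentiableWithinAt)
      isOpen_OffU
  have h1 : (1 : ℂ) ∈ OffU := by
    intro l h
    have := congrArg Complex.re h
    rw [ce_re, Complex.one_re] at this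
    have hl : (0 : ℝ) ≤ l := Nat.cast_nonneg l
    linarith
  have hev : Sg 0 =ᶠ[𝓝 (1 : ℂ)] g1 := by
    have : ∀ᶠ w in 𝓝 (1 : ℂ), 0 < w.re :=
      (isOpen_lt continuous_const Complex.continuous_re).mem_nhds (by simp)
    filter_upwards [this] with w hw
    exact Sg_zero_right hw.le
  exact hA.eqOn_of_preconnected_of_eventuallyEq hB isPreconnected_OffU h1 hev hz

theorem hasSum_polar {z : ℂ} (hz : ∀ l, z ≠ ce l) : HasSum (fun l => gk 0 l z) (g1 z) := by
  rw [← Sg_zero hz]
  exact (summable_gk 0 hz).hasSum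


end Crest.Agent.R006.G1x186
end

-- ▼ part R006/G1Germ_186
section

/-!
Row 6 (Catalan's constant), g1 side (helper186): the germs of the frozen definitions (`Defs`) are
the Taylor germs of `g1` (rows `Z i`) and of `g1L` (rows `H i`).
-/

set_option autoImplicit false

namespace Crest.Agent.R006.G1x186

open Complex Filter Topology Set
open Crest.Agent.R006.PsiJ Crest.Agent.R006.Germ724 Crest.Agent.R006.NV

/-! ### analyticity -/

lemma analyticAt_Gamma {w : ℂ} (hw : ∀ m : ℕ, w ≠ -m) : AnalyticAt ℂ Gamma w := by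
  have h1 : AnalyticAt ℂ (fun s : ℂ => (Gamma s)⁻¹) w :=
    Complex.differentiable_one_div_Gamma.analyticAt w
  have h2 : (Gamma w)⁻¹ ≠ 0 := inv_ne_zero (Complex.Gamma_ne_zero hw)
  have h3 := h1.fun_inv h2
  simpa only [inv_inv] using h3

lemma analyticAt_gr {w : ℂ} (hw : ∀ m : ℕ, w ≠ -m) : AnalyticAt ℂ gr w := by
  have h1 : AnalyticAt ℂ (fun s : ℂ => (Gamma s)⁻¹) (w + 1 / 2) :=
    Complex.differentiable_one_div_Gamma.analyticAt _
  have h2 : AnalyticAt ℂ (fun s : ℂ => (Gamma (s + 1 / 2))⁻¹) w :=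
    AnalyticAt.comp (f := fun s : ℂ => s + 1 / 2) h1 (analyticAt_id.add analyticAt_const)
  exact (analyticAt_Gamma hw).mul h2

lemma analyticAt_g1 {z : ℂ} (hz : ∀ l, z ≠ ce l) : AnalyticAt ℂ g1 z := by
  have h1 : AnalyticAt ℂ gr (z + 1 / 2) := by
    apply analyticAt_gr
    intro m h
    apply hz m
    rw [ce_eq]
    linear_combination h
  have h2 : AnalyticAt ℂ (fun s : ℂ => gr (s + 1 / 2)) z :=
    AnalyticAt.comp (f := fun s : ℂ => s + 1 / 2) h1 (analyticAt_id.add analyticAt_const)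
  have h3 := (h2.fun_pow 2).fun_mul (analyticAt_const (v := (Real.pi : ℂ)⁻¹))
  exact h3

lemma analyticAt_g1L {z : ℂ} (hz : ∀ n : ℕ, z ≠ n) : AnalyticAt ℂ g1L z := by
  have h1 : AnalyticAt ℂ gr (-z) := by
    apply analyticAt_gr
    intro m h
    apply hz m
    linear_combination -h
  have h2 : AnalyticAt ℂ (fun s : ℂ => gr (-s)) z :=
    AnalyticAt.comp (f := fun s : ℂ => -s) h1 analyticAt_id.neg
  have h3 := (h2.fun_pow 2).fun_mul (analyticAt_const (v := (Real.pi : ℂ)⁻¹))
  exact h3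

/-! ### recurrences -/

lemma gr_rec {w : ℂ} (hw : w ≠ 0) : (w + 1 / 2) * gr (w + 1) = w * gr w := by
  unfold gr
  have h1 := Complex.one_div_Gamma_eq_self_mul_one_div_Gamma_add_one (w + 1 / 2)
  have e : w + 1 + 1 / 2 = w + 1 / 2 + 1 := by ring
  rw [e, h1, Complex.Gamma_add_one w hw]
  ring

lemma g1L_rec {s : ℂ} (hs : s ≠ 0) : s ^ 2 * g1L s = (s - 1 / 2) ^ 2 * g1L (s - 1) := by
  unfold g1L
  have h := gr_rec (w := -s) (neg_ne_zero.mpr hs)
  have e : -(s - 1) = -s + 1 := by ring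
  rw [e]
  have h2 : ((-s + 1 / 2) * gr (-s + 1)) ^ 2 = (-s * gr (-s)) ^ 2 := by rw [h]
  linear_combination (-(1 : ℂ) / Real.pi) * h2

lemma g1L_ce (l : ℕ) : g1L (ce l) = g1 l := by
  unfold g1L g1
  have : -ce l = (l : ℂ) + 1 / 2 := by rw [ce_eq]; ring
  rw [this]

lemma g1L_neg_half : g1L (-(1 / 2)) = 1 := by
  have h := g1L_ce 0
  have e : ce 0 = -(1 / 2) := by rw [ce_eq]; push_cast; ring
  rw [e] at h
  rw [h]
  push_cast
  exact g1_zero

lemma T_shift_neg (f : ℂ → ℂ) (z : ℂ) : T (fun s => f (s - 1)) z = T f (z - 1) := by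
  have := T_shift f z (-1)
  simpa [sub_eq_add_neg] using this

/-- germ recurrence of a function with `s^2 f(s) = (s-1/2)^2 f(s-1)` near `z`. -/
lemma T_rec {f : ℂ → ℂ} {z : ℂ} (h1 : AnalyticAt ℂ f z) (h2 : AnalyticAt ℂ f (z - 1))
    (hr : ∀ᶠ s in 𝓝 z, s ^ 2 * f s = (s - 1 / 2) ^ 2 * f (s - 1)) :
    pt z ^ 2 * T f z = (pt z - PowerSeries.C (1 / 2)) ^ 2 * T f (z - 1) := by
  have hid : AnalyticAt ℂ (fun s : ℂ => s) z := analyticAt_id
  have h3 : AnalyticAt ℂ (fun s : ℂ => f (s - 1)) z :=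
    AnalyticAt.comp (f := fun s : ℂ => s - 1) h2 (analyticAt_id.sub analyticAt_const)
  have h4 : AnalyticAt ℂ (fun s : ℂ => s - 1 / 2) z := analyticAt_id.sub analyticAt_const
  have hL : T (fun s => s ^ 2 * f s) z = pt z ^ 2 * T f z := by
    rw [T_mul (hid.fun_pow 2) h1, T_pow hid, T_id]
  have hR : T (fun s => (s - 1 / 2) ^ 2 * f (s - 1)) z =
      (pt z - PowerSeries.C (1 / 2)) ^ 2 * T f (z - 1) := by
    rw [T_mul (h4.fun_pow 2) h3, T_pow h4, T_sub hid analyticAt_const, T_id, T_const, T_shift_neg]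
  rw [← hL, ← hR]
  exact T_congr hr

lemma T_g1_rec {z : ℂ} (hz : ∀ l, z ≠ ce l) (hz1 : ∀ l, z - 1 ≠ ce l) :
    pt z ^ 2 * T g1 z = (pt z - PowerSeries.C (1 / 2)) ^ 2 * T g1 (z - 1) := by
  apply T_rec (analyticAt_g1 hz) (analyticAt_g1 hz1)
  have hne : z ≠ 1 / 2 := by
    intro h
    apply hz1 0
    rw [h, ce_eq]
    push_cast
    ring
  filter_upwards [isOpen_ne.mem_nhds hne] with s hs
  exact g1_rec hs

lemma T_g1L_rec {z : ℂ} (hz : ∀ n : ℕ, z ≠ n) (hz1 : ∀ n : ℕ, z - 1 ≠ n) :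
    pt z ^ 2 * T g1L z = (pt z - PowerSeries.C (1 / 2)) ^ 2 * T g1L (z - 1) := by
  apply T_rec (analyticAt_g1L hz) (analyticAt_g1L hz1)
  have hne : z ≠ 0 := by
    intro h
    apply hz 0
    rw [h]; simp
  filter_upwards [isOpen_ne.mem_nhds hne] with s hs
  exact g1L_rec hs

/-! ### integers and half-integers off the sites -/

lemma int_off (i : ℤ) (l : ℕ) : (i : ℂ) ≠ ce l := by
  intro h
  have h1 : ((2 * i + 1 + 2 * l : ℤ) : ℂ) = 0 := by
    rw [ce_eq] at h
    push_cast
    linear_combination 2 * h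
  have h2 : (2 * i + 1 + 2 * (l : ℤ)) = 0 := by exact_mod_cast h1
  omega


lemma half_ne_nat (i : ℤ) (n : ℕ) : (i : ℂ) + 1 / 2 ≠ n := by
  intro h
  have h1 : ((2 * i + 1 - 2 * n : ℤ) : ℂ) = 0 := by
    push_cast
    linear_combination 2 * h
  have h2 : (2 * i + 1 - 2 * (n : ℤ)) = 0 := by exact_mod_cast h1
  omega

/-! ### comparison of the germs -/

lemma dvd_of_dvd_unit_mul {a b : PowerSeries ℂ} {k : ℕ} (ha : PowerSeries.constantCoeff a ≠ 0)
    (h : (PowerSeries.X : PowerSeries ℂ) ^ k ∣ a * b) : (PowerSeries.X : PowerSeries ℂ) ^ k ∣ b := by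
  have hu : IsUnit a := PowerSeries.isUnit_iff_constantCoeff.mpr (isUnit_iff_ne_zero.mpr ha)
  exact (hu.dvd_mul_left).mp h

lemma pt_const (s : ℂ) : PowerSeries.constantCoeff (pt s) = s := constantCoeff_pt s

lemma quarter_sq (i : ℂ) : (PowerSeries.C (1 / 4) * (2 * pt i + 1) ^ 2 : PowerSeries ℂ) =
    (pt (i + 1) - PowerSeries.C (1 / 2)) ^ 2 := by
  have h1 : (PowerSeries.C (1 / 4) : PowerSeries ℂ) = PowerSeries.C (1 / 2) ^ 2 := by
    rw [← map_pow]; congr 1; norm_num
  have h2 : (PowerSeries.C (1 / 2) * 2 : PowerSeries ℂ) = 1 := by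
    have : (2 : PowerSeries ℂ) = PowerSeries.C 2 := (map_ofNat PowerSeries.C 2).symm
    rw [this, ← map_mul]; norm_num
  rw [h1, ← pt_add_one]
  have h3 : (pt i + 1 - PowerSeries.C (1 / 2) : PowerSeries ℂ) = PowerSeries.C (1 / 2) * (2 * pt i + 1) := by
    linear_combination (-(pt i) - 1) * h2
  rw [h3]
  ring

/-- difference of the germs at `Z i` -/
noncomputable def DZ (i : ℤ) : PowerSeries ℂ := GamZ i - T g1 (i : ℂ)

lemma DZ_rec (i : ℤ) : pt ((i : ℂ) + 1) ^ 2 * DZ (i + 1) =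
    (pt ((i : ℂ) + 1) - PowerSeries.C (1 / 2)) ^ 2 * DZ i := by
  have h1 := (step_Z (0 : ℂ) i).gam
  rw [quarter_sq] at h1
  have h2 := T_g1_rec (z := (i : ℂ) + 1)
    (fun l => by have := int_off (i + 1) l; push_cast at this; exact this)
    (fun l => by rw [add_sub_cancel_right]; exact int_off i l)
  rw [add_sub_cancel_right] at h2
  unfold DZ
  push_cast
  linear_combination h1 - h2

lemma DZ_zero : (PowerSeries.X : PowerSeries ℂ) ∣ DZ 0 := by
  rw [PowerSeries.X_dvd_iff]
  unfold DZ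
  rw [map_sub, constantCoeff_T, GamZ_zero]
  simp [g1_zero]

lemma DZ_nonneg (n : ℕ) : (PowerSeries.X : PowerSeries ℂ) ∣ DZ n := by
  induction n with
  | zero => exact DZ_zero
  | succ n ih =>
    have h := DZ_rec n
    have h1 : (PowerSeries.X : PowerSeries ℂ) ^ 1 ∣ pt (((n : ℤ) : ℂ) + 1) ^ 2 * DZ ((n : ℤ) + 1) := by
      rw [h, pow_one]
      exact ih.mul_left _
    have h2 := dvd_of_dvd_unit_mul (a := pt (((n : ℤ) : ℂ) + 1) ^ 2) (by
      rw [map_pow, pt_const]
      apply pow_ne_zero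
      have : ((n + 1 : ℕ) : ℂ) ≠ 0 := by exact_mod_cast Nat.succ_ne_zero n
      push_cast at this ⊢
      exact this) h1
    rw [pow_one] at h2
    have e : ((n + 1 : ℕ) : ℤ) = (n : ℤ) + 1 := by push_cast; ring
    rw [e]
    exact h2

lemma const_shift_ne (i : ℤ) :
    PowerSeries.constantCoeff ((pt ((i : ℂ) + 1) - PowerSeries.C (1 / 2)) ^ 2) ≠ 0 := by
  rw [map_pow, map_sub, pt_const, PowerSeries.constantCoeff_C]
  apply pow_ne_zero
  intro h
  have h1 : ((2 * i + 1 : ℤ) : ℂ) = 0 := by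
    push_cast
    linear_combination 2 * h
  have h2 : (2 * i + 1 : ℤ) = 0 := by exact_mod_cast h1
  omega

lemma DZ_neg (n : ℕ) : (PowerSeries.X : PowerSeries ℂ) ^ 3 ∣ DZ (-(n : ℤ) - 1) := by
  induction n with
  | zero =>
    have h := DZ_rec (-1)
    have e0 : (-1 : ℤ) + 1 = 0 := by norm_num
    have e1 : (((-1 : ℤ) : ℂ)) + 1 = 0 := by push_cast; ring
    rw [e0, e1] at h
    have hX : pt (0 : ℂ) = PowerSeries.X := by simp [pt]
    have h1 : (PowerSeries.X : PowerSeries ℂ) ^ 3 ∣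
        (pt (0 : ℂ) - PowerSeries.C (1 / 2)) ^ 2 * DZ (-1) := by
      rw [← h, hX]
      obtain ⟨c, hc⟩ := DZ_zero
      rw [hc]
      exact ⟨c, by ring⟩
    have h2 := const_shift_ne (-1)
    rw [e1] at h2
    have h3 := dvd_of_dvd_unit_mul h2 h1
    simpa using h3
  | succ n ih =>
    have h := DZ_rec (-(n : ℤ) - 2)
    have e0 : -(n : ℤ) - 2 + 1 = -(n : ℤ) - 1 := by ring
    rw [e0] at h
    have h1 : (PowerSeries.X : PowerSeries ℂ) ^ 3 ∣
        (pt (((-(n : ℤ) - 2 : ℤ) : ℂ) + 1) - PowerSeries.C (1 / 2)) ^ 2 * DZ (-(n : ℤ) - 2) := by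
      rw [← h]
      exact ih.mul_left _
    have h3 := dvd_of_dvd_unit_mul (const_shift_ne (-(n : ℤ) - 2)) h1
    have e : -((n + 1 : ℕ) : ℤ) - 1 = -(n : ℤ) - 2 := by push_cast; ring
    rw [e]
    exact h3

/-! ### half-integers -/

lemma GamH0_rec (i : ℤ) : (pt ((i : ℚ) + 1 / 2) ^ 2 * D.GamH0 (i + 1) : PowerSeries ℚ) =
    PowerSeries.C (1 / 4) * (2 * pt ((i : ℚ) - 1 / 2) + 1) ^ 2 * D.GamH0 i := by
  have h := bi_step (K := ℚ) (a := fun i : ℤ => pt ((i : ℚ) - 1 / 2 + 1) ^ 2)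
    (b := fun i : ℤ => -(PowerSeries.C (1 / 4) * (2 * pt ((i : ℚ) - 1 / 2) + 1) ^ 2))
    (c := fun _ => 0) (init := 1) (by
      intro i hi
      rw [map_pow, constantCoeff_pt]
      apply pow_ne_zero
      have : (0 : ℚ) ≤ i := by exact_mod_cast hi
      linarith) (by
      intro i hi
      rw [map_neg, map_mul, PowerSeries.constantCoeff_C, map_pow, map_add, map_mul,
        constantCoeff_pt, constantCoeff_two, map_one]
      apply neg_ne_zero.mpr
      apply mul_ne_zero (by norm_num)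
      apply pow_ne_zero
      have : (i : ℚ) < 0 := by exact_mod_cast hi
      intro h
      linarith) i
  have e : bi (fun i : ℤ => pt ((i : ℚ) - 1 / 2 + 1) ^ 2)
      (fun i : ℤ => -(PowerSeries.C (1 / 4) * (2 * pt ((i : ℚ) - 1 / 2) + 1) ^ 2)) (fun _ => 0) 1
      = D.GamH0 := rfl
  rw [e] at h
  have e2 : ((i : ℚ) - 1 / 2 + 1) = (i : ℚ) + 1 / 2 := by ring
  rw [e2] at h
  linear_combination h

/-- the complex version of the half chain, index `i` is the point `i - 1/2` -/
noncomputable def gH0 (i : ℤ) : PowerSeries ℂ := PowerSeries.map (Rat.castHom ℂ) (D.GamH0 i)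

lemma gH0_rec (i : ℤ) : pt ((i : ℂ) + 1 / 2) ^ 2 * gH0 (i + 1) =
    (pt ((i : ℂ) + 1 / 2) - PowerSeries.C (1 / 2)) ^ 2 * gH0 i := by
  have h := congrArg (PowerSeries.map (Rat.castHom ℂ)) (GamH0_rec i)
  rw [map_mul, map_pow, map_mul, map_mul, map_pow, map_add, map_mul, Map.map_pt, Map.map_pt,
    Map.map_two, PowerSeries.map_C, map_one] at h
  have e1 : (Rat.castHom ℂ) ((i : ℚ) + 1 / 2) = (i : ℂ) + 1 / 2 := by
    simp
  have e2 : (Rat.castHom ℂ) ((i : ℚ) - 1 / 2) = (i : ℂ) - 1 / 2 := by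
    simp
  have e3 : (Rat.castHom ℂ) (1 / 4) = 1 / 4 := by simp
  rw [e1, e2, e3] at h
  have e4 := quarter_sq ((i : ℂ) - 1 / 2)
  have e5 : (i : ℂ) - 1 / 2 + 1 = (i : ℂ) + 1 / 2 := by ring
  rw [e5] at e4
  rw [e4] at h
  exact h

/-- difference of the germs at `i - 1/2` -/
noncomputable def DH (i : ℤ) : PowerSeries ℂ := gH0 i - T g1L ((i : ℂ) - 1 / 2)

lemma DH_rec (i : ℤ) : pt ((i : ℂ) + 1 / 2) ^ 2 * DH (i + 1) =
    (pt ((i : ℂ) + 1 / 2) - PowerSeries.C (1 / 2)) ^ 2 * DH i := by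
  have h1 := gH0_rec i
  have h2 := T_g1L_rec (z := (i : ℂ) + 1 / 2) (fun n => half_ne_nat i n) (fun n => by
    have := half_ne_nat (i - 1) n
    push_cast at this
    intro h
    apply this
    linear_combination h)
  have e : (i : ℂ) + 1 / 2 - 1 = (i : ℂ) - 1 / 2 := by ring
  rw [e] at h2
  unfold DH
  push_cast
  have e2 : (i : ℂ) + 1 - 1 / 2 = (i : ℂ) + 1 / 2 := by ring
  rw [e2]
  linear_combination h1 - h2

lemma DH_zero : (PowerSeries.X : PowerSeries ℂ) ∣ DH 0 := by
  rw [PowerSeries.X_dvd_iff]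
  unfold DH
  have e1 : ((0 : ℤ) : ℂ) - 1 / 2 = -(1 / 2) := by push_cast; ring
  rw [map_sub, constantCoeff_T, e1, g1L_neg_half]
  have e2 : D.GamH0 0 = 1 := rfl
  unfold gH0
  rw [e2, map_one, map_one, sub_self]

lemma pt_sub_half (i : ℤ) : (pt ((i : ℂ) + 1 / 2) - PowerSeries.C (1 / 2) : PowerSeries ℂ) = pt (i : ℂ) := by
  unfold pt
  rw [map_add]
  ring

lemma DH_nonpos (n : ℕ) : (PowerSeries.X : PowerSeries ℂ) ∣ DH (-(n : ℤ)) := by
  induction n with
  | zero => simpa using DH_zero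
  | succ n ih =>
    have h := DH_rec (-(n : ℤ) - 1)
    have e0 : -(n : ℤ) - 1 + 1 = -(n : ℤ) := by ring
    rw [e0, pt_sub_half] at h
    have h1 : (PowerSeries.X : PowerSeries ℂ) ^ 1 ∣
        pt ((-(n : ℤ) - 1 : ℤ) : ℂ) ^ 2 * DH (-(n : ℤ) - 1) := by
      rw [← h, pow_one]
      exact ih.mul_left _
    have h3 := dvd_of_dvd_unit_mul (a := pt ((-(n : ℤ) - 1 : ℤ) : ℂ) ^ 2) (by
      rw [map_pow, pt_const]
      apply pow_ne_zero
      intro h0
      have : (-(n : ℤ) - 1) = 0 := by exact_mod_cast h0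
      omega) h1
    rw [pow_one] at h3
    have e : -((n + 1 : ℕ) : ℤ) = -(n : ℤ) - 1 := by push_cast; ring
    rw [e]
    exact h3

lemma DH_pos (n : ℕ) : (PowerSeries.X : PowerSeries ℂ) ^ 3 ∣ DH ((n : ℤ) + 1) := by
  induction n with
  | zero =>
    have h := DH_rec 0
    rw [pt_sub_half] at h
    have hX : pt ((0 : ℤ) : ℂ) = PowerSeries.X := by simp [pt]
    have h1 : (PowerSeries.X : PowerSeries ℂ) ^ 3 ∣ pt (((0 : ℤ) : ℂ) + 1 / 2) ^ 2 * DH (0 + 1) := by
      rw [h, hX]
      obtain ⟨c, hc⟩ := DH_zero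
      rw [hc]
      exact ⟨c, by ring⟩
    have h3 := dvd_of_dvd_unit_mul (a := pt (((0 : ℤ) : ℂ) + 1 / 2) ^ 2) (by
      rw [map_pow, pt_const]
      apply pow_ne_zero
      push_cast
      norm_num) h1
    simpa using h3
  | succ n ih =>
    have h := DH_rec ((n : ℤ) + 1)
    have h1 : (PowerSeries.X : PowerSeries ℂ) ^ 3 ∣
        pt ((((n : ℤ) + 1 : ℤ) : ℂ) + 1 / 2) ^ 2 * DH ((n : ℤ) + 1 + 1) := by
      rw [h]
      exact ih.mul_left _
    have h3 := dvd_of_dvd_unit_mul (a := pt ((((n : ℤ) + 1 : ℤ) : ℂ) + 1 / 2) ^ 2) (by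
      rw [map_pow, pt_const]
      apply pow_ne_zero
      intro h0
      have h2 : ((2 * n + 3 : ℕ) : ℂ) = 0 := by
        push_cast at h0 ⊢
        linear_combination 2 * h0
      have : (2 * n + 3 : ℕ) = 0 := by exact_mod_cast h2
      omega) h1
    have e : ((n + 1 : ℕ) : ℤ) + 1 = (n : ℤ) + 1 + 1 := by push_cast; ring
    rw [e]
    exact h3

/-! ### the entries -/



lemma coeff_eq_of_dvd {A B c : PowerSeries ℂ} {j k : ℕ} (hjk : j < k)
    (h : (PowerSeries.X : PowerSeries ℂ) ^ k ∣ A - B) :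
    PowerSeries.coeff j (c * A) = PowerSeries.coeff j (c * B) := by
  have h1 : (PowerSeries.X : PowerSeries ℂ) ^ k ∣ c * A - c * B := by
    rw [← mul_sub]; exact h.mul_left _
  rw [PowerSeries.X_pow_dvd_iff] at h1
  have h2 := h1 j hjk
  rw [map_sub, sub_eq_zero] at h2
  exact h2




/-! ### jets of `g1` as sums -/

lemma iteratedDeriv_g1 (j : ℕ) {z : ℂ} (hz : ∀ l, z ≠ ce l) :
    iteratedDeriv j g1 z = (-1) ^ j * (j.factorial : ℂ) * Sg j z := by
  induction j generalizing z with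
  | zero => simp [Sg_zero hz]
  | succ j ih =>
    rw [iteratedDeriv_succ]
    have hev : iteratedDeriv j g1 =ᶠ[𝓝 z] fun w => (-1) ^ j * (j.factorial : ℂ) * Sg j w := by
      filter_upwards [isOpen_OffU.mem_nhds hz] with w hw
      exact ih hw
    rw [hev.deriv_eq]
    have h := (hasDerivAt_Sg j hz).const_mul ((-1) ^ j * (j.factorial : ℂ))
    rw [h.deriv, Nat.factorial_succ]
    push_cast
    ring

theorem coeff_T_g1 (j : ℕ) {z : ℂ} (hz : ∀ l, z ≠ ce l) :
    PowerSeries.coeff j (T g1 z) = (-1) ^ j * Sg j z := by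
  rw [coeff_T, iteratedDeriv_g1 j hz]
  have : (j.factorial : ℂ) ≠ 0 := by exact_mod_cast j.factorial_ne_zero
  field_simp

lemma hasDerivAt_inv_pow (n : ℕ) {c z : ℂ} (hne : c - z ≠ 0) :
    HasDerivAt (fun w : ℂ => ((w - z) ^ (n + 1))⁻¹) (-((n : ℂ) + 1) * ((c - z) ^ (n + 2))⁻¹) c := by
  have h1 : HasDerivAt (fun w : ℂ => (w - z) ^ (n + 1)) (((n + 1 : ℕ) : ℂ) * (c - z) ^ n * 1) c :=
    ((hasDerivAt_id c).sub_const z).pow (n + 1)
  have h2 := h1.inv (pow_ne_zero _ hne)
  refine h2.congr_deriv ?_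
  push_cast
  have h3 : (c - z) ^ (n + 1) ≠ 0 := pow_ne_zero _ hne
  have h4 : (c - z) ^ (n + 2) ≠ 0 := pow_ne_zero _ hne
  rw [div_eq_iff (pow_ne_zero 2 h3)]
  have h5 : ((c - z) ^ (n + 1)) ^ 2 = (c - z) ^ (n + 2) * (c - z) ^ n := by
    rw [← pow_mul, ← pow_add]; congr 1; ring
  rw [h5]
  have h6 := inv_mul_cancel₀ h4
  linear_combination ((n : ℂ) + 1) * (c - z) ^ n * h6

lemma inv_neg_pow (u : ℂ) (n : ℕ) : ((-u) ^ n)⁻¹ = (-1) ^ n * (u ^ n)⁻¹ := by
  rw [neg_pow, mul_inv]
  congr 1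
  rcases neg_one_pow_eq_or ℂ n with h | h
  · rw [h]; norm_num
  · rw [h]; norm_num

/-- circle functional of the powers `(s-z)^{-(j+1)}`. -/
lemma Lg_pow (l j : ℕ) {z : ℂ} (hz : 1 / 4 < ‖z - ce l‖) :
    Lg l (fun s => ((s - z) ^ (j + 1))⁻¹) = (-1) ^ (j + 1) * gk j l z := by
  have hne : z - ce l ≠ 0 := by
    intro h; rw [h, norm_zero] at hz; norm_num at hz
  have hne' : ce l - z ≠ 0 := by
    intro h; apply hne; linear_combination -h
  have hd : DifferentiableOn ℂ (fun s : ℂ => ((s - z) ^ (j + 1))⁻¹) (Metric.closedBall (ce l) (1 / 4)) := by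
    intro s hs
    apply DifferentiableAt.differentiableWithinAt
    apply DifferentiableAt.inv (by fun_prop)
    apply pow_ne_zero
    intro h0
    rw [Metric.mem_closedBall, dist_eq_norm] at hs
    rw [sub_eq_zero] at h0
    rw [h0] at hs
    linarith
  rw [Lg_eq l hd, (hasDerivAt_inv_pow j hne').deriv]
  have e : ce l - z = -(z - ce l) := by ring
  rw [e, inv_neg_pow, inv_neg_pow]
  unfold gk
  rw [pow_succ (-1 : ℂ) (j + 1)]
  ring

/-- **jets of `g1` through the circles** -/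
theorem hasSum_circle_g_pow (j : ℕ) {z : ℂ} (hz : ∀ l, 1 / 4 < ‖z - ce l‖) :
    HasSum (fun l => Lg l (fun s => ((s - z) ^ (j + 1))⁻¹)) (-PowerSeries.coeff j (T g1 z)) := by
  have hoff : ∀ l, z ≠ ce l := by
    intro l h
    have := hz l
    rw [h, sub_self, norm_zero] at this
    norm_num at this
  have h := ((summable_gk j hoff).hasSum).mul_left ((-1 : ℂ) ^ (j + 1))
  have e : (fun l => Lg l (fun s => ((s - z) ^ (j + 1))⁻¹)) = fun l => (-1) ^ (j + 1) * gk j l z :=
    funext fun l => Lg_pow l j (hz l)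
  rw [e, coeff_T_g1 j hoff]
  have e2 : -((-1) ^ j * Sg j z) = (-1 : ℂ) ^ (j + 1) * ∑' l, gk j l z := by
    unfold Sg
    rw [pow_succ]
    ring
  rw [e2]
  exact h

end Crest.Agent.R006.G1x186
end

-- ▼ part R006/G1W_186

/-!
Row 6 (Catalan's constant), g1 side (helper186): the circle sums of `1/(s - ce l)`
(a node on a site), residues at a node as circle integrals.
-/

set_option autoImplicit false

namespace Crest.Agent.R006.G1x186

open Complex Filter Topology Set Metric
open Crest.Agent.R006.PsiJ Crest.Agent.R006.Germ724 Crest.Agent.R006.NV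

/-! ### `J1` near a site -/

lemma closedBall_sub_strip (l : ℕ) :
    closedBall (ce l) (1 / 4) ⊆ {s : ℂ | |s.re - (-1 / 2 - l)| ≤ 1 / 4} := by
  intro s hs
  rw [mem_closedBall, dist_eq_norm] at hs
  have h1 := Complex.abs_re_le_norm (s - ce l)
  rw [Complex.sub_re, ce_re] at h1
  show |s.re - (-1 / 2 - l)| ≤ 1 / 4
  have e : s.re - (-1 / 2 - (l : ℝ)) = s.re - (-(1 / 2) - l) := by ring
  rw [e]
  exact h1.trans hs

/-- the regular numerator of `J1` at the site `l` -/
lemma exists_num (l : ℕ) : ∃ h : ℂ → ℂ, DifferentiableOn ℂ h (closedBall (ce l) (1 / 4)) ∧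
    ∀ s ∈ closedBall (ce l) (1 / 4), s ≠ ce l → J1 s = h s / (s - ce l) ^ 2 := by
  obtain ⟨h, hh, hf⟩ := J1_pole l (a := 1 / 4) (by norm_num) (by norm_num)
    (by have : (0 : ℝ) ≤ l := Nat.cast_nonneg l; linarith)
    (φ := fun _ => 1) (differentiableOn_const _)
  refine ⟨h, hh.mono (closedBall_sub_strip l), fun s hs hne => ?_⟩
  have h1 := hf s (closedBall_sub_strip l hs) hne
  rw [mul_one] at h1
  rw [h1, zpow_neg, zpow_natCast, div_eq_mul_inv]

/-- circle integrals with the numerator -/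
lemma Lg_num (l : ℕ) {h : ℂ → ℂ} (hh : DifferentiableOn ℂ h (closedBall (ce l) (1 / 4)))
    (hJ : ∀ s ∈ closedBall (ce l) (1 / 4), s ≠ ce l → J1 s = h s / (s - ce l) ^ 2) {φ : ℂ → ℂ}
    (n : ℕ) (hφ : ∀ s, s ≠ ce l → φ s / (s - ce l) ^ 2 = ((s - ce l) ^ (n + 1))⁻¹) :
    Lg l φ = PowerSeries.coeff n (T h (ce l)) := by
  have e : (∮ s in C(ce l, 1 / 4), J1 s * φ s) = ∮ s in C(ce l, 1 / 4), h s / (s - ce l) ^ (n + 1) := by
    apply circleIntegral.integral_congr (by norm_num)
    intro s hs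
    have hne : s ≠ ce l := by
      intro h0
      rw [h0, mem_sphere, dist_self] at hs
      norm_num at hs
    simp only
    rw [hJ s (sphere_subset_closedBall hs) hne, div_mul_eq_mul_div, mul_div_assoc, hφ s hne,
      div_eq_mul_inv]
  unfold Lg
  rw [e, circle_eq (by norm_num) hh]
  have hpi : (2 * Real.pi * I : ℂ) ≠ 0 := Complex.two_pi_I_ne_zero
  rw [← mul_assoc, inv_mul_cancel₀ hpi, one_mul]

lemma sub_cube_ne {s c : ℂ} (h : s ≠ c) : s - c ≠ 0 := sub_ne_zero.mpr h

/-- finite part of `J1` at the site -/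
noncomputable def fp (l : ℕ) : ℂ := Lg l (fun s => (s - ce l)⁻¹)

lemma J1_fp (l : ℕ) : Tendsto (fun z => J1 z - gk 0 l z) (𝓝[≠] (ce l)) (𝓝 (fp l)) := by
  obtain ⟨h, hh, hJ⟩ := exists_num l
  have hn : closedBall (ce l) (1 / 4) ∈ 𝓝 (ce l) := closedBall_mem_nhds _ (by norm_num)
  have hh1 : DifferentiableOn ℂ (dslope h (ce l)) (closedBall (ce l) (1 / 4)) :=
    (Complex.differentiableOn_dslope hn).2 hh
  have hh2 : DifferentiableOn ℂ (dslope (dslope h (ce l)) (ce l)) (closedBall (ce l) (1 / 4)) :=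
    (Complex.differentiableOn_dslope hn).2 hh1
  set h1 := dslope h (ce l) with hh1def
  set h2 := dslope h1 (ce l) with hh2def
  have an1 : AnalyticAt ℂ h1 (ce l) := hh1.analyticAt hn
  have an2 : AnalyticAt ℂ h2 (ce l) := hh2.analyticAt hn
  have hid : AnalyticAt ℂ (fun s : ℂ => s - ce l) (ce l) := analyticAt_id.sub analyticAt_const
  have e1 : h = fun s => h (ce l) + (s - ce l) * h1 s := by
    funext s
    have := sub_smul_dslope h (ce l) s
    simp only [smul_eq_mul] at this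
    linear_combination -this
  have e2 : h1 = fun s => h1 (ce l) + (s - ce l) * h2 s := by
    funext s
    have := sub_smul_dslope h1 (ce l) s
    simp only [smul_eq_mul] at this
    linear_combination -this
  have tX : T (fun s : ℂ => s - ce l) (ce l) = PowerSeries.X := by
    have h3 := Base724.T_sub_const (ce l) (ce l)
    rw [h3, sub_self, pt, map_zero, add_zero]
  have t1 : T h (ce l) = PowerSeries.C (h (ce l)) + PowerSeries.X * T h1 (ce l) := by
    conv_lhs => rw [e1]
    rw [T_add analyticAt_const (hid.fun_mul an1), T_const, T_mul hid an1, tX]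
  have t2 : T h1 (ce l) = PowerSeries.C (h1 (ce l)) + PowerSeries.X * T h2 (ce l) := by
    conv_lhs => rw [e2]
    rw [T_add analyticAt_const (hid.fun_mul an2), T_const, T_mul hid an2, tX]
  have hb : bL l = h (ce l) := by
    unfold bL
    rw [Lg_num l hh hJ 0 (fun s hs => by
      have := sub_cube_ne hs
      rw [zero_add, pow_one]
      field_simp)]
    rw [PowerSeries.coeff_zero_eq_constantCoeff_apply, constantCoeff_T]
  have ha : aL l = h1 (ce l) := by
    unfold aL
    rw [Lg_num l hh hJ 1 (fun s hs => by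
      have := sub_cube_ne hs
      field_simp)]
    rw [t1, map_add, PowerSeries.coeff_succ_X_mul, PowerSeries.coeff_C, if_neg (by norm_num), zero_add,
      PowerSeries.coeff_zero_eq_constantCoeff_apply, constantCoeff_T]
  have hf : fp l = h2 (ce l) := by
    unfold fp
    rw [Lg_num l hh hJ 2 (fun s hs => by
      have := sub_cube_ne hs
      field_simp)]
    rw [t1, map_add, PowerSeries.coeff_succ_X_mul, PowerSeries.coeff_C, if_neg (by norm_num), zero_add,
      t2, map_add, PowerSeries.coeff_succ_X_mul, PowerSeries.coeff_C, if_neg (by norm_num), zero_add,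
      PowerSeries.coeff_zero_eq_constantCoeff_apply, constantCoeff_T]
  rw [hf]
  have hlim : Tendsto h2 (𝓝[≠] (ce l)) (𝓝 (h2 (ce l))) :=
    an2.continuousAt.tendsto.mono_left nhdsWithin_le_nhds
  refine hlim.congr' ?_
  have hev : ∀ᶠ z in 𝓝[≠] (ce l), z ∈ closedBall (ce l) (1 / 4) :=
    eventually_nhdsWithin_of_eventually_nhds hn
  filter_upwards [hev, self_mem_nhdsWithin] with z hz hne
  have hne' : z ≠ ce l := hne
  have h3 : z - ce l ≠ 0 := sub_cube_ne hne'
  rw [hJ z hz hne']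
  unfold gk
  rw [ha, hb]
  have e3 : h z = h (ce l) + (z - ce l) * (h1 (ce l) + (z - ce l) * h2 z) := by
    have a1 : h z = h (ce l) + (z - ce l) * h1 z := congrFun e1 z
    have a2 : h1 z = h1 (ce l) + (z - ce l) * h2 z := congrFun e2 z
    rw [a1]
    linear_combination (z - ce l) * a2
  rw [e3]
  push_cast
  field_simp
  ring

/-! ### the sum with the node on a site -/

/-- the other polar parts -/
noncomputable def gko (l l' : ℕ) (z : ℂ) : ℂ := if l' = l then 0 else gk 0 l' z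

lemma dist_other {l l' : ℕ} (h : l' ≠ l) {z : ℂ} (hz : z ∈ ball (ce l) (1 / 4)) :
    1 / (2 * ((l : ℝ) + 2)) * ((l' : ℝ) + 1) ≤ ‖z - ce l'‖ := by
  rw [mem_ball, dist_eq_norm] at hz
  have h1 : ce l - ce l' = (((l' : ℤ) - l : ℤ) : ℂ) := by
    unfold ce; push_cast; ring
  have h2 : ‖ce l - ce l'‖ = |(l' : ℝ) - l| := by
    rw [h1, Complex.norm_intCast]
    push_cast
    rfl
  have h3 : ‖ce l - ce l'‖ ≤ ‖z - ce l'‖ + ‖z - ce l‖ := by
    have : ce l - ce l' = (z - ce l') - (z - ce l) := by ring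
    rw [this]; exact norm_sub_le _ _
  have h4 : (1 : ℝ) ≤ |(l' : ℝ) - l| := by
    have : (1 : ℤ) ≤ |(l' : ℤ) - l| := Int.one_le_abs (by omega)
    exact_mod_cast this
  have hl : (0 : ℝ) ≤ l := Nat.cast_nonneg l
  have h5 : (l' : ℝ) + 1 ≤ ((l : ℝ) + 2) * |(l' : ℝ) - l| := by
    have := le_abs_self ((l' : ℝ) - l)
    nlinarith
  rw [h2] at h3
  have h6 : 1 / (2 * ((l : ℝ) + 2)) * ((l' : ℝ) + 1) ≤ 1 / 2 * |(l' : ℝ) - l| := by
    rw [div_mul_eq_mul_div, one_mul, div_le_iff₀ (by positivity)]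
    linarith
  linarith

lemma norm_gko_le (l l' : ℕ) {z : ℂ} (hz : z ∈ ball (ce l) (1 / 4)) :
    ‖gko l l' z‖ ≤ maj 0 (1 / (2 * ((l : ℝ) + 2))) l' := by
  unfold gko
  have hpos : (0 : ℝ) < 1 / (2 * ((l : ℝ) + 2)) := by positivity
  split_ifs with h
  · rw [norm_zero]
    unfold maj
    positivity
  · exact norm_gk_le hpos 0 l' (dist_other h hz)

lemma continuousOn_gko (l : ℕ) : ContinuousOn (fun z => ∑' l', gko l l' z) (ball (ce l) (1 / 4)) := by
  apply continuousOn_tsum (u := fun l' => maj 0 (1 / (2 * ((l : ℝ) + 2))) l')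
  · intro l' z hz
    unfold gko
    split_ifs with h
    · exact continuousWithinAt_const
    · have hne : z ≠ ce l' := by
        intro h0
        have := dist_other h hz
        rw [h0, sub_self, norm_zero] at this
        have hl : (0 : ℝ) ≤ l' := Nat.cast_nonneg l'
        have : 0 < 1 / (2 * ((l : ℝ) + 2)) * ((l' : ℝ) + 1) := by positivity
        linarith
      exact (hasDerivAt_gk 0 l' hne).continuousAt.continuousWithinAt
  · exact summable_maj _ _
  · intro l' z hz
    exact norm_gko_le l l' hz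

lemma ball_off {l : ℕ} {z : ℂ} (hz : z ∈ ball (ce l) (1 / 4)) (hne : z ≠ ce l) (l' : ℕ) :
    z ≠ ce l' := by
  by_cases h : l' = l
  · rw [h]; exact hne
  · intro h0
    have := dist_other h hz
    rw [h0, sub_self, norm_zero] at this
    have hl : (0 : ℝ) ≤ l' := Nat.cast_nonneg l'
    have : 0 < 1 / (2 * ((l : ℝ) + 2)) * ((l' : ℝ) + 1) := by positivity
    linarith

lemma tsum_gko {l : ℕ} {z : ℂ} (hz : z ∈ ball (ce l) (1 / 4)) (hne : z ≠ ce l) :
    ∑' l', gko l l' z = g1 z - gk 0 l z := by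
  have hoff := ball_off hz hne
  have h1 := hasSum_polar hoff
  have h2 : HasSum (fun l' => if l' = l then gk 0 l z else 0) (gk 0 l z) := hasSum_ite_eq l _
  have h3 := h1.sub h2
  have e : (fun l' => gk 0 l' z - if l' = l then gk 0 l z else 0) = fun l' => gko l l' z := by
    funext l'
    unfold gko
    split_ifs with h
    · rw [h, sub_self]
    · rw [sub_zero]
  rw [e] at h3
  exact h3.tsum_eq

/-- the regular sum at the site -/
lemma tsum_gko_site (l : ℕ) : ∑' l', gko l l' (ce l) = fp l - g1L (ce l) := by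
  have hmem : ce l ∈ ball (ce l) (1 / 4) := mem_ball_self (by norm_num)
  have h1 : Tendsto (fun z => ∑' l', gko l l' z) (𝓝[≠] (ce l)) (𝓝 (∑' l', gko l l' (ce l))) :=
    (((continuousOn_gko l).continuousAt (ball_mem_nhds _ (by norm_num))).tendsto).mono_left
      nhdsWithin_le_nhds
  have hre : (ce l).re < 0 := by
    rw [ce_re]; have : (0 : ℝ) ≤ l := Nat.cast_nonneg l; linarith
  have h2 : Tendsto (fun z => (J1 z - gk 0 l z) - g1L z) (𝓝[≠] (ce l)) (𝓝 (fp l - g1L (ce l))) :=
    (J1_fp l).sub ((differentiableAt_g1L hre).continuousAt.tendsto.mono_left nhdsWithin_le_nhds)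
  refine tendsto_nhds_unique h1 (h2.congr' ?_)
  have hev : ∀ᶠ z in 𝓝[≠] (ce l), z ∈ ball (ce l) (1 / 4) :=
    eventually_nhdsWithin_of_eventually_nhds (ball_mem_nhds _ (by norm_num))
  filter_upwards [hev, self_mem_nhdsWithin] with z hz hne
  have hne' : z ≠ ce l := hne
  have hoff := ball_off hz hne'
  have hzre : z.re < 0 := by
    have := re_le_of_mem (l := l) (s := z) (by
      rw [mem_ball, dist_eq_norm] at hz; exact hz.le)
    linarith
  rw [tsum_gko hz hne', J1_eq hzre (cos_ne_zero_of_left hzre hoff)]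
  ring

/-- **node on a site**: `∑_{l'} Lg l' (1/(s - ce l)) = g1L (ce l)`. -/
theorem hasSum_site (l : ℕ) :
    HasSum (fun l' => Lg l' (fun s => (s - ce l)⁻¹)) (g1L (ce l)) := by
  have hmem : ce l ∈ ball (ce l) (1 / 4) := mem_ball_self (by norm_num)
  have hsum : Summable (fun l' => gko l l' (ce l)) :=
    Summable.of_norm_bounded (summable_maj _ _) (fun l' => norm_gko_le l l' hmem)
  have h1 := hsum.hasSum
  rw [tsum_gko_site] at h1
  have h2 : HasSum (fun l' => if l' = l then fp l else 0) (fp l) := hasSum_ite_eq l _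
  have h3 := h2.sub h1
  have e : (fun l' => (if l' = l then fp l else 0) - gko l l' (ce l)) =
      fun l' => Lg l' (fun s => (s - ce l)⁻¹) := by
    funext l'
    unfold gko
    split_ifs with h
    · rw [h, sub_zero]; rfl
    · rw [zero_sub]
      have hd : 1 / 4 < ‖ce l - ce l'‖ := by
        have := ce_dist l l' (Ne.symm h)
        linarith
      have := Lg_pow l' 0 hd
      simp only [zero_add, pow_one] at this
      rw [this]
      ring
  rw [e] at h3
  have e2 : fp l - (fp l - g1L (ce l)) = g1L (ce l) := by ring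
  rw [e2] at h3
  exact h3

end Crest.Agent.R006.G1x186
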