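import Crest.Agent.R006.NumSum_464
import Crest.Agent.R006.P3_Pot3_943

/-!
# Row 6: bridge between the reference densities of `P3_Pot*_943` and the NUM kit (helper464)

`Iseg`, `mutE` of 943 in terms of `pot`, `segE` at Gaussian integers over a common denominator `Q`,
and their certified enclosures.
-/

set_option autoImplicit false

namespace Crest.Agent.R006.NumSegx464

open Real MeasureTheory Num482 Crest.Agent.R006.Potx943

theorem Iseg_eq_pot (a d s : ℂ) (m : ℝ) : Iseg a d m s = m * pot a (a + m * d) s := by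
  unfold Iseg pot
  by_cases hm : m = 0
  · subst hm; simp
  · have h1 := intervalIntegral.integral_comp_mul_left (a := 0) (b := 1)
      (fun t : ℝ => Real.log ‖s - (a + t * d)‖) (c := m) hm
    simp only [mul_zero, mul_one, smul_eq_mul] at h1
    have h2 : ∫ t in (0:ℝ)..m, Real.log ‖s - (a + t * d)‖ =
        m * ∫ x in (0:ℝ)..1, Real.log ‖s - (a + ((m * x : ℝ) : ℂ) * d)‖ := by
      rw [h1, ← mul_assoc, mul_inv_cancel₀ hm, one_mul]
    rw [h2]
    congr 2; funext κ; congr 3
    push_cast; ring

theorem mutE_eq_segE (a d : ℂ) (m : ℝ) (a' d' : ℂ) (m' : ℝ) :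
    Potx943.mutE a d m a' d' m' = m * m' * segE a' (a' + m' * d') a (a + m * d) := by
  unfold Potx943.mutE segE
  simp only [Iseg_eq_pot]
  by_cases hm : m = 0
  · subst hm; simp
  · have h1 := intervalIntegral.integral_comp_mul_left (a := 0) (b := 1)
      (fun t : ℝ => m' * pot a' (a' + m' * d') (a + t * d)) (c := m) hm
    simp only [mul_zero, mul_one, smul_eq_mul] at h1
    have h2 : ∫ t in (0:ℝ)..m, m' * pot a' (a' + m' * d') (a + t * d) =
        m * ∫ x in (0:ℝ)..1, m' * pot a' (a' + m' * d') (a + ((m * x : ℝ) : ℂ) * d) := by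
      rw [h1, ← mul_assoc, mul_inv_cancel₀ hm, one_mul]
    rw [h2, intervalIntegral.integral_const_mul, mul_assoc]
    unfold pot
    congr 3; funext τ
    have e : ∀ κ : ℝ, (a + ((m * τ : ℝ) : ℂ) * d - (a' + κ * (a' + m' * d' - a'))) =
        (a + τ * (a + m * d - a) - (a' + κ * (a' + m' * d' - a'))) := by
      intro κ; push_cast; ring
    simp only [e]

theorem pot_scale {A B : ℂ} (hAB : B - A ≠ 0) (s : ℂ) {r : ℝ} (hr : 0 < r) :
    pot (A / r) (B / r) (s / r) = pot A B s - Real.log r := inner_scale hAB s hr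



end Crest.Agent.R006.NumSegx464
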