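import Crest.Agent.R006.Defs
import Crest.Agent.R006.CellTot_305

set_option autoImplicit false

/-!
# Row 6, block P8: the total of the losses at all primes `p ≥ 5`

`odd_of_blocks` : P4 (class form on the strips `x₀ u < p ≤ X u`) + P5 (`Crude` for tiny primes,
`Small` for `√(C₁ u) < p ≤ x₀ u`) + `Large` + the kernel-computed total `totalLow` give `Odd`.
-/

namespace Crest.Agent.R006.D

open Polynomial Filter Topology Finset Crest.Agent.R006 Crest.Agent.R006.P8


/-- P4, class form on the strip `u₀/v₀ < p/u ≤ u₁/v₁` with the multipliers `t` -/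
def ClassStrip (S : Shape) (c : ℕ) (bd : List (ℤ × ℤ)) (kap : List ℤ → List ℤ → ℤ)
    (ext : List ℤ → ℤ) (s s' : St) : Prop :=
  ∃ C' : ℝ, ∀ᶠ u : ℕ in atTop, ∀ r : Col S u → Row, Adm S u c r → ∀ p : ℕ, p.Prime →
    (s.u : ℝ) / s.v * u < p → (p : ℝ) ≤ (s'.u : ℝ) / s'.v * u →
      Loss p (Minor S u r)
        (C' - ((∑ a ∈ range p, (kap s.t (jvec bd u p a) : ℝ)) + ext s.t * u))

/-- P4: all strips of a list -/
def ClassForm (S : Shape) (c : ℕ) (bd : List (ℤ × ℤ)) (kap : List ℤ → List ℤ → ℤ)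
    (ext : List ℤ → ℤ) (L : List St) : Prop :=
  ∀ s s' : St, [s, s'] <:+: L → ClassStrip S c bd kap ext s s'

lemma Loss.mono {p : ℕ} {P : ℚ[X]} {E E' : ℝ} (h : Loss p P E) (hE : E ≤ E') : Loss p P E' := by
  intro i hi
  have := h i hi
  linarith







end Crest.Agent.R006.D
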