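import Crest.Agent.R006.PNTSum_365
import Crest.Agent.R006.Defs
import Crest.Agent.R006.CellTot_305

-- ▼ part R006/P5b_Sum_481
section

set_option autoImplicit false

/-!
# Row 6, block P5b: the sum over the primes of the small strip (helper481)

`∑ log p * fract (w b / p)` over `w b / J < p ≤ w b / y` is `~ w (log (J/y) - ∑_{y<i≤J} 1/i) b`.
-/

namespace Crest.Agent.R006.P5b

open Filter Topology Finset

/-- the saw-tooth constant -/
noncomputable def saw (w y J : ℕ) : ℝ :=
  w * (Real.log ((J : ℝ) / y) - ∑ i ∈ Ico y J, 1 / ((i : ℝ) + 1))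

lemma saw_piece {w : ℝ} (hw : 0 < w) {J : ℕ} (hJ : 0 < J) :
    Tendsto (fun b : ℝ => (∑ p ∈ pr (w / (J + 1) * b) (w / J * b),
      Real.log p * Int.fract (w * b / p)) / b) atTop
      (𝓝 (w * (Real.log (((J : ℝ) + 1) / J) - 1 / ((J : ℝ) + 1)))) := by
  have hJ' : (0 : ℝ) < J := by exact_mod_cast hJ
  have h0 : 0 < w / ((J : ℝ) + 1) := by positivity
  have hle : w / ((J : ℝ) + 1) ≤ w / J := by gcongr; linarith
  have h := tendsto_sum_pr (φ := fun x => w / x - J) h0.le hle (by
    apply ContinuousOn.sub _ continuousOn_const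
    apply ContinuousOn.div continuousOn_const continuousOn_id
    intro x hx
    have := hx.1
    simp only [id]
    linarith)
  have hint : ∫ x in (w / ((J : ℝ) + 1))..(w / J), (w / x - J)
      = w * (Real.log (((J : ℝ) + 1) / J) - 1 / ((J : ℝ) + 1)) := by
    rw [intervalIntegral.integral_sub, intervalIntegral.integral_const]
    · have e1 : ∫ x in (w / ((J : ℝ) + 1))..(w / J), w / x
          = w * ∫ x in (w / ((J : ℝ) + 1))..(w / J), x⁻¹ := by
        rw [← intervalIntegral.integral_const_mul]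
        congr 1
      rw [e1, integral_inv_of_pos h0 (by positivity), smul_eq_mul]
      have e2 : w / J / (w / ((J : ℝ) + 1)) = ((J : ℝ) + 1) / J := by
        field_simp
      rw [e2]
      field_simp
      ring
    · apply ContinuousOn.intervalIntegrable
      apply ContinuousOn.div continuousOn_const continuousOn_id
      intro x hx
      rw [Set.uIcc_of_le hle] at hx
      have := hx.1
      simp only [id]
      linarith
    · exact intervalIntegrable_const
  rw [hint] at h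
  refine h.congr' ?_
  filter_upwards [eventually_gt_atTop 0] with b hb
  congr 1
  refine Finset.sum_congr rfl fun p hp => ?_
  rw [mem_pr] at hp
  obtain ⟨hpp, h1, h2⟩ := hp
  have hp0 : (0 : ℝ) < p := by exact_mod_cast hpp.pos
  have h3 : w / ((p : ℝ) / b) = w * b / p := by field_simp
  rw [h3]
  have h4 : ⌊w * b / p⌋ = (J : ℤ) := by
    rw [Int.floor_eq_iff]
    push_cast
    constructor
    · rw [le_div_iff₀ hp0]
      have : w / J * b * J = w * b := by field_simp
      nlinarith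
    · rw [div_lt_iff₀ hp0]
      have : w / ((J : ℝ) + 1) * b * (J + 1) = w * b := by field_simp
      nlinarith
  have h5 := Int.self_sub_floor (w * b / p)
  rw [h4] at h5
  rw [← h5]
  push_cast
  ring

theorem saw_tendsto {w y : ℕ} (hw : 0 < w) (hy : 0 < y) (J : ℕ) (hJ : y ≤ J) :
    Tendsto (fun b : ℝ => (∑ p ∈ pr ((w : ℝ) / J * b) ((w : ℝ) / y * b),
      Real.log p * Int.fract (w * b / p)) / b) atTop (𝓝 (saw w y J)) := by
  have hw' : (0 : ℝ) < w := by exact_mod_cast hw
  have hy' : (0 : ℝ) < y := by exact_mod_cast hy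
  induction J, hJ using Nat.le_induction with
  | base =>
    have h1 : saw w y y = 0 := by
      unfold saw; rw [div_self hy'.ne']; simp
    rw [h1]
    refine tendsto_const_nhds.congr' ?_
    filter_upwards with b
    have : pr ((w : ℝ) / y * b) ((w : ℝ) / y * b) = ∅ := by
      ext p
      simp only [mem_pr, Finset.notMem_empty, iff_false]
      rintro ⟨_, h1, h2⟩
      exact absurd h2 (not_le.mpr h1)
    rw [this]; simp
  | succ J hJ ih =>
    have hJ0 : 0 < J := lt_of_lt_of_le hy hJ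
    have hJ' : (0 : ℝ) < J := by exact_mod_cast hJ0
    have hyJ : (y : ℝ) ≤ J := by exact_mod_cast hJ
    have h := (saw_piece hw' hJ0).add ih
    have hval : (w : ℝ) * (Real.log (((J : ℝ) + 1) / J) - 1 / ((J : ℝ) + 1)) + saw w y J
        = saw w y (J + 1) := by
      unfold saw
      rw [Finset.sum_Ico_succ_top hJ]
      push_cast
      have : Real.log (((J : ℝ) + 1) / y) = Real.log (((J : ℝ) + 1) / J) + Real.log ((J : ℝ) / y) := by
        rw [← Real.log_mul (by positivity) (by positivity)]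
        congr 1
        field_simp
      rw [this]
      ring
    rw [hval] at h
    refine h.congr' ?_
    filter_upwards [eventually_gt_atTop 0] with b hb
    rw [← add_div]
    congr 1
    have e1 : (w : ℝ) / ((J : ℝ) + 1) * b ≤ (w : ℝ) / J * b := by gcongr; linarith
    have e2 : (w : ℝ) / J * b ≤ (w : ℝ) / y * b := by gcongr
    push_cast
    exact sum_pr_add e1 e2 _

end Crest.Agent.R006.P5b
end

-- ▼ part R006/Odd_529
section

/-!
# Row 6, P8: `Odd` from the blocks (helper529)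

`Odd S c α` (the total of the losses at all primes `p ≥ 5`) follows from
* `Crude` (P5, used for `p ≤ √(C0 u)` only),
* `Small` (P5b, `√(C0 u) < p ≤ x u`, an affine bound),
* `Mid` (P4, `x u < p ≤ X u`), which in turn follows from `Strip`s over a chain of pieces
  (`Mid.of_strips`) or from the class form `ClassBd` and the verified integrator `totalLow`
  (`Mid.of_class`), and can be glued (`Mid.append`),
* `Large` (`p > X u`).
-/

set_option autoImplicit false

namespace Crest.Agent.R006.D.Oddx529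

open Polynomial Filter Crest.Agent.R006.P8

/-! ### `Loss` -/

theorem loss_mono {p : ℕ} {P : ℚ[X]} {E F : ℝ} (h : Loss p P E) (hEF : E ≤ F) : Loss p P F :=
  fun i hi => le_trans (neg_le_neg hEF) (h i hi)

/-! ### the block statements that are not in `Defs` -/

/-- P5b: affine bound for `√(C0 u) < p ≤ x u` -/
def Small (S : Shape) (c : ℕ) (C0 : ℝ) (x al be : ℚ) : Prop :=
  ∃ C' : ℝ, ∀ᶠ u : ℕ in atTop, ∀ r : Col S u → Row, Adm S u c r → ∀ p : ℕ, p.Prime → 5 ≤ p →
    C0 * u < (p : ℝ) ^ 2 → (p : ℝ) ≤ x * u → Loss p (Minor S u r) (u * (al + be * (p / u)) + C')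

/-- the total of the losses at the primes `x u < p ≤ X u` -/
def Mid (S : Shape) (c : ℕ) (x X : ℚ) (α : ℝ) : Prop :=
  ∀ δ : ℝ, 0 < δ → ∀ᶠ u : ℕ in atTop, ∀ r : Col S u → Row, Adm S u c r →
    ∃ E : ℕ → ℝ, (∀ p ∈ pr (x * u) (X * u), Loss p (Minor S u r) (E p)) ∧
      ∑ p ∈ pr (x * u) (X * u), Real.log p * E p ≤ (α + δ) * (u : ℝ) ^ 2


/-! ### the small primes -/

theorem low_sum_le (C0 : ℝ) (hC0 : 0 < C0) (K' C' : ℝ) (x al be : ℚ) (hx : 0 < x) {δ : ℝ}
    (hδ : 0 < δ) : ∀ᶠ b : ℝ in atTop, ∀ E : ℕ → ℝ,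
      (∀ p ∈ pr 0 (x * b), (p : ℝ) ^ 2 ≤ C0 * b → Real.log p * E p ≤ K' * (b * Real.log b)) →
      (∀ p ∈ pr 0 (x * b), C0 * b < (p : ℝ) ^ 2 → E p ≤ b * (al + be * (p / b)) + C') →
      ∑ p ∈ pr 0 (x * b), Real.log p * E p
        ≤ b ^ 2 * ((al : ℝ) * x + be * (x : ℝ) ^ 2 / 2 + δ) := by
  have hx' : (0 : ℝ) < x := by exact_mod_cast hx
  set K'' : ℝ := |K'| + |(al : ℝ)| + |(be : ℝ)| + |C'| with hK''
  have hK''0 : 0 ≤ K'' := by positivity
  have h1 := chain_sum_le [⟨0, x, al, be⟩] 0 x le_rfl ⟨rfl, hx.le, rfl⟩ C' (δ := δ / 2)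
    (by positivity)
  have h2 := tiny_sum_le C0 K'' (δ := δ / 2) (by positivity)
  have h3 : ∀ᶠ b : ℝ in atTop, Real.sqrt (C0 * b) ≤ x * b := by
    filter_upwards [eventually_ge_atTop (C0 / (x : ℝ) ^ 2), eventually_gt_atTop 0] with b hb hb0
    rw [Real.sqrt_le_left (by positivity)]
    rw [div_le_iff₀ (by positivity)] at hb
    nlinarith
  have h4 : ∀ᶠ b : ℝ in atTop, Real.sqrt (C0 * b) ≤ b := by
    filter_upwards [eventually_ge_atTop C0, eventually_gt_atTop 0] with b hb hb0
    rw [Real.sqrt_le_left hb0.le]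
    nlinarith
  filter_upwards [h1, h2, h3, h4, eventually_ge_atTop 1] with b h1 h2 h3 h4 hb1 E hE1 hE2
  have hb0 : 0 < b := by linarith
  have hlogb : 0 ≤ Real.log b := Real.log_nonneg hb1
  have hsq : ∀ p : ℕ, (p : ℝ) ^ 2 ≤ C0 * b ↔ (p : ℝ) ≤ Real.sqrt (C0 * b) := fun p =>
    (Real.le_sqrt (Nat.cast_nonneg p) (by positivity)).symm
  classical
  set f : ℕ → ℝ := fun p => b * (al + be * (p / b)) + C' with hf
  set E1 : ℕ → ℝ := fun p => if (p : ℝ) ^ 2 ≤ C0 * b then f p else E p with hE1'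
  set E2 : ℕ → ℝ := fun p => E p - f p with hE2'
  have s1 : ∑ p ∈ pr 0 (x * b), Real.log p * E1 p
      ≤ b ^ 2 * ((al : ℝ) * x + be * (x : ℝ) ^ 2 / 2 + δ / 2) := by
    have h := h1 E1 (by
      intro P hP p hp
      rw [List.mem_singleton] at hP
      subst hP
      simp only [hE1']
      split_ifs with hc
      · exact le_rfl
      · refine hE2 p ?_ (not_le.mp hc)
        simpa using hp)
    have e1 : (pieceSum [⟨0, x, al, be⟩] : ℝ) = (al : ℝ) * x + be * (x : ℝ) ^ 2 / 2 := by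
      simp [pieceSum, Piece.I]
    rw [e1] at h
    simpa using h
  have s2 : ∑ p ∈ pr 0 (Real.sqrt (C0 * b)), Real.log p * E2 p ≤ δ / 2 * b ^ 2 := by
    refine h2 E2 fun p hp => ?_
    have hp' := mem_pr.mp hp
    have hpb : (p : ℝ) ≤ b := hp'.2.2.trans h4
    have hlp : 0 ≤ Real.log p := log_nonneg_of_mem hp
    have hlpb : Real.log p ≤ Real.log b := Real.log_le_log hp'.2.1 hpb
    have hmem : p ∈ pr 0 (x * b) := mem_pr.mpr ⟨hp'.1, hp'.2.1, hp'.2.2.trans h3⟩
    have e1 := hE1 p hmem ((hsq p).mpr hp'.2.2)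
    have e2 : -f p ≤ (|(al : ℝ)| + |(be : ℝ)| + |C'|) * b := by
      have : f p = b * al + be * p + C' := by
        simp only [hf]; field_simp
      rw [this]
      have a1 : -(b * al) ≤ |(al : ℝ)| * b := by
        have := neg_abs_le (al : ℝ)
        nlinarith
      have a2 : -((be : ℝ) * p) ≤ |(be : ℝ)| * b := by
        have h := neg_abs_le (be : ℝ)
        have hh : |(be : ℝ)| * p ≤ |(be : ℝ)| * b := mul_le_mul_of_nonneg_left hpb (abs_nonneg _)
        have : -(be : ℝ) * p ≤ |(be : ℝ)| * p :=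
          mul_le_mul_of_nonneg_right (by linarith) hp'.2.1.le
        linarith
      have a3 : -C' ≤ |C'| * b := by
        have h := neg_abs_le C'
        have hh : |C'| * 1 ≤ |C'| * b := mul_le_mul_of_nonneg_left hb1 (abs_nonneg _)
        linarith
      linarith
    have e3 : Real.log p * (-f p) ≤ Real.log b * ((|(al : ℝ)| + |(be : ℝ)| + |C'|) * b) := by
      refine (mul_le_mul_of_nonneg_left e2 hlp).trans ?_
      exact mul_le_mul_of_nonneg_right hlpb (by positivity)
    have e4 : K' * (b * Real.log b) ≤ |K'| * (b * Real.log b) :=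
      mul_le_mul_of_nonneg_right (le_abs_self _) (by positivity)
    simp only [hE2']
    rw [hK'']
    nlinarith
  have s3 : ∑ p ∈ pr 0 (x * b), Real.log p * E p
      = ∑ p ∈ pr 0 (x * b), Real.log p * E1 p
        + ∑ p ∈ pr 0 (Real.sqrt (C0 * b)), Real.log p * E2 p := by
    have hsp := sum_pr_add (Real.sqrt_nonneg (C0 * b)) h3
    rw [← hsp (fun p => Real.log p * E p), ← hsp (fun p => Real.log p * E1 p)]
    have t1 : ∑ p ∈ pr (Real.sqrt (C0 * b)) (x * b), Real.log p * E p
        = ∑ p ∈ pr (Real.sqrt (C0 * b)) (x * b), Real.log p * E1 p := by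
      refine Finset.sum_congr rfl fun p hp => ?_
      have hp' := mem_pr.mp hp
      simp only [hE1']
      rw [if_neg]
      rw [hsq]
      exact not_le.mpr hp'.2.1
    have t2 : ∑ p ∈ pr 0 (Real.sqrt (C0 * b)), Real.log p * E p
        = ∑ p ∈ pr 0 (Real.sqrt (C0 * b)), Real.log p * E1 p
          + ∑ p ∈ pr 0 (Real.sqrt (C0 * b)), Real.log p * E2 p := by
      rw [← Finset.sum_add_distrib]
      refine Finset.sum_congr rfl fun p hp => ?_
      have hp' := mem_pr.mp hp
      simp only [hE1', hE2']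
      rw [if_pos ((hsq p).mpr hp'.2.2)]
      ring
    rw [t1, t2]
    ring
  rw [s3]
  nlinarith



/-- **`Odd` from the blocks**, affine form of P5b. -/
theorem odd_of_mid (S : Shape) (c : ℕ) {K : ℝ} (hCr : Crude S c K) {C0 : ℝ} (hC0 : 0 < C0)
    {x X al be : ℚ} (hx : 0 < x) (hxX : x ≤ X) (hSm : Small S c C0 x al be) {αm : ℝ}
    (hM : Mid S c x X αm) (hL : Large S c X) {α : ℝ}
    (hα : (al : ℝ) * x + be * (x : ℝ) ^ 2 / 2 + αm ≤ α) : Odd S c α := by
  classical
  intro δ hδ
  have hx' : (0 : ℝ) < x := by exact_mod_cast hx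
  have hxX' : (x : ℝ) ≤ X := by exact_mod_cast hxX
  obtain ⟨C', hSm⟩ := hSm
  have hlow := tendsto_natCast_atTop_atTop.eventually
    (low_sum_le C0 hC0 (3 * |K|) C' x al be hx (δ := δ / 2) (by positivity))
  have hsq : ∀ᶠ u : ℕ in atTop, C0 ≤ (x : ℝ) ^ 2 * u := by
    have : Tendsto (fun u : ℕ => (x : ℝ) ^ 2 * u) atTop atTop :=
      tendsto_natCast_atTop_atTop.const_mul_atTop (by positivity)
    exact this.eventually_ge_atTop C0
  have hC0u : ∀ᶠ u : ℕ in atTop, C0 ≤ (u : ℝ) :=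
    tendsto_natCast_atTop_atTop.eventually_ge_atTop C0
  have hbig : ∀ᶠ u : ℕ in atTop, 1 ≤ Real.log (u : ℝ) :=
    (Real.tendsto_log_atTop.comp tendsto_natCast_atTop_atTop).eventually_ge_atTop 1
  have h5 : ∀ᶠ u : ℕ in atTop, 5 ≤ (x : ℝ) * u := by
    have : Tendsto (fun u : ℕ => (x : ℝ) * u) atTop atTop :=
      tendsto_natCast_atTop_atTop.const_mul_atTop hx'
    exact this.eventually_ge_atTop 5
  have h16 : ∀ᶠ u : ℕ in atTop, 25 ≤ C0 * u := by
    have : Tendsto (fun u : ℕ => C0 * u) atTop atTop :=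
      tendsto_natCast_atTop_atTop.const_mul_atTop hC0
    exact this.eventually_ge_atTop 25
  filter_upwards [hCr, hSm, hM (δ / 2) (by positivity), hL, hlow, hsq, hC0u, hbig, h5, h16,
    eventually_gt_atTop 0] with u hCr hSm hM hL hlow hsq hC0u hbig h5 h16 hu r hr
  have hu' : (0 : ℝ) < u := by exact_mod_cast hu
  have hu1 : (1 : ℝ) ≤ u := by exact_mod_cast hu
  obtain ⟨Em, hEm, hEs⟩ := hM r hr
  set f : ℕ → ℝ := fun p => u * ((al : ℝ) + be * (p / u)) + C' with hf
  set E : ℕ → ℝ := fun p => if p < 5 then 0 else if (p : ℝ) ^ 2 ≤ C0 * u then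
    |K| * u * (1 + Nat.log p u) else if (p : ℝ) ≤ x * u then f p else Em p with hE
  have hlogb : 0 ≤ Real.log (u : ℝ) := by linarith
  refine ⟨(pr 0 (X * u)).filter (5 ≤ ·), E, ?_, ?_, ?_⟩
  · intro p hp
    rw [Finset.mem_filter] at hp
    exact ⟨(mem_pr.mp hp.1).1, hp.2⟩
  · intro p hp hp5
    by_cases hpX : (p : ℝ) ≤ X * u
    · have hmem : p ∈ (pr 0 (X * u)).filter (5 ≤ ·) := by
        rw [Finset.mem_filter, mem_pr]
        exact ⟨⟨hp, by exact_mod_cast hp.pos, hpX⟩, hp5⟩
      rw [if_pos hmem]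
      simp only [hE]
      rw [if_neg (by omega)]
      split_ifs with h1 h2
      · refine loss_mono (hCr r hr p hp hp5) ?_
        have : (0 : ℝ) ≤ u * (1 + Nat.log p u) := by positivity
        have h := mul_le_mul_of_nonneg_right (le_abs_self K) this
        linarith
      · exact hSm r hr p hp hp5 (not_le.mp h1) h2
      · exact hEm p (mem_pr.mpr ⟨hp, not_le.mp h2, hpX⟩)
    · have hmem : p ∉ (pr 0 (X * u)).filter (5 ≤ ·) := by
        rw [Finset.mem_filter, mem_pr]
        exact fun h => hpX h.1.2.2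
      rw [if_neg hmem]
      exact hL r hr p hp (not_le.mp hpX)
  · have e0 : ∑ p ∈ (pr 0 (X * u)).filter (5 ≤ ·), E p * Real.log p
        = ∑ p ∈ pr 0 (X * u), Real.log p * E p := by
      rw [Finset.sum_filter]
      refine Finset.sum_congr rfl fun p _ => ?_
      split_ifs with h
      · ring
      · simp only [hE]
        rw [if_pos (by omega)]
        ring
    have e1 := sum_pr_add (x := 0) (y := x * u) (z := X * u) (by positivity)
      (mul_le_mul_of_nonneg_right hxX' hu'.le) (fun p => Real.log p * E p)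
    have e2 : ∑ p ∈ pr (x * u) (X * u), Real.log p * E p
        = ∑ p ∈ pr (x * u) (X * u), Real.log p * Em p := by
      refine Finset.sum_congr rfl fun p hp => ?_
      obtain ⟨hp0, hp1, hp2⟩ := mem_pr.mp hp
      have hp5 : (5 : ℝ) < p := lt_of_le_of_lt h5 hp1
      have hp5' : 5 < p := by exact_mod_cast hp5
      simp only [hE]
      rw [if_neg (by omega), if_neg, if_neg (not_le.mpr hp1)]
      rw [not_le]
      have h1 : (x * u : ℝ) ^ 2 < (p : ℝ) ^ 2 := by gcongr
      have h2 : C0 * u ≤ (x * u : ℝ) ^ 2 := by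
        have := mul_le_mul_of_nonneg_right hsq hu'.le
        nlinarith
      linarith
    have e3 := hlow E (by
      intro p hp hpC
      obtain ⟨hp0, hp1, hp2⟩ := mem_pr.mp hp
      have hr0 : 0 ≤ 3 * |K| * ((u : ℝ) * Real.log u) := by positivity
      simp only [hE]
      split_ifs with h1
      · rw [mul_zero]; exact hr0
      · have hlp : 0 ≤ Real.log p := log_nonneg_of_mem hp
        -- `p ≤ u`
        have hpu : (p : ℝ) ≤ u := by
          have : (p : ℝ) ^ 2 ≤ (u : ℝ) ^ 2 := by nlinarith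
          exact le_of_sq_le_sq this hu'.le
        have hlpu : Real.log p ≤ Real.log u := Real.log_le_log hp1 hpu
        have hnl : (Nat.log p u : ℝ) * Real.log p ≤ Real.log u := by
          have h2 : p ^ Nat.log p u ≤ u := Nat.pow_log_le_self p hu.ne'
          have h3 : Real.log ((p : ℝ) ^ Nat.log p u) ≤ Real.log u := by
            refine Real.log_le_log (by positivity) ?_
            exact_mod_cast h2
          rwa [Real.log_pow] at h3
        have h4 : Real.log p * (1 + Nat.log p u) ≤ 2 * Real.log u := by linarith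
        have h5 : Real.log p * (|K| * u * (1 + Nat.log p u))
            = |K| * u * (Real.log p * (1 + Nat.log p u)) := by ring
        rw [h5]
        have h6 : |K| * u * (Real.log p * (1 + Nat.log p u)) ≤ |K| * u * (2 * Real.log u) :=
          mul_le_mul_of_nonneg_left h4 (by positivity)
        have h7 : 0 ≤ |K| * (u * Real.log u) := by positivity
        linarith) (by
      intro p hp hpC
      obtain ⟨hp0, hp1, hp2⟩ := mem_pr.mp hp
      have hp5 : ¬ p < 5 := by
        intro h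
        have h1 : (p : ℝ) ≤ 5 := by exact_mod_cast h.le
        have h2 : (p : ℝ) ^ 2 ≤ 25 := by nlinarith
        linarith
      simp only [hE]
      rw [if_neg hp5, if_neg (not_le.mpr hpC), if_pos hp2])
    rw [e0, ← e1, e2]
    have e4 := mul_le_mul_of_nonneg_left hα (by positivity : (0 : ℝ) ≤ (u : ℝ) ^ 2)
    nlinarith

/-! ### the middle range -/

theorem Mid.mono {S : Shape} {c : ℕ} {x X : ℚ} {α β : ℝ} (h : Mid S c x X α) (hαβ : α ≤ β) :
    Mid S c x X β := by
  intro δ hδ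
  filter_upwards [h δ hδ] with u h r hr
  obtain ⟨E, h1, h2⟩ := h r hr
  refine ⟨E, h1, h2.trans ?_⟩
  gcongr

theorem Mid.append {S : Shape} {c : ℕ} {x y z : ℚ} {α β : ℝ} (hxy : x ≤ y) (hyz : y ≤ z)
    (h : Mid S c x y α) (h' : Mid S c y z β) : Mid S c x z (α + β) := by
  classical
  intro δ hδ
  filter_upwards [h (δ / 2) (by positivity), h' (δ / 2) (by positivity)] with u h h' r hr
  obtain ⟨E, h1, h2⟩ := h r hr
  obtain ⟨E', h1', h2'⟩ := h' r hr
  have hxy' : (x : ℝ) * u ≤ y * u :=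
    mul_le_mul_of_nonneg_right (by exact_mod_cast hxy) (Nat.cast_nonneg u)
  have hyz' : (y : ℝ) * u ≤ z * u :=
    mul_le_mul_of_nonneg_right (by exact_mod_cast hyz) (Nat.cast_nonneg u)
  refine ⟨fun p => if (p : ℝ) ≤ y * u then E p else E' p, ?_, ?_⟩
  · intro p hp
    obtain ⟨hp0, hp1, hp2⟩ := mem_pr.mp hp
    simp only
    split_ifs with h
    · exact h1 p (mem_pr.mpr ⟨hp0, hp1, h⟩)
    · exact h1' p (mem_pr.mpr ⟨hp0, not_le.mp h, hp2⟩)
  · rw [← sum_pr_add hxy' hyz']
    have e1 : ∑ p ∈ pr (x * u) (y * u), Real.log p * (if (p : ℝ) ≤ y * u then E p else E' p)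
        = ∑ p ∈ pr (x * u) (y * u), Real.log p * E p :=
      Finset.sum_congr rfl fun p hp => by rw [if_pos (mem_pr.mp hp).2.2]
    have e2 : ∑ p ∈ pr (y * u) (z * u), Real.log p * (if (p : ℝ) ≤ y * u then E p else E' p)
        = ∑ p ∈ pr (y * u) (z * u), Real.log p * E' p :=
      Finset.sum_congr rfl fun p hp => by rw [if_neg (not_le.mpr (mem_pr.mp hp).2.1)]
    rw [e1, e2]
    linarith

theorem Mid.refl (S : Shape) (c : ℕ) (x : ℚ) : Mid S c x x 0 := by
  intro δ hδ
  filter_upwards with u r hr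
  have : pr ((x : ℝ) * u) (x * u) = ∅ := by
    ext p
    simp only [mem_pr, Finset.notMem_empty, iff_false]
    rintro ⟨_, h1, h2⟩
    exact absurd h2 (not_le.mpr h1)
  refine ⟨fun _ => 0, ?_, ?_⟩
  · rw [this]; simp
  · rw [this]
    simp only [Finset.sum_empty]
    positivity





end Crest.Agent.R006.D.Oddx529
end

-- ▼ part R006/P5b_Mid_481

set_option autoImplicit false

/-!
# Row 6, block P5b: from the pointwise bound to `Small` and `Mid` (helper481)
-/

namespace Crest.Agent.R006.P5b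

open Filter Topology Finset Crest.Agent.R006.D Crest.Agent.R006.D.Oddx529

/-- P5b, pointwise: loss `K1 u + K2 p - κ u fract (w u / p) + O(√u)` for `√(C0 u) < p ≤ x0 u` -/
def PW (S : Shape) (c : ℕ) (C0 : ℝ) (x0 : ℝ) (K1 K2 κ : ℝ) (w : ℕ) : Prop :=
  ∃ C' : ℝ, ∀ᶠ u : ℕ in atTop, ∀ r : Col S u → Row, Adm S u c r → ∀ p : ℕ, p.Prime → 5 ≤ p →
    C0 * u < (p : ℝ) ^ 2 → (p : ℝ) ≤ x0 * u →
      Loss p (Minor S u r)
        (K1 * u + K2 * p - κ * u * Int.fract ((w : ℝ) * u / p) + C' * Real.sqrt u)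

/-- the lowest part, without the saw-tooth gain -/
theorem small_of_PW {S : Shape} {c : ℕ} {C0 x0 K1 K2 κ : ℝ} {w : ℕ}
    (h : PW S c C0 x0 K1 K2 κ w) (hκ : 0 ≤ κ) {x al be : ℚ} (hx : (x : ℝ) ≤ x0)
    (hal : K1 < al) (hbe : K2 ≤ be) : Small S c C0 x al be := by
  obtain ⟨C', h⟩ := h
  refine ⟨0, ?_⟩
  have hd : 0 < (al : ℝ) - K1 := by linarith
  have hs : ∀ᶠ u : ℕ in atTop, C' * Real.sqrt u ≤ ((al : ℝ) - K1) * u := by
    have : ∀ᶠ b : ℝ in atTop, C' * Real.sqrt b ≤ ((al : ℝ) - K1) * b := by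
      filter_upwards [eventually_ge_atTop ((C' / ((al : ℝ) - K1)) ^ 2), eventually_ge_atTop 0]
        with b hb hb0
      have h1 : |C' / ((al : ℝ) - K1)| ≤ Real.sqrt b := by
        rw [← Real.sqrt_sq_eq_abs]
        exact Real.sqrt_le_sqrt hb
      have h2 : C' / ((al : ℝ) - K1) ≤ Real.sqrt b := (le_abs_self _).trans h1
      rw [div_le_iff₀ hd] at h2
      calc C' * Real.sqrt b ≤ (Real.sqrt b * ((al : ℝ) - K1)) * Real.sqrt b :=
            mul_le_mul_of_nonneg_right h2 (Real.sqrt_nonneg b)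
        _ = ((al : ℝ) - K1) * (Real.sqrt b * Real.sqrt b) := by ring
        _ = ((al : ℝ) - K1) * b := by rw [Real.mul_self_sqrt hb0]
    exact tendsto_natCast_atTop_atTop.eventually this
  filter_upwards [h, hs, eventually_ge_atTop 1] with u h hs hu r hr p hp hp5 hpC hpx
  have hu0 : (0 : ℝ) < u := by exact_mod_cast hu
  refine (h r hr p hp hp5 hpC (hpx.trans (mul_le_mul_of_nonneg_right hx hu0.le))) |> (loss_mono · ?_)
  have h1 : 0 ≤ κ * u * Int.fract ((w : ℝ) * u / p) :=
    mul_nonneg (mul_nonneg hκ hu0.le) (Int.fract_nonneg _)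
  have h2 : K2 * p ≤ be * p := mul_le_mul_of_nonneg_right hbe (Nat.cast_nonneg p)
  have h3 : (u : ℝ) * (al + be * (p / u)) = al * u + be * p := by field_simp
  rw [h3]
  linarith

/-- `∑_{x b < p ≤ y b} p log p` -/
lemma sum_p_tendsto {x y : ℝ} (hx : 0 ≤ x) (hxy : x ≤ y) :
    Tendsto (fun b : ℝ => (∑ p ∈ pr (x * b) (y * b), Real.log p * ((p : ℝ) / b)) / b) atTop
      (𝓝 ((y ^ 2 - x ^ 2) / 2)) := by
  have h := tendsto_sum_pr (φ := fun x => x) hx hxy continuousOn_id
  rw [integral_id] at h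
  exact h

/-- the part with the saw-tooth gain -/
theorem mid_of_PW {S : Shape} {c : ℕ} {C0 x0 K1 K2 κ : ℝ} {w y J : ℕ}
    (h : PW S c C0 x0 K1 K2 κ w) (hw : 0 < w) (hy : 0 < y) (hyJ : y ≤ J) {xe x : ℚ}
    (hxe : (xe : ℝ) = w / J) (hx : (x : ℝ) = w / y) (hxx0 : (x : ℝ) ≤ x0) :
    Mid S c xe x (K1 * (x - xe) + K2 * ((x : ℝ) ^ 2 - xe ^ 2) / 2 - κ * saw w y J) := by
  obtain ⟨C', h⟩ := h
  intro δ hδ
  have hw' : (0 : ℝ) < w := by exact_mod_cast hw
  have hy' : (0 : ℝ) < y := by exact_mod_cast hy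
  have hJ' : (0 : ℝ) < J := by exact_mod_cast lt_of_lt_of_le hy hyJ
  have hyJ' : (y : ℝ) ≤ J := by exact_mod_cast hyJ
  have hxe0 : (0 : ℝ) < xe := by rw [hxe]; positivity
  have hxex : (xe : ℝ) ≤ x := by rw [hxe, hx]; gcongr
  have t1 := (tendsto_sum_log hxe0.le hxex).const_mul K1
  have t2 := (sum_p_tendsto hxe0.le hxex).const_mul K2
  have t3 := (saw_tendsto hw hy J hyJ).const_mul κ
  have t4 : Tendsto (fun b : ℝ => C' * (Real.sqrt b)⁻¹ *
      ((∑ p ∈ pr (xe * b) (x * b), Real.log p) / b)) atTop (𝓝 (C' * 0 * (x - xe))) := by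
    refine (Tendsto.const_mul C' ?_).mul (tendsto_sum_log hxe0.le hxex)
    exact tendsto_inv_atTop_zero.comp Real.tendsto_sqrt_atTop
  have t := ((t1.add t2).sub t3).add t4
  have hlim : K1 * ((x : ℝ) - xe) + K2 * (((x : ℝ) ^ 2 - xe ^ 2) / 2) - κ * saw w y J
      + C' * 0 * (x - xe) = K1 * (x - xe) + K2 * ((x : ℝ) ^ 2 - xe ^ 2) / 2 - κ * saw w y J := by
    ring
  rw [hlim] at t
  have t' := tendsto_natCast_atTop_atTop.eventually
    ((t.eventually (gt_mem_nhds (lt_add_of_pos_right _ hδ))).and (eventually_gt_atTop 0))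
  have hC : ∀ᶠ u : ℕ in atTop, C0 * u < ((xe : ℝ) * u) ^ 2 := by
    have : ∀ᶠ b : ℝ in atTop, C0 * b < ((xe : ℝ) * b) ^ 2 := by
      filter_upwards [eventually_gt_atTop (C0 / (xe : ℝ) ^ 2), eventually_gt_atTop 0]
        with b hb hb0
      rw [div_lt_iff₀ (by positivity)] at hb
      nlinarith
    exact tendsto_natCast_atTop_atTop.eventually this
  have h5 : ∀ᶠ u : ℕ in atTop, (5 : ℝ) ≤ xe * u := by
    filter_upwards [tendsto_natCast_atTop_atTop.eventually (eventually_ge_atTop (5 / (xe : ℝ)))]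
      with u hu
    rw [div_le_iff₀ hxe0] at hu
    linarith
  filter_upwards [h, t', hC, h5] with u h ht hC h5 r hr
  obtain ⟨ht, hu0⟩ := ht
  refine ⟨fun p => K1 * u + K2 * p - κ * u * Int.fract ((w : ℝ) * u / p) + C' * Real.sqrt u,
    ?_, ?_⟩
  · intro p hp
    obtain ⟨hp0, hp1, hp2⟩ := mem_pr.mp hp
    refine h r hr p hp0 ?_ ?_ ?_
    · have : (5 : ℝ) < p := by linarith
      exact_mod_cast this.le
    · have h1 : 0 ≤ (xe : ℝ) * u := by positivity
      have : ((xe : ℝ) * u) ^ 2 < (p : ℝ) ^ 2 := by gcongr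
      linarith
    · exact hp2.trans (mul_le_mul_of_nonneg_right hxx0 hu0.le)
  · rw [hxe, hx] at ht ⊢
    set P := pr ((w : ℝ) / J * u) (w / y * u) with hP
    have e : ∑ p ∈ P, Real.log p * (K1 * u + K2 * p - κ * u * Int.fract ((w : ℝ) * u / p)
        + C' * Real.sqrt u)
        = (u : ℝ) ^ 2 * (K1 * ((∑ p ∈ P, Real.log p) / u)
          + K2 * ((∑ p ∈ P, Real.log p * ((p : ℝ) / u)) / u)
          - κ * ((∑ p ∈ P, Real.log p * Int.fract ((w : ℝ) * u / p)) / u)
          + C' * (Real.sqrt u)⁻¹ * ((∑ p ∈ P, Real.log p) / u)) := by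
      have hsq : Real.sqrt u * Real.sqrt u = u := Real.mul_self_sqrt hu0.le
      have hs0 : Real.sqrt u ≠ 0 := (Real.sqrt_pos.mpr hu0).ne'
      have e1 : ∀ p ∈ P, Real.log p * (K1 * u + K2 * p - κ * u * Int.fract ((w : ℝ) * u / p)
        + C' * Real.sqrt u) = K1 * u * Real.log p + K2 * u * (Real.log p * ((p : ℝ) / u))
          - κ * u * (Real.log p * Int.fract ((w : ℝ) * u / p))
          + C' * Real.sqrt u * Real.log p := by
        intro p _
        field_simp
      rw [Finset.sum_congr rfl e1, Finset.sum_add_distrib, Finset.sum_sub_distrib,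
        Finset.sum_add_distrib, ← Finset.mul_sum, ← Finset.mul_sum, ← Finset.mul_sum,
        ← Finset.mul_sum]
      have e2 : C' * Real.sqrt u * ∑ p ∈ P, Real.log p
          = (u : ℝ) ^ 2 * (C' * (Real.sqrt u)⁻¹ * ((∑ p ∈ P, Real.log p) / u)) := by
        have : (u : ℝ) ^ 2 * (C' * (Real.sqrt u)⁻¹ * ((∑ p ∈ P, Real.log p) / u))
            = C' * ((u : ℝ) * (Real.sqrt u)⁻¹) * ∑ p ∈ P, Real.log p := by
          field_simp
        rw [this]
        have : (u : ℝ) * (Real.sqrt u)⁻¹ = Real.sqrt u := by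
          rw [← div_eq_mul_inv, Real.div_sqrt]
        rw [this]
      rw [e2]
      field_simp
    rw [e, mul_comm _ ((u : ℝ) ^ 2)]
    apply mul_le_mul_of_nonneg_left _ (by positivity)
    exact ht.le

end Crest.Agent.R006.P5b
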