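import Crest.Agent.R006.CellDefs_365

-- ▼ part R006/P8_Fast_799
section

/-!
Row 6, block P8 (helper799): a faster kernel evaluation of the strip sums of `CellDefs_365`.

`fastStrip` builds the cells of one strip by ONE walk from the bottom to the top (the `j`-vector changes
in one entry at every breakpoint line) and checks only the chain of lines; `fastStrip_spec` :
`fastStrip ... = some a` gives cells `cs` with `checkStrip bd I cs = true` and
`a = intLow Sc I (alTot (kap t) cs + ext t) (jTot (kap t) cs)`.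
-/

set_option autoImplicit false

namespace Crest.Agent.R006.P8

/-- a breakpoint line of the boundary number `i` with its values at the ends of the strip -/
structure QL where
  i : ℕ
  ln : Ln
  a : ℤ
  b : ℤ
  c : ℤ

/-- the line of a boundary with least `j`-value `J` -/
def mkQL (I : Iv) (i : ℕ) (q : ℤ × ℤ) (J : ℤ) : QL :=
  ⟨i, ⟨q.1, 2 * J - 2 + q.2⟩, 2 * q.1 * I.v0 - (2 * J - 2 + q.2) * I.u0,
    2 * q.1 * I.v1 - (2 * J - 2 + q.2) * I.u1,
    (2 * q.1 * I.v0 - (2 * J - 2 + q.2) * I.u0) + (2 * q.1 * I.v1 - (2 * J - 2 + q.2) * I.u1)⟩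

/-- all lines -/
def mkQLs (I : Iv) (J : ℤ × ℤ → ℤ) : ℕ → List (ℤ × ℤ) → List QL
  | _, [] => []
  | i, q :: bd => mkQL I i q (J q) :: mkQLs I J (i + 1) bd



/-- subtract one from the entry number `i` -/
def decAt : ℕ → List ℤ → List ℤ
  | _, [] => []
  | 0, j :: js => (j - 1) :: js
  | i + 1, j :: js => j :: decAt i js

/-- the entry number `i` belongs to the line -/
def entOK (l : Ln) : ℕ → List (ℤ × ℤ) → List ℤ → Bool
  | 0, q :: _, j :: _ => decide (l.al = q.1) && decide (l.j = 2 * j - 2 + q.2)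
  | i + 1, _ :: bd, _ :: js => entOK l i bd js
  | _, _, _ => false

/-- the cells of the walk -/
def walk : Ln → List ℤ → List QL → List Cell
  | l, js, [] => [⟨l, js⟩]
  | l, js, q :: S => ⟨l, js⟩ :: walk q.ln (decAt q.i js) S

/-- the check of the walk; `la`, `lb` = values of the present line at the two ends -/
def chkWalk (bd : List (ℤ × ℤ)) (I : Iv) : ℤ → ℤ → List ℤ → List QL → Bool
  | la, lb, _, [] => decide (la ≤ 2 * I.u0) && decide (lb ≤ 2 * I.u1)
  | la, lb, js, q :: S => decide (la ≤ q.a) && (decide (lb ≤ q.b) &&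
      (entOK q.ln q.i bd js && chkWalk bd I q.a q.b (decAt q.i js) S))




end Crest.Agent.R006.P8
private theorem rz_a198e5dbe6 : type_of% @_root_.Crest.Agent.R006.P8.chkWalk.eq_def := @_root_.Crest.Agent.R006.P8.chkWalk.eq_def -- L63
private theorem rz_01bf78a39c : type_of% @_root_.Crest.Agent.R006.P8.chkWalk.eq_1 := @_root_.Crest.Agent.R006.P8.chkWalk.eq_1 -- L63
private theorem rz_a1c6ed6853 : type_of% @_root_.Crest.Agent.R006.P8.decAt.eq_def := @_root_.Crest.Agent.R006.P8.decAt.eq_def -- L46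
private theorem rz_db143dc073 : type_of% @_root_.Crest.Agent.R006.P8.decAt.eq_1 := @_root_.Crest.Agent.R006.P8.decAt.eq_1 -- L46
private theorem rz_1d1890bb31 : type_of% @_root_.Crest.Agent.R006.P8.entOK.eq_def := @_root_.Crest.Agent.R006.P8.entOK.eq_def -- L52
private theorem rz_31098bd32f : type_of% @_root_.Crest.Agent.R006.P8.entOK.eq_1 := @_root_.Crest.Agent.R006.P8.entOK.eq_1 -- L52
private theorem rz_754890d4ed : type_of% @_root_.Crest.Agent.R006.P8.mkQLs.eq_def := @_root_.Crest.Agent.R006.P8.mkQLs.eq_def -- L31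
private theorem rz_920ef1dc87 : type_of% @_root_.Crest.Agent.R006.P8.mkQLs.eq_1 := @_root_.Crest.Agent.R006.P8.mkQLs.eq_1 -- L31
private theorem rz_51bb035997 : type_of% @_root_.Crest.Agent.R006.P8.walk.eq_def := @_root_.Crest.Agent.R006.P8.walk.eq_def -- L58
private theorem rz_95fc4055a9 : type_of% @_root_.Crest.Agent.R006.P8.walk.eq_1 := @_root_.Crest.Agent.R006.P8.walk.eq_1 -- L58
end

-- ▼ part R006/P8_FastSpec_799

/-! Row 6, block P8 (helper799): correctness of the fast strip evaluation. -/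

set_option autoImplicit false

namespace Crest.Agent.R006.P8

/-- lower conditions -/
def LowP (I : Iv) (l : Ln) (bd : List (ℤ × ℤ)) (js : List ℤ) : Prop :=
  List.Forall₂ (fun q j => le2 I ⟨q.1, 2 * j + q.2⟩ l = true) bd js

/-- upper conditions -/
def UpP (I : Iv) (l' : Ln) (bd : List (ℤ × ℤ)) (js : List ℤ) : Prop :=
  List.Forall₂ (fun q j => le2 I l' ⟨q.1, 2 * j - 2 + q.2⟩ = true) bd js

lemma le2_iff {I : Iv} {l l' : Ln} : le2 I l l' = true ↔
    l.v I.v0 I.u0 ≤ l'.v I.v0 I.u0 ∧ l.v I.v1 I.u1 ≤ l'.v I.v1 I.u1 := by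
  unfold le2; simp

lemma le2_trans {I : Iv} {l l' l'' : Ln} (h : le2 I l l' = true) (h' : le2 I l' l'' = true) :
    le2 I l l'' = true := by
  rw [le2_iff] at *
  exact ⟨h.1.trans h'.1, h.2.trans h'.2⟩

lemma le2_refl (I : Iv) (l : Ln) : le2 I l l = true := by rw [le2_iff]; exact ⟨le_rfl, le_rfl⟩

lemma checkJs_of {I : Iv} {l l' : Ln} : ∀ {bd : List (ℤ × ℤ)} {js : List ℤ},
    LowP I l bd js → UpP I l' bd js → checkJs I l l' bd js = true
  | _, _, List.Forall₂.nil, _ => rfl
  | _, _, List.Forall₂.cons h hs, h' => by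
    cases h' with
    | cons h1 h1s =>
      simp only [checkJs, Bool.and_eq_true]
      exact ⟨h, h1, checkJs_of hs h1s⟩

lemma forall2_decAt {R R' : ℤ × ℤ → ℤ → Prop} {l : Ln} (hR : ∀ q j, R q j → R' q j)
    (hl : ∀ (q : ℤ × ℤ) (j : ℤ), l.al = q.1 → l.j = 2 * j - 2 + q.2 → R' q (j - 1)) :
    ∀ (i : ℕ) {bd : List (ℤ × ℤ)} {js : List ℤ}, List.Forall₂ R bd js → entOK l i bd js = true →
      List.Forall₂ R' bd (decAt i js)
  | 0, [], [], _, h => by simp [entOK] at h
  | i + 1, [], [], _, h => by simp [entOK] at h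
  | 0, q :: bd, j :: js, List.Forall₂.cons h1 h2, h => by
    simp only [entOK, Bool.and_eq_true, decide_eq_true_eq] at h
    exact List.Forall₂.cons (hl q j h.1 h.2) (h2.imp hR)
  | i + 1, q :: bd, j :: js, List.Forall₂.cons h1 h2, h => by
    simp only [entOK] at h
    exact List.Forall₂.cons (hR q j h1) (forall2_decAt hR hl i h2 h)

lemma forall2_of_decAt {R R' : ℤ × ℤ → ℤ → Prop} {l : Ln} (hR : ∀ q j, R' q j → R q j)
    (hl : ∀ (q : ℤ × ℤ) (j : ℤ), l.al = q.1 → l.j = 2 * j - 2 + q.2 → R q j) :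
    ∀ (i : ℕ) {bd : List (ℤ × ℤ)} {js : List ℤ}, List.Forall₂ R' bd (decAt i js) →
      entOK l i bd js = true → List.Forall₂ R bd js
  | 0, [], js, _, h => by cases js <;> simp [entOK] at h
  | i + 1, [], js, _, h => by cases js <;> simp [entOK] at h
  | 0, q :: bd, [], _, h => by simp [entOK] at h
  | i + 1, q :: bd, [], _, h => by simp [entOK] at h
  | 0, q :: bd, j :: js, h', h => by
    simp only [entOK, Bool.and_eq_true, decide_eq_true_eq] at h
    simp only [decAt] at h'
    cases h' with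
    | cons h1 h2 => exact List.Forall₂.cons (hl q j h.1 h.2) (h2.imp hR)
  | i + 1, q :: bd, j :: js, h', h => by
    simp only [entOK] at h
    simp only [decAt] at h'
    cases h' with
    | cons h1 h2 => exact List.Forall₂.cons (hR q j h1) (forall2_of_decAt hR hl i h2 h)

/-- line after the present one -/
def nl : List QL → Ln
  | [] => topLn
  | q :: _ => q.ln

/-- the stored values are right -/
def QOK (I : Iv) (q : QL) : Prop := q.a = q.ln.v I.v0 I.u0 ∧ q.b = q.ln.v I.v1 I.u1


lemma walk_eq (l : Ln) (js : List ℤ) (S : List QL) :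
    walk l js S = ⟨l, js⟩ :: (walk l js S).tail := by
  cases S <;> rfl

/-- **the walk is right** -/
lemma walk_check (bd : List (ℤ × ℤ)) (I : Iv) : ∀ (S : List QL) (l : Ln) (la lb : ℤ) (js : List ℤ),
    la = l.v I.v0 I.u0 → lb = l.v I.v1 I.u1 → (∀ q ∈ S, QOK I q) →
    chkWalk bd I la lb js S = true → LowP I l bd js →
    UpP I topLn bd (S.foldl (fun js q => decAt q.i js) js) →
    checkCells bd I (walk l js S) = true ∧ UpP I (nl S) bd js ∧ le2 I l (nl S) = true := by
  intro S
  induction S with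
  | nil =>
    intro l la lb js hla hlb _ hc hL hU
    simp only [chkWalk, Bool.and_eq_true, decide_eq_true_eq] at hc
    have hle : le2 I l topLn = true := by
      rw [le2_iff]
      have e : ∀ N p : ℤ, topLn.v N p = 2 * p := by intro N p; simp [topLn, Ln.v]
      rw [e, e, ← hla, ← hlb]
      exact hc
    refine ⟨?_, hU, hle⟩
    simp only [walk, checkCells, nextLn, Bool.and_eq_true]
    exact ⟨hle, checkJs_of hL hU, trivial⟩
  | cons q S ih =>
    intro l la lb js hla hlb hQ hc hL hU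
    simp only [chkWalk, Bool.and_eq_true, decide_eq_true_eq] at hc
    obtain ⟨hc1, hc2, hc3, hc4⟩ := hc
    have hq := hQ q (List.mem_cons_self ..)
    have hle : le2 I l q.ln = true := by
      rw [le2_iff, ← hla, ← hlb, ← hq.1, ← hq.2]
      exact ⟨hc1, hc2⟩
    -- the lower conditions after the decrement
    have hL' : LowP I q.ln bd (decAt q.i js) := by
      refine forall2_decAt (l := q.ln) (fun q' j h => le2_trans h hle) ?_ q.i hL hc3
      intro q' j h1 h2
      have : (⟨q'.1, 2 * (j - 1) + q'.2⟩ : Ln) = q.ln := by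
        rcases hql : q.ln with ⟨al, jj⟩
        rw [hql] at h1 h2
        simp only at h1 h2
        rw [h1, h2]
        congr 1
        ring
      rw [this]
      exact le2_refl I _
    obtain ⟨ih1, ih2, ih3⟩ := ih q.ln q.a q.b (decAt q.i js) hq.1 hq.2
      (fun q' hq' => hQ q' (List.mem_cons_of_mem _ hq')) hc4 hL' hU
    have hU' : UpP I q.ln bd js := by
      refine forall2_of_decAt (l := q.ln)
        (R' := fun q' j => le2 I (nl S) ⟨q'.1, 2 * j - 2 + q'.2⟩ = true) ?_ ?_ q.i ih2 hc3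
      · intro q' j h
        exact le2_trans ih3 h
      · intro q' j h1 h2
        have : (⟨q'.1, 2 * j - 2 + q'.2⟩ : Ln) = q.ln := by
          rcases hql : q.ln with ⟨al, jj⟩
          rw [hql] at h1 h2
          simp only at h1 h2
          rw [h1, h2]
        rw [this]
        exact le2_refl I _
    refine ⟨?_, hU', hle⟩
    simp only [walk, checkCells, Bool.and_eq_true]
    have hn : nextLn (walk q.ln (decAt q.i js) S) = q.ln := by
      rw [walk_eq]; rfl
    rw [hn]
    exact ⟨hle, checkJs_of hL hU', ih1⟩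

/-! ### permutation -/



lemma decAt_comm : ∀ (i k : ℕ) (js : List ℤ), decAt i (decAt k js) = decAt k (decAt i js)
  | i, k, [] => by simp [decAt]
  | 0, 0, _ :: _ => rfl
  | 0, _ + 1, _ :: _ => rfl
  | _ + 1, 0, _ :: _ => rfl
  | i + 1, k + 1, j :: js => by simp only [decAt]; rw [decAt_comm i k js]

lemma decAt_append : ∀ (pre : List ℤ) (j : ℤ) (js : List ℤ),
    decAt pre.length (pre ++ j :: js) = pre ++ (j - 1) :: js
  | [], _, _ => rfl
  | a :: pre, j, js => by
    simp only [List.length_cons, List.cons_append, decAt]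
    rw [decAt_append pre j js]

lemma foldl_mkQLs (I : Iv) (J : ℤ × ℤ → ℤ) : ∀ (bd : List (ℤ × ℤ)) (pre : List ℤ),
    (mkQLs I J pre.length bd).foldl (fun js q => decAt q.i js) (pre ++ bd.map J) =
      pre ++ bd.map fun q => J q - 1
  | [], pre => by simp [mkQLs]
  | q :: bd, pre => by
    simp only [mkQLs, List.foldl_cons, List.map_cons]
    have h1 : (mkQL I pre.length q (J q)).i = pre.length := rfl
    rw [h1, decAt_append]
    have h2 : pre ++ (J q - 1) :: bd.map J = (pre ++ [J q - 1]) ++ bd.map J := by simp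
    have h3 : pre.length + 1 = (pre ++ [J q - 1]).length := by simp
    rw [h2, h3, foldl_mkQLs I J bd (pre ++ [J q - 1])]
    simp


lemma mem_mkQLs (I : Iv) (J : ℤ × ℤ → ℤ) : ∀ (i : ℕ) (bd : List (ℤ × ℤ)) (s : QL),
    s ∈ mkQLs I J i bd → ∃ q ∈ bd, ∃ k, s = mkQL I k q (J q)
  | _, [], s, h => by simp [mkQLs] at h
  | i, q :: bd, s, h => by
    simp only [mkQLs, List.mem_cons] at h
    rcases h with h | h
    · exact ⟨q, List.mem_cons_self .., i, h⟩
    · obtain ⟨q', hq', k, hk⟩ := mem_mkQLs I J (i + 1) bd s h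
      exact ⟨q', List.mem_cons_of_mem _ hq', k, hk⟩

lemma mkQLs_mem (I : Iv) (J : ℤ × ℤ → ℤ) : ∀ (i : ℕ) (bd : List (ℤ × ℤ)) (q : ℤ × ℤ),
    q ∈ bd → ∃ k, mkQL I k q (J q) ∈ mkQLs I J i bd
  | _, [], q, h => by simp at h
  | i, q' :: bd, q, h => by
    simp only [List.mem_cons] at h
    rcases h with h | h
    · subst h
      exact ⟨i, by simp [mkQLs]⟩
    · obtain ⟨k, hk⟩ := mkQLs_mem I J (i + 1) bd q h
      exact ⟨k, by simp only [mkQLs, List.mem_cons]; exact Or.inr hk⟩

lemma QOK_mkQL (I : Iv) (i : ℕ) (q : ℤ × ℤ) (J : ℤ) : QOK I (mkQL I i q J) := ⟨rfl, rfl⟩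

/-- all lines of a correct chain are between `0` and the top -/
lemma chk_bounds (bd : List (ℤ × ℤ)) (I : Iv) : ∀ (S : List QL) (la lb : ℤ) (js : List ℤ),
    chkWalk bd I la lb js S = true →
    (la ≤ 2 * I.u0 ∧ lb ≤ 2 * I.u1) ∧
      ∀ q ∈ S, (la ≤ q.a ∧ q.a ≤ 2 * I.u0) ∧ (lb ≤ q.b ∧ q.b ≤ 2 * I.u1)
  | [], la, lb, js, h => by
    simp only [chkWalk, Bool.and_eq_true, decide_eq_true_eq] at h
    exact ⟨h, fun q hq => by simp at hq⟩
  | q :: S, la, lb, js, h => by
    simp only [chkWalk, Bool.and_eq_true, decide_eq_true_eq] at h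
    obtain ⟨h1, h2, h3, h4⟩ := h
    obtain ⟨h5, h6⟩ := chk_bounds bd I S q.a q.b _ h4
    refine ⟨⟨h1.trans h5.1, h2.trans h5.2⟩, ?_⟩
    intro s hs
    rw [List.mem_cons] at hs
    rcases hs with hs | hs
    · subst hs; exact ⟨⟨h1, h5.1⟩, h2, h5.2⟩
    · have := h6 s hs
      exact ⟨⟨h1.trans this.1.1, this.1.2⟩, h2.trans this.2.1, this.2.2⟩






end Crest.Agent.R006.P8
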