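import Crest.Agent.R006.OddAsm_365
import Crest.Agent.R006.P5b_Mid_481
import Crest.Agent.R006.P8_FastSpec_799

-- ▼ part R006/OddFast_365

set_option autoImplicit false

/-!
# Row 6, block P8: the middle range from kernel-checked chunks (helper365)

`Mid.of_fast` : one chunk `L` of strips with `fastTotal ... L = some T` and 814's class form gives
`Mid S c x X (-(T/Sc))`; chunks are glued by `Oddx529.Mid.append`.
`odd_final'` : the final assembly with the middle range in `Mid` form.
-/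

namespace Crest.Agent.R006.P8

open Filter Topology Finset


end Crest.Agent.R006.P8

namespace Crest.Agent.R006.D

open Polynomial Filter Topology Finset Crest.Agent.R006 Crest.Agent.R006.P8


/-- the left end of the first strip and the right end of the last one -/
def stLo (L : List St) : ℚ := match L with
  | [] => 0
  | s :: _ => (s.u : ℚ) / s.v

/-- the right end of the last one -/
def stHi : List St → ℚ
  | [] => 0
  | [s] => (s.u : ℚ) / s.v
  | _ :: s' :: L => stHi (s' :: L)


/-- **The odd part**, middle range in `Mid` form. -/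
theorem odd_final' (S : Shape) (c : ℕ) {K : ℝ} (hCr : Crude S c K)
    {C0 x0 K1 K2 κ : ℝ} {w y J : ℕ} (hC0 : 0 < C0) (hPW : P5b.PW S c C0 x0 K1 K2 κ w)
    (hκ : 0 ≤ κ) (hw : 0 < w) (hy : 0 < y) (hyJ : y ≤ J) (hx0 : (w : ℝ) / y ≤ x0)
    {al be : ℚ} (hal : K1 < al) (hbe : K2 ≤ be)
    {X : ℚ} (hxX : (w : ℚ) / y ≤ X) {αm : ℝ} (hM : Oddx529.Mid S c ((w : ℚ) / y) X αm)
    (hL : Large S c X) {α : ℝ}
    (hα : (al : ℝ) * (w / J) + be * ((w : ℝ) / J) ^ 2 / 2
        + ((K1 * ((w : ℝ) / y - w / J) + K2 * (((w : ℝ) / y) ^ 2 - ((w : ℝ) / J) ^ 2) / 2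
          - κ * P5b.saw w y J) + αm) ≤ α) : Odd S c α := by
  have hw' : (0 : ℝ) < w := by exact_mod_cast hw
  have hy' : (0 : ℝ) < y := by exact_mod_cast hy
  have hJ' : (0 : ℝ) < J := by exact_mod_cast lt_of_lt_of_le hy hyJ
  have hyJ' : (y : ℝ) ≤ J := by exact_mod_cast hyJ
  have hle : (w : ℝ) / J ≤ w / y := by gcongr
  set xe : ℚ := (w : ℚ) / J with hxe
  set x1 : ℚ := (w : ℚ) / y with hx1
  have exe : (xe : ℝ) = w / J := by rw [hxe]; push_cast; rfl
  have ex1 : (x1 : ℝ) = w / y := by rw [hx1]; push_cast; rfl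
  have hxe0 : 0 < xe := by
    have : (0 : ℝ) < xe := by rw [exe]; positivity
    exact_mod_cast this
  have hxx : xe ≤ x1 := by
    have : (xe : ℝ) ≤ x1 := by rw [exe, ex1]; exact hle
    exact_mod_cast this
  have hSm := P5b.small_of_PW hPW hκ (x := xe) (al := al) (be := be)
    (by rw [exe]; exact hle.trans hx0) hal hbe
  have hM1 := P5b.mid_of_PW hPW hw hy hyJ exe ex1 (by rw [ex1]; exact hx0)
  have hM2 := Oddx529.Mid.append hxx hxX hM1 hM
  refine Oddx529.odd_of_mid S c hCr hC0 hxe0 (hxx.trans hxX) hSm hM2 hL ?_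
  rw [exe, ex1]
  linarith

end Crest.Agent.R006.D
namespace Crest.Agent.R006.D.Mid
end Crest.Agent.R006.D.Mid
private theorem rz_a0bcb4db0e : type_of% @_root_.Crest.Agent.R006.D.stLo.eq_1 := @_root_.Crest.Agent.R006.D.stLo.eq_1 -- L132
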