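import Mathlib
import Crest.Agent.R006.Toll_814
import Crest.Agent.R006.Defs_89
import Crest.Agent.R006.P4_LocalInput_955
import Crest.Agent.R006.P4RowOp_961
import Crest.Agent.R006.Bord_929

-- ▼ part R006/P4G1_226
section

/-!
Row 6, block P4 (team of helper657): substitution `ε = p/2` at the half-integers.

`E` is a commutative ring, `O` a subring (the `p`-integral elements), `hf = 1/2 ∈ O`,
`h = p * hf = p/2`, `p = 2N+1`.  `PO O p k x` : `x ∈ p^k O`.
`ev h f = f_0 + h f_1 + h^2 f_2` for a germ `f ∈ E⟦X⟧` with coefficients in `O`.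

* `ev_mul` : `ev h (f g) = ev h f * ev h g` mod `p^3`.
* `psi_star` : the value of `ψ` at `N+1+l` is `ev h` of the germ of `ψ_*` at `l+1/2`, mod `p^3`.
* `g_star` : the value of `g` at `N+1+l` is `ev h` of the germ of the half chain of `g` at
  `l+1/2`, mod `p^3` (so `g(N+1+l) = p^2 c_l / 4` mod `p^3`).
* `g_half` : the value of `g` at `N-m` is the value of the half chain at `-1/2-m`, mod `p`.
-/

set_option autoImplicit false

namespace Crest.Agent.R006.P4G226

open Finset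

variable {E : Type*} [CommRing E]

/-- `x ∈ p^k O` -/
def PO (O : Subring E) (p k : ℕ) (x : E) : Prop := ∃ y ∈ O, x = (p : E) ^ k * y

namespace PO

variable {O : Subring E} {p k : ℕ} {x y c : E}

theorem zero : PO O p k 0 := ⟨0, O.zero_mem, by ring⟩

theorem add (hx : PO O p k x) (hy : PO O p k y) : PO O p k (x + y) := by
  obtain ⟨a, ha, rfl⟩ := hx
  obtain ⟨b, hb, rfl⟩ := hy
  exact ⟨a + b, O.add_mem ha hb, by ring⟩

theorem neg (hx : PO O p k x) : PO O p k (-x) := by
  obtain ⟨a, ha, rfl⟩ := hx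
  exact ⟨-a, O.neg_mem ha, by ring⟩

theorem sub (hx : PO O p k x) (hy : PO O p k y) : PO O p k (x - y) := by
  rw [sub_eq_add_neg]; exact hx.add hy.neg

theorem mul_left (hc : c ∈ O) (hx : PO O p k x) : PO O p k (c * x) := by
  obtain ⟨a, ha, rfl⟩ := hx
  exact ⟨c * a, O.mul_mem hc ha, by ring⟩

theorem mul_right (hx : PO O p k x) (hc : c ∈ O) : PO O p k (x * c) := by
  rw [mul_comm]; exact hx.mul_left hc

theorem mono {j : ℕ} (hx : PO O p k x) (hj : j ≤ k) : PO O p j x := by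
  obtain ⟨a, ha, rfl⟩ := hx
  refine ⟨(p : E) ^ (k - j) * a, O.mul_mem (O.pow_mem (natCast_mem O p) _) ha, ?_⟩
  rw [← mul_assoc, ← pow_add, Nat.add_sub_cancel' hj]

theorem mul {j : ℕ} (hx : PO O p k x) (hy : PO O p j y) : PO O p (k + j) (x * y) := by
  obtain ⟨a, ha, rfl⟩ := hx
  obtain ⟨b, hb, rfl⟩ := hy
  exact ⟨a * b, O.mul_mem ha hb, by ring⟩

theorem pow {n : ℕ} (hx : PO O p k x) : PO O p (k * n) (x ^ n) := by
  obtain ⟨a, ha, rfl⟩ := hx
  exact ⟨a ^ n, O.pow_mem ha n, by rw [mul_pow, pow_mul]⟩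


theorem mem (hx : PO O p k x) : x ∈ O := by
  obtain ⟨a, ha, rfl⟩ := hx
  exact O.mul_mem (O.pow_mem (natCast_mem O p) _) ha

theorem sum {ι : Type*} (s : Finset ι) (f : ι → E) (hf : ∀ i ∈ s, PO O p k (f i)) :
    PO O p k (∑ i ∈ s, f i) := by
  classical
  induction s using Finset.induction_on with
  | empty => simpa using zero
  | insert a s ha ih =>
    rw [Finset.sum_insert ha]
    exact (hf a (Finset.mem_insert_self _ _)).add (ih fun i hi => hf i (Finset.mem_insert_of_mem hi))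

/-- cancel a unit of `O` -/
theorem cancel {a w : E} (hw : w ∈ O) (hwa : w * a = 1) (hx : PO O p k (a * x)) : PO O p k x := by
  have : x = w * (a * x) := by rw [← mul_assoc, hwa, one_mul]
  rw [this]; exact hx.mul_left hw

end PO

/-- germ with coefficients in `O` -/
def IntS (O : Subring E) (f : PowerSeries E) : Prop := ∀ n, PowerSeries.coeff n f ∈ O

namespace IntS

variable {O : Subring E} {f g : PowerSeries E}

theorem add (hf : IntS O f) (hg : IntS O g) : IntS O (f + g) := fun n => by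
  rw [map_add]; exact O.add_mem (hf n) (hg n)

theorem neg (hf : IntS O f) : IntS O (-f) := fun n => by
  rw [map_neg]; exact O.neg_mem (hf n)

theorem mul (hf : IntS O f) (hg : IntS O g) : IntS O (f * g) := fun n => by
  rw [PowerSeries.coeff_mul]
  exact O.sum_mem fun x _ => O.mul_mem (hf _) (hg _)

theorem C {c : E} (hc : c ∈ O) : IntS O (PowerSeries.C c) := fun n => by
  rw [PowerSeries.coeff_C]
  split_ifs
  · exact hc
  · exact O.zero_mem

theorem X : IntS O (PowerSeries.X : PowerSeries E) := fun n => by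
  rw [PowerSeries.coeff_X]
  split_ifs
  · exact O.one_mem
  · exact O.zero_mem

theorem one : IntS O (1 : PowerSeries E) := fun n => by
  rw [PowerSeries.coeff_one]
  split_ifs
  · exact O.one_mem
  · exact O.zero_mem

theorem zero : IntS O (0 : PowerSeries E) := fun n => by
  rw [map_zero]; exact O.zero_mem

theorem pow (hf : IntS O f) (n : ℕ) : IntS O (f ^ n) := by
  induction n with
  | zero => rw [pow_zero]; exact one
  | succ n ih => rw [pow_succ]; exact ih.mul hf



end IntS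

/-- truncated evaluation at `ε = h` -/
noncomputable def ev (h : E) (f : PowerSeries E) : E :=
  PowerSeries.coeff 0 f + h * PowerSeries.coeff 1 f + h ^ 2 * PowerSeries.coeff 2 f














end Crest.Agent.R006.P4G226
end

-- ▼ part R006/P4G2_226
section

/-!
Row 6, block P4: the congruences between the integer chains and the half-integer chains
(`p = 2N+1`, `hf = 1/2`, `h = p/2`).

* `psi_star` : `a (N+1+l) = ev h (s l)` mod `p^3` (`N+1+l < p`).
* `g_half` : `b (N-m) = b m` mod `p` (`m ≤ N`).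
* `g_star` : `b (N+1+l) = ev h (t l)` mod `p^3`.
-/

set_option autoImplicit false

namespace Crest.Agent.R006.P4G226

open Finset

variable {E : Type*} [CommRing E]

/-- the integers `0 < m < p` are units of `O` -/
def USmall (O : Subring E) (p : ℕ) : Prop :=
  ∀ m : ℕ, 0 < m → m < p → ∃ w ∈ O, w * (m : E) = 1

section

variable {O : Subring E} {p N : ℕ} {hf : E}






theorem two_pt (hh : hf * 2 = 1) (x : E) :
    (2 * (PowerSeries.X + PowerSeries.C x) + 1 : PowerSeries E) =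
      PowerSeries.C 2 * (PowerSeries.X + PowerSeries.C (x + hf)) := by
  have h2 : (PowerSeries.C 2 : PowerSeries E) = 2 := map_ofNat PowerSeries.C 2
  have h1 : (PowerSeries.C hf * 2 : PowerSeries E) = 1 := by
    rw [← h2, ← map_mul, hh, map_one]
  rw [h2, map_add]
  linear_combination -h1







end

end Crest.Agent.R006.P4G226
end

-- ▼ part R006/P4G3_226
section

/-!
Row 6, block P4: the congruences of the chain of `g` (`p = 2N+1` prime, `hf = 1/2`, `h = p/2`).
-/

set_option autoImplicit false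

namespace Crest.Agent.R006.P4G226

open Finset

/-- `(1·3·…·(2N-1))^2 = (2·4·…·2N)^2` mod `p = 2N+1` -/
theorem dvd_oddEven (N : ℕ) :
    ((2 * N + 1 : ℕ) : ℤ) ∣ (∏ i ∈ range N, (2 * (i : ℤ) + 1)) ^ 2 -
      (∏ i ∈ range N, (2 * (i : ℤ) + 2)) ^ 2 := by
  have h1 : ∏ i ∈ range N, (2 * (i : ℤ) + 1) = ∏ i ∈ range N, (2 * ((N - 1 - i : ℕ) : ℤ) + 1) :=
    (Finset.prod_range_reflect (fun i : ℕ => (2 * (i : ℤ) + 1)) N).symm
  have h2 : ∀ i ∈ range N, (((2 * ((N - 1 - i : ℕ) : ℤ) + 1 : ℤ)) : ZMod (2 * N + 1)) =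
      -(((2 * (i : ℤ) + 2 : ℤ)) : ZMod (2 * N + 1)) := by
    intro i hi
    rw [Finset.mem_range] at hi
    have h3 : ((N - 1 - i : ℕ) : ℤ) = (N : ℤ) - 1 - i := by omega
    have h4 : (((2 * N + 1 : ℕ) : ℤ) : ZMod (2 * N + 1)) = 0 := by
      rw [Int.cast_natCast, ZMod.natCast_self]
    rw [h3]
    push_cast at h4 ⊢
    linear_combination h4
  rw [← ZMod.intCast_zmod_eq_zero_iff_dvd, h1]
  rw [Int.cast_sub, Int.cast_pow, Int.cast_pow, Int.cast_prod, Int.cast_prod,
    Finset.prod_congr rfl h2, Finset.prod_neg, mul_pow, ← pow_mul, mul_comm _ 2, pow_mul,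
    neg_one_sq, one_pow, one_mul, sub_self]

variable {E : Type*} [CommRing E] {O : Subring E} {p N : ℕ} {hf : E}

theorem unit_prod {ι : Type*} (s : Finset ι) (f : ι → E)
    (h : ∀ i ∈ s, ∃ w ∈ O, w * f i = 1) : ∃ w ∈ O, w * ∏ i ∈ s, f i = 1 := by
  classical
  induction s using Finset.induction_on with
  | empty => exact ⟨1, O.one_mem, by simp⟩
  | insert a s ha ih =>
    obtain ⟨w, hw, hw1⟩ := ih fun i hi => h i (Finset.mem_insert_of_mem hi)
    obtain ⟨v, hv, hv1⟩ := h a (Finset.mem_insert_self _ _)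
    refine ⟨v * w, O.mul_mem hv hw, ?_⟩
    rw [Finset.prod_insert ha]
    linear_combination (w * ∏ i ∈ s, f i) * hv1 + hw1

/-- `g(n) (2·4·…·2n)^2 = (1·3·…·(2n-1))^2` -/
theorem g_prod (hh : hf * 2 = 1) {b : ℕ → E} (hb0 : b 0 = 1)
    (hb : ∀ n : ℕ, ((n : E) + 1) ^ 2 * b (n + 1) = ((n : E) + hf) ^ 2 * b n) (n : ℕ) :
    (∏ i ∈ range n, (2 * (i : E) + 2)) ^ 2 * b n = (∏ i ∈ range n, (2 * (i : E) + 1)) ^ 2 := by
  induction n with
  | zero => simp [hb0]
  | succ n ih =>
    rw [Finset.prod_range_succ, Finset.prod_range_succ, mul_pow, mul_pow, ← ih]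
    have e : (2 * (n : E) + 1) = 2 * ((n : E) + hf) := by linear_combination -hh
    rw [e]
    linear_combination 4 * (∏ i ∈ range n, (2 * (i : E) + 2)) ^ 2 * hb n

/-- `g((p-1)/2) = 1` mod `p` -/
theorem g_mid (hp : p = 2 * N + 1) (hU : USmall O p) (hh : hf * 2 = 1) {b : ℕ → E}
    (hb0 : b 0 = 1)
    (hb : ∀ n : ℕ, ((n : E) + 1) ^ 2 * b (n + 1) = ((n : E) + hf) ^ 2 * b n) :
    PO O p 1 (b N - 1) := by
  have h1 := g_prod hh hb0 hb N
  obtain ⟨k, hk⟩ := dvd_oddEven N
  have h2 := congrArg (fun z : ℤ => (z : E)) hk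
  push_cast at h2
  obtain ⟨w, hw, hw1⟩ := unit_prod (O := O) (range N) (fun i : ℕ => (2 * (i : E) + 2)) (by
    intro i hi
    rw [Finset.mem_range] at hi
    obtain ⟨w, hw, hw1⟩ := hU (2 * i + 2) (by omega) (by omega)
    exact ⟨w, hw, by push_cast at hw1; exact hw1⟩)
  refine PO.cancel (a := (∏ i ∈ range N, (2 * (i : E) + 2)) ^ 2) (w := w ^ 2) (O.pow_mem hw 2)
    (by rw [← mul_pow, hw1, one_pow]) ?_
  refine ⟨(k : E), intCast_mem O k, ?_⟩
  rw [pow_one, hp, mul_sub, h1]
  push_cast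
  linear_combination h2

/-- values of the chain of `g` are integral for `n < p` -/
theorem g_int (hU : USmall O p) (hfO : hf ∈ O) {b : ℕ → E} (hb0 : b 0 = 1)
    (hb : ∀ n : ℕ, ((n : E) + 1) ^ 2 * b (n + 1) = ((n : E) + hf) ^ 2 * b n) :
    ∀ n : ℕ, n < p → b n ∈ O := by
  intro n
  induction n with
  | zero => intro _; rw [hb0]; exact O.one_mem
  | succ n ih =>
    intro hn
    obtain ⟨w, hw, hw1⟩ := hU (n + 1) (by omega) hn
    push_cast at hw1
    have : b (n + 1) = w ^ 2 * (((n : E) + hf) ^ 2 * b n) := by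
      rw [← hb n, ← mul_assoc, ← mul_pow, hw1, one_pow, one_mul]
    rw [this]
    exact O.mul_mem (O.pow_mem hw 2) (O.mul_mem (O.pow_mem (O.add_mem (natCast_mem O n) hfO) 2)
      (ih (by omega)))

/-- **the half congruence** : `g(N-m) = g(m)` mod `p` for `m ≤ N` -/
theorem g_half (hp : p = 2 * N + 1) (hU : USmall O p) (hh : hf * 2 = 1) (hfO : hf ∈ O)
    {b : ℕ → E} (hb0 : b 0 = 1)
    (hb : ∀ n : ℕ, ((n : E) + 1) ^ 2 * b (n + 1) = ((n : E) + hf) ^ 2 * b n) :
    ∀ m : ℕ, m ≤ N → PO O p 1 (b (N - m) - b m) := by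
  intro m
  induction m with
  | zero => intro _; rw [Nat.sub_zero, hb0]; exact g_mid hp hU hh hb0 hb
  | succ m ih =>
    intro hm
    have hD := ih (by omega)
    have hI := g_int hU hfO hb0 hb (N - (m + 1)) (by omega)
    have hI2 := g_int hU hfO hb0 hb (N - m) (by omega)
    have h1 := hb (N - (m + 1))
    have h2 := hb m
    have e1 : N - (m + 1) + 1 = N - m := by omega
    have e2 : ((N - (m + 1) : ℕ) : E) = (N : E) - (m + 1) := by
      rw [Nat.cast_sub hm]; push_cast; ring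
    rw [e1, e2] at h1
    obtain ⟨w, hw, hw1⟩ := hU (2 * m + 2) (by omega) (by omega)
    push_cast at hw1
    have hpE : (p : E) = 2 * (N : E) + 1 := by rw [hp]; push_cast; ring
    have hmO : (m : E) ∈ O := natCast_mem O m
    refine PO.cancel (a := (2 * (m : E) + 2) ^ 2) (w := w ^ 2) (O.pow_mem hw 2)
      (by rw [← mul_pow, hw1, one_pow]) ?_
    -- (2m+2)^2 b(N-m-1) = (2m+1)^2 b(N-m) mod p
    have h3 : PO O p 1 ((2 * (m : E) + 2) ^ 2 * b (N - (m + 1)) -
        (2 * (m : E) + 1) ^ 2 * b (N - m)) := by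
      refine ⟨(2 * (2 * (m : E) + 2) - (p : E)) * b (N - (m + 1)) -
        (2 * (2 * (m : E) + 1) - (p : E)) * b (N - m), ?_, ?_⟩
      · refine O.sub_mem (O.mul_mem (O.sub_mem (O.mul_mem (ofNat_mem O 2) (O.add_mem
          (O.mul_mem (ofNat_mem O 2) hmO) (ofNat_mem O 2))) (natCast_mem O p)) hI)
          (O.mul_mem (O.sub_mem (O.mul_mem (ofNat_mem O 2) (O.add_mem
          (O.mul_mem (ofNat_mem O 2) hmO) O.one_mem)) (natCast_mem O p)) hI2)
      · rw [pow_one, hpE]
        -- multiply h1 by 4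
        have e4 : (2 * ((N : E) - (m + 1)) + 1) ^ 2 = 4 * ((N : E) - (m + 1) + hf) ^ 2 := by
          have : (2 * ((N : E) - (m + 1)) + 1) = 2 * ((N : E) - (m + 1) + hf) := by
            linear_combination -hh
          rw [this]; ring
        linear_combination (-4) * h1 + (b (N - (m + 1))) * e4
    have h4 : (2 * (m : E) + 2) ^ 2 * b (m + 1) = (2 * (m : E) + 1) ^ 2 * b m := by
      have : (2 * (m : E) + 1) = 2 * ((m : E) + hf) := by linear_combination -hh
      rw [this]; linear_combination 4 * h2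
    have h5 := h3.add (hD.mul_left (c := (2 * (m : E) + 1) ^ 2)
      (O.pow_mem (O.add_mem (O.mul_mem (ofNat_mem O 2) hmO) O.one_mem) 2))
    have e5 : (2 * (m : E) + 2) ^ 2 * (b (N - (m + 1)) - b (m + 1)) =
        (2 * (m : E) + 2) ^ 2 * b (N - (m + 1)) - (2 * (m : E) + 1) ^ 2 * b (N - m) +
        (2 * (m : E) + 1) ^ 2 * (b (N - m) - b m) := by
      linear_combination -h4
    rw [e5]; exact h5





end Crest.Agent.R006.P4G226
end

-- ▼ part R006/P4G4_226
section

/-!
Row 6, block P4 (helper226, leaf of helper657): the congruences of the chains of `g` and `ψ` in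
814's filtrations of a field `K` of characteristic zero, for the germs of 664/89.

Hypotheses: `p = 2N+1`, `(p : K) ∈ F 1`, `(m : K)⁻¹ ∈ F 0` for `0 < m < p`.

* `GamZ_star` : `g(N+1+l) - (p/2)^2 c_l ∈ F 3`, `c_l = coeff 2 (GamH0 (l+1))`, `l < N`;
* `GamZ_mem`, `GamZ_mem_two` : `g(n) ∈ F 0` (`n < p`), `g(N+1+l) ∈ F 2` (`l < N`);
* `GamH0_mem`, `GamH0_coeff_zero`, `GamH0_coeff_one` : the germs at `l + 1/2` are integral and
  `O(ε^2)`;
* `GamZ_half` : `g(N-m) - g^-(-1/2-m) ∈ F 1` (`m ≤ N`); `GamH0_neg_mem` : the germs at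
  `-1/2-m` are integral (`m ≤ N`);
* `PsiZ_star` : `ψ(N+1+l) - ∑_{j<3} (p/2)^j coeff j (PsiH0 (l+1)) ∈ F 3`, `PsiH0_mem`;
* `PsiZ_mem` : `ψ(n) ∈ F 0` for `n ≤ N` if `ψ(0) ∈ F 0`.
-/

set_option autoImplicit false
set_option linter.unusedSectionVars false

namespace Crest.Agent.R006.P4G226

open Finset Crest.Agent.R006.NV

variable {K : Type*} [Field K]

/-- the subring `F 0` -/
def subF (Fil : Tollx814.ZFil K) : Subring K where
  carrier := Fil.F 0
  mul_mem' := fun {a b} ha hb => by simpa using Fil.mul_mem (a := 0) (b := 0) ha hb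
  one_mem' := Fil.one_mem
  add_mem' := fun ha hb => (Fil.F 0).add_mem ha hb
  zero_mem' := (Fil.F 0).zero_mem
  neg_mem' := fun ha => (Fil.F 0).neg_mem ha

theorem mem_subF (Fil : Tollx814.ZFil K) (x : K) : x ∈ subF Fil ↔ x ∈ Fil.F 0 := Iff.rfl

theorem pow_mem_F {Fil : Tollx814.ZFil K} {x : K} {a : ℤ} (h : x ∈ Fil.F a) (k : ℕ) :
    x ^ k ∈ Fil.F (k * a) := by
  induction k with
  | zero => simpa using Fil.one_mem
  | succ k ih =>
    rw [pow_succ]
    have := Fil.mul_mem ih h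
    have e : (k : ℤ) * a + a = ((k + 1 : ℕ) : ℤ) * a := by push_cast; ring
    rwa [e] at this

theorem PO.mem_F {Fil : Tollx814.ZFil K} {p k : ℕ} (hp : (p : K) ∈ Fil.F 1) {x : K}
    (h : PO (subF Fil) p k x) : x ∈ Fil.F k := by
  obtain ⟨y, hy, rfl⟩ := h
  have := Fil.mul_mem (pow_mem_F hp k) ((mem_subF Fil y).1 hy)
  simpa using this

section

variable [CharZero K] {Fil : Tollx814.ZFil K} {p N : ℕ}

/-- hypothesis on the small integers -/
def Small (Fil : Tollx814.ZFil K) (p : ℕ) : Prop :=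
  ∀ m : ℕ, 0 < m → m < p → ((m : K))⁻¹ ∈ Fil.F 0

theorem Small.uSmall (h : Small Fil p) : USmall (subF Fil) p := fun m hm hmp =>
  ⟨((m : K))⁻¹, h m hm hmp, inv_mul_cancel₀ (Nat.cast_ne_zero.2 hm.ne')⟩

theorem Small.half (h : Small Fil p) (hp : 2 < p) : (1 / 2 : K) ∈ subF Fil := by
  have := h 2 (by norm_num) hp
  rw [mem_subF, one_div]
  simpa using this

theorem half_two : (1 / 2 : K) * 2 = 1 := by norm_num

/-! ### recurrences -/

theorem GamZ_val_succ (n : ℕ) :
    ((n : K) + 1) ^ 2 * PowerSeries.coeff 0 (GamZ (K := K) ((n + 1 : ℕ) : ℤ)) =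
      ((n : K) + 1 / 2) ^ 2 * PowerSeries.coeff 0 (GamZ (K := K) ((n : ℕ) : ℤ)) := by
  have h := (step_Z (K := K) 0 (n : ℤ)).gam
  have h2 := congrArg (PowerSeries.coeff (R := K) 0) h
  simp only [PowerSeries.coeff_zero_eq_constantCoeff_apply, map_mul, map_pow, constantCoeff_pt,
    PowerSeries.constantCoeff_C, map_add, constantCoeff_two, map_one] at h2
  have e : ((n : ℤ) + 1 : ℤ) = ((n + 1 : ℕ) : ℤ) := by push_cast; ring
  rw [e] at h2
  simp only [PowerSeries.coeff_zero_eq_constantCoeff_apply]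
  push_cast at h2 ⊢
  linear_combination h2

theorem GamZ_val_zero : PowerSeries.coeff 0 (GamZ (K := K) ((0 : ℕ) : ℤ)) = 1 := by
  have : (GamZ (K := K) ((0 : ℕ) : ℤ)) = 1 := rfl
  rw [this]; simp


theorem pt_eq (x : K) : (pt x : PowerSeries K) = PowerSeries.X + PowerSeries.C x := rfl

/-- the half chain of `g` -/
theorem GamH0_step (i : ℤ) : pt ((i : K) + 1 / 2) ^ 2 * GamH0 (K := K) (i + 1) =
    pt (i : K) ^ 2 * GamH0 (K := K) i := by
  have h := (step_HG0 (K := K) 1 i).gam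
  have e1 : NV.GamH0 (K := K) 1 = Crest.Agent.R006.GamH0 (K := K) := by
    unfold NV.GamH0 Crest.Agent.R006.GamH0
    rw [map_one]
  rw [e1] at h
  have e2 : (i : K) - 1 / 2 + 1 = (i : K) + 1 / 2 := by ring
  rw [e2] at h
  rw [h]
  have e3 : (2 * pt ((i : K) - 1 / 2) + 1 : PowerSeries K) = PowerSeries.C 2 * pt (i : K) := by
    rw [pt_eq, two_pt half_two, pt_eq]
    congr 3; ring
  rw [e3, mul_pow, ← mul_assoc]
  congr 1
  have e4 : (PowerSeries.C (1 / 4) * PowerSeries.C 2 ^ 2 : PowerSeries K) = 1 := by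
    rw [← map_pow, ← map_mul]; norm_num
  rw [e4, one_mul]








/-! ### results -/








/-- `GamH0 (-m)` at `-1/2-m` : the recursion for the value -/
theorem GamH0_val_neg (m : ℕ) :
    ((m : K) + 1) ^ 2 * PowerSeries.coeff 0 (GamH0 (K := K) (-((m + 1 : ℕ) : ℤ))) =
      ((m : K) + 1 / 2) ^ 2 * PowerSeries.coeff 0 (GamH0 (K := K) (-(m : ℤ))) := by
  have h := GamH0_step (K := K) (-((m + 1 : ℕ) : ℤ))
  have h2 := congrArg (PowerSeries.coeff (R := K) 0) h
  simp only [PowerSeries.coeff_zero_eq_constantCoeff_apply, map_mul, map_pow,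
    constantCoeff_pt] at h2
  have e : (-((m + 1 : ℕ) : ℤ) + 1) = -(m : ℤ) := by push_cast; ring
  rw [e] at h2
  simp only [PowerSeries.coeff_zero_eq_constantCoeff_apply]
  push_cast at h2 ⊢
  linear_combination -h2

/-- the value of the half chain at `-1/2-m` is `g(m)` -/
theorem GamH0_neg_val (m : ℕ) : PowerSeries.coeff 0 (GamH0 (K := K) (-(m : ℤ))) =
    PowerSeries.coeff 0 (GamZ (K := K) (m : ℤ)) := by
  induction m with
  | zero =>
    have e1 : (GamH0 (K := K) (-((0 : ℕ) : ℤ))) = 1 := rfl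
    have e2 : (GamZ (K := K) ((0 : ℕ) : ℤ)) = 1 := rfl
    rw [e1, e2]
  | succ m ih =>
    have h1 := GamH0_val_neg (K := K) m
    have h2 := GamZ_val_succ (K := K) m
    rw [ih, ← h2] at h1
    have hne : ((m : K) + 1) ^ 2 ≠ 0 := pow_ne_zero 2 (Nat.cast_add_one_ne_zero m)
    exact mul_left_cancel₀ hne h1

/-- **(W)** `g(N-m) = g^-(-1/2-m)` mod `p` -/
theorem GamZ_half (hpF : (p : K) ∈ Fil.F 1) (hS : Small Fil p) (hp : p = 2 * N + 1) {m : ℕ}
    (hm : m ≤ N) :
    PowerSeries.coeff 0 (GamZ (K := K) ((N - m : ℕ) : ℤ)) -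
      PowerSeries.coeff 0 (GamH0 (K := K) (-(m : ℤ))) ∈ Fil.F 1 := by
  rcases Nat.eq_zero_or_pos N with h0 | h0
  · subst h0
    have : m = 0 := by omega
    subst this
    have e1 : (GamH0 (K := K) (-((0 : ℕ) : ℤ))) = 1 := rfl
    have e2 : (GamZ (K := K) ((0 - 0 : ℕ) : ℤ)) = 1 := rfl
    rw [e1, e2, sub_self]; exact (Fil.F 1).zero_mem
  · have h := g_half (b := fun n : ℕ => PowerSeries.coeff 0 (GamZ (K := K) (n : ℤ)))
      hp hS.uSmall half_two (hS.half (by omega)) GamZ_val_zero GamZ_val_succ m hm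
    rw [GamH0_neg_val]
    exact PO.mem_F hpF h




end

end Crest.Agent.R006.P4G226
end

-- ▼ part R006/P4_GW_657

/-!
# Row 6, block P4 (helper657): the G-W row reduction

In the polar class of `n = h - l` (`p = 2h+1`) the row `Z n` is replaced by
`row (Z n) - row (H (-1-l))` (`H (-1-l)` is the point `-l-1/2 = n - p/2`, where the gauge of the
`R`-columns vanishes).

* `det_partner`, `gwPartner` : the row operation on the rows of the design;
* `redA`, `redB`, `redC` : the new coefficients, `redA 0 = 0`, `redA t ∈ F (max 1 (t-2))`,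
  `redB 0 = 0`, `redB s ∈ F s`, `redC 0 ∈ F 1`, `redC u ∈ F u`;
* `gw_row` : the identity of the rows;  `gauge_mem` : the shift by the zeros of the gauge;
* `gam_half` : `g(h-l) - g(-1/2-l) ∈ F 1`.
-/

set_option autoImplicit false

namespace Crest.Agent.R006.P4GW657

open Polynomial Finset Tollx814 P4Toll961 P4M
open Crest.Agent.R006.D

/-! ### the row operation -/

section det

variable {A : Type*} [CommRing A] {ι : Type*} [Fintype ι] [DecidableEq ι]

/-- subtract from every row the row of its partner -/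
def sub (M : ι → ι → A) (partner : ι → Option ι) (i c : ι) : A :=
  M i c - match partner i with
    | some j => M j c
    | none => 0


end det

section partner

variable (S : Shape) (u c : ℕ) (hS : S.Good) (h : ℕ)

lemma isRow_W {l : ℕ} (hl : l < S.w * u) : IsRow S u c (Site.H (-1 - (l : ℤ)), 0) := by
  have h1 : ¬ (0 : ℤ) ≤ -1 - (l : ℤ) := by omega
  have h2 : -(-1 - (l : ℤ)) ≤ (S.w : ℤ) * u := by
    have : (l : ℤ) < S.w * u := by exact_mod_cast hl
    omega
  simp only [IsRow, Shape.mult, if_neg h1]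
  rw [if_pos (by exact_mod_cast h2)]
  norm_num

/-- the partner of the row of the node `h - l` is the row of `-l-1/2` -/
noncomputable def gwPartner (i : Lam.Row (Bordx929.mm S u c)) :
    Option (Lam.Row (Bordx929.mm S u c)) := by
  classical
  exact if H : ∃ l : ℕ, l ≤ h ∧ l < S.w * u ∧ i.1.1 = Site.Z ((h : ℤ) - l) then
    some (Bordx929.toRow u c hS (Site.H (-1 - (H.choose : ℤ)), 0) (isRow_W S u c H.choose_spec.2.1))
  else none

lemma gwPartner_some {i j : Lam.Row (Bordx929.mm S u c)}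
    (hij : gwPartner S u c hS h i = some j) :
    ∃ l : ℕ, l ≤ h ∧ l < S.w * u ∧ Bordx929.ofRow u c i = (Site.Z ((h : ℤ) - l), 0) ∧
      Bordx929.ofRow u c j = (Site.H (-1 - (l : ℤ)), 0) := by
  classical
  rw [gwPartner] at hij
  split_ifs at hij with H
  · have h1 := H.choose_spec
    refine ⟨H.choose, h1.1, h1.2.1, ?_, ?_⟩
    · obtain ⟨⟨z, hz⟩, ⟨j', hj'⟩⟩ := i
      have h2 : z = Site.Z ((h : ℤ) - H.choose) := h1.2.2
      have h3 : j' < 1 := by
        refine lt_of_lt_of_le hj' ?_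
        have h4 : S.mult u c z ≤ 1 := by
          rw [h2, Shape.mult]
          have h5 : (0 : ℤ) ≤ (h : ℤ) - H.choose := by have := h1.1; omega
          rw [if_pos h5]
          split_ifs <;> norm_num
        exact h4
      have h6 : j' = 0 := by omega
      subst h6
      rw [Bordx929.ofRow]
      exact Prod.ext h2 rfl
    · simp only [Option.some.injEq] at hij
      rw [← hij, Bordx929.ofRow_toRow]

lemma gwPartner_none {i : Lam.Row (Bordx929.mm S u c)} (hi : gwPartner S u c hS h i = none)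
    {l : ℕ} (hl : l ≤ h) (hl' : l < S.w * u) : i.1.1 ≠ Site.Z ((h : ℤ) - l) := by
  classical
  intro h1
  rw [gwPartner] at hi
  split_ifs at hi with H
  exact H ⟨l, hl, hl', h1⟩

lemma gwPartner_partner (i j : Lam.Row (Bordx929.mm S u c))
    (hij : gwPartner S u c hS h i = some j) : gwPartner S u c hS h j = none := by
  classical
  obtain ⟨l, _, _, _, h4⟩ := gwPartner_some S u c hS h hij
  rw [gwPartner, dif_neg]
  rintro ⟨l', _, _, h5⟩
  have h6 : j.1.1 = Site.H (-1 - (l : ℤ)) := congrArg Prod.fst h4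
  rw [h6] at h5
  simp at h5

end partner

/-! ### the coefficients of the reduced row -/

section coeffs

variable {A : Type*} [CommRing A] (Fil : ZFil A)

/-- `R`-coefficients of the reduced row -/
def redA (psi y : A) (m : ℕ → A) (t : ℕ) : A :=
  (if t = 0 then psi else -m (t - 1)) + ∑ k ∈ range t, y ^ (t - 1 - k) * m k - psi * y ^ t

/-- `X`-coefficients of the reduced row -/
def redB (y : A) (s : ℕ) : A := (if s = 0 then 1 else 0) - y ^ s

/-- `Q`-coefficients of the reduced row -/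
def redC (g gW y : A) (k : ℕ) : A := (if k = 0 then g else 0) - y ^ k * gW

@[simp] lemma redA_zero (psi y : A) (m : ℕ → A) : redA psi y m 0 = 0 := by simp [redA]

@[simp] lemma redB_zero (y : A) : redB y 0 = 0 := by simp [redB]

lemma redA_succ (psi y : A) (m : ℕ → A) (t : ℕ) :
    redA psi y m (t + 1) = ∑ k ∈ range t, y ^ (t - k) * m k - psi * y ^ (t + 1) := by
  rw [redA, if_neg (by omega), sum_range_succ]
  simp only [Nat.add_sub_cancel, Nat.sub_self, pow_zero, one_mul]
  ring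

theorem redA_mem {psi y : A} {m : ℕ → A} (hy : y ∈ Fil.F 1) (hpsi : psi ∈ Fil.F 0) {n : ℕ}
    (hm : ∀ k < n, m k ∈ Fil.F (max 0 ((k : ℤ) - 1))) {t : ℕ} (ht : 0 < t) (htn : t ≤ n) :
    redA psi y m t ∈ Fil.F (max 1 ((t : ℤ) - 2)) := by
  obtain ⟨t, rfl⟩ : ∃ k, t = k + 1 := ⟨t - 1, by omega⟩
  rw [redA_succ]
  refine AddSubgroup.sub_mem _ (Fil.sum_mem _ _ _ fun k hk => ?_) ?_
  · rw [mem_range] at hk
    refine mul_mem' Fil (pow_one_mem Fil hy (t - k)) (hm k (by omega)) ?_
    push_cast [Nat.cast_sub hk.le]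
    omega
  · refine mul_mem' Fil hpsi (pow_one_mem Fil hy (t + 1)) ?_
    push_cast
    omega

theorem redB_mem {y : A} (hy : y ∈ Fil.F 1) (s : ℕ) : redB y s ∈ Fil.F s := by
  rcases Nat.eq_zero_or_pos s with rfl | hs
  · rw [redB_zero]; exact AddSubgroup.zero_mem _
  · rw [redB, if_neg (by omega), zero_sub]
    exact AddSubgroup.neg_mem _ (pow_one_mem Fil hy s)

theorem redC_zero_mem {g gW y : A} (h : g - gW ∈ Fil.F 1) : redC g gW y 0 ∈ Fil.F 1 := by
  rw [redC, if_pos rfl, pow_zero, one_mul]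
  exact h

theorem redC_mem {g gW y : A} (hy : y ∈ Fil.F 1) (hg : gW ∈ Fil.F 0) {k : ℕ} (hk : 0 < k) :
    redC g gW y k ∈ Fil.F k := by
  rw [redC, if_neg (by omega), zero_sub]
  exact AddSubgroup.neg_mem _ (mul_mem' Fil (pow_one_mem Fil hy k) hg (by simp))




end coeffs

/-! ### the congruence of `g` -/

section gam

/-- the filtration of `ℚ` -/
noncomputable def qFil (p : ℕ) [Fact p.Prime] : ZFil ℚ where
  F v := ((pbFil p).F v).comap (C : ℚ →+* ℚ[X]).toAddMonoidHom
  anti := fun h _ hx => (pbFil p).anti h hx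
  mul_mem := fun {a b x y} hx hy => by
    change C (x * y) ∈ (pbFil p).F (a + b)
    rw [C_mul]
    exact (pbFil p).mul_mem hx hy
  one_mem := by
    change C (1 : ℚ) ∈ (pbFil p).F 0
    rw [C_1]
    exact (pbFil p).one_mem

variable {p : ℕ} [Fact p.Prime]

lemma mem_qFil {v : ℤ} {a : ℚ} : a ∈ (qFil p).F v ↔ C a ∈ (pbFil p).F v := Iff.rfl

lemma mem_qFil_of {v : ℤ} {a : ℚ} (h : padicNorm p a ≤ (p : ℚ) ^ (-v)) : a ∈ (qFil p).F v :=
  ProdBound481.PB.C h

lemma p_mem : (p : ℚ) ∈ (qFil p).F 1 := by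
  refine mem_qFil_of ?_
  rw [padicNorm.padicNorm_p_of_prime, zpow_neg, zpow_one]

lemma pinv_mem : ((p : ℚ))⁻¹ ∈ (qFil p).F (-1) := by
  refine mem_qFil_of ?_
  have h1 : padicNorm p ((p : ℚ)⁻¹) * padicNorm p (p : ℚ) = 1 := by
    rw [← padicNorm.mul, inv_mul_cancel₀ (by exact_mod_cast (Fact.out : p.Prime).ne_zero),
      padicNorm.one]
  rw [padicNorm.padicNorm_p_of_prime] at h1
  have hp : (p : ℚ) ≠ 0 := by exact_mod_cast (Fact.out : p.Prime).ne_zero
  rw [neg_neg, zpow_one]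
  have h2 : padicNorm p ((p : ℚ)⁻¹) = p := by
    have := congrArg (fun t => t * (p : ℚ)) h1
    simp only [one_mul, mul_assoc, inv_mul_cancel₀ hp, mul_one] at this
    exact this
  exact h2.le

lemma inv_mem {n : ℤ} (hn : ¬ (p : ℤ) ∣ n) : ((n : ℚ))⁻¹ ∈ (qFil p).F 0 := by
  refine mem_qFil_of ?_
  have h1 : padicNorm p ((n : ℚ)⁻¹) * padicNorm p (n : ℚ) = 1 := by
    rw [← padicNorm.mul, inv_mul_cancel₀, padicNorm.one]
    intro h0
    apply hn
    have : n = 0 := by exact_mod_cast h0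
    rw [this]
    exact dvd_zero _
  have h2 : padicNorm p (n : ℚ) = 1 := (padicNorm.int_eq_one_iff n).mpr hn
  rw [h2, mul_one] at h1
  rw [h1]
  norm_num

lemma small : P4G226.Small (qFil p) p := by
  intro m hm hmp
  have h := inv_mem (p := p) (n := (m : ℤ)) (by
    intro h1
    have := Int.le_of_dvd (by exact_mod_cast hm) h1
    omega)
  exact_mod_cast h

/-- `g(h-l) - g(-1/2-l) ∈ F 1`. -/
theorem gam_half {h : ℕ} (hp : p = 2 * h + 1) {l : ℕ} (hl : l ≤ h) :
    PowerSeries.constantCoeff (GamX (.Z ((h : ℤ) - l))) -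
      PowerSeries.constantCoeff (GamX (.H (-1 - (l : ℤ)))) ∈ (pbFil p).F 1 := by
  have h1 := P4G226.GamZ_half (K := ℚ) (Fil := qFil p) p_mem small hp hl
  rw [mem_qFil, map_sub] at h1
  have e1 : ((h - l : ℕ) : ℤ) = (h : ℤ) - l := by omega
  have e2 : gam (.H (-1 - (l : ℤ))) = Crest.Agent.R006.GamH0 (K := ℚ) (-(l : ℤ)) := by
    change GamH (-1 - (l : ℤ)) = _
    rw [GamH]
    have : (-1 - (l : ℤ)) + 1 = -(l : ℤ) := by ring
    rw [this]
    rfl
  have e3 : gam (.Z ((h : ℤ) - l)) = NV.GamZ (K := ℚ) ((h - l : ℕ) : ℤ) := by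
    rw [e1]; rfl
  rw [GamX, GamX, ← PowerSeries.coeff_zero_eq_constantCoeff_apply,
    ← PowerSeries.coeff_zero_eq_constantCoeff_apply, PowerSeries.coeff_map, PowerSeries.coeff_map,
    e2, e3]
  exact h1

end gam

end Crest.Agent.R006.P4GW657
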