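import Mathlib
import Crest.Agent.R006.Toll_814
import Crest.Agent.R006.NVChain_664
import Crest.Agent.R006.P4MatV_955
import Crest.Agent.R006.P4_GW_657

-- ▼ part R006/P4Filt_657
section

/-!
Row 6, block P4 (helper657): filtrations of power series rings.

`Fil : ZFil A` (helper814) is a `ℤ`-filtration of `A`.
* `hat N Fil : ZFil A⟦X⟧` : `f ∈ F v` iff `coeff j f ∈ F (v - j)` for all `j < N` (jets: `X`, `p` and
  `x - c` have weight `1`);
* `flat Fil : ZFil A⟦X⟧` : all coefficients in `F v`;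
* `ev φ y M f = ∑_{k<M} φ (coeff k f) y^k` is multiplicative modulo `F M` on `flat 0` if `y ∈ F 1`.
-/

set_option autoImplicit false

namespace Crest.Agent.R006.P4F

open Finset Tollx814

section basic

variable {A : Type*} [CommRing A] (Fil : ZFil A)

/-- the jet filtration -/
def hat (N : ℕ) : ZFil (PowerSeries A) where
  F v :=
    { carrier := {f | ∀ j < N, PowerSeries.coeff j f ∈ Fil.F (v - j)}
      add_mem' := by
        intro f g hf hg j hj
        rw [map_add]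
        exact add_mem (hf j hj) (hg j hj)
      zero_mem' := by
        intro j _
        rw [map_zero]
        exact zero_mem _
      neg_mem' := by
        intro f hf j hj
        rw [map_neg]
        exact neg_mem (hf j hj) }
  anti := by
    intro a b hab f hf j hj
    exact Fil.mono (by linarith) (hf j hj)
  mul_mem := by
    intro a b f g hf hg j hj
    rw [PowerSeries.coeff_mul]
    refine Fil.sum_mem _ _ _ fun x hx => ?_
    rw [HasAntidiagonal.mem_antidiagonal] at hx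
    have h1 := hf x.1 (by omega)
    have h2 := hg x.2 (by omega)
    refine Fil.mono ?_ (Fil.mul_mem h1 h2)
    have : (j : ℤ) = x.1 + x.2 := by exact_mod_cast hx.symm
    rw [this]; linarith
  one_mem := by
    intro j _
    rw [PowerSeries.coeff_one]
    split_ifs with h
    · subst h
      exact Fil.mono (by simp) Fil.one_mem
    · exact zero_mem _

/-- all coefficients -/
def flat : ZFil (PowerSeries A) where
  F v :=
    { carrier := {f | ∀ j, PowerSeries.coeff j f ∈ Fil.F v}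
      add_mem' := by
        intro f g hf hg j
        rw [map_add]
        exact add_mem (hf j) (hg j)
      zero_mem' := by
        intro j
        rw [map_zero]
        exact zero_mem _
      neg_mem' := by
        intro f hf j
        rw [map_neg]
        exact neg_mem (hf j) }
  anti := by
    intro a b hab f hf j
    exact Fil.mono hab (hf j)
  mul_mem := by
    intro a b f g hf hg j
    rw [PowerSeries.coeff_mul]
    exact Fil.sum_mem _ _ _ fun x _ => Fil.mul_mem (hf x.1) (hg x.2)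
  one_mem := by
    intro j
    rw [PowerSeries.coeff_one]
    split_ifs
    · exact Fil.one_mem
    · exact zero_mem _



lemma flat_le_hat {N : ℕ} {v : ℤ} {f : PowerSeries A} (h : f ∈ (flat Fil).F v) :
    f ∈ (hat Fil N).F v := fun j _ => Fil.mono (by linarith [Int.natCast_nonneg j]) (h j)

lemma natCast_mem (n : ℕ) : (n : A) ∈ Fil.F 0 := by
  induction n with
  | zero => simp
  | succ n ih => rw [Nat.cast_succ]; exact add_mem ih Fil.one_mem

lemma intCast_mem (n : ℤ) : (n : A) ∈ Fil.F 0 := by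
  rcases Int.eq_nat_or_neg n with ⟨m, rfl | rfl⟩
  · simpa using natCast_mem Fil m
  · simpa using natCast_mem Fil m

lemma two_mem : (2 : A) ∈ Fil.F 0 := by exact_mod_cast natCast_mem Fil 2

lemma three_mem : (3 : A) ∈ Fil.F 0 := by exact_mod_cast natCast_mem Fil 3

lemma mul_mem' {a b c : ℤ} {x y : A} (hx : x ∈ Fil.F a) (hy : y ∈ Fil.F b) (h : c ≤ a + b) :
    x * y ∈ Fil.F c := Fil.mono h (Fil.mul_mem hx hy)

lemma mul_mem0 {x y : A} (hx : x ∈ Fil.F 0) (hy : y ∈ Fil.F 0) : x * y ∈ Fil.F 0 :=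
  mul_mem' Fil hx hy (by simp)

lemma pow_mem {a : ℤ} {x : A} (hx : x ∈ Fil.F a) (n : ℕ) : x ^ n ∈ Fil.F (n * a) := by
  induction n with
  | zero => simpa using Fil.one_mem
  | succ n ih =>
    rw [pow_succ]
    exact mul_mem' Fil ih hx (by push_cast; linarith)

lemma pow_mem' {a b : ℤ} {x : A} (hx : x ∈ Fil.F a) (n : ℕ) (h : b ≤ n * a) :
    x ^ n ∈ Fil.F b := Fil.mono h (pow_mem Fil hx n)

lemma pow_mem_zero {x : A} (hx : x ∈ Fil.F 0) (n : ℕ) : x ^ n ∈ Fil.F 0 :=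
  pow_mem' Fil hx n (by simp)

lemma pow_mem_one {x : A} (hx : x ∈ Fil.F 1) (n : ℕ) : x ^ n ∈ Fil.F n :=
  pow_mem' Fil hx n (by simp)

lemma C_mem_flat {v : ℤ} {a : A} (h : a ∈ Fil.F v) : PowerSeries.C a ∈ (flat Fil).F v := by
  intro j
  rw [PowerSeries.coeff_C]
  split_ifs
  · exact h
  · exact zero_mem _

lemma C_mem_hat {N : ℕ} {v : ℤ} {a : A} (h : a ∈ Fil.F v) : PowerSeries.C a ∈ (hat Fil N).F v :=
  flat_le_hat Fil (C_mem_flat Fil h)

lemma X_mem_flat : (PowerSeries.X : PowerSeries A) ∈ (flat Fil).F 0 := by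
  intro j
  rw [PowerSeries.coeff_X]
  split_ifs
  · exact Fil.one_mem
  · exact zero_mem _

lemma X_mem_hat {N : ℕ} : (PowerSeries.X : PowerSeries A) ∈ (hat Fil N).F 1 := by
  intro j _
  rw [PowerSeries.coeff_X]
  split_ifs with h
  · subst h; exact Fil.mono (by simp) Fil.one_mem
  · exact zero_mem _

end basic

section inverse

variable {K : Type*} [Field K] (Fil : ZFil K)


theorem inv_mem_flat {f : PowerSeries K} (hf : f ∈ (flat Fil).F 0)
    (h0 : (PowerSeries.constantCoeff f)⁻¹ ∈ Fil.F 0) : f⁻¹ ∈ (flat Fil).F 0 := by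
  intro j
  induction j using Nat.strong_induction_on with
  | _ j ih =>
    rw [PowerSeries.coeff_inv]
    split_ifs with h
    · exact h0
    · have h1 : ∑ x ∈ antidiagonal j, (if x.2 < j then
          PowerSeries.coeff x.1 f * PowerSeries.coeff x.2 f⁻¹ else 0) ∈ Fil.F 0 := by
        refine Fil.sum_mem _ _ _ fun x hx => ?_
        split_ifs with h2
        · exact mul_mem' Fil (hf x.1) (ih x.2 h2) (by simp)
        · exact zero_mem _
      rw [neg_mul]
      exact neg_mem (mul_mem' Fil h0 h1 (by simp))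

end inverse

section ev

variable {A B : Type*} [CommRing A] [CommRing B] (FA : ZFil A) (FB : ZFil B) (φ : A →+* B)

/-- truncated evaluation -/
noncomputable def ev (y : B) (M : ℕ) (f : PowerSeries A) : B :=
  ∑ k ∈ range M, φ (PowerSeries.coeff k f) * y ^ k

lemma ev_add (y : B) (M : ℕ) (f g : PowerSeries A) : ev φ y M (f + g) = ev φ y M f + ev φ y M g := by
  simp [ev, add_mul, sum_add_distrib]


lemma ev_neg (y : B) (M : ℕ) (f : PowerSeries A) : ev φ y M (-f) = - ev φ y M f := by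
  simp [ev]

lemma ev_zero (y : B) (M : ℕ) : ev φ y M 0 = 0 := by simp [ev]

lemma ev_C (y : B) {M : ℕ} (hM : 0 < M) (a : A) : ev φ y M (PowerSeries.C a) = φ a := by
  rw [ev, sum_eq_single 0]
  · simp
  · intro k _ hk
    rw [PowerSeries.coeff_C, if_neg hk, map_zero, zero_mul]
  · intro h; exact absurd (mem_range.mpr hM) h

lemma ev_one (y : B) {M : ℕ} (hM : 0 < M) : ev φ y M 1 = 1 := by
  have := ev_C φ y hM 1
  simpa using this

lemma ev_X (y : B) {M : ℕ} (hM : 1 < M) : ev φ y M PowerSeries.X = y := by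
  rw [ev, sum_eq_single 1]
  · simp
  · intro k _ hk
    rw [PowerSeries.coeff_X, if_neg hk, map_zero, zero_mul]
  · intro h; exact absurd (mem_range.mpr hM) h

lemma ev_eq_eval₂ (y : B) (M : ℕ) (f : PowerSeries A) :
    ev φ y M f = (PowerSeries.trunc M f).eval₂ φ y := by
  rw [PowerSeries.eval₂_trunc_eq_sum_range]
  rfl

variable {FA FB φ}

lemma ev_mem (hφ : ∀ v x, x ∈ FA.F v → φ x ∈ FB.F v) {y : B} (hy : y ∈ FB.F 1) (M : ℕ) {v : ℤ}
    {f : PowerSeries A} (hf : f ∈ (flat FA).F v) : ev φ y M f ∈ FB.F v := by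
  refine FB.sum_mem _ _ _ fun k _ => ?_
  exact mul_mem' FB (hφ _ _ (hf k)) (pow_mem_one FB hy k) (by linarith [Int.natCast_nonneg k])

/-- a polynomial whose coefficients below `M` vanish -/
lemma eval₂_mem (hφ : ∀ v x, x ∈ FA.F v → φ x ∈ FB.F v) {y : B} (hy : y ∈ FB.F 1) (M : ℕ)
    (P : Polynomial A) (h0 : ∀ k, P.coeff k ∈ FA.F 0) (hz : ∀ k < M, P.coeff k = 0) :
    P.eval₂ φ y ∈ FB.F M := by
  rw [Polynomial.eval₂_eq_sum_range]
  refine FB.sum_mem _ _ _ fun k _ => ?_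
  rcases lt_or_ge k M with h | h
  · rw [hz k h, map_zero, zero_mul]; exact zero_mem _
  · exact mul_mem' FB (hφ _ _ (h0 k)) (pow_mem_one FB hy k) (by simpa using h)

/-- **`ev` is multiplicative modulo `F M`.** -/
theorem ev_mul (hφ : ∀ v x, x ∈ FA.F v → φ x ∈ FB.F v) {y : B} (hy : y ∈ FB.F 1) (M : ℕ)
    {f g : PowerSeries A} (hf : f ∈ (flat FA).F 0) (hg : g ∈ (flat FA).F 0) :
    ev φ y M (f * g) - ev φ y M f * ev φ y M g ∈ FB.F M := by
  have h1 : ev φ y M (f * g) - ev φ y M f * ev φ y M g =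
      (PowerSeries.trunc M (f * g) - PowerSeries.trunc M f * PowerSeries.trunc M g).eval₂ φ y := by
    rw [Polynomial.eval₂_sub, Polynomial.eval₂_mul, ev_eq_eval₂, ev_eq_eval₂, ev_eq_eval₂]
  rw [h1]
  have hfg : f * g ∈ (flat FA).F 0 := (flat FA).mono (by simp) ((flat FA).mul_mem hf hg)
  refine eval₂_mem hφ hy M _ ?_ ?_
  · intro k
    rw [Polynomial.coeff_sub]
    refine sub_mem ?_ ?_
    · rw [PowerSeries.coeff_trunc]
      split_ifs
      · exact hfg k
      · exact zero_mem _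
    · rw [Polynomial.coeff_mul]
      refine FA.sum_mem _ _ _ fun x _ => ?_
      refine mul_mem' FA (a := 0) (b := 0) ?_ ?_ (by simp)
      · rw [PowerSeries.coeff_trunc]
        split_ifs
        · exact hf _
        · exact zero_mem _
      · rw [PowerSeries.coeff_trunc]
        split_ifs
        · exact hg _
        · exact zero_mem _
  · intro k hk
    rw [Polynomial.coeff_sub, PowerSeries.coeff_trunc, if_pos hk, Polynomial.coeff_mul,
      PowerSeries.coeff_mul, sub_eq_zero]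
    refine sum_congr rfl fun x hx => ?_
    rw [HasAntidiagonal.mem_antidiagonal] at hx
    rw [PowerSeries.coeff_trunc, PowerSeries.coeff_trunc, if_pos (by omega), if_pos (by omega)]

/-- **transport of one step of a linear recursion through `ev`.** -/
theorem ev_step (hφ : ∀ v x, x ∈ FA.F v → φ x ∈ FB.F v) {y : B} (hy : y ∈ FB.F 1) (M : ℕ)
    {a b e f f' : PowerSeries A} (ha : a ∈ (flat FA).F 0) (hf' : f' ∈ (flat FA).F 0)
    (h : a * f' + b * f = e)
    {a₁ b₁ e₁ g g' w : B} (h₁ : a₁ * g' + b₁ * g = e₁) (hw : w * a₁ = 1) (hw0 : w ∈ FB.F 0)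
    (ha₁ : a₁ - ev φ y M a ∈ FB.F M) (he₁ : e₁ - ev φ y M e ∈ FB.F M)
    (hbg : b₁ * g - ev φ y M (b * f) ∈ FB.F M) : g' - ev φ y M f' ∈ FB.F M := by
  have h2 := ev_mul hφ hy M ha hf'
  have h3 : ev φ y M f' ∈ FB.F 0 := ev_mem hφ hy M hf'
  have h4 : (a₁ - ev φ y M a) * ev φ y M f' ∈ FB.F M := mul_mem' FB ha₁ h3 (by simp)
  have h5 : ev φ y M e = ev φ y M (a * f') + ev φ y M (b * f) := by rw [← h, ev_add]
  have h6 : a₁ * (g' - ev φ y M f') ∈ FB.F M := by
    have : a₁ * (g' - ev φ y M f') = (e₁ - ev φ y M e) - (b₁ * g - ev φ y M (b * f)) +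
        (ev φ y M (a * f') - ev φ y M a * ev φ y M f') - (a₁ - ev φ y M a) * ev φ y M f' := by
      rw [h5]; linear_combination h₁
    rw [this]
    exact sub_mem (add_mem (sub_mem he₁ hbg) h2) h4
  have h7 : g' - ev φ y M f' = w * (a₁ * (g' - ev φ y M f')) := by
    rw [← mul_assoc, hw, one_mul]
  rw [h7]
  exact mul_mem' FB hw0 h6 (by simp)

end ev

end Crest.Agent.R006.P4F
end

-- ▼ part R006/P4B1_657
section

/-!
Row 6, block P4 (helper657): decomposition B1 for regular classes, the started solution.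

* `St s f` : one step of the recursion of `ψ` from the position `s` to `s + 1`;
* `Sch s0 l` : the germ at `s0 + l` of the solution started by `0` at `s0 - 1`;
  `PsiH0_eq : PsiH0 (l+1) = Sch (1/2) l` (star germs);
* `Sch_flat` : integrality; `Sch_ev` : `Sch (s0+δ) l = ∑_{k<M} [coeff k (Sch s0 l)] (δ+ε)^k mod F M`;
The comparison with `ψ` is in `P4Star_657`.
-/

set_option autoImplicit false

namespace Crest.Agent.R006.P4B1

open Finset Tollx814 P4F

variable {K : Type*} [Field K]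

/-- the hypotheses on the filtration of the field of coefficients -/
structure PFil (p : ℕ) (Fil : ZFil K) : Prop where
  one : (p : K) ∈ Fil.F 1
  neg : ((p : K))⁻¹ ∈ Fil.F (-1)
  inv : ∀ n : ℤ, ¬ (p : ℤ) ∣ n → ((n : K))⁻¹ ∈ Fil.F 0

/-- `p`-adic unit -/
def Un (Fil : ZFil K) (s : K) : Prop := s ≠ 0 ∧ s ∈ Fil.F 0 ∧ s⁻¹ ∈ Fil.F 0

section defs

/-- leading coefficient of the step from `s` to `s+1` -/
noncomputable def aa (s : K) : PowerSeries K := NV.pt (s + 1) ^ 3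
/-- second coefficient -/
noncomputable def bb (s : K) : PowerSeries K := (2 * NV.pt s + 1) ^ 3
/-- right hand side -/
noncomputable def ee (s : K) : PowerSeries K := -(PowerSeries.C (1 / 2) * (3 * NV.pt s + 2))

/-- one step of the recursion -/
noncomputable def St (s : K) (f : PowerSeries K) : PowerSeries K := (ee s - bb s * f) * (aa s)⁻¹

/-- germ at `s0 + l` of the solution with value `0` at `s0 - 1` -/
noncomputable def Sch (s0 : K) : ℕ → PowerSeries K
  | 0 => St (s0 - 1) 0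
  | l + 1 => St (s0 + l) (Sch s0 l)

lemma aa_ne {s : K} (h : s + 1 ≠ 0) : PowerSeries.constantCoeff (aa s) ≠ 0 := by
  rw [aa, map_pow, NV.constantCoeff_pt]
  exact pow_ne_zero 3 h

lemma St_spec {s : K} (h : s + 1 ≠ 0) (f : PowerSeries K) :
    aa s * St s f + bb s * f = ee s := by
  rw [St]
  linear_combination (ee s - bb s * f) * PowerSeries.mul_inv_cancel (aa s) (aa_ne h)

lemma St_unique {s : K} (h : s + 1 ≠ 0) {f g : PowerSeries K} (hg : aa s * g + bb s * f = ee s) :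
    g = St s f := by
  have h1 := PowerSeries.inv_mul_cancel (aa s) (aa_ne h)
  rw [St]
  linear_combination (aa s)⁻¹ * hg - g * h1

variable [CharZero K]

lemma half_ne (l : ℕ) : ((1 : K) / 2 + l) ≠ 0 := by
  have h : ((2 * l + 1 : ℕ) : K) ≠ 0 := by exact_mod_cast (by omega : 2 * l + 1 ≠ 0)
  intro h1
  apply h
  push_cast
  linear_combination 2 * h1

theorem PsiH0_eq (l : ℕ) : (NV.PsiH0 ((l : ℤ) + 1) : PowerSeries K) = Sch (1 / 2) l := by
  have key := (NV.step_H0 (K := K) (l : ℤ)).psi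
  have e1 : (((l : ℤ) : K) - 1 / 2) = 1 / 2 - 1 + l := by push_cast; ring
  rw [e1] at key
  cases l with
  | zero =>
    have e0 : NV.PsiH0 (K := K) ((0 : ℕ) : ℤ) = 0 := rfl
    rw [e0] at key
    have := St_unique (s := (1 : K) / 2 - 1 + ((0 : ℕ) : K)) (f := 0) (by norm_num) key
    rw [this, Sch]
    simp
  | succ l =>
    have ih := PsiH0_eq l
    have e2 : NV.PsiH0 (K := K) ((l + 1 : ℕ) : ℤ) = Sch (1 / 2) l := by
      rw [← ih]; push_cast; rfl
    rw [e2] at key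
    have e3 : (1 : K) / 2 - 1 + ((l + 1 : ℕ) : K) = 1 / 2 + l := by push_cast; ring
    rw [e3] at key
    have := St_unique (s := (1 : K) / 2 + l) (f := Sch (1 / 2) l) (by
      have := half_ne (K := K) (l + 1)
      push_cast at this
      rwa [add_assoc]) key
    rw [this, Sch]

end defs

section flat

variable {Fil : ZFil K}

lemma pt_flat {s : K} (hs : s ∈ Fil.F 0) : NV.pt s ∈ (flat Fil).F 0 :=
  add_mem (X_mem_flat Fil) (C_mem_flat Fil hs)

lemma pt_hat {N : ℕ} {s : K} (hs : s ∈ Fil.F 1) : NV.pt s ∈ (hat Fil N).F 1 :=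
  add_mem (X_mem_hat Fil) (C_mem_hat Fil hs)

lemma pt_hat0 {N : ℕ} {s : K} (hs : s ∈ Fil.F 0) : NV.pt s ∈ (hat Fil N).F 0 :=
  flat_le_hat Fil (pt_flat hs)

lemma aa_flat {s : K} (hs : s ∈ Fil.F 0) : aa s ∈ (flat Fil).F 0 :=
  pow_mem_zero _ (pt_flat (add_mem hs Fil.one_mem)) 3

lemma bb_flat {s : K} (hs : s ∈ Fil.F 0) : bb s ∈ (flat Fil).F 0 :=
  pow_mem_zero _ (add_mem (mul_mem' _ (two_mem _) (pt_flat hs) (by simp)) (flat Fil).one_mem) 3

lemma ee_flat {s : K} (hs : s ∈ Fil.F 0) (h2 : (1 / 2 : K) ∈ Fil.F 0) :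
    ee s ∈ (flat Fil).F 0 :=
  neg_mem (mul_mem' _ (C_mem_flat Fil h2)
    (add_mem (mul_mem' _ (three_mem _) (pt_flat hs) (by simp)) (two_mem _)) (by simp))

lemma aa_inv_flat {s : K} (hs : Un Fil (s + 1)) : (aa s)⁻¹ ∈ (flat Fil).F 0 := by
  refine inv_mem_flat Fil (pow_mem_zero _ (pt_flat hs.2.1) 3) ?_
  rw [aa, map_pow, NV.constantCoeff_pt, ← inv_pow]
  exact pow_mem_zero _ hs.2.2 3

lemma St_flat {s : K} (hs0 : s ∈ Fil.F 0) (h2 : (1 / 2 : K) ∈ Fil.F 0) (hs : Un Fil (s + 1))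
    {f : PowerSeries K} (hf : f ∈ (flat Fil).F 0) : St s f ∈ (flat Fil).F 0 :=
  mul_mem' _ (sub_mem (ee_flat hs0 h2) (mul_mem' _ (bb_flat hs0) hf (by simp))) (aa_inv_flat hs)
    (by simp)

/-- **integrality of the started solution**. -/
theorem Sch_flat {s0 : K} (h2 : (1 / 2 : K) ∈ Fil.F 0) (l : ℕ) (h : ∀ k ≤ l, Un Fil (s0 + k)) :
    Sch s0 l ∈ (flat Fil).F 0 := by
  induction l with
  | zero =>
    have h0 := h 0 le_rfl
    simp only [Nat.cast_zero, add_zero] at h0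
    exact St_flat (sub_mem h0.2.1 Fil.one_mem) h2 (by rwa [sub_add_cancel]) (zero_mem _)
  | succ l ih =>
    have h1 := h (l + 1) le_rfl
    push_cast at h1
    exact St_flat (h l (Nat.le_succ l)).2.1 h2 (by rwa [add_assoc])
      (ih fun k hk => h k (Nat.le_succ_of_le hk))

end flat

section evs

variable {B : Type*} [CommRing B] {FA : ZFil K} {FB : ZFil B} {φ : K →+* B}

lemma ev_C_mul (y : B) (M : ℕ) (a : K) (f : PowerSeries K) :
    ev φ y M (PowerSeries.C a * f) = φ a * ev φ y M f := by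
  simp only [ev, PowerSeries.coeff_C_mul, map_mul, mul_sum, mul_assoc]

lemma ev_pt (y : B) {M : ℕ} (hM : 1 < M) (s : K) : ev φ y M (NV.pt s) = y + φ s := by
  rw [NV.pt, ev_add, ev_X φ y hM, ev_C φ y (by omega)]

lemma ev_two_pt (y : B) {M : ℕ} (hM : 1 < M) (s : K) :
    ev φ y M (2 * NV.pt s + 1) = 2 * (y + φ s) + 1 := by
  have h : (2 : PowerSeries K) = PowerSeries.C 2 := (map_ofNat PowerSeries.C 2).symm
  rw [ev_add, h, ev_C_mul, ev_pt y hM, ev_one φ y (by omega), map_ofNat]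

lemma ev_ee (y : B) {M : ℕ} (hM : 1 < M) (s : K) :
    ev φ y M (ee s) = -(φ (1 / 2) * (3 * (y + φ s) + 2)) := by
  have h : (2 : PowerSeries K) = PowerSeries.C 2 := (map_ofNat PowerSeries.C 2).symm
  have h3 : (3 : PowerSeries K) = PowerSeries.C 3 := (map_ofNat PowerSeries.C 3).symm
  rw [ee, ev_neg, ev_C_mul, ev_add, h3, ev_C_mul, ev_pt y hM, h, ev_C φ y (by omega), map_ofNat,
    map_ofNat]

lemma ev_pow (hφ : ∀ v x, x ∈ FA.F v → φ x ∈ FB.F v) {y : B} (hy : y ∈ FB.F 1) {M : ℕ}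
    (hM : 0 < M) {f : PowerSeries K} (hf : f ∈ (flat FA).F 0) (n : ℕ) :
    ev φ y M (f ^ n) - ev φ y M f ^ n ∈ FB.F M := by
  induction n with
  | zero => rw [pow_zero, pow_zero, ev_one φ y hM, sub_self]; exact zero_mem _
  | succ n ih =>
    have h1 := ev_mul hφ hy M (pow_mem_zero _ hf n) hf
    have h2 : (ev φ y M (f ^ n) - ev φ y M f ^ n) * ev φ y M f ∈ FB.F M :=
      mul_mem' FB ih (ev_mem hφ hy M hf) (by simp)
    have h3 : ev φ y M (f ^ (n + 1)) - ev φ y M f ^ (n + 1) =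
        (ev φ y M (f ^ n * f) - ev φ y M (f ^ n) * ev φ y M f) +
        (ev φ y M (f ^ n) - ev φ y M f ^ n) * ev φ y M f := by
      rw [pow_succ, pow_succ]; ring
    rw [h3]
    exact add_mem h1 h2

lemma ev_aa (hφ : ∀ v x, x ∈ FA.F v → φ x ∈ FB.F v) {y : B} (hy : y ∈ FB.F 1) {M : ℕ}
    (hM : 1 < M) {s : K} (hs : s ∈ FA.F 0) : (y + φ s + 1) ^ 3 - ev φ y M (aa s) ∈ FB.F M := by
  have h := ev_pow hφ hy (by omega : 0 < M) (pt_flat (add_mem hs FA.one_mem)) 3
  rw [ev_pt y hM, map_add, map_one] at h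
  rw [aa]
  have := neg_mem h
  rw [neg_sub] at this
  rwa [← add_assoc] at this

lemma ev_bb (hφ : ∀ v x, x ∈ FA.F v → φ x ∈ FB.F v) {y : B} (hy : y ∈ FB.F 1) {M : ℕ}
    (hM : 1 < M) {s : K} (hs : s ∈ FA.F 0) :
    (2 * (y + φ s) + 1) ^ 3 - ev φ y M (bb s) ∈ FB.F M := by
  have h := ev_pow hφ hy (by omega : 0 < M) (f := 2 * NV.pt s + 1) (add_mem (mul_mem' (flat FA)
    (two_mem (flat FA)) (pt_flat hs) (by simp)) (flat FA).one_mem) 3
  rw [ev_two_pt y hM] at h
  rw [bb]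
  have := neg_mem h
  rwa [neg_sub] at this

/-- **transport of one step of the recursion of `ψ` through `ev`.** -/
theorem ev_St (hφ : ∀ v x, x ∈ FA.F v → φ x ∈ FB.F v) (h2 : (1 / 2 : K) ∈ FA.F 0)
    {y : B} (hy : y ∈ FB.F 1) {M : ℕ} (hM : 1 < M) {s : K} (hs0 : s ∈ FA.F 0)
    (hs : Un FA (s + 1)) {f : PowerSeries K} (hf : f ∈ (flat FA).F 0) {g g' w : B}
    (hg : (y + φ s + 1) ^ 3 * g' + (2 * (y + φ s) + 1) ^ 3 * g = -(φ (1 / 2) * (3 * (y + φ s) + 2)))
    (hw : w * (y + φ s + 1) ^ 3 = 1) (hw0 : w ∈ FB.F 0)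
    (hbg : (2 * (y + φ s) + 1) ^ 3 * (g - ev φ y M f) ∈ FB.F M) :
    g' - ev φ y M (St s f) ∈ FB.F M := by
  refine ev_step hφ hy M (aa_flat hs0) (St_flat hs0 h2 hs hf) (St_spec hs.1 f) hg hw hw0
    (ev_aa hφ hy hM hs0) ?_ ?_
  · rw [ev_ee y hM, sub_self]; exact zero_mem _
  · have h1 := ev_mul hφ hy M (bb_flat hs0) hf
    have h3 := mul_mem' FB (ev_bb hφ hy hM hs0) (ev_mem hφ hy M hf) (by simp : (M : ℤ) ≤ M + 0)
    have e : (2 * (y + φ s) + 1) ^ 3 * g - ev φ y M (bb s * f) =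
        (2 * (y + φ s) + 1) ^ 3 * (g - ev φ y M f) +
        ((2 * (y + φ s) + 1) ^ 3 - ev φ y M (bb s)) * ev φ y M f -
        (ev φ y M (bb s * f) - ev φ y M (bb s) * ev φ y M f) := by ring
    rw [e]
    exact sub_mem (add_mem hbg h3) h1

end evs

section Schev

variable {Fil : ZFil K}

lemma phi_C (N : ℕ) (v : ℤ) (x : K) (hx : x ∈ Fil.F v) :
    (PowerSeries.C : K →+* PowerSeries K) x ∈ (hat Fil N).F v := C_mem_hat Fil hx

lemma pt_add (s δ : K) : NV.pt δ + PowerSeries.C s = NV.pt (s + δ) := by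
  rw [NV.pt, NV.pt, map_add]; ring

/-- a step of the chain, written at the site `y + s`, `y = δ + ε` -/
lemma St_spec' {s δ : K} (h : s + δ + 1 ≠ 0) (f : PowerSeries K) :
    (NV.pt δ + PowerSeries.C s + 1) ^ 3 * St (s + δ) f +
      (2 * (NV.pt δ + PowerSeries.C s) + 1) ^ 3 * f =
      -(PowerSeries.C (1 / 2) * (3 * (NV.pt δ + PowerSeries.C s) + 2)) := by
  have h1 := St_spec h f
  rw [aa, bb, ee] at h1
  rw [pt_add]
  have e : NV.pt (s + δ) + 1 = NV.pt (s + δ + 1) := by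
    rw [NV.pt, NV.pt, map_add (PowerSeries.C) (s + δ) 1, map_one]; ring
  rw [e]
  exact h1

lemma aa_inv_hat {N : ℕ} {s δ : K} (hs : Un Fil (s + δ + 1)) :
    ∃ w ∈ (hat Fil N).F 0, w * (NV.pt δ + PowerSeries.C s + 1) ^ 3 = 1 := by
  refine ⟨(aa (s + δ))⁻¹, flat_le_hat Fil (aa_inv_flat hs), ?_⟩
  have e : NV.pt δ + PowerSeries.C s + 1 = NV.pt (s + δ + 1) := by
    rw [pt_add, NV.pt, NV.pt, map_add (PowerSeries.C) (s + δ) 1, map_one]; ring
  rw [e]
  exact PowerSeries.inv_mul_cancel (aa (s + δ)) (aa_ne hs.1)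

/-- **the started solution at any site of the class is the value of one integral power series**
at the class centre, modulo `F M`. -/
theorem Sch_ev (h2 : (1 / 2 : K) ∈ Fil.F 0) {N M : ℕ} (hM : 1 < M) {s0 δ : K}
    (hδ : δ ∈ Fil.F 1) (l : ℕ) (h : ∀ k ≤ l, Un Fil (s0 + k)) (h' : ∀ k ≤ l, Un Fil (s0 + δ + k)) :
    Sch (s0 + δ) l - ev PowerSeries.C (NV.pt δ) M (Sch s0 l) ∈ (hat Fil N).F M := by
  induction l with
  | zero =>
    have h0 := h 0 le_rfl
    have h0' := h' 0 le_rfl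
    simp only [Nat.cast_zero, add_zero] at h0 h0'
    have e1 : s0 + δ - 1 = (s0 - 1) + δ := by ring
    have e2 : s0 - 1 + 1 = s0 := by ring
    have e3 : s0 - 1 + δ + 1 = s0 + δ := by ring
    rw [Sch, Sch, e1]
    have hu : Un Fil (s0 - 1 + δ + 1) := by rwa [e3]
    obtain ⟨w, hw0, hw⟩ := aa_inv_hat (N := N) hu
    refine ev_St (phi_C N) h2 (pt_hat hδ) hM (sub_mem h0.2.1 Fil.one_mem) (by rwa [e2])
      (zero_mem _) (St_spec' hu.1 0) hw hw0 ?_
    rw [ev_zero, sub_zero, mul_zero]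
    exact zero_mem _
  | succ l ih =>
    have hl := h l (Nat.le_succ l)
    have h1 := h (l + 1) le_rfl
    have h1' := h' (l + 1) le_rfl
    push_cast at h1 h1'
    have ih' := ih (fun k hk => h k (Nat.le_succ_of_le hk)) (fun k hk => h' k (Nat.le_succ_of_le hk))
    have e1 : s0 + δ + (l : K) = (s0 + l) + δ := by ring
    rw [Sch, Sch, e1]
    have hu : Un Fil (s0 + l + δ + 1) := by
      have : s0 + l + δ + 1 = s0 + δ + (l + 1) := by ring
      rwa [this]
    obtain ⟨w, hw0, hw⟩ := aa_inv_hat (N := N) hu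
    refine ev_St (phi_C N) h2 (pt_hat hδ) hM hl.2.1 (by rwa [add_assoc])
      (Sch_flat h2 l fun k hk => h k (Nat.le_succ_of_le hk)) (St_spec' hu.1 _) hw hw0 ?_
    refine mul_mem' _ (pow_mem_zero _ ?_ 3) ih' (by simp)
    refine add_mem (mul_mem' (hat Fil N) (two_mem (hat Fil N)) ?_ (by simp : (0 : ℤ) ≤ 0 + 0))
      (hat Fil N).one_mem
    rw [pt_add]
    exact pt_hat0 (add_mem hl.2.1 (Fil.mono (by norm_num) hδ))

end Schev

end Crest.Agent.R006.P4B1
private theorem rz_df0994930d : type_of% @_root_.Crest.Agent.R006.P4B1.Sch.eq_def := @_root_.Crest.Agent.R006.P4B1.Sch.eq_def -- L45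
private theorem rz_9e487e0a73 : type_of% @_root_.Crest.Agent.R006.P4B1.Sch.eq_1 := @_root_.Crest.Agent.R006.P4B1.Sch.eq_1 -- L45
end

-- ▼ part R006/P4Star_657
section

/-!
Row 6, block P4 (helper657): comparison of `ψ` with the started solution `Sch`.

* `sub_Sch` : `ψ - S ∈ F (3 + a)` if `ψ ∈ F a` at the site before the first one (jets: `hat N`);
* `star_flat` : the star germs have integral coefficients;
* `pval_int` : `ψ(n)` integral for `0 ≤ n < p/2`;
* `psi_star` : `ψ(n) = ∑_{j<H} (p/2)^j [ε^j] ψ_*(l + 1/2 + ε)  mod p^H`, `n = (p+1)/2 + l < p`,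
  `H ≤ 3`.
-/

set_option autoImplicit false
set_option linter.unusedSectionVars false

namespace Crest.Agent.R006.P4B1

open Finset Tollx814 P4F

variable {K : Type*} [Field K]

section psi

variable {Fil : ZFil K}







end psi

section star

variable [CharZero K] {Fil : ZFil K} {p h : ℕ}

/-- integers prime to `p` are units -/
lemma PFil.un (hF : PFil p Fil) {n : ℤ} (hn : ¬ (p : ℤ) ∣ n) : Un Fil (n : K) := by
  refine ⟨?_, intCast_mem Fil n, hF.inv n hn⟩
  have : n ≠ 0 := fun h0 => hn (by rw [h0]; exact dvd_zero _)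
  exact_mod_cast this

lemma PFil.half (hF : PFil p Fil) (hp : p = 2 * h + 1) (hh : 0 < h) : (1 / 2 : K) ∈ Fil.F 0 := by
  have h1 := hF.inv 2 (by
    intro h2
    have := Int.le_of_dvd (by norm_num) h2
    omega)
  rw [one_div]
  exact_mod_cast h1

lemma PFil.un_half (hF : PFil p Fil) (hp : p = 2 * h + 1) (hh : 0 < h) {l : ℕ} (hl : l < h) :
    Un Fil ((1 : K) / 2 + l) := by
  refine ⟨half_ne l, add_mem (hF.half hp hh) (natCast_mem Fil l), ?_⟩
  have h1 := hF.inv (2 * l + 1) (by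
    intro h2
    have := Int.le_of_dvd (by omega) h2
    omega)
  have h3 : ((1 : K) / 2 + l)⁻¹ = 2 * (((2 * (l : ℤ) + 1 : ℤ) : K))⁻¹ := by
    have h4 : ((2 * (l : ℤ) + 1 : ℤ) : K) ≠ 0 := by
      have : (2 * (l : ℤ) + 1) ≠ 0 := by omega
      exact_mod_cast this
    refine inv_eq_of_mul_eq_one_right ?_
    have h5 := mul_inv_cancel₀ h4
    have h6 : ((2 * (l : ℤ) + 1 : ℤ) : K) = 2 * (1 / 2 + l) := by push_cast; ring
    rw [h6] at h5 ⊢
    linear_combination h5
  rw [h3]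
  exact mul_mem' Fil (two_mem Fil) h1 (by simp)

lemma PFil.p_half (hF : PFil p Fil) (hp : p = 2 * h + 1) (hh : 0 < h) : (p : K) / 2 ∈ Fil.F 1 := by
  rw [div_eq_mul_one_div]
  exact mul_mem' Fil hF.one (hF.half hp hh) (by simp)





end star

end Crest.Agent.R006.P4B1
end

-- ▼ part R006/P4_B1Input_657
section

/-!
# Row 6, block P4 (helper657): local input of the decomposition B1 (regular classes with stars)

`c = h + 1 + l`, `p = 2h+1`, `l < h`; `b_k` = coefficients of the started solution at `c`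
(`bB p c k`), `χ_k = ∑_{c' ≠ c} wc_{c',k,0}` (`chiB`), `δ_k = b_k - χ_k` (`delB`),
`psi2 z = psi' z - ∑_{k<M} y^k δ_k = Ψ(z) - ∑_{k<M} y^k b_k`.

* `bB_mem`, `chiB_mem`, `delB_mem` : in `F 0`; `delB_zero_mem` : `δ_0 ∈ F 1`;
* `psi2_node` : `[ε^0] psi2 (Z c) ∈ F 3`;
* `psi2_star` : `psi2 (H l) ∈ F M` (the star of the class);
* `psi2_mem` : `psi2 z ∈ F 1` for all sites of the class.
-/

set_option autoImplicit false

namespace Crest.Agent.R006.P4B1In657

open Polynomial Finset Tollx814 P4Toll961 P4M P4B1 P4GW657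
open Crest.Agent.R006.D
open Crest.Agent.R006.P4M531 (phi BB)

/-! ### definitions -/

/-- coefficients at `c` of the solution started by `0` at `(p-1)/2` -/
noncomputable def bB (p c k : ℕ) : ℚ :=
  PowerSeries.coeff k (Sch ((((p + 1) / 2 : ℕ)) : ℚ) (c - (p + 1) / 2))

/-- sum of the far coefficients -/
noncomputable def chiB {p : ℕ} (e : Fin p → ℚ[X]) (M : ℕ) (c : Fin p) (k : ℕ) : ℚ :=
  ∑ c' ∈ univ.erase c, wcQ e M c c' k 0

/-- the coefficients `δ_k` -/
noncomputable def delB {p : ℕ} (e : Fin p → ℚ[X]) (M : ℕ) (c : Fin p) (k : ℕ) : ℚ :=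
  bB p c k - chiB e M c k

/-- `psi'` minus the analytic part -/
noncomputable def psi2 {p : ℕ} (e : Fin p → ℚ[X]) (M : ℕ) (c : Fin p) (z : Site) :
    PowerSeries ℚ[X] :=
  psi' e M c z - ∑ k ∈ range M, ys c z ^ k * PowerSeries.C (C (delB e M c k))

lemma psi'_eq {p : ℕ} (e : Fin p → ℚ[X]) (M : ℕ) (c : Fin p) (z : Site) :
    psi' e M c z = PsiX z - ∑ k ∈ range M, ys c z ^ k * PowerSeries.C (C (chiB e M c k)) := by
  rw [psi', sum_comm]
  congr 1
  refine sum_congr rfl fun k _ => ?_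
  rw [← mul_sum, chiB, map_sum, map_sum]

lemma psi2_eq {p : ℕ} (e : Fin p → ℚ[X]) (M : ℕ) (c : Fin p) (z : Site) :
    psi2 e M c z = PsiX z - ∑ k ∈ range M, ys c z ^ k * PowerSeries.C (C (bB p c k)) := by
  rw [psi2, psi'_eq, sub_sub, ← sum_add_distrib]
  congr 1
  refine sum_congr rfl fun k _ => ?_
  rw [← mul_add, ← map_add, ← C_add, delB]
  congr 3
  ring

/-! ### integrality -/

variable {p : ℕ} [hp : Fact p.Prime]

lemma pfil : PFil p (qFil p) := ⟨p_mem, pinv_mem, fun _ hn => P4GW657.inv_mem hn⟩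

/-- `p = 2h+1` and the position of a regular class -/
lemma split (h2 : p ≠ 2) : ∃ h : ℕ, p = 2 * h + 1 ∧ 0 < h ∧ (p + 1) / 2 = h + 1 := by
  have hodd : p % 2 = 1 := hp.out.eq_two_or_odd.resolve_left h2
  have := hp.out.two_le
  exact ⟨p / 2, by omega, by omega, by omega⟩

lemma un_nat {h : ℕ} (hh : p = 2 * h + 1) {k l : ℕ} (hk : k ≤ l) (hl : l < h) :
    Un (qFil p) (((h + 1 : ℕ) : ℚ) + k) := by
  have h1 := (pfil (p := p)).un (n := ((h + 1 + k : ℕ) : ℤ)) (by
    intro hd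
    have := Int.le_of_dvd (by omega) hd
    omega)
  push_cast at h1 ⊢
  exact h1

lemma Sch_flat' {h : ℕ} (hh : p = 2 * h + 1) (h0 : 0 < h) {l : ℕ} (hl : l < h) :
    Sch (((h + 1 : ℕ)) : ℚ) l ∈ (P4F.flat (qFil p)).F 0 :=
  Sch_flat ((pfil (p := p)).half hh h0) l fun _ hk => un_nat hh hk hl

lemma bB_mem (h2 : p ≠ 2) {c : ℕ} (hc : p < 2 * c) (hcp : c < p) (k : ℕ) :
    C (bB p c k) ∈ (pbFil p).F 0 := by
  obtain ⟨h, hh, h0, h1⟩ := split (p := p) h2
  rw [bB, h1]
  exact Sch_flat' hh h0 (l := c - (h + 1)) (by omega) k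

section input

variable {N M : ℕ} {e : Fin p → ℚ[X]}

lemma mom_mem0 (h2 : p ≠ 2) (L : LocalInput p N M e) (c : Fin p) {t : ℕ} (ht : t ≤ N) :
    momQ e c t ∈ (qFil p).F 0 := by
  have hodd : p % 2 = 1 := hp.out.eq_two_or_odd.resolve_left h2
  rcases Nat.lt_or_ge (2 * (c : ℕ)) p with h | h
  · exact (qFil p).mono (le_max_left _ _) (L.mom_polar c h t ht)
  · exact (qFil p).mono (by positivity) (L.mom_regular c (by omega) t ht)

lemma wcQ_mem0 (h2 : p ≠ 2) (L : LocalInput p N M e) (hMN : M ≤ N) {c c' : Fin p} (hc : c' ≠ c)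
    (k : ℕ) : wcQ e M c c' k 0 ∈ (qFil p).F 0 := by
  refine P4MValZx538.wc_mem (qFil p) _ _ _ _ M c' k 0 0 (diff_inv_mem hc) fun u _ hu => ?_
  exact mom_mem0 h2 L c' (by omega)

lemma chiB_mem (h2 : p ≠ 2) (L : LocalInput p N M e) (hMN : M ≤ N) (c : Fin p) (k : ℕ) :
    C (chiB e M c k) ∈ (pbFil p).F 0 := by
  change chiB e M c k ∈ (qFil p).F 0
  refine (qFil p).sum_mem _ _ _ fun c' hc' => ?_
  exact wcQ_mem0 h2 L hMN (mem_erase.mp hc').1 k

lemma delB_mem (h2 : p ≠ 2) (L : LocalInput p N M e) (hMN : M ≤ N) {c : Fin p}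
    (hc : p < 2 * (c : ℕ)) (k : ℕ) : C (delB e M c k) ∈ (pbFil p).F 0 := by
  rw [delB, C_sub]
  exact AddSubgroup.sub_mem _ (bB_mem h2 hc c.2 k) (chiB_mem h2 L hMN c k)

/-! ### the node -/

omit hp in
lemma HomZ_step (i : ℤ) : NV.pt ((i : ℚ) + 1) ^ 3 * HomZ (i + 1) +
    (2 * NV.pt (i : ℚ) + 1) ^ 3 * HomZ i = 0 := by
  apply NV.bi_step (K := ℚ) (a := fun i => NV.pt ((i : ℚ) + 1) ^ 3)
    (b := fun i => (2 * NV.pt (i : ℚ) + 1) ^ 3) (c := fun _ => 0)
  · intro i hi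
    rw [map_pow, NV.constantCoeff_pt]
    apply pow_ne_zero
    have : ((i + 1 : ℤ) : ℚ) ≠ 0 := by exact_mod_cast (by omega : (i + 1 : ℤ) ≠ 0)
    push_cast at this
    exact this
  · intro i hi
    rw [map_pow, map_add, map_mul, NV.constantCoeff_pt, map_ofNat, map_one]
    apply pow_ne_zero
    have : ((2 * i + 1 : ℤ) : ℚ) ≠ 0 := by exact_mod_cast (by omega : (2 * i + 1 : ℤ) ≠ 0)
    push_cast at this
    exact this

/-- value of `Ψ` at `n` -/
noncomputable def pv (n : ℤ) : ℚ[X] := PowerSeries.constantCoeff (PsiX (.Z n))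

omit hp in
lemma pv_rec (i : ℤ) : C (((i : ℚ) + 1) ^ 3) * pv (i + 1) + C ((2 * (i : ℚ) + 1) ^ 3) * pv i =
    C (-(1 / 2 * (3 * (i : ℚ) + 2))) := by
  have h1 := congrArg PowerSeries.constantCoeff (NV.step_Z (0 : ℚ) i).psi
  have h2 := congrArg PowerSeries.constantCoeff (HomZ_step i)
  simp only [map_add, map_mul, map_pow, map_neg, map_one, map_zero, NV.constantCoeff_pt,
    PowerSeries.constantCoeff_C, map_ofNat] at h1 h2
  have e : ∀ n : ℤ, pv n = C (PowerSeries.constantCoeff (NV.PsiZ 0 n)) -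
      X * C (PowerSeries.constantCoeff (HomZ n)) := by
    intro n
    rw [pv, PsiX, psi0, psi1, map_sub, map_mul, PowerSeries.constantCoeff_C,
      ← PowerSeries.coeff_zero_eq_constantCoeff_apply,
      ← PowerSeries.coeff_zero_eq_constantCoeff_apply, PowerSeries.coeff_map,
      PowerSeries.coeff_map, PowerSeries.coeff_zero_eq_constantCoeff_apply,
      PowerSeries.coeff_zero_eq_constantCoeff_apply]
  have h1' := congrArg (C : ℚ → ℚ[X]) h1
  have h2' := congrArg (C : ℚ → ℚ[X]) h2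
  simp only [C_add, C_mul, C_0] at h1' h2'
  rw [e, e]
  linear_combination h1' - X * h2'

/-- constant coefficients of the started solution -/
lemma Sch_rec {s0 : ℚ} (l : ℕ) (h : s0 + l + 1 ≠ 0) :
    (s0 + l + 1) ^ 3 * PowerSeries.constantCoeff (Sch s0 (l + 1)) +
      (2 * (s0 + l) + 1) ^ 3 * PowerSeries.constantCoeff (Sch s0 l) =
      -(1 / 2 * (3 * (s0 + l) + 2)) := by
  have h1 := congrArg PowerSeries.constantCoeff (St_spec (s := s0 + l) h (Sch s0 l))
  rw [aa, bb, ee] at h1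
  simp only [map_add, map_mul, map_pow, map_neg, map_one, NV.constantCoeff_pt,
    PowerSeries.constantCoeff_C, map_ofNat] at h1
  rw [Sch]
  exact h1

lemma Sch_rec0 {s0 : ℚ} (h : s0 ≠ 0) :
    s0 ^ 3 * PowerSeries.constantCoeff (Sch s0 0) = -(1 / 2 * (3 * (s0 - 1) + 2)) := by
  have h1 := congrArg PowerSeries.constantCoeff
    (St_spec (s := s0 - 1) (by rwa [sub_add_cancel]) (0 : PowerSeries ℚ))
  rw [aa, bb, ee] at h1
  simp only [map_add, map_mul, map_pow, map_neg, NV.constantCoeff_pt,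
    PowerSeries.constantCoeff_C, map_ofNat, mul_zero, add_zero, sub_add_cancel] at h1
  rw [Sch]
  exact h1

/-- the node congruence, as a recursion -/
theorem node_rec {h : ℕ} (hh : p = 2 * h + 1) (h0 : pv h ∈ (pbFil p).F 0) {l : ℕ}
    (hl : l < h) :
    pv ((h : ℤ) + 1 + l) - C (PowerSeries.constantCoeff (Sch (((h + 1 : ℕ)) : ℚ) l)) ∈
      (pbFil p).F 3 := by
  have hpq : (p : ℚ) = 2 * h + 1 := by rw [hh]; push_cast; ring
  induction l with
  | zero =>
    have h1 := pv_rec (h : ℤ)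
    have hu := un_nat (p := p) hh (le_refl 0) hl
    rw [Nat.cast_zero, add_zero] at hu
    have h3 := Sch_rec0 hu.1
    have h4 := congrArg (C : ℚ → ℚ[X]) h3
    have h5 : C ((((h + 1 : ℕ) : ℚ))⁻¹ ^ 3) * C (((h + 1 : ℕ) : ℚ) ^ 3) = 1 := by
      rw [← C_mul, ← mul_pow, inv_mul_cancel₀ hu.1, one_pow, C_1]
    have e1 : (((h : ℤ) : ℚ) + 1) = ((h + 1 : ℕ) : ℚ) := by push_cast; ring
    have e2 : (2 * ((h : ℤ) : ℚ) + 1) = p := by rw [hpq]; push_cast; ring
    have e3 : (3 * (((h + 1 : ℕ) : ℚ) - 1) + 2) = 3 * ((h : ℤ) : ℚ) + 2 := by push_cast; ring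
    rw [e1, e2] at h1
    rw [C_mul, e3] at h4
    have e : pv ((h : ℤ) + 1 + ((0 : ℕ) : ℤ)) -
        C (PowerSeries.constantCoeff (Sch (((h + 1 : ℕ)) : ℚ) 0)) =
        -(C ((((h + 1 : ℕ) : ℚ))⁻¹ ^ 3) * (C ((p : ℚ)) ^ 3 * pv h)) := by
      rw [Nat.cast_zero, add_zero]
      rw [C_pow (a := (p : ℚ))] at h1
      linear_combination C ((((h + 1 : ℕ) : ℚ))⁻¹ ^ 3) * (h1 - h4) -
        (pv ((h : ℤ) + 1) - C (PowerSeries.constantCoeff (Sch (((h + 1 : ℕ)) : ℚ) 0))) * h5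
    rw [e]
    refine AddSubgroup.neg_mem _ (P4F.mul_mem' _ (a := 0) (b := 3)
      (show (((h + 1 : ℕ) : ℚ))⁻¹ ^ 3 ∈ (qFil p).F 0 from P4F.pow_mem_zero _ hu.2.2 3) ?_ (by norm_num))
    exact P4F.mul_mem' _ (P4F.pow_mem_one _ C_p_mem 3) h0 (by norm_num)
  | succ l ih =>
    have ih' := ih (by omega)
    have h1 := pv_rec ((h : ℤ) + 1 + l)
    have hu := un_nat (p := p) hh (le_refl (l + 1)) hl
    have hu0 := un_nat (p := p) hh (le_refl l) (by omega)
    have e0 : ((h + 1 : ℕ) : ℚ) + ((l + 1 : ℕ) : ℚ) = ((h + 1 : ℕ) : ℚ) + l + 1 := by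
      push_cast; ring
    rw [e0] at hu
    have h3 := Sch_rec (s0 := ((h + 1 : ℕ) : ℚ)) l hu.1
    have h4 := congrArg (C : ℚ → ℚ[X]) h3
    have h5 : C ((((h + 1 : ℕ) : ℚ) + l + 1)⁻¹ ^ 3) * C ((((h + 1 : ℕ) : ℚ) + l + 1) ^ 3) = 1 := by
      rw [← C_mul, ← mul_pow, inv_mul_cancel₀ hu.1, one_pow, C_1]
    have e1 : (((((h : ℤ) + 1 + l : ℤ)) : ℚ) + 1) = ((h + 1 : ℕ) : ℚ) + l + 1 := by push_cast; ring
    have e2 : (2 * ((((h : ℤ) + 1 + l : ℤ)) : ℚ) + 1) = 2 * (((h + 1 : ℕ) : ℚ) + l) + 1 := by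
      push_cast; ring
    have e3 : (3 * ((((h : ℤ) + 1 + l : ℤ)) : ℚ) + 2) = 3 * (((h + 1 : ℕ) : ℚ) + l) + 2 := by
      push_cast; ring
    rw [e1, e2, e3] at h1
    rw [C_add, C_mul, C_mul] at h4
    have e : pv ((h : ℤ) + 1 + ((l + 1 : ℕ) : ℤ)) -
        C (PowerSeries.constantCoeff (Sch (((h + 1 : ℕ)) : ℚ) (l + 1))) =
        -(C ((((h + 1 : ℕ) : ℚ) + l + 1)⁻¹ ^ 3) * (C ((2 * (((h + 1 : ℕ) : ℚ) + l) + 1) ^ 3) *
          (pv ((h : ℤ) + 1 + l) -
            C (PowerSeries.constantCoeff (Sch (((h + 1 : ℕ)) : ℚ) l))))) := by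
      have e4 : (h : ℤ) + 1 + ((l + 1 : ℕ) : ℤ) = (h : ℤ) + 1 + l + 1 := by push_cast; ring
      rw [e4]
      linear_combination C ((((h + 1 : ℕ) : ℚ) + l + 1)⁻¹ ^ 3) * (h1 - h4) -
        (pv ((h : ℤ) + 1 + l + 1) -
          C (PowerSeries.constantCoeff (Sch (((h + 1 : ℕ)) : ℚ) (l + 1)))) * h5
    rw [e]
    refine AddSubgroup.neg_mem _ (P4F.mul_mem' _ (a := 0) (b := 3)
      (show (((h + 1 : ℕ) : ℚ) + l + 1)⁻¹ ^ 3 ∈ (qFil p).F 0 from
        P4F.pow_mem_zero _ hu.2.2 3) ?_ (by norm_num))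
    refine P4F.mul_mem' _ (a := 0) (b := 3)
      (show (2 * (((h + 1 : ℕ) : ℚ) + l) + 1) ^ 3 ∈ (qFil p).F 0 from
        P4F.pow_mem_zero _ ?_ 3) ih' (by norm_num)
    exact add_mem (P4F.mul_mem0 _ (P4F.two_mem _) hu0.2.1) (qFil p).one_mem

omit hp in
lemma coeff_zero_sum_X (M : ℕ) (hM : 0 < M) (a : ℕ → ℚ[X]) :
    PowerSeries.constantCoeff (∑ k ∈ range M,
      (PowerSeries.X : PowerSeries ℚ[X]) ^ k * PowerSeries.C (a k)) = a 0 := by
  rw [map_sum, sum_eq_single 0]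
  · simp
  · intro k _ hk
    rw [map_mul, map_pow, PowerSeries.constantCoeff_X, zero_pow hk, zero_mul]
  · intro h; exact absurd (mem_range.mpr hM) h

omit hp in
lemma ys_node (c : Fin p) : ys (c : ℕ) (.Z ((c : ℕ) : ℤ)) = PowerSeries.X := by
  rw [ys, Site.val]
  simp

omit hp in
/-- constant coefficient of `psi'` at the node -/
lemma psi'_node (hM : 0 < M) (c : Fin p) :
    PowerSeries.constantCoeff (psi' e M c (.Z ((c : ℕ) : ℤ))) =
      pv (c : ℕ) - C (chiB e M c 0) := by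
  rw [psi'_eq, map_sub, ys_node, coeff_zero_sum_X M hM]
  rfl

omit hp in
/-- constant coefficient of `psi2` at the node -/
lemma psi2_node_eq (hM : 0 < M) (c : Fin p) :
    PowerSeries.constantCoeff (psi2 e M c (.Z ((c : ℕ) : ℤ))) = pv (c : ℕ) - C (bB p c 0) := by
  rw [psi2_eq, map_sub, ys_node, coeff_zero_sum_X M hM]
  rfl

lemma const_mem {v : ℤ} {f : PowerSeries ℚ[X]} (h : f ∈ (psFil (pbFil p)).F v) :
    PowerSeries.constantCoeff f ∈ (pbFil p).F v := by
  have := h 0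
  simpa using this

lemma pv_h_mem (h2 : p ≠ 2) (L : LocalInput p N M e) (hMN : M ≤ N) (hM : 0 < M) {h : ℕ}
    (hh : p = 2 * h + 1) : pv (h : ℕ) ∈ (pbFil p).F 0 := by
  have h1 := L.psi_zero ⟨h, by omega⟩ h rfl (by omega)
  have h3 := const_mem h1
  have h4 := psi'_node (e := e) hM (⟨h, by omega⟩ : Fin p)
  rw [h4] at h3
  have h5 := AddSubgroup.add_mem _ h3 (chiB_mem h2 L hMN ⟨h, by omega⟩ 0)
  rwa [sub_add_cancel] at h5

/-- **the node congruence** `Ψ(c) = b_0 mod p^3`. -/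
theorem node (h2 : p ≠ 2) (L : LocalInput p N M e) (hMN : M ≤ N) (hM : 0 < M) {c : ℕ}
    (hc : p < 2 * c) (hcp : c < p) : pv (c : ℕ) - C (bB p c 0) ∈ (pbFil p).F 3 := by
  obtain ⟨h, hh, h0, h1⟩ := split (p := p) h2
  have h3 := node_rec hh (pv_h_mem h2 L hMN hM hh) (l := c - (h + 1)) (by omega)
  have e1 : (h : ℤ) + 1 + ((c - (h + 1) : ℕ) : ℤ) = (c : ℤ) := by omega
  rw [e1] at h3
  rw [bB, h1, PowerSeries.coeff_zero_eq_constantCoeff_apply]
  exact h3

/-- **the node**: `[ε^0] psi2 (Z c) ∈ F 3`. -/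
theorem psi2_node (h2 : p ≠ 2) (L : LocalInput p N M e) (hMN : M ≤ N) (hM : 0 < M) {c : Fin p}
    (hc : p < 2 * (c : ℕ)) :
    PowerSeries.constantCoeff (psi2 e M c (.Z ((c : ℕ) : ℤ))) ∈ (pbFil p).F 3 := by
  rw [psi2_node_eq hM]
  exact node h2 L hMN hM hc c.2

lemma inR_node (h2 : p ≠ 2) (c : Fin p) : InR p (.Z ((c : ℕ) : ℤ)) := by
  have h1 : 3 ≤ p := by have := hp.out.two_le; omega
  have hc := c.2
  rw [InR, Site.val]
  have h3 : ((c : ℕ) : ℚ) + 1 ≤ p := by exact_mod_cast hc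
  have h4 : (0 : ℚ) ≤ ((c : ℕ) : ℚ) := Nat.cast_nonneg _
  rw [Int.cast_natCast, abs_of_nonneg h4]
  have h5 : (3 : ℚ) ≤ p := by exact_mod_cast h1
  nlinarith

lemma delB_zero_mem (h2 : p ≠ 2) (L : LocalInput p N M e) (hMN : M ≤ N) (hM : 0 < M) {c : Fin p}
    (hc : p < 2 * (c : ℕ)) : C (delB e M c 0) ∈ (pbFil p).F 1 := by
  have h1 := psi2_node h2 L hMN hM hc
  rw [psi2_node_eq hM] at h1
  have h3 := const_mem (L.psi_regular c (.Z ((c : ℕ) : ℤ)) (inR_node h2 c) (by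
    rw [cl]
    have : (((c : ℕ) : ℤ) % (p : ℤ)) = ((c : ℕ) : ℤ) :=
      Int.emod_eq_of_lt (by positivity) (by exact_mod_cast c.2)
    rw [this]
    simp) hc (fun i hi => by simp at hi))
  rw [psi'_node hM] at h3
  have e : C (delB e M c 0) = (pv (c : ℕ) - C (chiB e M c 0)) - (pv (c : ℕ) - C (bB p c 0)) := by
    rw [delB, C_sub]; ring
  rw [e]
  exact AddSubgroup.sub_mem _ h3 ((pbFil p).mono (by norm_num) h1)

/-- **`psi2 ∈ F 1`** at all sites of the class where `psi' ∈ F 1`. -/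
theorem psi2_mem (h2 : p ≠ 2) (L : LocalInput p N M e) (hMN : M ≤ N) {c : Fin p}
    (hc : p < 2 * (c : ℕ)) {z : Site} (hz : (c : ℕ) = cl p z)
    (hps : psi' e M c z ∈ (psFil (pbFil p)).F 1) : psi2 e M c z ∈ (psFil (pbFil p)).F 1 := by
  rw [psi2]
  refine AddSubgroup.sub_mem _ hps ((psFil (pbFil p)).sum_mem _ _ _ fun k hk => ?_)
  rw [mem_range] at hk
  rcases Nat.eq_zero_or_pos k with rfl | hk0
  · rw [pow_zero, one_mul]
    exact C_mem _ (delB_zero_mem h2 L hMN (by omega) hc)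
  · exact P4M.mul_mem' _ (pow_one_mem _ (ys_mem h2 z hz) k) (C_mem _ (delB_mem h2 L hMN hc k))
      (by omega)

/-! ### the star -/

omit hp in
lemma PsiX_star (l : ℕ) : PsiX (.H (l : ℤ)) = PowerSeries.map C (Sch (1 / 2 : ℚ) l) := by
  rw [PsiX, psi0, psi1, map_zero, mul_zero, sub_zero, ← PsiH0_eq]
  rfl

/-- **the star**: `psi2 (H l) ∈ F M`, `c = h + 1 + l`. -/
theorem psi2_star (h2 : p ≠ 2) (hM : 1 < M) {c : Fin p} (hc : p < 2 * (c : ℕ)) {l : ℕ}
    (hl : (c : ℕ) = l + (p + 1) / 2) : psi2 e M c (.H (l : ℤ)) ∈ (psFil (pbFil p)).F M := by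
  obtain ⟨h, hh, h0, h1⟩ := split (p := p) h2
  have hlh : l < h := by have := c.2; omega
  have hpq : (p : ℚ) = 2 * h + 1 := by rw [hh]; push_cast; ring
  have hδ : (-(p / 2) : ℚ) ∈ (qFil p).F 1 :=
    AddSubgroup.neg_mem _ ((pfil (p := p)).p_half hh h0)
  have e1 : ((h + 1 : ℕ) : ℚ) + -(p / 2) = 1 / 2 := by rw [hpq]; push_cast; ring
  have key : ∀ N : ℕ, Sch (1 / 2 : ℚ) l -
      P4F.ev PowerSeries.C (NV.pt (-(p / 2) : ℚ)) M (Sch (((h + 1 : ℕ)) : ℚ) l) ∈
        (P4F.hat (qFil p) N).F M := by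
    intro N
    have := Sch_ev ((pfil (p := p)).half hh h0) (N := N) hM hδ l
      (fun k hk => un_nat hh hk hlh) (fun k hk => by
        rw [e1]
        exact (pfil (p := p)).un_half hh h0 (by omega))
    rwa [e1] at this
  have e2 : psi2 e M c (.H (l : ℤ)) = PowerSeries.map C (Sch (1 / 2 : ℚ) l -
      P4F.ev PowerSeries.C (NV.pt (-(p / 2) : ℚ)) M (Sch (((h + 1 : ℕ)) : ℚ) l)) := by
    rw [psi2_eq, map_sub, PsiX_star, P4F.ev, map_sum]
    congr 1
    refine sum_congr rfl fun k _ => ?_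
    have e3 : PowerSeries.map C (NV.pt (-(p / 2) : ℚ)) = ys (c : ℕ) (.H (l : ℤ)) := by
      rw [NV.pt, map_add, PowerSeries.map_X, PowerSeries.map_C, ys, Site.val, add_comm, hl, h1, hpq]
      congr 3
      push_cast
      ring
    have e4 : (c : ℕ) - (h + 1) = l := by omega
    rw [map_mul, map_pow, e3, PowerSeries.map_C, bB, h1, e4, mul_comm]
  rw [e2]
  intro j
  rw [PowerSeries.coeff_map]
  exact key (j + 1) j (Nat.lt_succ_self j)

end input

end Crest.Agent.R006.P4B1In657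
end

-- ▼ part R006/P4MatB_869

/-!
# Row 6, block P4, matrix side, decomposition B1 (helper869, for helper955)

Near coefficients `nrB del c s l` (`del c k` = Taylor coefficients of the function subtracted on
the class `c`): `cA0 i l - ∑_s cB0 i s * nrB (cs i) s l = ∑_g rho^[g] [ε^j] (psi2 y^(g+l))`,
`psi2 = ps - ∑_{k<M} y^k del_k`; valuations.
-/

set_option autoImplicit false

namespace Crest.Agent.R006.P4M

open Polynomial Finset Tollx814 P4Toll961
open Crest.Agent.R006.D Crest.Agent.R006.PsiInf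
open Crest.Agent.R006.P4M531 (pt cst phi linB BB)

namespace Dat

section defs

variable {p : ℕ} {jR jT jQ jU ι : Type*} (D : Dat p jR jT jQ jU ι)

/-- near coefficients, before the gauge -/
noncomputable def nearR (del : Fin p → ℕ → ℚ) (c : Fin p) (s t : ℕ) : ℚ :=
  if t ≤ s then (if s - t < D.M then del c (s - t) else 0) else -momQ D.e c (t - 1 - s)

/-- near coefficients of the decomposition B1 -/
noncomputable def nrB (del : Fin p → ℕ → ℚ) (c : Fin p) (s l : ℕ) : ℚ[X] :=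
  if l < D.Nb then
    ∑ g ∈ range D.G, C ((taylor ((c : ℕ) : ℚ) D.rho).coeff g) * C (D.nearR del c s (g + l))
  else 0

/-- `psi'` minus the function of the class -/
noncomputable def psi2 (del : Fin p → ℕ → ℚ) (i : ι) : BB :=
  D.ps i - ∑ k ∈ range D.M, ys (D.cs i) (D.ro i).1 ^ k * PowerSeries.C (C (del (D.cs i) k))

/-- the own class coefficients in the decomposition B1 -/
noncomputable def cAB (del : Fin p → ℕ → ℚ) (i : ι) (l : ℕ) : ℚ[X] :=
  if l < D.Nb then
    ∑ g ∈ range D.G, C ((taylor ((D.cs i : ℕ) : ℚ) D.rho).coeff g) *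
      PowerSeries.coeff (D.ro i).2 (D.psi2 del i * ys (D.cs i) (D.ro i).1 ^ (g + l))
  else 0

variable {D}

lemma near_sum (del : Fin p → ℕ → ℚ) (c : Fin p) (y : BB) (t : ℕ) (ht : t + D.M ≤ D.N) :
    ∑ s ∈ range D.N, y ^ s * phi (D.nearR del c s t) =
      (∑ k ∈ range D.M, y ^ k * phi (del c k)) * y ^ t -
        ∑ u ∈ range t, y ^ (t - 1 - u) * phi (momQ D.e c u) := by
  have hN : D.N = t + (D.N - t) := by omega
  rw [hN, sum_range_add]
  have h1 : ∑ s ∈ range t, y ^ s * phi (D.nearR del c s t) =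
      -∑ u ∈ range t, y ^ (t - 1 - u) * phi (momQ D.e c u) := by
    rw [← sum_range_reflect, ← sum_neg_distrib]
    refine sum_congr rfl fun u hu => ?_
    rw [mem_range] at hu
    rw [nearR, if_neg (by omega), show t - 1 - (t - 1 - u) = u by omega, map_neg]
    ring
  have h2 : ∑ k ∈ range (D.N - t), y ^ (t + k) * phi (D.nearR del c (t + k) t) =
      (∑ k ∈ range D.M, y ^ k * phi (del c k)) * y ^ t := by
    have h3 : range D.M ⊆ range (D.N - t) := range_subset_range.mpr (by omega)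
    rw [← sum_subset h3, sum_mul]
    · refine sum_congr rfl fun k hk => ?_
      rw [mem_range] at hk
      rw [nearR, if_pos (by omega), show t + k - t = k by omega, if_pos hk, pow_add]
      ring
    · intro k _ hk
      rw [mem_range] at hk
      rw [nearR, if_pos (by omega), show t + k - t = k by omega, if_neg hk, map_zero, mul_zero]
  rw [h1, h2]
  ring

/-- **(1) the cancellation.** -/
theorem cA0_sub_near (del : Fin p → ℕ → ℚ) (hN : D.M + D.G + D.Nb ≤ D.N) (i : ι) (l : ℕ) :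
    D.cA0 i l - ∑ s : Fin D.N, D.cB0 i s * D.nrB del (D.cs i) s l = D.cAB del i l := by
  rw [Fin.sum_univ_eq_sum_range (fun s => D.cB0 i s * D.nrB del (D.cs i) s l) D.N]
  by_cases hl : l < D.Nb
  swap
  · simp only [cA0, nrB, cAB, if_neg hl, mul_zero, sum_const_zero, sub_zero]
  simp only [cA0, nrB, cAB, if_pos hl]
  have h1 : ∑ s ∈ range D.N, D.cB0 i s * ∑ g ∈ range D.G,
        C ((taylor ((D.cs i : ℕ) : ℚ) D.rho).coeff g) * C (D.nearR del (D.cs i) s (g + l)) =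
      ∑ g ∈ range D.G, C ((taylor ((D.cs i : ℕ) : ℚ) D.rho).coeff g) *
        PowerSeries.coeff (D.ro i).2 (∑ s ∈ range D.N, ys (D.cs i) (D.ro i).1 ^ s *
          phi (D.nearR del (D.cs i) s (g + l))) := by
    simp only [mul_sum, map_sum, coeff_mul_phi]
    rw [sum_comm]
    refine sum_congr rfl fun g _ => sum_congr rfl fun s _ => ?_
    rw [cB0]
    ring
  rw [h1, ← sum_sub_distrib]
  refine sum_congr rfl fun g hg => ?_
  rw [mem_range] at hg
  rw [near_sum del (D.cs i) _ (g + l) (by omega), ← mul_sub, ← map_sub]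
  congr 2
  rw [br, psi2]
  have e : ∀ k, PowerSeries.C (C (del (D.cs i) k)) = phi (del (D.cs i) k) := fun _ => rfl
  simp only [e]
  ring

theorem cAB_zero (del : Fin p → ℕ → ℚ) (i : ι) (h : D.psi2 del i = 0) (l : ℕ) :
    D.cAB del i l = 0 := by
  rw [cAB]
  split_ifs
  · rw [h]; simp
  · rfl

/-- value rows at the base node (`y = ε`) : only `l = 0` -/
theorem cAB_node (del : Fin p → ℕ → ℚ) (i : ι) (hj : (D.ro i).2 = 0)
    (hy : (D.ro i).1.val = ((D.cs i : ℕ) : ℚ)) (l : ℕ) :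
    D.cAB del i l = if l = 0 ∧ 0 < D.Nb ∧ 0 < D.G then
      C ((taylor ((D.cs i : ℕ) : ℚ) D.rho).coeff 0) * PowerSeries.coeff 0 (D.psi2 del i)
      else 0 := by
  have hys : ys (D.cs i) (D.ro i).1 = PowerSeries.X := by
    rw [ys, hy, sub_self]; simp
  have hc : ∀ t, PowerSeries.coeff (D.ro i).2 (D.psi2 del i * ys (D.cs i) (D.ro i).1 ^ t) =
      if t = 0 then PowerSeries.coeff 0 (D.psi2 del i) else 0 := by
    intro t
    rw [hj, hys]
    split_ifs with ht
    · subst ht; simp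
    · rw [PowerSeries.coeff_mul_X_pow', if_neg (by omega)]
  rw [cAB]
  simp only [hc]
  by_cases hl : l < D.Nb
  · rw [if_pos hl]
    by_cases h : l = 0 ∧ 0 < D.Nb ∧ 0 < D.G
    · rw [if_pos h]
      obtain ⟨rfl, _, hG⟩ := h
      rw [sum_eq_single 0]
      · simp
      · intro g _ hg
        rw [if_neg (by omega), mul_zero]
      · intro h0
        exact absurd (mem_range.mpr hG) h0
    · rw [if_neg h]
      refine sum_eq_zero fun g hg => ?_
      rw [mem_range] at hg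
      rw [if_neg (by omega), mul_zero]
  · rw [if_neg hl, if_neg (by omega)]

end defs

section val

variable {p : ℕ} [hp : Fact p.Prime] {jR jT jQ jU ι : Type*} {D : Dat p jR jT jQ jU ι}
  {z : ℕ → ℕ} {NL : ℕ}

/-- **(2) valuation of the own class coefficients** -/
theorem cAB_mem (del : Fin p → ℕ → ℚ) (h2 : p ≠ 2) (hz : D.Zer z) (i : ι)
    (hcs : (D.cs i : ℕ) = cl p (D.ro i).1) {w : ℤ}
    (hw : D.psi2 del i ∈ (psFil (pbFil p)).F w) (l : ℕ) :
    D.cAB del i l ∈ (pbFil p).F (w + l + z (D.cs i) - (D.ro i).2) := by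
  rw [cAB]
  split_ifs with hl
  swap
  · exact AddSubgroup.zero_mem _
  refine (pbFil p).sum_mem _ _ _ fun g _ => ?_
  have h1 := (psFil (pbFil p)).mul_mem hw (pow_one_mem _ (ys_mem h2 (D.ro i).1 hcs) (g + l))
  refine mul_mem' _ (hz (D.cs i) g) (h1 (D.ro i).2) ?_
  have h3 := le_max_right (0 : ℤ) ((z (D.cs i) : ℤ) - g)
  push_cast
  linarith

/-- value rows at the base node -/
theorem cAB_node_mem (del : Fin p → ℕ → ℚ) (hz : D.Zer z) (i : ι) (hj : (D.ro i).2 = 0)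
    (hy : (D.ro i).1.val = ((D.cs i : ℕ) : ℚ)) {w : ℤ}
    (hw : PowerSeries.coeff 0 (D.psi2 del i) ∈ (pbFil p).F w) (l : ℕ) :
    D.cAB del i l ∈ (pbFil p).F (w + l + z (D.cs i)) := by
  rw [cAB_node del i hj hy]
  split_ifs with h
  · obtain ⟨rfl, _, _⟩ := h
    refine mul_mem' _ (hz (D.cs i) 0) hw ?_
    have h3 := le_max_right (0 : ℤ) ((z (D.cs i) : ℤ) - (0 : ℕ))
    push_cast at h3 ⊢
    linarith
  · exact AddSubgroup.zero_mem _


/-- the near coefficients before the gauge, regular class -/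
theorem nearR_mem (del : Fin p → ℕ → ℚ) (L : LocalInput p NL D.M D.e) (c : Fin p)
    (hreg : p < 2 * (c : ℕ)) (h0 : C (del c 0) ∈ (pbFil p).F 1)
    (hd : ∀ k < D.M, C (del c k) ∈ (pbFil p).F 0) (s t : ℕ) (ht : t ≤ NL + 1) :
    C (D.nearR del c s t) ∈ (pbFil p).F (max 0 ((t : ℤ) - s + 1)) := by
  rw [nearR]
  rcases lt_trichotomy t s with h | h | h
  · rw [if_pos h.le]
    have hm : max 0 ((t : ℤ) - s + 1) = 0 := max_eq_left (by omega)
    rw [hm]
    split_ifs with hk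
    · exact hd _ hk
    · rw [C_0]; exact AddSubgroup.zero_mem _
  · subst h
    rw [if_pos le_rfl, Nat.sub_self]
    have hm : max 0 ((t : ℤ) - t + 1) = 1 := by simp
    rw [hm]
    split_ifs with hk
    · exact h0
    · rw [C_0]; exact AddSubgroup.zero_mem _
  · rw [if_neg (by omega), C_neg]
    refine AddSubgroup.neg_mem _ ((pbFil p).mono ?_ (L.mom_regular c hreg (t - 1 - s) (by omega)))
    exact max_le (by omega) (by omega)

/-- **(3) valuation of the near coefficients, regular class** -/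
theorem nrB_mem (del : Fin p → ℕ → ℚ) (L : LocalInput p NL D.M D.e) (hNL : D.G + D.Nb ≤ NL)
    (hz : D.Zer z) (c : Fin p) (hreg : p < 2 * (c : ℕ)) (h0 : C (del c 0) ∈ (pbFil p).F 1)
    (hd : ∀ k < D.M, C (del c k) ∈ (pbFil p).F 0) (s l : ℕ) :
    D.nrB del c s l ∈ (pbFil p).F (max 0 ((l : ℤ) + z c - s + 1)) := by
  rw [nrB]
  split_ifs with hl
  swap
  · exact AddSubgroup.zero_mem _
  refine (pbFil p).sum_mem _ _ _ fun g hg => ?_
  rw [mem_range] at hg
  refine mul_mem' _ (hz c g) (nearR_mem del L c hreg h0 hd s (g + l) (by omega)) ?_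
  have h1 := le_max_right (0 : ℤ) ((z c : ℤ) - g)
  have h2 := le_max_left (0 : ℤ) ((z c : ℤ) - g)
  have h3 := le_max_left (0 : ℤ) (((g + l : ℕ) : ℤ) - s + 1)
  have h4 := le_max_right (0 : ℤ) (((g + l : ℕ) : ℤ) - s + 1)
  push_cast at h3 h4 ⊢
  exact max_le (by linarith) (by linarith)

end val

end Dat

end Crest.Agent.R006.P4M
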