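import Mathlib
import Crest.Agent.R006.ProdBound_481

-- ▼ part R006/Pre_Laplace_475
section

/-!
Row 6 (helper475), leaf L2.  Laplace expansion along blocks of columns, any number of blocks
(the block of a column `j` is `c j : κ`), with its archimedean and ultrametric consequences;
Cauchy-Binet (unsymmetrised, symmetrised over functions, over subsets).

* `det_eq_sum_restr` : `det M = ∑_{r : ι → κ} det (restr c r M)`,
  `restr c r M i j = M i j` if `r i = c j`, `0` otherwise.
* `det_restr` : `det (restr c r M)` is `0` or `± ∏_k det (block k)` for a permutation `τ`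
  with `r (τ i) = c i`.
* `norm_det_le_of_blocks` : if `∏_k ‖det block_k(τ)‖ ≤ C` for all `τ` then
  `‖det M‖ ≤ (card κ)^(card ι) * C`.
* `nonarch_det_le_of_blocks` : same without the factor for a nonarchimedean norm.
* `padic_det_ge_of_blocks` : version with `padicValRat` bounds.
-/

set_option autoImplicit false
set_option linter.unusedSectionVars false

namespace Crest.Agent.R006.Laplace475

open Finset Matrix

section general

variable {ι κ R : Type*} [Fintype ι] [DecidableEq ι] [Fintype κ] [LinearOrder κ] [CommRing R]

/-- keep in row `i` only the entries of the columns of block `r i`. -/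
def restr (c r : ι → κ) (M : Matrix ι ι R) : Matrix ι ι R :=
  Matrix.of fun i j => if r i = c j then M i j else 0

@[simp] lemma restr_apply (c r : ι → κ) (M : Matrix ι ι R) (i j : ι) :
    restr c r M i j = if r i = c j then M i j else 0 := rfl


/-- the block `k` of `M` whose rows are the images of the columns of block `k` under `τ`. -/
def block (c : ι → κ) (τ : Equiv.Perm ι) (k : κ) (M : Matrix ι ι R) :
    Matrix {j // c j = k} {j // c j = k} R :=
  Matrix.of fun i j => M (τ i) j

@[simp] lemma block_apply (c : ι → κ) (τ : Equiv.Perm ι) (k : κ) (M : Matrix ι ι R)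
    (i j : {j // c j = k}) : block c τ k M i j = M (τ i) j := rfl




end general

section norms

variable {ι κ R : Type*} [Fintype ι] [DecidableEq ι] [Fintype κ] [LinearOrder κ]





end norms

section twoThree

variable {α β γ ρ : Type*} [Fintype α] [DecidableEq α] [Fintype β] [DecidableEq β]
  [Fintype γ] [DecidableEq γ] [Fintype ρ] [DecidableEq ρ]


end twoThree

section cauchyBinet

variable {n m R : Type*} [Fintype n] [DecidableEq n] [Fintype m] [CommRing R]



end cauchyBinet

end Crest.Agent.R006.Laplace475
end

-- ▼ part R006/P4Chain_657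

/-!
Row 6, block P4 (helper657): the abstract expansion theorem ("toll form", after helper814's and
helper961's three stages), for a product of any number of matrices over a filtered ring.

* `Filt A` : a `ℤ`-filtration of a commutative ring (`pbFilt p` : Gauss norm on `ℚ[X]`).
* `MB F D C Z` : every minor `det (Z_sig)`, `sig` injective, lies in `F_(∑ D (sig x) + C)`.
* `MB.base`, `MB.step`, `MB.final` : the chain rules; a toll `toll s ≥ 0` is paid at most once.
* `det_schur` : `det (A + W * E) = det [[A, W], [-E, 1]]`.
-/

set_option autoImplicit false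
set_option linter.unusedSectionVars false

namespace Crest.Agent.R006.P4Chain657

open Polynomial Matrix Finset

/-- a `ℤ`-filtration of a commutative ring. -/
structure Filt (A : Type*) [CommRing A] where
  mem : ℤ → A → Prop
  zero : ∀ v, mem v 0
  one : mem 0 1
  add : ∀ {v a b}, mem v a → mem v b → mem v (a + b)
  neg : ∀ {v a}, mem v a → mem v (-a)
  mul : ∀ {v w a b}, mem v a → mem w b → mem (v + w) (a * b)
  mono : ∀ {v w a}, mem v a → w ≤ v → mem w a


namespace Filt

variable {A : Type*} [CommRing A] (F : Filt A)

lemma sub {v : ℤ} {a b : A} (h1 : F.mem v a) (h2 : F.mem v b) : F.mem v (a - b) := by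
  rw [sub_eq_add_neg]; exact F.add h1 (F.neg h2)

lemma sum {ι : Type*} {v : ℤ} (s : Finset ι) (f : ι → A) (h : ∀ i ∈ s, F.mem v (f i)) :
    F.mem v (∑ i ∈ s, f i) := by
  classical
  induction s using Finset.induction_on with
  | empty => simpa using F.zero v
  | insert a s ha ih =>
    rw [Finset.sum_insert ha]
    exact F.add (h a (Finset.mem_insert_self _ _))
      (ih fun i hi => h i (Finset.mem_insert_of_mem hi))

lemma prod {ι : Type*} (s : Finset ι) (v : ι → ℤ) (f : ι → A) (h : ∀ i ∈ s, F.mem (v i) (f i)) :
    F.mem (∑ i ∈ s, v i) (∏ i ∈ s, f i) := by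
  classical
  induction s using Finset.induction_on with
  | empty => simpa using F.one
  | insert a s ha ih =>
    rw [Finset.sum_insert ha, Finset.prod_insert ha]
    exact F.mul (h a (Finset.mem_insert_self _ _))
      (ih fun i hi => h i (Finset.mem_insert_of_mem hi))

lemma natCast (n : ℕ) : F.mem 0 (n : A) := by
  induction n with
  | zero => simpa using F.zero 0
  | succ n ih => rw [Nat.cast_succ]; exact F.add ih F.one


lemma unit_smul (u : ℤˣ) {v : ℤ} {a : A} (h : F.mem v a) : F.mem v (u • a) := by
  rcases Int.units_eq_one_or u with hs | hs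
  · rw [hs, one_smul]; exact h
  · rw [hs, Units.neg_smul, one_smul]; exact F.neg h

/-- product bound -/
lemma det {n : Type*} [Fintype n] [DecidableEq n] (M : Matrix n n A) (a c : n → ℤ)
    (h : ∀ i j, F.mem (a i + c j) (M i j)) : F.mem (∑ i, a i + ∑ j, c j) M.det := by
  rw [Matrix.det_apply]
  refine F.sum _ _ fun σ _ => F.unit_smul _ ?_
  have h1 : ∑ i, a i + ∑ j, c j = ∑ i, (a (σ i) + c i) := by
    rw [Finset.sum_add_distrib, Equiv.sum_comp σ a]
  rw [h1]
  exact F.prod _ _ _ fun i _ => h _ _

end Filt

section Chain

variable {A : Type*} [CommRing A] (F : Filt A)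
variable {n σ σ' : Type*} [Fintype n] [DecidableEq n]

/-- all minors `det (Z_sig)` (`sig` an injective choice of rows) lie in `F_(∑ D (sig x) + C)` -/
def MB (D : σ → ℤ) (C : ℤ) (Z : Matrix σ n A) : Prop :=
  ∀ sig : n → σ, Function.Injective sig →
    F.mem (∑ x, D (sig x) + C) (Z.submatrix sig id).det

variable {F}

/-- last factor: product bound -/
lemma MB.base {D : σ → ℤ} {U : n → ℤ} {Y : Matrix σ n A} (h : ∀ s c, F.mem (D s + U c) (Y s c)) :
    MB F D (∑ c, U c) Y := fun sig _ =>
  F.det (Y.submatrix sig id) (fun x => D (sig x)) U fun _ _ => h _ _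

lemma MB.mono {D D' : σ → ℤ} {C C' : ℤ} {Z : Matrix σ n A} (h : MB F D C Z)
    (hD : ∀ s, D' s ≤ D s) (hC : C' ≤ C) : MB F D' C' Z := fun sig hsig =>
  F.mono (h sig hsig) (add_le_add (Finset.sum_le_sum fun _ _ => hD _) hC)

/-- a constant may be moved from `C` to `D`. -/
lemma MB.shift {D : σ → ℤ} {C : ℤ} {Z : Matrix σ n A} (h : MB F D C Z) (t : ℤ) :
    MB F (fun s => D s + t) (C - Fintype.card n * t) Z := fun sig hsig => by
  refine F.mono (h sig hsig) (le_of_eq ?_)
  rw [Finset.sum_add_distrib, Finset.sum_const, Finset.card_univ, nsmul_eq_mul]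
  ring


/-- end of the chain -/
lemma MB.final {D : n → ℤ} {C : ℤ} {Z : Matrix n n A} (h : MB F D C Z) :
    F.mem (∑ x, D x + C) Z.det := h id Function.injective_id



end Chain

section Schur

variable {A : Type*} [CommRing A] {n P : Type*} [Fintype n] [DecidableEq n] [Fintype P]
  [DecidableEq P]


end Schur

end Crest.Agent.R006.P4Chain657
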