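import Mathlib

/-!
Row 6 (Catalan).  Block P4, leaf L3: THE ROW FORMULA (helper110).

Ring generic.  `L : B[X] →ₗ[B] B` is the moment functional (`L f = [s^{-1}] f ψ_∞`),
`e c` (`c < p`) the class idempotents, `T_R(x) = L (R /ₘ (X - C x))`.
For a site `x` in class `c` (all `x - c'`, `c' ≠ c`, invertible) `T_R(x)` splits as
`R(x) h_c(x) - ∑_{c' ≠ c} ∑_j L(e_{c'} (X-c')^j R) / (x-c')^(j+1) + own class term`
modulo `p^K`, and the own class term is a combination of Taylor coefficients of `R` at `c`.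
-/

set_option autoImplicit false

namespace Crest.Agent.R006.P4Row

open Polynomial Finset

section generic

variable {B : Type*} [CommRing B]

/-- `R = R(x) + (X - x) * (R /ₘ (X - x))`. -/
theorem eq_eval_add (R : B[X]) (x : B) :
    R = C (R.eval x) + (X - C x) * (R /ₘ (X - C x)) := by
  conv_lhs => rw [← modByMonic_add_div R (X - C x)]
  rw [modByMonic_X_sub_C_eq_C_eval]

/-- uniqueness of the quotient by `X - x`. -/
theorem div_unique (R Q : B[X]) (x a : B) (h : R = C a + (X - C x) * Q) :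
    R /ₘ (X - C x) = Q := by
  nontriviality B
  exact (div_modByMonic_unique (f := R) (g := X - C x) Q (C a) (monic_X_sub_C x)
    ⟨h.symm, by rw [degree_X_sub_C]; exact degree_C_le.trans_lt (by norm_num)⟩).1

/-- geometric sum: `(X - x) ∑_{j<N} u^{j+1} Y^j = u^N Y^N - 1` for `Y = X - v`, `(x - v) u = 1`. -/
theorem geom_unit (x v u : B) (hu : (x - v) * u = 1) (N : ℕ) :
    (X - C x) * ∑ j ∈ range N, C (u ^ (j + 1)) * (X - C v) ^ j = C (u ^ N) * (X - C v) ^ N - 1 := by
  have h : (X - C x : B[X]) = (X - C v) - C (x - v) := by rw [C_sub]; ring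
  induction N with
  | zero => simp
  | succ n ih =>
    rw [sum_range_succ, mul_add, ih, h]
    have hc : (C (x - v) * C u : B[X]) = 1 := by rw [← C_mul, hu, C_1]
    rw [C_pow, C_pow]
    linear_combination (-(C u ^ n * (X - C v) ^ n)) * hc

/-- the analytic function `h_c`. -/
noncomputable def hfun (p N : ℕ) (L : B[X] →ₗ[B] B) (e : ℕ → B[X]) (c : ℕ) (u : ℕ → B) : B :=
  ∑ c' ∈ (range p).erase c, ∑ j ∈ range N, u c' ^ (j + 1) * L (e c' * (X - C (c' : B)) ^ j)

/-- moment `D_{c',j}(R) = L (e_{c'} (X-c')^j R)`. -/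
noncomputable def DD (L : B[X] →ₗ[B] B) (e : ℕ → B[X]) (c' j : ℕ) (R : B[X]) : B :=
  L (e c' * ((X - C (c' : B)) ^ j * R))



/-- `(X^s - v^s)`-type quotient of a power of `Y = X - v`. -/
theorem pow_div (x v : B) (s : ℕ) :
    ((X - C v) ^ s : B[X]) /ₘ (X - C x) =
      ∑ i ∈ range s, C ((x - v) ^ i) * (X - C v) ^ (s - 1 - i) := by
  refine div_unique _ _ x ((x - v) ^ s) ?_
  have h := (Commute.all (X - C v : B[X]) (C (x - v))).mul_geom_sum₂ s
  have e : (X - C v : B[X]) - C (x - v) = X - C x := by rw [C_sub]; ring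
  rw [e] at h
  have e2 : ∑ i ∈ range s, (X - C v : B[X]) ^ i * C (x - v) ^ (s - 1 - i) =
      ∑ i ∈ range s, C ((x - v) ^ i) * (X - C v) ^ (s - 1 - i) := by
    rw [← sum_range_reflect]
    refine sum_congr rfl (fun i hi => ?_)
    rw [mem_range] at hi
    rw [show s - 1 - (s - 1 - i) = i by omega, C_pow]
    ring
  rw [← e2, h, C_pow]; ring

theorem divX_add (P Q : B[X]) (x : B) :
    (P + Q) /ₘ (X - C x) = P /ₘ (X - C x) + Q /ₘ (X - C x) := by
  refine div_unique _ _ x (P.eval x + Q.eval x) ?_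
  conv_lhs => rw [eq_eval_add P x, eq_eval_add Q x]
  rw [C_add]; ring

theorem divX_C_mul (a : B) (P : B[X]) (x : B) :
    (C a * P) /ₘ (X - C x) = C a * (P /ₘ (X - C x)) := by
  refine div_unique _ _ x (a * P.eval x) ?_
  conv_lhs => rw [eq_eval_add P x]
  rw [C_mul]; ring


theorem divX_sum {ι : Type*} (s : Finset ι) (P : ι → B[X]) (x : B) :
    (∑ i ∈ s, P i) /ₘ (X - C x) = ∑ i ∈ s, (P i /ₘ (X - C x)) := by
  classical
  induction s using Finset.induction_on with
  | empty => simp
  | insert a s ha ih => rw [sum_insert ha, sum_insert ha, divX_add, ih]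






/-! ### analytic dependence on the site -/









end generic

section basechange

variable {A B : Type*} [CommRing A] [CommRing B]

/-- ring version of `PsiInf.lin`. -/
noncomputable def lin (m : ℕ → A) : A[X] →ₗ[A] A :=
  Polynomial.lsum (fun k => LinearMap.mulRight A (m k))

theorem lin_apply (m : ℕ → A) (P : A[X]) : lin m P = P.sum (fun k c => c * m k) := by
  simp [lin, Polynomial.lsum_apply]

theorem lin_eq_sum (m : ℕ → A) (P : A[X]) {n : ℕ} (hn : P.natDegree < n) :
    lin m P = ∑ k ∈ range n, P.coeff k * m k := by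
  rw [lin_apply, Polynomial.sum_over_range' P (by simp) n hn]

theorem lin_map (φ : A →+* B) (m : ℕ → A) (P : A[X]) :
    lin (fun k => φ (m k)) (P.map φ) = φ (lin m P) := by
  have h : (P.map φ).natDegree < P.natDegree + 1 := Nat.lt_succ_of_le natDegree_map_le
  rw [lin_eq_sum _ _ h, lin_eq_sum m P (Nat.lt_succ_self _), map_sum]
  exact sum_congr rfl (fun k _ => by rw [coeff_map, map_mul])







end basechange


end Crest.Agent.R006.P4Row
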