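import Crest.Agent.R006.Defs_89
import Crest.Agent.R006.NVTau_938
import Crest.Agent.R006.PsiInf_294
import Crest.Agent.R006.P4_Row_110

/-!
# Row 6, block P4, matrix side: bridge between `Defs_89` and the row formula (helper531)

* `cinf_succ` : `NV.cinf (i+1) = PsiInf.mu i` (the coefficients of `ψ_∞`);
* `TRB`, `eval_TRB` : `T_R(x) = lin m (R /ₘ (X - C x))` over any commutative ring;
* `germ_eq_eval` : the germ of a polynomial at `z` is its value at `x = z + ε`, over any ring;
* `colX_R`, `colX_Q`, `colX_U` : the columns of `Design.Delta` in the form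
  `R(x) ψ - L(R /ₘ (X - x))`, `- Q(x) g`, unit vectors, `x = k/2 + ε` in `ℚ[X]⟦ε⟧`.
-/

set_option autoImplicit false

namespace Crest.Agent.R006.P4M531

open Polynomial Finset

/-! ### the coefficients of `ψ_∞` -/

section cinf

variable {K : Type*} [Field K] [CharZero K]






end cinf

/-! ### `T_R(x)` over a commutative ring -/

section TRB

variable {B : Type*} [CommRing B]

/-- `T_R`, polynomial part of `R ψ_∞`, moments `m`, over a commutative ring. -/
noncomputable def TRB (m : ℕ → B) (R : B[X]) : B[X] :=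
  ∑ k ∈ range (R.natDegree + 1), C (R.coeff k) * ∑ i ∈ range k, C (m i) * X ^ (k - 1 - i)

theorem TRB_eq (m : ℕ → B) (R : B[X]) {n : ℕ} (hn : R.natDegree < n) :
    TRB m R = ∑ k ∈ range n, C (R.coeff k) * ∑ i ∈ range k, C (m i) * X ^ (k - 1 - i) := by
  rw [TRB]
  refine sum_subset (range_subset_range.mpr (by omega)) (fun k _ hk => ?_)
  rw [mem_range, not_lt] at hk
  rw [coeff_eq_zero_of_natDegree_lt (by omega), C_0, zero_mul]

theorem lin_C_mul (m : ℕ → B) (c : B) (P : B[X]) :
    P4Row.lin m (C c * P) = c * P4Row.lin m P := by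
  rw [← smul_eq_C_mul, map_smul, smul_eq_mul]

theorem lin_X_pow (m : ℕ → B) (k : ℕ) : P4Row.lin m (X ^ k) = m k := by
  rw [P4Row.lin_apply, X_pow_eq_monomial, Polynomial.sum_monomial_index]
  · rw [one_mul]
  · rw [zero_mul]

/-- `T_R(x) = L ((R(z) - R(x))/(z - x))`. -/
theorem eval_TRB (m : ℕ → B) (R : B[X]) (x : B) :
    (TRB m R).eval x = P4Row.lin m (R /ₘ (X - C x)) := by
  have h1 : R /ₘ (X - C x) =
      ∑ k ∈ range (R.natDegree + 1), C (R.coeff k) *
        ∑ i ∈ range k, C (x ^ i) * X ^ (k - 1 - i) := by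
    conv_lhs => rw [R.as_sum_range_C_mul_X_pow]
    rw [P4Row.divX_sum]
    refine sum_congr rfl fun k _ => ?_
    rw [P4Row.divX_C_mul]
    have h := P4Row.pow_div (B := B) x 0 k
    rw [C_0, sub_zero, sub_zero] at h
    rw [h]
  rw [h1, TRB, map_sum, eval_finsetSum]
  refine sum_congr rfl fun k _ => ?_
  rw [lin_C_mul, eval_mul, eval_C, map_sum, eval_finsetSum]
  congr 1
  rw [← sum_range_reflect]
  refine sum_congr rfl fun i hi => ?_
  rw [mem_range] at hi
  rw [lin_C_mul, lin_X_pow, eval_mul, eval_C, eval_pow, eval_X,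
    show k - 1 - (k - 1 - i) = i by omega]
  ring

end TRB

/-! ### germs as values at `z + ε` -/

section germs

variable {K : Type*} [Field K] {A : Type*} [CommRing A]

/-- the point `z + ε` of `A⟦ε⟧`. -/
noncomputable def pt (z : A) : PowerSeries A := PowerSeries.C z + PowerSeries.X

/-- constants: `K → A → A⟦ε⟧`. -/
noncomputable def cst (f : K →+* A) : K →+* PowerSeries A := (PowerSeries.C (R := A)).comp f

theorem cst_apply (f : K →+* A) (a : K) : cst f a = PowerSeries.C (f a) := rfl

/-- the germ of a polynomial at `z` is its value at `z + ε`. -/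
theorem germ_eq_eval (f : K →+* A) (z : K) (P : K[X]) :
    PowerSeries.map f (Lam.germ z P) = (P.map (cst f)).eval (pt (f z)) := by
  induction P using Polynomial.induction_on with
  | C a =>
    rw [Lam.germ_C, PowerSeries.map_C, Polynomial.map_C, eval_C, cst_apply]
  | add P Q hP hQ =>
    rw [Lam.germ_add, map_add, hP, hQ, Polynomial.map_add, eval_add]
  | monomial n a h =>
    have hX : Lam.germ z (X : K[X]) = PowerSeries.C z + PowerSeries.X := by
      have := Lam.germ_X_sub_C z (0 : K)
      rw [C_0, sub_zero, sub_zero] at this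
      rw [this, add_comm]
    rw [pow_succ, ← mul_assoc, Lam.germ_mul, map_mul, h, hX, map_add, PowerSeries.map_C,
      PowerSeries.map_X, Polynomial.map_mul (p := C a * X ^ n), eval_mul, Polynomial.map_X, eval_X,
      pt]




end germs

/-! ### the columns of `Design.Delta` -/

section cols

/-- the ring of jets `ℚ[X]⟦ε⟧`. -/
abbrev BB : Type := PowerSeries (ℚ[X])

/-- `ℚ → ℚ[X]⟦ε⟧`. -/
noncomputable def phi : ℚ →+* BB := cst (C : ℚ →+* ℚ[X])

/-- the site `k/2 + ε`. -/
noncomputable def xk (k : ℤ) : BB := pt (C ((k : ℚ) / 2))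

/-- the germ of `ψ` at `k/2`, `X` = Catalan's constant. -/
noncomputable def PsiX (k : ℤ) : BB :=
  PowerSeries.map C (psiG (0 : ℚ) k) +
    PowerSeries.C X * PowerSeries.map C (psiG (1 : ℚ) k - psiG 0 k)

/-- the germ of `g` at `k/2`. -/
noncomputable def GamX (k : ℤ) : BB := PowerSeries.map C (gG (K := ℚ) k)

/-- the functional `L` over `ℚ[X]⟦ε⟧`. -/
noncomputable def linB : BB[X] →ₗ[BB] BB := P4Row.lin (fun i => phi (PsiInf.mu i))









end cols

end Crest.Agent.R006.P4M531
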