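import Mathlib
import Crest.Agent.R006.P4Chain_657
import Crest.Agent.R006.P4_RowD_305
import Crest.Agent.R006.Toll_814
import Crest.Agent.R006.P4_LocalInput_955
import Crest.Agent.R006.P4M_Bridge_531

-- ▼ part R006/P4M_Val_538
section

/-!
Row 6, block P4, matrix side (helper955's framework, note 2794), VALUATION half (helper538).

Arbitrary filtration `F : Filt B` (657) on a commutative ring `B`; notation of `P4_RowD_305`.

* `bracket_polar`   : `y ∈ F 1`, `mom u ∈ F (max 0 (u-1))`, `psi' ∈ F (-2)` ⇒ bracket `t` in `F (t-2)`;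
* `bracket_polar0`  : same with `psi' ∈ F 0` ⇒ `F (max 0 (t-2))`;
* `bracket_regular` : `mom u ∈ F (u+2)`, `psi' ∈ F 1` ⇒ `F (t+1)`;
* `wc_polar`, `wc_regular` : `wc c s t ∈ F (max 0 (t-1))`, `F (t+2)`;
* `err_mem` : the error term of `row_identity` is in `F (M-1)`;
* `quot_coeff_mem`, `taylor_coeff_mem` : integrality of `D = (R - R(x))/(X-x)`.
-/

set_option autoImplicit false

namespace Crest.Agent.R006.P4MValx538

open Polynomial Finset
open Crest.Agent.R006.P4Chain657 Crest.Agent.R006.P4D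

variable {B : Type*} [CommRing B] (F : Filt B)

lemma pow_mem {v : ℤ} {a : B} (h : F.mem v a) (k : ℕ) : F.mem (k * v) (a ^ k) := by
  induction k with
  | zero => simpa using F.one
  | succ k ih =>
    rw [pow_succ]
    refine F.mono (F.mul ih h) (le_of_eq ?_)
    push_cast; ring

lemma pow_mem_one {y : B} (hy : F.mem 1 y) (k : ℕ) : F.mem (k : ℤ) (y ^ k) := by
  have := pow_mem F hy k
  rwa [mul_one] at this

lemma pow_mem_zero {a : B} (h : F.mem 0 a) (k : ℕ) : F.mem 0 (a ^ k) := by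
  have := pow_mem F h k
  rwa [mul_zero] at this

/-- general form of the bracket bound -/
theorem bracket_mem {y psi' : B} (mo : ℕ → B) (t : ℕ) (w v : ℤ) (hy : F.mem 1 y)
    (hpsi : F.mem w psi') (hv : v ≤ w + t) (ν : ℕ → ℤ) (hmo : ∀ u, u < t → F.mem (ν u) (mo u))
    (hν : ∀ u : ℕ, u < t → v ≤ (t : ℤ) - 1 - u + ν u) :
    F.mem v (psi' * y ^ t - ∑ u ∈ range t, y ^ (t - 1 - u) * mo u) := by
  refine F.sub (F.mono (F.mul hpsi (pow_mem_one F hy t)) hv) (F.sum _ _ fun u hu => ?_)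
  have hu' := Finset.mem_range.mp hu
  refine F.mono (F.mul (pow_mem_one F hy (t - 1 - u)) (hmo u hu')) ?_
  have h1 := hν u hu'
  have h2 : ((t - 1 - u : ℕ) : ℤ) = (t : ℤ) - 1 - u := by omega
  rw [h2]
  exact h1

/-- polar class, `psi' ∈ F (-2)` -/
theorem bracket_polar {y psi' : B} (mo : ℕ → B) (t : ℕ) (hy : F.mem 1 y)
    (hpsi : F.mem (-2) psi') (hmo : ∀ u : ℕ, u < t → F.mem (max 0 ((u : ℤ) - 1)) (mo u)) :
    F.mem ((t : ℤ) - 2) (psi' * y ^ t - ∑ u ∈ range t, y ^ (t - 1 - u) * mo u) := by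
  refine bracket_mem F mo t (-2) _ hy hpsi (by linarith) (fun u => max 0 ((u : ℤ) - 1)) hmo ?_
  intro u hu
  have := le_max_right (0 : ℤ) ((u : ℤ) - 1)
  show (t : ℤ) - 2 ≤ (t : ℤ) - 1 - u + max 0 ((u : ℤ) - 1)
  linarith

/-- polar class, `psi' ∈ F 0` -/
theorem bracket_polar0 {y psi' : B} (mo : ℕ → B) (t : ℕ) (hy : F.mem 1 y)
    (hpsi : F.mem 0 psi') (hmo : ∀ u : ℕ, u < t → F.mem (max 0 ((u : ℤ) - 1)) (mo u)) :
    F.mem (max 0 ((t : ℤ) - 2)) (psi' * y ^ t - ∑ u ∈ range t, y ^ (t - 1 - u) * mo u) := by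
  refine bracket_mem F mo t 0 _ hy hpsi ?_ (fun u => max 0 ((u : ℤ) - 1)) hmo ?_
  · have : (0 : ℤ) ≤ t := Int.natCast_nonneg t
    rw [zero_add]
    exact max_le this (by linarith)
  intro u hu
  have h1 := le_max_right (0 : ℤ) ((u : ℤ) - 1)
  have h0 := le_max_left (0 : ℤ) ((u : ℤ) - 1)
  show max 0 ((t : ℤ) - 2) ≤ (t : ℤ) - 1 - u + max 0 ((u : ℤ) - 1)
  have hu' : (u : ℤ) + 1 ≤ t := by exact_mod_cast hu
  exact max_le (by linarith) (by linarith)

/-- regular class, `psi' ∈ F 1` -/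
theorem bracket_regular {y psi' : B} (mo : ℕ → B) (t : ℕ) (hy : F.mem 1 y)
    (hpsi : F.mem 1 psi') (hmo : ∀ u : ℕ, u < t → F.mem ((u : ℤ) + 2) (mo u)) :
    F.mem ((t : ℤ) + 1) (psi' * y ^ t - ∑ u ∈ range t, y ^ (t - 1 - u) * mo u) := by
  refine bracket_mem F mo t 1 _ hy hpsi (by linarith) (fun u => (u : ℤ) + 2) hmo ?_
  intro u hu
  show (t : ℤ) + 1 ≤ (t : ℤ) - 1 - u + ((u : ℤ) + 2)
  linarith

/-- general form of the far coefficients -/
theorem wc_mem {ι : Type*} (L : B[X] →ₗ[B] B) (e : ι → B[X]) (cc : ι → B) (d : ι → B) (M : ℕ)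
    (c : ι) (s t : ℕ) (v : ℤ) (hd : F.mem 0 (d c))
    (hmom : ∀ u, t ≤ u → u < M + t → F.mem v (mom L e cc c u)) :
    F.mem v (wc L e cc d M c s t) := by
  unfold wc
  refine F.sum _ _ fun m hm => ?_
  rw [Finset.mem_Ico] at hm
  have h1 : F.mem 0 ((-1 : B) ^ s) := pow_mem_zero F (F.neg F.one) s
  have h2 : F.mem 0 ((m.choose s : ℕ) : B) := F.natCast _
  have h3 : F.mem 0 (d c ^ (m + 1)) := pow_mem_zero F hd _
  have h4 := hmom (m - s + t) (by omega) (by omega)
  have := F.mul (F.mul (F.mul h1 h2) h3) h4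
  refine F.mono this (by linarith)



/-- **the error term of `row_identity`** -/
theorem err_mem {ι : Type*} (L : B[X] →ₗ[B] B) (e : ι → B[X]) (cc : ι → B) (c : ι) (y d : B)
    (hy : F.mem 1 y) (hd : F.mem 0 d) (M n : ℕ) (D : B[X]) (hn : D.natDegree < n)
    (hD : ∀ i, F.mem 0 ((taylor (cc c) D).coeff i))
    (hmom : ∀ u : ℕ, u < M + n → F.mem (max 0 ((u : ℤ) - 1)) (mom L e cc c u)) :
    F.mem ((M : ℤ) - 1) (L (e c * ((X - C (cc c) - C y) * C d) ^ M * D)) := by
  have h1 : e c * ((X - C (cc c) - C y) * C d) ^ M * D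
      = ∑ k ∈ range (M + 1), ∑ i ∈ range n,
        (d ^ M * ((-1) ^ k * (M.choose k : B) * y ^ k * (taylor (cc c) D).coeff i)) •
          (e c * (X - C (cc c)) ^ (M - k + i)) := by
    have h2 : (X - C (cc c) - C y : B[X]) ^ M =
        ∑ k ∈ range (M + 1), C (y ^ k * ((-1) ^ k * (M.choose k : B))) *
          (X - C (cc c)) ^ (M - k) := by
      rw [sub_eq_neg_add, add_pow]
      refine sum_congr rfl fun k _ => ?_
      rw [neg_pow, C_mul, C_mul, C_pow, C_pow, C_neg, C_1, C_eq_natCast]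
      ring
    have h3 : D = ∑ t ∈ range n, C ((taylor (cc c) D).coeff t) * (X - C (cc c)) ^ t :=
      taylor_sum D (cc c) hn
    have h4 : e c * ((X - C (cc c) - C y) * C d) ^ M * D
        = (e c * C d ^ M) * ((∑ k ∈ range (M + 1), C (y ^ k * ((-1) ^ k * (M.choose k : B))) *
          (X - C (cc c)) ^ (M - k)) *
          ∑ t ∈ range n, C ((taylor (cc c) D).coeff t) * (X - C (cc c)) ^ t) := by
      rw [← h2, ← h3, mul_pow]; ring
    rw [h4, Finset.sum_mul_sum, Finset.mul_sum]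
    refine sum_congr rfl fun k _ => ?_
    rw [Finset.mul_sum]
    refine sum_congr rfl fun i _ => ?_
    rw [smul_eq_C_mul, pow_add]
    simp only [C_mul, C_pow]
    ring
  rw [h1, map_sum]
  refine F.sum _ _ fun k hk => ?_
  rw [map_sum]
  refine F.sum _ _ fun i hi => ?_
  rw [map_smul, smul_eq_mul]
  rw [Finset.mem_range] at hk hi
  have a1 : F.mem 0 (d ^ M) := pow_mem_zero F hd _
  have a2 : F.mem 0 ((-1 : B) ^ k) := pow_mem_zero F (F.neg F.one) k
  have a3 : F.mem 0 ((M.choose k : ℕ) : B) := F.natCast _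
  have a4 : F.mem (k : ℤ) (y ^ k) := pow_mem_one F hy k
  have a5 := hD i
  have a6 := hmom (M - k + i) (by omega)
  have := F.mul (F.mul a1 (F.mul (F.mul (F.mul a2 a3) a4) a5)) a6
  refine F.mono this ?_
  have e1 : ((M - k + i : ℕ) : ℤ) = (M : ℤ) - k + i := by omega
  rw [e1]
  have h3 := le_max_right (0 : ℤ) ((M : ℤ) - k + i - 1)
  have h4 : (0 : ℤ) ≤ i := Int.natCast_nonneg i
  linarith

/-! ### integrality of the quotient -/

lemma finsum_coeff_mem {σ : Type*} (s : Finset σ) (f : σ → B[X]) (j : ℕ)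
    (h : ∀ i ∈ s, F.mem 0 ((f i).coeff j)) : F.mem 0 ((∑ i ∈ s, f i).coeff j) := by
  rw [finsetSum_coeff]
  exact F.sum _ _ h


/-- the quotient `D = (R - R(x))/(X - x)` has coefficients in `F 0` if `R` and `x` have. -/
theorem quot_coeff_mem {R D : B[X]} {x : B} (hx : F.mem 0 x) (hR : ∀ i, F.mem 0 (R.coeff i))
    (hD : (X - C x) * D = R - C (R.eval x)) (j : ℕ) : F.mem 0 (D.coeff j) := by
  have h := dq_local R D 0 x (by rwa [zero_add]) (Nat.lt_succ_self R.natDegree)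
  rw [h]
  refine finsum_coeff_mem F _ _ _ fun t _ => ?_
  rw [coeff_C_mul, taylor_zero]
  refine F.mono (F.mul (hR t) (finsum_coeff_mem F _ _ _ fun u _ => ?_)) (by norm_num)
  · rw [coeff_C_mul, C_0, sub_zero, coeff_X_pow]
    split_ifs
    · rw [mul_one]; exact pow_mem_zero F hx _
    · rw [mul_zero]; exact F.zero _

lemma quot_natDegree_lt {R D : B[X]} {x : B} {n : ℕ} (hn : R.natDegree < n)
    (hD : (X - C x) * D = R - C (R.eval x)) : D.natDegree < n := by
  have h := dq_local R D 0 x (by rwa [zero_add]) hn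
  rw [h]
  refine lt_of_le_of_lt (natDegree_sum_le_of_forall_le (n := n - 1) _ _ fun t ht => ?_) (by omega)
  rw [Finset.mem_range] at ht
  refine (natDegree_C_mul_le _ _).trans (natDegree_sum_le_of_forall_le _ _ fun u hu => ?_)
  rw [Finset.mem_range] at hu
  refine (natDegree_C_mul_le _ _).trans ?_
  rw [C_0, sub_zero]
  exact (natDegree_X_pow_le u).trans (by omega)

theorem eval_mem {P : B[X]} {r : B} (hP : ∀ i, F.mem 0 (P.coeff i)) (hr : F.mem 0 r) :
    F.mem 0 (P.eval r) := by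
  rw [eval_eq_sum_range]
  exact F.sum _ _ fun i _ => F.mono (F.mul (hP i) (pow_mem_zero F hr i)) (by norm_num)

theorem taylor_coeff_mem {P : B[X]} {r : B} (hP : ∀ i, F.mem 0 (P.coeff i)) (hr : F.mem 0 r)
    (i : ℕ) : F.mem 0 ((taylor r P).coeff i) := by
  rw [taylor_coeff]
  refine eval_mem F (fun j => ?_) hr
  rw [hasseDeriv_coeff]
  exact F.mono (F.mul (F.natCast _) (hP _)) (by norm_num)

/-- the error term, all hypotheses on `R` and `x`. -/
theorem err_mem' {ι : Type*} (L : B[X] →ₗ[B] B) (e : ι → B[X]) (cc : ι → B) (c : ι)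
    (x y d : B) (hx : F.mem 0 x) (hc : F.mem 0 (cc c)) (hy : F.mem 1 y) (hd : F.mem 0 d)
    (M n : ℕ) (R D : B[X]) (hR : ∀ i, F.mem 0 (R.coeff i)) (hn : R.natDegree < n)
    (hD : (X - C x) * D = R - C (R.eval x))
    (hmom : ∀ u : ℕ, u < M + n → F.mem (max 0 ((u : ℤ) - 1)) (mom L e cc c u)) :
    F.mem ((M : ℤ) - 1) (L (e c * ((X - C (cc c) - C y) * C d) ^ M * D)) :=
  err_mem F L e cc c y d hy hd M n D (quot_natDegree_lt hn hD)
    (taylor_coeff_mem F (quot_coeff_mem F hx hR hD) hc) hmom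

end Crest.Agent.R006.P4MValx538
end

-- ▼ part R006/P4M_ValZ_538
section

/-!
Row 6, block P4, matrix side: the statements of `P4M_Val_538` for 814's structure `ZFil`
(used by 961's abstract theorem), by the conversion `toFilt : ZFil B → Filt B`.
-/

set_option autoImplicit false

namespace Crest.Agent.R006.P4MValZx538

open Polynomial Finset
open Crest.Agent.R006.P4Chain657 Crest.Agent.R006.P4D Crest.Agent.R006.Tollx814

variable {B : Type*} [CommRing B]

/-- 814's filtrations as 657's filtrations -/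
def toFilt (Fil : ZFil B) : Filt B where
  mem v a := a ∈ Fil.F v
  zero _ := AddSubgroup.zero_mem _
  one := Fil.one_mem
  add := fun h h' => AddSubgroup.add_mem _ h h'
  neg := fun h => AddSubgroup.neg_mem _ h
  mul := fun h h' => Fil.mul_mem h h'
  mono := fun h h' => Fil.mono h' h

@[simp] lemma mem_toFilt (Fil : ZFil B) {v : ℤ} {a : B} :
    (toFilt Fil).mem v a ↔ a ∈ Fil.F v := Iff.rfl

/-- 657's filtrations as 814's filtrations -/
def ofFilt (F : Filt B) : ZFil B where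
  F v :=
    { carrier := {a | F.mem v a}
      add_mem' := fun h h' => F.add h h'
      zero_mem' := F.zero v
      neg_mem' := fun h => F.neg h }
  anti := fun h _ hx => F.mono hx h
  mul_mem := fun h h' => F.mul h h'
  one_mem := F.one

@[simp] lemma mem_ofFilt (F : Filt B) {v : ℤ} {a : B} : a ∈ (ofFilt F).F v ↔ F.mem v a := Iff.rfl

variable (Fil : ZFil B)


/-- polar class, `psi' ∈ F (-2)` -/
theorem bracket_polar {y psi' : B} (mo : ℕ → B) (t : ℕ) (hy : y ∈ Fil.F 1)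
    (hpsi : psi' ∈ Fil.F (-2)) (hmo : ∀ u : ℕ, u < t → mo u ∈ Fil.F (max 0 ((u : ℤ) - 1))) :
    psi' * y ^ t - ∑ u ∈ range t, y ^ (t - 1 - u) * mo u ∈ Fil.F ((t : ℤ) - 2) :=
  P4MValx538.bracket_polar (toFilt Fil) mo t hy hpsi hmo

/-- polar class, `psi' ∈ F 0` -/
theorem bracket_polar0 {y psi' : B} (mo : ℕ → B) (t : ℕ) (hy : y ∈ Fil.F 1)
    (hpsi : psi' ∈ Fil.F 0) (hmo : ∀ u : ℕ, u < t → mo u ∈ Fil.F (max 0 ((u : ℤ) - 1))) :
    psi' * y ^ t - ∑ u ∈ range t, y ^ (t - 1 - u) * mo u ∈ Fil.F (max 0 ((t : ℤ) - 2)) :=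
  P4MValx538.bracket_polar0 (toFilt Fil) mo t hy hpsi hmo

/-- regular class, `psi' ∈ F 1` -/
theorem bracket_regular {y psi' : B} (mo : ℕ → B) (t : ℕ) (hy : y ∈ Fil.F 1)
    (hpsi : psi' ∈ Fil.F 1) (hmo : ∀ u : ℕ, u < t → mo u ∈ Fil.F ((u : ℤ) + 2)) :
    psi' * y ^ t - ∑ u ∈ range t, y ^ (t - 1 - u) * mo u ∈ Fil.F ((t : ℤ) + 1) :=
  P4MValx538.bracket_regular (toFilt Fil) mo t hy hpsi hmo

/-- general form of the far coefficients -/
theorem wc_mem {ι : Type*} (L : B[X] →ₗ[B] B) (e : ι → B[X]) (cc : ι → B) (d : ι → B) (M : ℕ)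
    (c : ι) (s t : ℕ) (v : ℤ) (hd : d c ∈ Fil.F 0)
    (hmom : ∀ u, t ≤ u → u < M + t → mom L e cc c u ∈ Fil.F v) :
    wc L e cc d M c s t ∈ Fil.F v :=
  P4MValx538.wc_mem (toFilt Fil) L e cc d M c s t v hd hmom




theorem err_mem' {ι : Type*} (L : B[X] →ₗ[B] B) (e : ι → B[X]) (cc : ι → B) (c : ι)
    (x y d : B) (hx : x ∈ Fil.F 0) (hc : cc c ∈ Fil.F 0) (hy : y ∈ Fil.F 1) (hd : d ∈ Fil.F 0)
    (M n : ℕ) (R D : B[X]) (hR : ∀ i, R.coeff i ∈ Fil.F 0) (hn : R.natDegree < n)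
    (hD : (X - C x) * D = R - C (R.eval x))
    (hmom : ∀ u : ℕ, u < M + n → mom L e cc c u ∈ Fil.F (max 0 ((u : ℤ) - 1))) :
    L (e c * ((X - C (cc c) - C y) * C d) ^ M * D) ∈ Fil.F ((M : ℤ) - 1) :=
  P4MValx538.err_mem' (toFilt Fil) L e cc c x y d hx hc hy hd M n R D hR hn hD hmom




end Crest.Agent.R006.P4MValZx538
end

-- ▼ part R006/P4MatA_955
section

/-!
# Row 6, block P4, matrix side, part A (helper955): entries of `Defs.lean` as row functionals

* `entR_eq`, `entT_eq`, `entQ_eq` : the entries as coefficients of `R(x) ψ - L(R /ₘ (X - x))`,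
  `T(x)`, `Q(x) g` in `ℚ[X]⟦ε⟧`, `x = z + ε`;
* `mom_eq`, `wc_eq` : 305's moments over `ℚ[X]⟦ε⟧` are constants;
* `rowR`, `rowT`, `rowQ` : the expansions in Taylor coefficients at the class of the site.
-/

set_option autoImplicit false

namespace Crest.Agent.R006.P4M

open Polynomial Finset Tollx814 P4Toll961
open Crest.Agent.R006.D Crest.Agent.R006.PsiInf
open Crest.Agent.R006.P4M531 (pt cst phi linB BB germ_eq_eval eval_TRB TRB TRB_eq cst_apply)

lemma phi_apply (a : ℚ) : phi a = PowerSeries.C (C a) := rfl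

lemma coeff_phi_mul (j : ℕ) (a : ℚ) (f : BB) :
    PowerSeries.coeff j (phi a * f) = C a * PowerSeries.coeff j f := by
  rw [phi_apply, PowerSeries.coeff_C_mul]

lemma coeff_mul_phi (j : ℕ) (a : ℚ) (f : BB) :
    PowerSeries.coeff j (f * phi a) = PowerSeries.coeff j f * C a := by
  rw [mul_comm, coeff_phi_mul, mul_comm]


/-- coefficients of the Taylor expansion of a mapped polynomial -/
lemma taylor_map_coeff (c : ℚ) (P : ℚ[X]) (t : ℕ) :
    (taylor (phi c) (P.map phi)).coeff t = phi ((taylor c P).coeff t) := by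
  have h : taylor (phi c) (P.map phi) = (taylor c P).map phi := by
    rw [taylor_apply, taylor_apply, Polynomial.map_comp]
    simp
  rw [h, coeff_map]

/-! ### the entries -/

lemma map_gm (z : ℚ) (P : ℚ[X]) :
    PowerSeries.map C (NV.gm z P) = (P.map phi).eval (PowerSeries.C (C z) + PowerSeries.X) :=
  germ_eq_eval (C : ℚ →+* ℚ[X]) z P

lemma tau_map (R : ℚ[X]) :
    (tau R).map phi = TRB (fun i => phi (mu i)) (R.map phi) := by
  have h1 : tau R = ∑ n ∈ range (R.natDegree + 1),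
      C (R.coeff n) * ∑ i ∈ range n, C (mu i) * X ^ (n - 1 - i) := by
    rw [tau, TR_apply, Polynomial.sum_over_range]
    intro n; simp
  rw [h1, TRB_eq _ (R.map phi) (n := R.natDegree + 1) (Nat.lt_succ_of_le natDegree_map_le),
    Polynomial.map_sum]
  refine sum_congr rfl fun n _ => ?_
  rw [Polynomial.map_mul, Polynomial.map_C, Polynomial.map_sum, coeff_map]
  congr 1
  refine sum_congr rfl fun i _ => ?_
  rw [Polynomial.map_mul, Polynomial.map_C, Polynomial.map_pow, Polynomial.map_X]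

lemma map_gm_tau (z : ℚ) (R : ℚ[X]) :
    PowerSeries.map C (NV.gm z (tau R)) =
      linB ((R.map phi) /ₘ (X - C (PowerSeries.C (C z) + PowerSeries.X : BB))) := by
  rw [map_gm, tau_map, eval_TRB]
  rfl

/-- the `R`-entry -/
theorem entR_eq (R : ℚ[X]) (ro : D.Row) :
    C (ent0 R ro) - X * C (ent1 R ro) = PowerSeries.coeff ro.2
      ((R.map phi).eval (xs ro.1) * PsiX ro.1 - linB ((R.map phi) /ₘ (X - C (xs ro.1)))) := by
  rw [xs, ← map_gm_tau, ← map_gm, PsiX]
  have e : PowerSeries.map C (NV.gm ro.1.val R) *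
      (PowerSeries.map C (psi0 ro.1) - PowerSeries.C X * PowerSeries.map C (psi1 ro.1)) -
      PowerSeries.map C (NV.gm ro.1.val (tau R)) =
      PowerSeries.map C (NV.gm ro.1.val R * psi0 ro.1 - NV.gm ro.1.val (tau R)) -
        PowerSeries.C X * PowerSeries.map C (NV.gm ro.1.val R * psi1 ro.1) := by
    simp only [map_sub, map_mul]
    ring
  rw [e, map_sub, PowerSeries.coeff_C_mul, PowerSeries.coeff_map, PowerSeries.coeff_map]
  rfl

/-- the `T`-entry -/
theorem entT_eq (T : ℚ[X]) (ro : D.Row) :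
    C (entT T ro) = PowerSeries.coeff ro.2 ((T.map phi).eval (xs ro.1)) := by
  rw [xs, ← map_gm, PowerSeries.coeff_map]
  rfl

/-- the `Q`-entry -/
theorem entQ_eq (Q : ℚ[X]) (ro : D.Row) :
    C (entQ Q ro) = PowerSeries.coeff ro.2 ((Q.map phi).eval (xs ro.1) * GamX ro.1) := by
  rw [xs, ← map_gm, GamX, ← map_mul, PowerSeries.coeff_map]
  rfl

lemma xs_eq (c : ℕ) (z : Site) : xs z = phi (c : ℚ) + ys c z := by
  rw [xs, ys, phi_apply, ← add_assoc, ← map_add, ← C_add]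
  congr 3
  ring

/-! ### moments -/

variable {p : ℕ}

/-- mapped idempotents, centres, inverse differences -/
noncomputable def eB (e : Fin p → ℚ[X]) (c : Fin p) : BB[X] := (e c).map phi

/-- centres -/
noncomputable def cB (c : Fin p) : BB := phi ((c : ℕ) : ℚ)

/-- inverse differences -/
noncomputable def dB (c0 c : Fin p) : BB := phi ((((c0 : ℕ) : ℚ) - ((c : ℕ) : ℚ))⁻¹)

lemma lin_mu_eq (P : ℚ[X]) : P4Row.lin mu P = lin mu P := by
  rw [P4Row.lin_apply, PsiInf.lin_apply]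

lemma linB_map (P : ℚ[X]) : linB (P.map phi) = phi (lin mu P) := by
  rw [← lin_mu_eq]
  exact P4Row.lin_map phi mu P

lemma mom_eq (e : Fin p → ℚ[X]) (c : Fin p) (t : ℕ) :
    P4D.mom linB (eB e) cB c t = phi (momQ e c t) := by
  rw [P4D.mom, momQ, P4D.mom, ← linB_map]
  congr 1
  rw [Polynomial.map_mul, Polynomial.map_pow, Polynomial.map_sub, Polynomial.map_X,
    Polynomial.map_C]
  rfl

lemma wc_eq (e : Fin p → ℚ[X]) (M : ℕ) (c0 c : Fin p) (k t : ℕ) :
    P4D.wc linB (eB e) cB (dB c0) M c k t = phi (wcQ e M c0 c k t) := by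
  rw [P4D.wc, wcQ, P4D.wc, map_sum]
  refine sum_congr rfl fun m _ => ?_
  rw [mom_eq, map_mul, map_mul, map_mul, map_pow, map_pow, map_neg, map_one, map_natCast]
  rfl

lemma dB_spec {c0 c : Fin p} (h : c ≠ c0) : (cB c0 - cB c) * dB c0 c = 1 := by
  rw [cB, cB, dB, ← map_sub, ← map_mul, mul_inv_cancel₀, map_one]
  intro h0
  apply h
  have h1 : ((c0 : ℕ) : ℚ) = ((c : ℕ) : ℚ) := sub_eq_zero.mp h0
  exact Fin.ext (by exact_mod_cast h1.symm)

lemma taylor_cB (c : Fin p) (P : ℚ[X]) (t : ℕ) :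
    (taylor (cB c) (P.map phi)).coeff t = phi ((taylor ((c : ℕ) : ℚ) P).coeff t) :=
  taylor_map_coeff _ _ _

/-! ### the row functionals -/

/-- the bracket: coefficient of the `t`-th Taylor coefficient of `R` at the own class -/
noncomputable def br (e : Fin p → ℚ[X]) (c0 : Fin p) (z : Site) (ps : BB) (t : ℕ) : BB :=
  ps * ys c0 z ^ t - ∑ u ∈ range t, ys c0 z ^ (t - 1 - u) * phi (momQ e c0 u)

/-- the error term -/
noncomputable def erR (e : Fin p → ℚ[X]) (M : ℕ) (c0 : Fin p) (z : Site) (R : ℚ[X]) : BB :=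
  ∑ c ∈ univ.erase c0, linB (eB e c * ((X - C (cB c) - C (ys c0 z)) * C (dB c0 c)) ^ M *
    ((R.map phi) /ₘ (X - C (xs z))))

/-- the row formula in `ℚ[X]⟦ε⟧` -/
theorem row_BB (e : Fin p → ℚ[X]) (he : ∑ c, e c = 1) (M : ℕ) (c0 : Fin p) (z : Site)
    (R : ℚ[X]) {n : ℕ} (hn : R.natDegree < n) :
    (R.map phi).eval (xs z) * PsiX z - linB ((R.map phi) /ₘ (X - C (xs z))) =
      ∑ t ∈ range n, phi ((taylor ((c0 : ℕ) : ℚ) R).coeff t) * br e c0 z (psi' e M c0 z) t
      + ∑ c ∈ univ.erase c0, ∑ t ∈ range n, phi ((taylor ((c : ℕ) : ℚ) R).coeff t) *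
          ∑ k ∈ range M, ys c0 z ^ k * phi (wcQ e M c0 c k t)
      - erR e M c0 z R := by
  have hsum : ∑ c, eB e c = 1 := by
    simp only [eB]
    rw [← Polynomial.map_sum, he, Polynomial.map_one]
  have hD : (X - C (xs z)) * ((R.map phi) /ₘ (X - C (xs z))) =
      R.map phi - C ((R.map phi).eval (xs z)) := by
    have := P4Row.eq_eval_add (R.map phi) (xs z)
    linear_combination -this
  have hn' : (R.map phi).natDegree < n := lt_of_le_of_lt natDegree_map_le hn
  have key := P4D.row_identity linB (eB e) hsum cB c0 (dB c0) (fun c hc => dB_spec hc) (xs z)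
    (ys c0 z) (xs_eq c0 z) M (R.map phi) _ hD hn' (PsiX z)
  simp only [taylor_cB, wc_eq, mom_eq] at key
  exact key

/-- `T(x)` in the local coordinate -/
theorem eval_xs (c0 : ℕ) (z : Site) (T : ℚ[X]) {n : ℕ} (hn : T.natDegree < n) :
    (T.map phi).eval (xs z) = ∑ t ∈ range n, phi ((taylor (c0 : ℚ) T).coeff t) * ys c0 z ^ t := by
  rw [xs_eq c0 z, P4D.eval_taylor_sum _ _ _ (lt_of_le_of_lt natDegree_map_le hn)]
  exact sum_congr rfl fun t _ => by rw [taylor_map_coeff]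

/-- changing the germ of `ψ` where `R` vanishes -/
theorem change_psi (e : Fin p → ℚ[X]) (c0 : Fin p) (z : Site) (R : ℚ[X]) (ps ps' : BB)
    {n : ℕ} (hn : R.natDegree < n) :
    ∑ t ∈ range n, phi ((taylor ((c0 : ℕ) : ℚ) R).coeff t) * br e c0 z ps t =
      ∑ t ∈ range n, phi ((taylor ((c0 : ℕ) : ℚ) R).coeff t) * br e c0 z ps' t +
        (R.map phi).eval (xs z) * (ps - ps') := by
  rw [eval_xs c0 z R hn, sum_mul, ← sum_add_distrib]
  refine sum_congr rfl fun t _ => ?_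
  simp only [br]
  ring

end Crest.Agent.R006.P4M
end

-- ▼ part R006/P4Mat_955

/-!
# Row 6, block P4, matrix side (helper955): the network of `P4Toll_961` for the entries of `Defs`

Data (`Dat`): gauge `rho`, column polynomials `b`, `TT`, `QQ`, rows `ro i` with class `cs i`,
germ `ps i` used for `psi'` in the row `i`, unit entries `bo`, truncations `G M N`.

* `Net0 nr`, `Rows0 nr` : network with near coefficients `nr` (`nr = 0`: decomposition A);
* `mat_eq` : `Net.mat` is the matrix of the entries of `Defs.lean` for `R = rho * b`, `T`, `Q`.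
-/

set_option autoImplicit false

namespace Crest.Agent.R006.P4M

open Polynomial Finset Tollx814 P4Toll961
open Crest.Agent.R006.D Crest.Agent.R006.PsiInf
open Crest.Agent.R006.P4M531 (pt cst phi linB BB germ_eq_eval eval_TRB TRB TRB_eq cst_apply)

section linmul

variable {B : Type*} [CommRing B]

/-- a linear functional on a product, coefficientwise -/
lemma sum_coeff_mul (f : ℕ → B) (P Q : B[X]) {G N n : ℕ} (hP : P.natDegree < G)
    (hQ : Q.natDegree < N) (hn : (P * Q).natDegree < n) :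
    ∑ t ∈ range n, (P * Q).coeff t * f t =
      ∑ l ∈ range N, Q.coeff l * ∑ g ∈ range G, P.coeff g * f (g + l) := by
  have h0 : P4Row.lin f (P * Q) = ∑ t ∈ range n, (P * Q).coeff t * f t :=
    P4Row.lin_eq_sum f (P * Q) hn
  rw [← h0]
  have h1 : P * Q = ∑ l ∈ range N, ∑ g ∈ range G, (P.coeff g * Q.coeff l) • (X : B[X]) ^ (g + l) := by
    conv_lhs => rw [P.as_sum_range' G hP, Q.as_sum_range' N hQ]
    rw [Finset.sum_mul_sum, Finset.sum_comm]
    refine sum_congr rfl fun l _ => sum_congr rfl fun g _ => ?_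
    rw [monomial_mul_monomial, smul_X_eq_monomial]
  rw [h1, map_sum]
  refine sum_congr rfl fun l _ => ?_
  rw [map_sum, mul_sum]
  refine sum_congr rfl fun g _ => ?_
  rw [map_smul, smul_eq_mul, P4M531.lin_X_pow]
  ring

end linmul

/-- the data of the matrix side -/
structure Dat (p : ℕ) (jR jT jQ jU ι : Type*) where
  e : Fin p → ℚ[X]
  /-- gauge of the `R`-columns -/
  rho : ℚ[X]
  b : jR → ℚ[X]
  TT : jT → ℚ[X]
  QQ : jQ → ℚ[X]
  /-- rows: site and order -/
  ro : ι → D.Row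
  /-- class of the row -/
  cs : ι → Fin p
  /-- germ used for `psi'` -/
  ps : ι → BB
  /-- unit entries (bordering) -/
  bo : ι → jU → ℚ[X]
  G : ℕ
  M : ℕ
  N : ℕ
  /-- bound of the degrees of `b` -/
  Nb : ℕ

namespace Dat

variable {p : ℕ} {jR jT jQ jU ι : Type*} (D : Dat p jR jT jQ jU ι)

/-- own class coefficient of the `l`-th Taylor coefficient of `b` -/
noncomputable def cA0 (i : ι) (l : ℕ) : ℚ[X] :=
  if l < D.Nb then
    ∑ g ∈ range D.G, C ((taylor ((D.cs i : ℕ) : ℚ) D.rho).coeff g) *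
      PowerSeries.coeff (D.ro i).2 (br D.e (D.cs i) (D.ro i).1 (D.ps i) (g + l))
  else 0

/-- coefficient of `X(c,s)`: `[ε^j] y^s` -/
noncomputable def cB0 (i : ι) (s : ℕ) : ℚ[X] :=
  PowerSeries.coeff (D.ro i).2 (ys (D.cs i) (D.ro i).1 ^ s)

/-- coefficient of `q(c,u)`: `[ε^j] y^u g` -/
noncomputable def cC0 (i : ι) (u : ℕ) : ℚ[X] :=
  PowerSeries.coeff (D.ro i).2 (ys (D.cs i) (D.ro i).1 ^ u * GamX (D.ro i).1)

/-- far coefficients -/
noncomputable def far0 (M : ℕ) (c : Fin p) (s : ℕ) (c' : Fin p) (k : ℕ) : ℚ[X] :=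
  if c' = c then 0 else if s + k < M then
    C ((-1) ^ s * ((s + k).choose s : ℚ) *
      ((((c : ℕ) : ℚ) - ((c' : ℕ) : ℚ))⁻¹) ^ (s + k + 1)) else 0

/-- coefficients of `beta(c,k)` -/
noncomputable def Lam0 (c : Fin p) (k l : ℕ) : ℚ[X] :=
  if l < D.Nb then
    C (∑ g ∈ range D.G, (taylor ((c : ℕ) : ℚ) D.rho).coeff g * momQ D.e c (k + (g + l)))
  else 0

/-- the network with near coefficients `nr` -/
noncomputable def Net0 (nr : Fin p → Fin D.N → Fin D.N → ℚ[X]) : Net ℚ[X] (Fin p) jR jT jQ D.N where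
  rho c l j := C ((taylor ((c : ℕ) : ℚ) (D.b j)).coeff l)
  th0 c s j := C ((taylor ((c : ℕ) : ℚ) (D.TT j)).coeff s)
  q c u j := C ((taylor ((c : ℕ) : ℚ) (D.QQ j)).coeff u)
  near := nr
  far c s c' k := far0 D.M c s c' k
  Lam c k l := D.Lam0 c k l
  errX _ _ _ := 0
  errB _ _ _ := 0

/-- the rows -/
noncomputable def Rows0 (nr : Fin p → Fin D.N → Fin D.N → ℚ[X]) :
    Rows ℚ[X] (Fin p) jR jT jQ jU D.N ι where
  cls := D.cs
  cA i l := D.cA0 i l - ∑ s : Fin D.N, D.cB0 i s * nr (D.cs i) s l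
  cB i s := D.cB0 i s
  cC i u := D.cC0 i u
  err i
    | .inl j => - PowerSeries.coeff (D.ro i).2
        (erR D.e D.M (D.cs i) (D.ro i).1 (D.rho * D.b j))
    | .inr (.inl _) => 0
    | .inr (.inr (.inl _)) => 0
    | .inr (.inr (.inr j)) => D.bo i j

/-- the matrix of the entries of `Defs.lean` -/
noncomputable def ent : ι → P4Toll961.Col jR jT jQ jU → ℚ[X] := fun i d =>
  match d with
  | .inl j => C (ent0 (D.rho * D.b j) (D.ro i)) - X * C (ent1 (D.rho * D.b j) (D.ro i))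
  | .inr (.inl j) => C (entT (D.TT j) (D.ro i))
  | .inr (.inr (.inl j)) => C (entQ (D.QQ j) (D.ro i))
  | .inr (.inr (.inr j)) => D.bo i j

/-- the conditions on the data -/
structure OK : Prop where
  sum_e : ∑ c, D.e c = 1
  hG : D.rho.natDegree < D.G
  hb : ∀ j, (D.b j).natDegree < D.Nb
  hNb : D.Nb ≤ D.N
  hT : ∀ j, (D.TT j).natDegree < D.N
  hQ : ∀ j, (D.QQ j).natDegree < D.N
  hMN : D.M ≤ D.N
  /-- `ps i` is `psi'`, or `R` vanishes to a high order at the site -/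
  hps : ∀ i, D.ps i = psi' D.e D.M (D.cs i) (D.ro i).1 ∨
    PowerSeries.X ^ ((D.ro i).2 + 1) ∣ NV.gm (D.ro i).1.val D.rho

variable {D}

lemma far_sum (M : ℕ) (e : Fin p → ℚ[X]) (c c' : Fin p) (s : ℕ) (t : ℕ) {N : ℕ} (hMN : M ≤ N)
    (hc : c' ≠ c) :
    C (wcQ e M c c' s t) = ∑ k : Fin N, far0 M c s c' k * C (momQ e c' (k + t)) := by
  rw [Fin.sum_univ_eq_sum_range (fun k => far0 M c s c' k * C (momQ e c' (k + t))) N]
  simp only [far0, if_neg hc]
  rw [wcQ, P4D.wc, map_sum]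
  rcases Nat.lt_or_ge M s with h | h
  · rw [Finset.Ico_eq_empty (by omega), sum_empty]
    symm
    refine sum_eq_zero fun k _ => ?_
    rw [if_neg (by omega), zero_mul]
  · rw [Finset.sum_Ico_eq_sum_range]
    have h1 : range (M - s) ⊆ range N := range_subset_range.mpr (by omega)
    rw [← sum_subset h1]
    · refine sum_congr rfl fun k hk => ?_
      rw [mem_range] at hk
      rw [if_pos (by omega), ← C_mul]
      congr 1
      rw [momQ, show s + k - s + t = k + t by omega]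
    · intro k _ hk
      rw [mem_range] at hk
      rw [if_neg (by omega), zero_mul]

omit D in
/-- cut off a sum over `Fin N` at `Nb` -/
lemma sum_cut {N Nb : ℕ} (h : Nb ≤ N) (f g : ℕ → ℚ[X]) (hf : ∀ l, Nb ≤ l → f l = 0)
    (hfg : ∀ l, l < Nb → f l = g l) : ∑ l : Fin N, f l = ∑ l ∈ range Nb, g l := by
  rw [Fin.sum_univ_eq_sum_range f N, ← sum_subset (range_subset_range.mpr h)]
  · exact sum_congr rfl fun l hl => hfg l (mem_range.mp hl)
  · intro l _ hl
    exact hf l (by rw [mem_range] at hl; omega)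

/-- coefficient extraction in the sum over the own class -/
lemma own_sum (h : D.OK) (i : ι) (j : jR) {n : ℕ} (hn : (D.rho * D.b j).natDegree < n) :
    PowerSeries.coeff (D.ro i).2 (∑ t ∈ range n,
        phi ((taylor ((D.cs i : ℕ) : ℚ) (D.rho * D.b j)).coeff t) *
          br D.e (D.cs i) (D.ro i).1 (D.ps i) t) =
      ∑ l : Fin D.N, D.cA0 i l * C ((taylor ((D.cs i : ℕ) : ℚ) (D.b j)).coeff l) := by
  have h1 := sum_coeff_mul
    (fun t => PowerSeries.coeff (D.ro i).2 (br D.e (D.cs i) (D.ro i).1 (D.ps i) t))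
    ((taylor ((D.cs i : ℕ) : ℚ) D.rho).map C) ((taylor ((D.cs i : ℕ) : ℚ) (D.b j)).map C)
    (G := D.G) (N := D.Nb) (n := n)
    (lt_of_le_of_lt natDegree_map_le (by rw [natDegree_taylor]; exact h.hG))
    (lt_of_le_of_lt natDegree_map_le (by rw [natDegree_taylor]; exact h.hb j))
    (by
      rw [← Polynomial.map_mul, ← taylor_mul]
      exact lt_of_le_of_lt natDegree_map_le (by rw [natDegree_taylor]; exact hn))
  rw [← Polynomial.map_mul, ← taylor_mul] at h1
  simp only [coeff_map] at h1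
  rw [map_sum]
  simp only [coeff_phi_mul]
  rw [h1]
  symm
  refine sum_cut h.hNb (fun l => D.cA0 i l *
    C ((taylor ((D.cs i : ℕ) : ℚ) (D.b j)).coeff l)) _ (fun l hl => ?_) fun l hl => ?_
  · simp only [cA0]
    rw [if_neg (by omega), zero_mul]
  · simp only [cA0]
    rw [if_pos hl, mul_comm]

/-- one far class -/
lemma far_class (h : D.OK) (c c' : Fin p) (hc : c' ≠ c) (j : jR) (s : Fin D.N) {n : ℕ}
    (hn : (D.rho * D.b j).natDegree < n) :
    ∑ t ∈ range n, C ((taylor ((c' : ℕ) : ℚ) (D.rho * D.b j)).coeff t) *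
        C (wcQ D.e D.M c c' s t) =
      ∑ k : Fin D.N, far0 D.M c s c' k * ∑ l : Fin D.N, D.Lam0 c' k l *
        C ((taylor ((c' : ℕ) : ℚ) (D.b j)).coeff l) := by
  have h2 : ∀ k : Fin D.N, ∑ l : Fin D.N, D.Lam0 c' k l *
        C ((taylor ((c' : ℕ) : ℚ) (D.b j)).coeff l) =
      ∑ t ∈ range n, C ((taylor ((c' : ℕ) : ℚ) (D.rho * D.b j)).coeff t) *
        C (momQ D.e c' (k + t)) := by
    intro k
    have h1 := sum_coeff_mul (fun t => (C (momQ D.e c' (k + t)) : ℚ[X]))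
      ((taylor ((c' : ℕ) : ℚ) D.rho).map C) ((taylor ((c' : ℕ) : ℚ) (D.b j)).map C)
      (G := D.G) (N := D.Nb) (n := n)
      (lt_of_le_of_lt natDegree_map_le (by rw [natDegree_taylor]; exact h.hG))
      (lt_of_le_of_lt natDegree_map_le (by rw [natDegree_taylor]; exact h.hb j))
      (by
        rw [← Polynomial.map_mul, ← taylor_mul]
        exact lt_of_le_of_lt natDegree_map_le (by rw [natDegree_taylor]; exact hn))
    rw [← Polynomial.map_mul, ← taylor_mul] at h1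
    simp only [coeff_map] at h1
    rw [h1]
    refine sum_cut h.hNb (fun l => D.Lam0 c' k l *
      C ((taylor ((c' : ℕ) : ℚ) (D.b j)).coeff l)) _ (fun l hl => ?_) fun l hl => ?_
    · simp only [Lam0]
      rw [if_neg (by omega), zero_mul]
    · simp only [Lam0]
      rw [if_pos hl, mul_comm, map_sum]
      congr 1
      refine sum_congr rfl fun g _ => ?_
      rw [C_mul]
  simp only [h2]
  simp only [far_sum D.M D.e c c' s _ h.hMN hc, mul_sum]
  rw [sum_comm]
  refine sum_congr rfl fun k _ => sum_congr rfl fun t _ => ?_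
  ring


/-- the far part of a row -/
lemma far_row (h : D.OK) (i : ι) (j : jR) {n : ℕ} (hn : (D.rho * D.b j).natDegree < n) :
    PowerSeries.coeff (D.ro i).2 (∑ c ∈ univ.erase (D.cs i), ∑ t ∈ range n,
        phi ((taylor ((c : ℕ) : ℚ) (D.rho * D.b j)).coeff t) *
          ∑ k ∈ range D.M, ys (D.cs i) (D.ro i).1 ^ k * phi (wcQ D.e D.M (D.cs i) c k t)) =
      ∑ s : Fin D.N, D.cB0 i s * ∑ c', ∑ k : Fin D.N, far0 D.M (D.cs i) s c' k *
        ∑ l : Fin D.N, D.Lam0 c' k l * C ((taylor ((c' : ℕ) : ℚ) (D.b j)).coeff l) := by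
  have e1 : ∀ s : Fin D.N, D.cB0 i s * ∑ c', ∑ k : Fin D.N, far0 D.M (D.cs i) s c' k *
        ∑ l : Fin D.N, D.Lam0 c' k l * C ((taylor ((c' : ℕ) : ℚ) (D.b j)).coeff l) =
      ∑ c ∈ univ.erase (D.cs i), D.cB0 i s * ∑ t ∈ range n,
        C ((taylor ((c : ℕ) : ℚ) (D.rho * D.b j)).coeff t) *
          C (wcQ D.e D.M (D.cs i) c s t) := by
    intro s
    rw [← add_sum_erase univ _ (mem_univ (D.cs i)), mul_add]
    have h0 : ∑ k : Fin D.N, far0 D.M (D.cs i) s (D.cs i) k *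
        ∑ l : Fin D.N, D.Lam0 (D.cs i) k l *
          C ((taylor ((D.cs i : ℕ) : ℚ) (D.b j)).coeff l) = 0 := by
      refine sum_eq_zero fun k _ => ?_
      rw [far0, if_pos rfl, zero_mul]
    rw [h0, mul_zero, zero_add, mul_sum]
    refine sum_congr rfl fun c hc => ?_
    rw [far_class h (D.cs i) c (mem_erase.mp hc).1 j s hn]
  have e2 : ∀ c ∈ univ.erase (D.cs i), PowerSeries.coeff (D.ro i).2 (∑ t ∈ range n,
        phi ((taylor ((c : ℕ) : ℚ) (D.rho * D.b j)).coeff t) *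
          ∑ k ∈ range D.M, ys (D.cs i) (D.ro i).1 ^ k * phi (wcQ D.e D.M (D.cs i) c k t)) =
      ∑ s : Fin D.N, D.cB0 i s * ∑ t ∈ range n,
        C ((taylor ((c : ℕ) : ℚ) (D.rho * D.b j)).coeff t) *
          C (wcQ D.e D.M (D.cs i) c s t) := by
    intro c hc
    have hc' := (mem_erase.mp hc).1
    rw [map_sum]
    simp only [coeff_phi_mul, map_sum, coeff_mul_phi]
    rw [Fin.sum_univ_eq_sum_range (fun s => D.cB0 i s * ∑ t ∈ range n,
        C ((taylor ((c : ℕ) : ℚ) (D.rho * D.b j)).coeff t) *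
          C (wcQ D.e D.M (D.cs i) c s t)) D.N]
    have h3 : range D.M ⊆ range D.N := range_subset_range.mpr h.hMN
    rw [← sum_subset h3]
    · simp only [mul_sum]
      rw [sum_comm]
      refine sum_congr rfl fun s _ => sum_congr rfl fun t _ => ?_
      rw [cB0]
      ring
    · intro s hs hs'
      rw [mem_range] at hs hs'
      have : ∀ t, wcQ D.e D.M (D.cs i) c s t = 0 := by
        intro t
        rw [wcQ, P4D.wc, Finset.Ico_eq_empty (by omega), sum_empty]
      simp only [this, C_0, mul_zero, sum_const_zero]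
  rw [map_sum, sum_congr rfl e2, sum_congr rfl (fun s _ => e1 s), sum_comm]

/-- replacing `psi'` in a row where `R` vanishes -/
lemma own_psi (h : D.OK) (i : ι) (j : jR) {n : ℕ} (hn : (D.rho * D.b j).natDegree < n) :
    PowerSeries.coeff (D.ro i).2 (∑ t ∈ range n,
        phi ((taylor ((D.cs i : ℕ) : ℚ) (D.rho * D.b j)).coeff t) *
          br D.e (D.cs i) (D.ro i).1 (psi' D.e D.M (D.cs i) (D.ro i).1) t) =
      PowerSeries.coeff (D.ro i).2 (∑ t ∈ range n,
        phi ((taylor ((D.cs i : ℕ) : ℚ) (D.rho * D.b j)).coeff t) *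
          br D.e (D.cs i) (D.ro i).1 (D.ps i) t) := by
  rcases h.hps i with h0 | h0
  · rw [h0]
  · rw [change_psi D.e (D.cs i) (D.ro i).1 (D.rho * D.b j)
      (psi' D.e D.M (D.cs i) (D.ro i).1) (D.ps i) hn, map_add]
    have h1 : (PowerSeries.X : BB) ^ ((D.ro i).2 + 1) ∣
        ((D.rho * D.b j).map phi).eval (xs (D.ro i).1) := by
      rw [xs, ← map_gm]
      have e : NV.gm (D.ro i).1.val (D.rho * D.b j) =
          NV.gm (D.ro i).1.val D.rho * NV.gm (D.ro i).1.val (D.b j) := by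
        simp [NV.gm, taylor_mul]
      rw [e, map_mul]
      obtain ⟨w, hw⟩ := h0
      rw [hw, map_mul, map_pow, PowerSeries.map_X]
      exact Dvd.dvd.mul_right (Dvd.intro _ rfl) _
    have h2 := (PowerSeries.X_pow_dvd_iff.mp (h1.mul_right
      (psi' D.e D.M (D.cs i) (D.ro i).1 - D.ps i))) (D.ro i).2 (Nat.lt_succ_self _)
    rw [h2, add_zero]

/-- **The matrix of the network is the matrix of the entries of `Defs.lean`.** -/
theorem mat_eq (h : D.OK) (nr : Fin p → Fin D.N → Fin D.N → ℚ[X]) (i : ι)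
    (d : P4Toll961.Col jR jT jQ jU) :
    (D.Net0 nr : Net ℚ[X] (Fin p) jR jT jQ D.N).mat (D.Rows0 nr) i d = D.ent i d := by
  rcases d with j | j | j | j
  · -- `R`-column
    show ∑ l : Fin D.N, (D.cA0 i l - ∑ s : Fin D.N, D.cB0 i s * nr (D.cs i) s l) *
        C ((taylor ((D.cs i : ℕ) : ℚ) (D.b j)).coeff l) +
      ∑ s : Fin D.N, D.cB0 i s * (∑ l : Fin D.N, nr (D.cs i) s l *
          C ((taylor ((D.cs i : ℕ) : ℚ) (D.b j)).coeff l) +
        ∑ c', ∑ k : Fin D.N, far0 D.M (D.cs i) s c' k *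
          (∑ l : Fin D.N, D.Lam0 c' k l * C ((taylor ((c' : ℕ) : ℚ) (D.b j)).coeff l) + 0) + 0) +
      - PowerSeries.coeff (D.ro i).2 (erR D.e D.M (D.cs i) (D.ro i).1 (D.rho * D.b j)) =
      C (ent0 (D.rho * D.b j) (D.ro i)) - X * C (ent1 (D.rho * D.b j) (D.ro i))
    rw [entR_eq, row_BB D.e h.sum_e D.M (D.cs i) (D.ro i).1 (D.rho * D.b j)
      (Nat.lt_succ_self _), map_sub, map_add, own_psi h i j (Nat.lt_succ_self _),
      own_sum h i j (Nat.lt_succ_self _), far_row h i j (Nat.lt_succ_self _)]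
    simp only [add_zero, mul_add, sum_add_distrib, sub_mul, sum_sub_distrib]
    have e1 : ∑ l : Fin D.N, (∑ s : Fin D.N, D.cB0 i s * nr (D.cs i) s l) *
        C ((taylor ((D.cs i : ℕ) : ℚ) (D.b j)).coeff l) =
        ∑ s : Fin D.N, D.cB0 i s * ∑ l : Fin D.N, nr (D.cs i) s l *
          C ((taylor ((D.cs i : ℕ) : ℚ) (D.b j)).coeff l) := by
      simp only [sum_mul, mul_sum]
      rw [sum_comm]
      refine sum_congr rfl fun s _ => sum_congr rfl fun l _ => ?_
      ring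
    rw [e1]
    ring
  · -- `T`-column
    show ∑ s : Fin D.N, D.cB0 i s * C ((taylor ((D.cs i : ℕ) : ℚ) (D.TT j)).coeff s) + 0 =
      C (entT (D.TT j) (D.ro i))
    rw [entT_eq, eval_xs (D.cs i) (D.ro i).1 (D.TT j) (h.hT j), add_zero, map_sum,
      Fin.sum_univ_eq_sum_range (fun s => D.cB0 i s *
        C ((taylor ((D.cs i : ℕ) : ℚ) (D.TT j)).coeff s)) D.N]
    refine sum_congr rfl fun s _ => ?_
    rw [coeff_phi_mul, cB0, mul_comm]
  · -- `Q`-column
    show ∑ u : Fin D.N, D.cC0 i u * C ((taylor ((D.cs i : ℕ) : ℚ) (D.QQ j)).coeff u) + 0 =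
      C (entQ (D.QQ j) (D.ro i))
    rw [entQ_eq, eval_xs (D.cs i) (D.ro i).1 (D.QQ j) (h.hQ j), add_zero, sum_mul, map_sum,
      Fin.sum_univ_eq_sum_range (fun u => D.cC0 i u *
        C ((taylor ((D.cs i : ℕ) : ℚ) (D.QQ j)).coeff u)) D.N]
    refine sum_congr rfl fun u _ => ?_
    rw [mul_assoc, coeff_phi_mul, cC0, mul_comm]
  · rfl

end Dat

end Crest.Agent.R006.P4M
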