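import Crest.Agent.R006.P4AsmA_814
import Crest.Agent.R006.GaugeP_555
import Crest.Agent.R006.P4Mat_955

/-!
# Row 6, block P4: the data of 955's network for 814's bordered matrix (helper538)

* `dat` : `Dat` with `rho = gaugeF`, `b = bl` (555), `TT = QQ = descPochhammer`, rows `ofRow`,
  unit entries of the bordering;
* `brow_eq` : `brow S u c J x d = (dat ..).ent x d`;
* degrees of `bl`, `descPochhammer`, `gaugeF`;
* `gauge_dvd_A`, `gauge_dvd_W` : the zeros of the gauge at the `A`- and `W`-sites.
-/

set_option autoImplicit false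

namespace Crest.Agent.R006.P4SideDatx538

open Polynomial Finset Crest.Agent.R006.D Crest.Agent.R006.Bordx929 Crest.Agent.R006.NV
open Crest.Agent.R006.P4Asmx814 Crest.Agent.R006.GaugeP555 Crest.Agent.R006.P4M
open Crest.Agent.R006.P4M531 (BB)

/-! ### degrees -/

lemma natDegree_desc (l : ℕ) : (descPochhammer ℚ l).natDegree = l :=
  descPochhammer_natDegree ℚ l

lemma monic_desc (l : ℕ) : (descPochhammer ℚ l).Monic := monic_descPochhammer ℚ l

lemma natDegree_X_add_C' (a : ℚ) : (X + C a : ℚ[X]).natDegree = 1 := natDegree_X_add_C a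

lemma natDegree_bl (S : Shape) (u l : ℕ) : (bl S u l).natDegree = l := by
  unfold bl
  rw [natDegree_comp, natDegree_desc, natDegree_X_sub_C, mul_one]

lemma bl_lt (S : Shape) (u : ℕ) (l : Fin (S.k * u)) : (bl S u l).natDegree < S.k * u := by
  rw [natDegree_bl]; exact l.isLt

lemma desc_lt {n : ℕ} (l : Fin n) : (descPochhammer ℚ (l : ℕ)).natDegree < n := by
  rw [natDegree_desc]; exact l.isLt

/-- the degree of the gauge -/
theorem natDegree_gaugeF (S : Shape) (u : ℕ) :
    (gaugeF S u).natDegree = (S.a1 + S.a2 + S.i1 + S.r1) * u := by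
  have m1 := monic_desc (S.a2 * u)
  have m2 : ((descPochhammer ℚ (S.i1 * u)).comp (X + C ((S.i1 * u : ℕ) - 1 / 2 : ℚ))).Monic :=
    (monic_desc _).comp_X_add_C _
  have m3 : ((descPochhammer ℚ (S.r1 * u)).comp (X + C ((S.r1 * u : ℕ) : ℚ))).Monic :=
    (monic_desc _).comp_X_add_C _
  have m4 := monic_desc (S.a1 * u)
  unfold gaugeF gaugeM
  rw [((m1.mul m2).mul m3).natDegree_mul m4, (m1.mul m2).natDegree_mul m3, m1.natDegree_mul m2,
    natDegree_comp, natDegree_comp, natDegree_desc, natDegree_desc, natDegree_desc,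
    natDegree_desc, natDegree_X_add_C', natDegree_X_add_C']
  ring


/-! ### zeros of the gauge -/







/-! ### the data -/

variable (S : Shape) (u c : ℕ)

/-- the data of 955's network for 814's bordered matrix `brow S u c J` -/
noncomputable def dat {p : ℕ} (J : Fin c → RI S u c) (e : Fin p → ℚ[X]) (cs : RI S u c → Fin p)
    (ps : RI S u c → BB) (G M N Nb : ℕ) :
    Dat p (Fin (S.k * u)) (Fin (S.q * u)) (Fin (S.g * u)) (Fin c) (RI S u c) where
  e := e
  rho := gaugeF S u
  b := fun l => bl S u l
  TT := fun l => descPochhammer ℚ l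
  QQ := fun l => descPochhammer ℚ l
  ro := fun x => ofRow u c x
  cs := cs
  ps := ps
  bo := fun x t => if x = J t then 1 else 0
  G := G
  M := M
  N := N
  Nb := Nb

/-- **814's bordered monic matrix is 955's matrix of entries.** -/
theorem brow_eq {p : ℕ} (J : Fin c → RI S u c) (e : Fin p → ℚ[X]) (cs : RI S u c → Fin p)
    (ps : RI S u c → BB) (G M N Nb : ℕ) (x : RI S u c) (d : CI S u c) :
    brow S u c J x d = (dat S u c J e cs ps G M N Nb).ent x d := by
  rcases d with l | l | l | t
  · show C (ent0 (polRM S u l) (ofRow u c x)) - X * C (ent1 (polRM S u l) (ofRow u c x)) =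
      C (ent0 (gaugeF S u * bl S u l) (ofRow u c x)) -
        X * C (ent1 (gaugeF S u * bl S u l) (ofRow u c x))
    rw [polRM_eq]
  · rfl
  · rfl
  · rfl


end Crest.Agent.R006.P4SideDatx538
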