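import Mathlib
import Crest.Agent.R006.P4_LemA_255

-- ▼ part R006/P4_LemB_255
section

/-!
Row 6, block P4: base case `L (θ² Q) = 0` in characteristic `p`.
-/

set_option autoImplicit false

namespace Crest.Agent.R006.LemL255

open Polynomial Finset

/-- `θ = X (X-1) ... (X-p+1)` -/
noncomputable def theta (R : Type*) [CommRing R] (p : ℕ) : R[X] := ∏ i ∈ range p, (X - C (i : R))

lemma prod_range_shift_one {M : Type*} [CommMonoid M] (f : ℕ → M) (p : ℕ) (hf : f p = f 0) :
    ∏ i ∈ range p, f (i + 1) = ∏ i ∈ range p, f i := by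
  cases p with
  | zero => simp
  | succ q => rw [prod_range_succ, hf, prod_range_succ']

lemma prod_range_shift {M : Type*} [CommMonoid M] (f : ℕ → M) (p : ℕ) (hf : ∀ i, f (i + p) = f i)
    (a : ℕ) : ∏ i ∈ range p, f (i + a) = ∏ i ∈ range p, f i := by
  induction a with
  | zero => simp
  | succ a ih =>
    rw [← ih]
    have := prod_range_shift_one (fun i => f (i + a)) p (by
      show f (p + a) = f (0 + a)
      rw [Nat.zero_add, Nat.add_comm p a]; exact hf a)
    rw [← this]
    refine prod_congr rfl fun i _ => ?_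
    congr 1; ring

section CharP

variable {R : Type*} [CommRing R] {p : ℕ} (hp0 : (p : R) = 0)

include hp0

lemma theta_eq_poch : theta R p = ∏ i ∈ range p, (X + C (i : R)) := by
  unfold theta
  rw [← prod_range_reflect]
  have h1 : ∀ i ∈ range p, (X - C (((p - 1 - i : ℕ)) : R)) = X + C (((i + 1 : ℕ)) : R) := by
    intro i hi
    have hi' : i < p := mem_range.mp hi
    have h2 : (((p - 1 - i : ℕ)) : R) = - (((i + 1 : ℕ)) : R) := by
      have : ((p - 1 - i) + (i + 1) : ℕ) = p := by omega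
      have h3 : (((p - 1 - i : ℕ)) : R) + (((i + 1 : ℕ)) : R) = 0 := by
        rw [← Nat.cast_add, this, hp0]
      exact eq_neg_of_add_eq_zero_left h3
    rw [h2, map_neg, sub_neg_eq_add]
  rw [prod_congr rfl h1]
  exact prod_range_shift_one (fun i => X + C (i : R)) p (by simp [hp0])

/-- half-shifted Pochhammer product -/
lemma prod_half (hodd : Odd p) (h : R) (h2 : 2 * h = 1) :
    ∏ i ∈ range p, (X + C (h + (i : R))) = theta R p := by
  obtain ⟨m, hm⟩ := hodd
  have hh : h = ((m + 1 : ℕ) : R) := by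
    have e1 : (2 : R) * ((m + 1 : ℕ) : R) = 1 := by
      have : ((2 * (m + 1) : ℕ) : R) = ((p + 1 : ℕ) : R) := by congr 1; omega
      push_cast at this
      push_cast
      rw [this, hp0]; ring
    calc h = h * (2 * ((m + 1 : ℕ) : R)) := by rw [e1, mul_one]
      _ = (2 * h) * ((m + 1 : ℕ) : R) := by ring
      _ = _ := by rw [h2, one_mul]
  rw [theta_eq_poch hp0, ← prod_range_shift (fun i => X + C (i : R)) p (by intro i; simp [hp0]) (m + 1)]
  refine prod_congr rfl fun i _ => ?_
  rw [hh]; push_cast; congr 2; ring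

lemma prod_two_p : ∏ i ∈ range (2 * p), (X + C (i : R)) = theta R p ^ 2 := by
  rw [two_mul, prod_range_add, theta_eq_poch hp0, sq]
  congr 1
  refine prod_congr rfl fun i _ => ?_
  push_cast; rw [hp0, zero_add]

lemma theta_comp (a : ℕ) : (theta R p).comp (X + C (a : R)) = theta R p := by
  rw [theta_eq_poch hp0]
  rw [Polynomial.prod_comp]
  conv_rhs => rw [← prod_range_shift (fun i => X + C (i : R)) p (by intro i; simp [hp0]) a]
  refine prod_congr rfl fun i _ => ?_
  simp only [add_comp, X_comp, C_comp]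
  push_cast
  rw [add_assoc, ← C_add, add_comm (a : R)]

end CharP

section Tel

variable {R : Type*} [CommRing R]

noncomputable def Aj (R : Type*) [CommRing R] (j : ℕ) : R[X] := ∏ i ∈ range (2 * j), (X + C (i : R))
noncomputable def Aj' (R : Type*) [CommRing R] (j : ℕ) : R[X] :=
  ∏ i ∈ range (2 * j), (X + C ((i : R) + 1))
noncomputable def Bj (h : R) (p j : ℕ) : R[X] := ∏ i ∈ Ico (j + 1) p, (X + C (h + (i : R)))
noncomputable def Bj0 (h : R) (p j : ℕ) : R[X] := ∏ i ∈ Ico j p, (X + C (h + (i : R)))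

lemma Aj'_mul (j : ℕ) : X * Aj' R j = Aj R j * (X + C (2 * (j : R))) := by
  have h1 : ∏ i ∈ range (2 * j + 1), (X + C (i : R)) = Aj' R j * (X + C ((0 : ℕ) : R)) := by
    rw [prod_range_succ', Aj']
    push_cast; rfl
  rw [prod_range_succ] at h1
  rw [Aj]
  push_cast at h1 ⊢
  rw [h1]; simp [mul_comm]

lemma Aj_succ (j : ℕ) : Aj R (j + 1) =
    Aj R j * ((X + C (2 * (j : R))) * (X + C (2 * (j : R) + 1))) := by
  rw [Aj, show 2 * (j + 1) = 2 * j + 1 + 1 by ring, prod_range_succ, prod_range_succ, Aj]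
  push_cast; ring

lemma Aj'_comp (j : ℕ) : (Aj' R j).comp (X + C (-1)) = Aj R j := by
  rw [Aj', Polynomial.prod_comp, Aj]
  refine prod_congr rfl fun i _ => ?_
  simp only [add_comp, X_comp, C_comp]
  rw [add_assoc, ← C_add]
  congr 2; ring

lemma Bj0_eq (h : R) (p j : ℕ) (hj : j < p) : Bj0 h p j = (X + C (h + (j : R))) * Bj h p j := by
  rw [Bj0, prod_eq_prod_Ico_succ_bot hj, Bj]

lemma Bj_comp (h : R) (h2 : 2 * h = 1) (p j : ℕ) (hp0 : (p : R) = 0) (hj : j < p) :
    (X - C h) * (Bj h p j).comp (X + C (-1)) = (X + C (h + (j : R))) * Bj h p j := by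
  rw [← Bj0_eq h p j hj]
  obtain ⟨q, rfl⟩ : ∃ q, p = q + 1 := ⟨p - 1, by omega⟩
  rw [Bj0, prod_Ico_succ_top (by omega), Bj, Polynomial.prod_comp]
  have h3 : ∏ i ∈ Ico (j + 1) (q + 1), (X + C (h + (i : R))).comp (X + C (-1))
      = ∏ i ∈ Ico j q, (X + C (h + (i : R))) := by
    refine (prod_Ico_add' (fun i : ℕ => (X + C (h + (i : R))).comp (X + C (-1))) j q 1).symm.trans ?_
    refine prod_congr rfl fun i _ => ?_
    simp only [add_comp, X_comp, C_comp]
    rw [add_assoc, ← C_add]
    congr 2; push_cast; ring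
  rw [h3, mul_comm]
  congr 1
  have h4 : (q : R) = -1 := by
    push_cast at hp0; exact eq_neg_of_add_eq_zero_left hp0
  rw [h4, sub_eq_add_neg, ← C_neg]
  congr 2
  linear_combination -h2

noncomputable def Nj (q h : R) (p j : ℕ) : R[X] := C (q ^ j) * (Aj' R j * Bj h p j ^ 2)
noncomputable def Vj (q h : R) (p j : ℕ) : R[X] :=
  C (q ^ j) * ((3 * X + C (2 * (j : R) - 1)) * (Aj R j * Bj0 h p j ^ 2))

lemma tel (q h : R) (hq : 4 * q = 1) (h2 : 2 * h = 1) (p j : ℕ) (hp0 : (p : R) = 0) (hj : j < p) :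
    X ^ 3 * Nj q h p j + (2 * X - 1) ^ 3 * (Nj q h p j).comp (X + C (-1)) =
      4 * Vj q h p j - 4 * Vj q h p (j + 1) := by
  have e1 := Aj'_mul (R := R) j
  have e2 := Bj_comp h h2 p j hp0 hj
  have e3 : 2 * C h = (1 : R[X]) := by
    rw [← C_1, ← h2, C_mul]; rfl
  have e4 : 4 * C q = (1 : R[X]) := by
    rw [← C_1, ← hq, C_mul]; rfl
  have e5 : (2 * X - 1 : R[X]) = 2 * (X - C h) := by linear_combination e3
  rw [Nj, Vj, Vj, mul_comp, C_comp, mul_comp, pow_comp, Aj'_comp, Aj_succ, Bj0_eq h p j hj, e5]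
  have e6 : Bj0 h p (j + 1) = Bj h p j := rfl
  rw [e6, pow_succ (n := j), C_mul]
  set Q := C (q ^ j)
  set a := Aj R j
  set a' := Aj' R j
  set b := Bj h p j
  set bc := (Bj h p j).comp (X + C (-1))
  simp only [C_add, C_sub, C_mul, Nat.cast_add, Nat.cast_one, C_1] at e1 e2 ⊢
  rw [show (C (2 : R) : R[X]) = 2 from rfl] at e1 ⊢
  set H := C h
  set J := C (j : R)
  set q' := C q
  linear_combination (X ^ 2 * Q * b ^ 2) * e1
    + (8 * (X - H) * Q * a * ((X - H) * bc + (X + (H + J)) * b)) * e2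
    + (-(Q * a * b ^ 2) * ((2 * X + 2 * J + 1) ^ 2 + 2 * (2 * X + 2 * J + 1) * (X + 2 * J)
        + (2 * (2 * X + 2 * J + 1) + (X + 2 * J)) * (2 * H - 1) + (2 * H - 1) ^ 2)) * e3
    + (Q * a * b ^ 2 * ((3 * X + 2 * J + 1) * (X + 2 * J) * (X + 2 * J + 1))) * e4

end Tel

end Crest.Agent.R006.LemL255
end

-- ▼ part R006/P4_LemC_255
section

/-!
Row 6, block P4: base case `L (θ² Q) = 0` in characteristic `p`, second half.
-/

set_option autoImplicit false

namespace Crest.Agent.R006.LemL255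

open Polynomial Finset

variable {R : Type*} [CommRing R]

noncomputable def MM (q h : R) (p : ℕ) : R[X] := ∑ j ∈ range p, Nj q h p j

lemma four_pow (p : ℕ) [hp : Fact p.Prime] (hp0 : (p : R) = 0) : (4 : R) ^ p = 4 := by
  have h1 : ((4 ^ p - 4 : ℤ) : ZMod p) = 0 := by
    push_cast; rw [ZMod.pow_card]; ring
  obtain ⟨k, hk⟩ := (ZMod.intCast_zmod_eq_zero_iff_dvd _ p).1 h1
  have h2 : ((4 ^ p - 4 : ℤ) : R) = ((p * k : ℤ) : R) := by rw [hk]
  push_cast at h2
  rw [hp0, zero_mul] at h2
  exact sub_eq_zero.1 h2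

lemma q_pow (p : ℕ) [hp : Fact p.Prime] (hp0 : (p : R) = 0) (q : R) (hq : 4 * q = 1) : q ^ p = q := by
  have h1 : q ^ p * 4 = 1 := by
    conv_lhs => rw [← four_pow p hp0]
    rw [← mul_pow, mul_comm q, hq, one_pow]
  calc q ^ p = q ^ p * (4 * q) := by rw [hq, mul_one]
    _ = (q ^ p * 4) * q := by ring
    _ = q := by rw [h1, one_mul]

lemma MM_eq (p : ℕ) [hp : Fact p.Prime] (hodd : Odd p) (hp0 : (p : R) = 0) (q h : R)
    (hq : 4 * q = 1) (h2 : 2 * h = 1) :
    X ^ 3 * MM q h p + (2 * X - 1) ^ 3 * (MM q h p).comp (X + C (-1)) =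
      3 * (3 * X - 1) * theta R p ^ 2 := by
  have h1 : X ^ 3 * MM q h p + (2 * X - 1) ^ 3 * (MM q h p).comp (X + C (-1)) =
      ∑ j ∈ range p, (4 * Vj q h p j - 4 * Vj q h p (j + 1)) := by
    rw [MM, Polynomial.sum_comp, mul_sum, mul_sum, ← sum_add_distrib]
    exact sum_congr rfl fun j hj => tel q h hq h2 p j hp0 (mem_range.mp hj)
  rw [h1, sum_range_sub']
  have hV0 : Vj q h p 0 = (3 * X - 1) * theta R p ^ 2 := by
    rw [Vj, Aj, Bj0, ← range_eq_Ico, prod_half hp0 hodd h h2]
    simp [sub_eq_add_neg]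
  have hVp : Vj q h p p = C q * ((3 * X - 1) * theta R p ^ 2) := by
    rw [Vj, Aj, Bj0, Ico_self, prod_empty, prod_two_p hp0, q_pow p hp0 q hq, hp0]
    simp [sub_eq_add_neg]
  have e4 : 4 * C q = (1 : R[X]) := by
    rw [← C_1, ← hq, C_mul]; rfl
  rw [hV0, hVp]
  linear_combination (-((3 * X - 1) * theta R p ^ 2)) * e4

lemma natDegree_Nj_le (q h : R) (p j : ℕ) (hj : j < p) : (Nj q h p j).natDegree ≤ 2 * p - 2 := by
  have hlin : ∀ a : R, (X + C a : R[X]).natDegree ≤ 1 := fun a => by compute_degree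
  have h1 : (Aj' R j).natDegree ≤ 2 * j := by
    refine (natDegree_prod_le _ _).trans ?_
    refine (sum_le_sum fun i _ => hlin _).trans ?_
    simp
  have h3 : (Bj h p j).natDegree ≤ p - (j + 1) := by
    refine (natDegree_prod_le _ _).trans ?_
    refine (sum_le_sum fun i _ => hlin _).trans ?_
    simp
  have h4 : (Bj h p j ^ 2).natDegree ≤ 2 * (p - (j + 1)) := natDegree_pow_le_of_le 2 h3
  have h5 := natDegree_mul_le_of_le h1 h4
  have h6 : (C (q ^ j) : R[X]).natDegree ≤ 0 := (natDegree_C _).le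
  have h7 := natDegree_mul_le_of_le h6 h5
  unfold Nj
  omega

lemma natDegree_MM_le (q h : R) (p : ℕ) : (MM q h p).natDegree ≤ 2 * p - 2 := by
  refine natDegree_sum_le_of_forall_le _ _ fun j hj => ?_
  exact natDegree_Nj_le q h p j (mem_range.mp hj)

lemma theta_monic (R : Type*) [CommRing R] (p : ℕ) : (theta R p).Monic :=
  monic_prod_of_monic _ _ fun _ _ => monic_X_sub_C _

lemma natDegree_theta (R : Type*) [CommRing R] [Nontrivial R] (p : ℕ) :
    (theta R p).natDegree = p := by
  rw [theta, natDegree_prod_of_monic _ _ fun i _ => monic_X_sub_C _]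
  simp only [natDegree_X_sub_C]; simp

lemma natDegree_theta_sq (R : Type*) [CommRing R] [Nontrivial R] (p : ℕ) :
    (theta R p ^ 2).natDegree = 2 * p := by
  rw [(theta_monic R p).natDegree_pow, natDegree_theta]

lemma theta_coeff_pred [Nontrivial R] (p : ℕ) (hpos : 0 < p) :
    (theta R p).coeff (p - 1) = - ∑ i ∈ range p, (i : R) := by
  have := prod_X_sub_C_coeff_card_pred (range p) (fun i : ℕ => (i : R)) (by simpa using hpos)
  rw [card_range] at this
  exact this

lemma theta_sq_coeff_pred [Nontrivial R] (p : ℕ) (hpos : 0 < p) (hp0 : (p : R) = 0) :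
    (theta R p ^ 2).coeff (2 * p - 1) = 0 := by
  obtain ⟨n, rfl⟩ : ∃ n, p = n + 1 := ⟨p - 1, by omega⟩
  -- write `theta = X^p + c X^(p-1) + lower`
  have hdeg := natDegree_theta R (n + 1)
  set T := theta R (n + 1) with hT
  have hc1 : T.coeff (n + 1) = 1 := by
    have := (theta_monic R (n + 1)).coeff_natDegree
    rw [← hT, hdeg] at this; exact this
  have hc2 : T.coeff n = - ∑ i ∈ range (n + 1), (i : R) := theta_coeff_pred (n + 1) hpos
  have hlt : ∀ m, n + 1 < m → T.coeff m = 0 := fun m hm =>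
    coeff_eq_zero_of_natDegree_lt (by omega)
  rw [sq, coeff_mul, show 2 * (n + 1) - 1 = 2 * n + 1 by omega]
  rw [Nat.sum_antidiagonal_eq_sum_range_succ (fun i j => T.coeff i * T.coeff j)]
  have h1 : ∀ i ∈ range (2 * n + 1).succ, i ∉ ({n, n + 1} : Finset ℕ) →
      T.coeff i * T.coeff (2 * n + 1 - i) = 0 := by
    intro i hi hni
    simp only [mem_insert, mem_singleton, not_or] at hni
    have hi' := mem_range.mp hi
    rcases Nat.lt_or_ge i n with h | h
    · rw [hlt (2 * n + 1 - i) (by omega), mul_zero]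
    · rw [hlt i (by omega), zero_mul]
  rw [← sum_subset (s₁ := ({n, n + 1} : Finset ℕ)) (by
    intro i hi
    simp only [mem_insert, mem_singleton] at hi
    rw [mem_range]; omega) h1]
  rw [sum_pair (by omega), show 2 * n + 1 - n = n + 1 by omega,
    show 2 * n + 1 - (n + 1) = n by omega, hc1, hc2]
  have h3 : ((∑ i ∈ range (n + 1), i : ℕ) * 2 : ℕ) = (n + 1) * n := by
    rw [sum_range_id_mul_two]; simp
  have h4 : (∑ i ∈ range (n + 1), (i : R)) * 2 = 0 := by
    have := congrArg (fun t : ℕ => (t : R)) h3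
    simp only [Nat.cast_mul, Nat.cast_sum] at this
    rw [hp0, zero_mul] at this
    exact_mod_cast this
  linear_combination -h4

/-- coefficient comparison in `MM_eq` -/
lemma MM_coeffs [Nontrivial R] (h3u : IsUnit (3 : R)) (p : ℕ) [hp : Fact p.Prime] (hodd : Odd p)
    (hp0 : (p : R) = 0) (q h : R) (hq : 4 * q = 1) (h2 : 2 * h = 1) :
    (MM q h p).coeff (2 * p - 2) = 1 ∧ 9 * (MM q h p).coeff (2 * p - 3) = -7 := by
  have hp3 : 3 ≤ p := by
    have := hp.out.two_le
    rcases hodd with ⟨k, hk⟩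
    omega
  have h9 : IsUnit (9 : R) := by
    have : (9 : R) = 3 * 3 := by norm_num
    rw [this]; exact h3u.mul h3u
  obtain ⟨n, hn⟩ : ∃ n, 2 * p = n + 3 := ⟨2 * p - 3, by omega⟩
  have hM := natDegree_MM_le q h p
  have hE := MM_eq p hodd hp0 q h hq h2
  have hD1 : (theta R p ^ 2).coeff (n + 3) = 1 := by
    have h5 := ((theta_monic R p).pow 2).coeff_natDegree
    rw [natDegree_theta_sq, hn] at h5; exact h5
  have hD2 : (theta R p ^ 2).coeff (n + 2) = 0 := by
    have := theta_sq_coeff_pred (R := R) p (by omega) hp0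
    rwa [hn, show n + 3 - 1 = n + 2 by omega] at this
  have hD3 : ∀ m, n + 3 < m → (theta R p ^ 2).coeff m = 0 := fun m hm =>
    coeff_eq_zero_of_natDegree_lt (by rw [natDegree_theta_sq]; omega)
  rw [hn, show n + 3 - 2 = n + 1 by omega, show n + 3 - 3 = n by omega]
  rw [hn, show n + 3 - 2 = n + 1 by omega] at hM
  set M := MM q h p
  set N := M.comp (X + C (-1)) with hN
  have hN1 : N.coeff (n + 1) = M.coeff (n + 1) := coeff_comp_top M (-1) (n + 1) hM
  have hN0 : N.coeff n = M.coeff n + (n + 1) * (-1) * M.coeff (n + 1) :=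
    coeff_comp_pred M (-1) n hM
  have hNd : ∀ m, n + 1 < m → N.coeff m = 0 := by
    intro m hm
    have : N.coeff m = M.coeff m := coeff_comp_top M (-1) m (by omega)
    rw [this]; exact coeff_eq_zero_of_natDegree_lt (by omega)
  have hMd : ∀ m, n + 1 < m → M.coeff m = 0 := fun m hm => coeff_eq_zero_of_natDegree_lt (by omega)
  have hE' : X ^ 3 * M + (C 8 * (X ^ 3 * N) - C 12 * (X ^ 2 * N) + C 6 * (X * N) - N) =
      C 9 * (X * theta R p ^ 2) - C 3 * theta R p ^ 2 := by
    have c8 : (C (8 : R) : R[X]) = 8 := rfl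
    have c12 : (C (12 : R) : R[X]) = 12 := rfl
    have c6 : (C (6 : R) : R[X]) = 6 := rfl
    have c9 : (C (9 : R) : R[X]) = 9 := rfl
    have c3 : (C (3 : R) : R[X]) = 3 := rfl
    rw [c8, c12, c6, c9, c3]
    linear_combination hE
  have co := fun k => congrArg (fun F : R[X] => F.coeff k) hE'
  have co1 := co (n + 4)
  have co2 := co (n + 3)
  simp only [coeff_add, coeff_sub, coeff_C_mul] at co1 co2
  rw [show n + 4 = (n + 1) + 3 by ring, coeff_X_pow_mul, coeff_X_pow_mul,
    show (n + 1) + 3 = (n + 2) + 2 by ring, coeff_X_pow_mul, show (n + 2) + 2 = (n + 3) + 1 by ring,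
    coeff_X_mul, coeff_X_mul, hD1, hD3 (n + 3 + 1) (by omega), hNd (n + 2) (by omega),
    hNd (n + 3) (by omega), hNd (n + 3 + 1) (by omega), hN1] at co1
  have hm1 : M.coeff (n + 1) = 1 := by
    have h5 : 9 * (M.coeff (n + 1) - 1) = 0 := by linear_combination co1
    have := (h9.mul_right_eq_zero).mp h5
    exact sub_eq_zero.1 this
  refine ⟨hm1, ?_⟩
  rw [coeff_X_pow_mul, coeff_X_pow_mul, show n + 3 = (n + 1) + 2 by ring, coeff_X_pow_mul,
    show (n + 1) + 2 = (n + 2) + 1 by ring, coeff_X_mul, coeff_X_mul, hD2,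
    show n + 2 + 1 = n + 3 by ring, hD1, hNd (n + 2) (by omega), hNd (n + 3) (by omega), hN1, hN0,
    hm1] at co2
  have hn3 : ((n : R) + 3) = 0 := by
    have : ((2 * p : ℕ) : R) = ((n + 3 : ℕ) : R) := by rw [hn]
    push_cast at this
    rw [← this, hp0]; ring
  linear_combination co2 + 8 * hn3

end Crest.Agent.R006.LemL255
end

-- ▼ part R006/P4_LemD_255
section

/-!
Row 6, block P4: base case `L (θ² Q) = 0` in characteristic `p` (end), and its lift mod `p`.
-/

set_option autoImplicit false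

namespace Crest.Agent.R006.LemL255

open Polynomial Finset

variable {R : Type*} [CommRing R]

/-- In characteristic `p ≥ 5` the moment functional of `ψ_∞` kills `θ² R[X]`. -/
theorem base_charp (p : ℕ) [hp : Fact p.Prime] (hodd : Odd p) (hp0 : (p : R) = 0)
    (h2u : IsUnit (2 : R)) (h3u : IsUnit (3 : R)) (L : R[X] →ₗ[R] R) (hL : IsMom L) (Q : R[X]) :
    L (theta R p ^ 2 * Q) = 0 := by
  nontriviality R
  obtain ⟨h, h2⟩ := h2u.exists_right_inv
  obtain ⟨q, hq⟩ : ∃ q : R, 4 * q = 1 := ⟨h * h, by linear_combination (2 * h + 1) * h2⟩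
  have h9 : IsUnit (9 : R) := by
    have : (9 : R) = 3 * 3 := by norm_num
    rw [this]; exact h3u.mul h3u
  have hp3 : 3 ≤ p := by
    have := hp.out.two_le
    rcases hodd with ⟨k, hk⟩
    omega
  set D := theta R p ^ 2 with hD
  set M := MM q h p with hM
  have hDm : D.Monic := (theta_monic R p).pow 2
  have hDn : D.natDegree = 2 * p := natDegree_theta_sq R p
  have hDs : D.comp (X + C (1 : R)) = D := by
    have := theta_comp (R := R) hp0 1
    rw [Nat.cast_one] at this
    rw [hD, pow_comp, this]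
  have hMd : M.natDegree ≤ 2 * p - 2 := natDegree_MM_le q h p
  obtain ⟨hm2, hm3⟩ := MM_coeffs h3u p hodd hp0 q h hq h2
  have hE := MM_eq p hodd hp0 q h hq h2
  -- the functional of the rational function `M / D`
  set L' : R[X] →ₗ[R] R := (res D) ∘ₗ (LinearMap.mulRight R M) with hL'
  have hL'a : ∀ F, L' F = res D (F * M) := fun F => rfl
  have key' : ∀ P : R[X], L' (X ^ 3 * P + (2 * X + 1) ^ 3 * P.comp (X + 1)) = 0 := by
    intro P
    rw [hL'a, add_mul, map_add]
    have e1 : (2 * X + 1) ^ 3 * P.comp (X + 1) * M =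
        ((2 * X - 1) ^ 3 * P * M.comp (X + C (-1))).comp (X + C (1 : R)) := by
      have hc : (M.comp (X + C (-1))).comp (X + C (1 : R)) = M := by
        rw [comp_assoc]
        have : (X + C (-1 : R)).comp (X + C (1 : R)) = X := by
          simp only [add_comp, X_comp, C_comp]
          rw [C_neg, C_1]; ring
        rw [this, comp_X]
      have h2c : (2 : R[X]).comp (X + C (1 : R)) = 2 := by
        rw [show (2 : R[X]) = C 2 from rfl, C_comp]
      rw [mul_comp, mul_comp, pow_comp, sub_comp, mul_comp, X_comp, one_comp, h2c, hc, C_1]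
      ring
    rw [e1, res_shift D hDm 1 hDs (by omega), ← map_add]
    have e2 : X ^ 3 * P * M + (2 * X - 1) ^ 3 * P * M.comp (X + C (-1)) =
        D * (3 * (3 * X - 1) * P) := by
      linear_combination P * hE
    rw [e2, res_mul_self D hDm]
  have v0 : L' 1 = 0 := by
    rw [hL'a, one_mul, res_of_lt D M hDm (degree_lt_degree (by omega)), hDn]
    exact coeff_eq_zero_of_natDegree_lt (by omega)
  have v1 : L' X = 1 := by
    have hd : (X * M).natDegree ≤ 1 + (2 * p - 2) := natDegree_mul_le_of_le natDegree_X_le hMd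
    rw [hL'a, res_of_lt D _ hDm (degree_lt_degree (by omega)), hDn,
      show 2 * p - 1 = (2 * p - 2) + 1 by omega, coeff_X_mul]
    exact hm2
  have v2 : 9 * L' (X ^ 2) = -7 := by
    have hd : (X ^ 2 * M).natDegree ≤ 2 + (2 * p - 2) :=
      natDegree_mul_le_of_le (natDegree_X_pow_le 2) hMd
    have hdd : (X ^ 2 * M - D).natDegree < 2 * p := by
      refine lt_of_le_of_lt (natDegree_le_pred (n := 2 * p) ?_ ?_) (by omega)
      · exact (natDegree_sub_le _ _).trans (max_le (by omega) hDn.le)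
      · rw [coeff_sub]
        have c1 : D.coeff (2 * p) = 1 := by
          have := hDm.coeff_natDegree; rwa [hDn] at this
        rw [c1, show 2 * p = (2 * p - 2) + 2 by omega, coeff_X_pow_mul, hm2, sub_self]
    have e1 : X ^ 2 * M = (X ^ 2 * M - D) + D * 1 := by ring
    rw [hL'a, e1, map_add, res_mul_self D hDm, add_zero,
      res_of_lt D _ hDm (degree_lt_degree (by omega)), hDn, coeff_sub,
      show 2 * p - 1 = (2 * p - 3) + 2 by omega, coeff_X_pow_mul,
      show 2 * p - 3 + 2 = 2 * p - 1 by omega, theta_sq_coeff_pred p (by omega) hp0, sub_zero]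
    exact hm3
  have hz : (6 : R) • L + L' = 0 := by
    apply eq_zero_of_key h3u
    · intro P
      rw [LinearMap.add_apply, LinearMap.smul_apply, hL.key P, key' P]; simp
    · rw [LinearMap.add_apply, LinearMap.smul_apply, hL.m0, v0]; simp
    · rw [LinearMap.add_apply, LinearMap.smul_apply, v1, smul_eq_mul, hL.m1]; ring
    · have : 9 * (((6 : R) • L + L') (X ^ 2)) = 0 := by
        rw [LinearMap.add_apply, LinearMap.smul_apply, smul_eq_mul]
        linear_combination hL.m2 + v2
      exact (h9.mul_right_eq_zero).mp this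
  have h6 : IsUnit (6 : R) := by
    have : (6 : R) = 2 * 3 := by norm_num
    rw [this]; exact h2u.mul h3u
  have h7 := congrArg (fun f : R[X] →ₗ[R] R => f (D * Q)) hz
  simp only [LinearMap.add_apply, LinearMap.smul_apply, smul_eq_mul, LinearMap.zero_apply] at h7
  rw [hL'a, mul_assoc, res_mul_self D hDm, add_zero] at h7
  exact (h6.mul_right_eq_zero).mp h7

end Crest.Agent.R006.LemL255
end

-- ▼ part R006/P4_LemE_255
section

/-!
Row 6, block P4: base change of the moment functional, Lemma L for `I^k`, `I = (p, θ)`.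
-/

set_option autoImplicit false

namespace Crest.Agent.R006.LemL255

open Polynomial Finset

section BaseChange

variable {O R : Type*} [CommRing O] [CommRing R]

/-- base change of a functional on polynomials -/
noncomputable def mapMom (φ : O →+* R) (L : O[X] →ₗ[O] O) : R[X] →ₗ[R] R :=
  Polynomial.lsum fun i => LinearMap.toSpanSingleton R R (φ (L (X ^ i)))

lemma mapMom_monomial (φ : O →+* R) (L : O[X] →ₗ[O] O) (i : ℕ) (a : R) :
    mapMom φ L (monomial i a) = a * φ (L (X ^ i)) := by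
  rw [mapMom, lsum_apply, sum_monomial_index]
  · simp
  · simp


lemma mapMom_map (φ : O →+* R) (L : O[X] →ₗ[O] O) (P : O[X]) :
    mapMom φ L (P.map φ) = φ (L P) := by
  induction P using Polynomial.induction_on' with
  | add P Q hP hQ => rw [Polynomial.map_add, map_add, hP, hQ, map_add, map_add]
  | monomial n a =>
    rw [map_monomial, mapMom_monomial, ← smul_X_eq_monomial, map_smul, smul_eq_mul, map_mul]

lemma IsMom.map (φ : O →+* R) {L : O[X] →ₗ[O] O} (hL : IsMom L) : IsMom (mapMom φ L) where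
  key P := by
    induction P using Polynomial.induction_on' with
    | add P Q hP hQ =>
      have : X ^ 3 * (P + Q) + (2 * X + 1) ^ 3 * (P + Q).comp (X + 1) =
          (X ^ 3 * P + (2 * X + 1) ^ 3 * P.comp (X + 1)) +
          (X ^ 3 * Q + (2 * X + 1) ^ 3 * Q.comp (X + 1)) := by
        rw [add_comp]; ring
      rw [this, map_add, hP, hQ, add_zero]
    | monomial n a =>
      have h1 := hL.key (X ^ n)
      have h2 : X ^ 3 * (monomial n a : R[X]) + (2 * X + 1) ^ 3 * (monomial n a : R[X]).comp (X + 1) =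
          a • ((X ^ 3 * (X ^ n : O[X]) + (2 * X + 1) ^ 3 * (X ^ n : O[X]).comp (X + 1)).map φ) := by
        rw [← smul_X_eq_monomial, smul_comp, mul_smul_comm, mul_smul_comm, ← smul_add]
        congr 1
        simp only [Polynomial.map_add, Polynomial.map_mul, Polynomial.map_pow, map_X, X_pow_comp,
          Polynomial.map_one, Polynomial.map_ofNat]
      rw [h2, map_smul, mapMom_map, h1, map_zero, smul_zero]
  m0 := by
    have := mapMom_map φ L 1
    rw [Polynomial.map_one, hL.m0, map_zero] at this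
    exact this
  m1 := by
    have := mapMom_map φ L X
    rw [Polynomial.map_X] at this
    rw [this, ← map_ofNat φ 6, ← map_mul, hL.m1, map_neg, map_one]
  m2 := by
    have := mapMom_map φ L (X ^ 2)
    rw [Polynomial.map_pow, Polynomial.map_X] at this
    rw [this, ← map_ofNat φ 54, ← map_mul, hL.m2, map_ofNat]

end BaseChange

variable {O : Type*} [CommRing O]

lemma theta_map {R : Type*} [CommRing R] (φ : O →+* R) (p : ℕ) : (theta O p).map φ = theta R p := by
  rw [theta, Polynomial.map_prod, theta]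
  refine prod_congr rfl fun i _ => ?_
  simp

/-- base case modulo `p` -/
theorem base_mod (p : ℕ) [hp : Fact p.Prime] (hodd : Odd p) (h2u : IsUnit (2 : O))
    (h3u : IsUnit (3 : O)) (L : O[X] →ₗ[O] O) (hL : IsMom L) (Q : O[X]) :
    (p : O) ∣ L (theta O p ^ 2 * Q) := by
  set φ := Ideal.Quotient.mk (Ideal.span {(p : O)}) with hφ
  have hp0 : ((p : ℕ) : O ⧸ Ideal.span {(p : O)}) = 0 := by
    rw [← map_natCast φ, hφ, Ideal.Quotient.eq_zero_iff_mem]
    exact Ideal.mem_span_singleton_self _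
  have h2' : IsUnit (2 : O ⧸ Ideal.span {(p : O)}) := by
    have := h2u.map φ; rwa [map_ofNat] at this
  have h3' : IsUnit (3 : O ⧸ Ideal.span {(p : O)}) := by
    have := h3u.map φ; rwa [map_ofNat] at this
  have h := base_charp p hodd hp0 h2' h3' (mapMom φ L) (hL.map φ) (Q.map φ)
  rw [← theta_map φ, ← Polynomial.map_pow, ← Polynomial.map_mul, mapMom_map, hφ,
    Ideal.Quotient.eq_zero_iff_mem, Ideal.mem_span_singleton] at h
  exact h

end Crest.Agent.R006.LemL255
end

-- ▼ part R006/P4_LemF_255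
section

/-!
Row 6, block P4: Lemma L: `L (I^k) ⊆ p^(k-1)`, `I = (p, θ)`.
-/

set_option autoImplicit false

namespace Crest.Agent.R006.LemL255

open Polynomial Finset

variable {O : Type*} [CommRing O]

/-- `∏_{i<n} (2X + 2i + 1)` -/
noncomputable def thetaP (R : Type*) [CommRing R] (n : ℕ) : R[X] :=
  ∏ i ∈ range n, (2 * X + C (2 * (i : R) + 1))

lemma theta_succ_comp (n : ℕ) :
    (∏ i ∈ range n, (X - C ((i : O) + 1))).comp (X + 1) = theta O n := by
  rw [Polynomial.prod_comp, theta]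
  refine prod_congr rfl fun i _ => ?_
  simp only [sub_comp, X_comp, C_comp]
  rw [C_add, C_1]; ring

lemma theta_succ' (n : ℕ) : theta O (n + 1) = X * ∏ i ∈ range n, (X - C ((i : O) + 1)) := by
  rw [theta, prod_range_succ', mul_comm]
  push_cast
  simp

lemma key_iter {L : O[X] →ₗ[O] O} (hL : IsMom L) (n : ℕ) : ∀ P : O[X],
    L (theta O n ^ 3 * P) = (-1) ^ n * L (thetaP O n ^ 3 * P.comp (X + C (n : O))) := by
  induction n with
  | zero => intro P; simp [theta, thetaP]
  | succ n ih =>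
    intro P
    set E : O[X] := ∏ i ∈ range n, (X - C ((i : O) + 1)) with hE
    have h1 : theta O (n + 1) ^ 3 * P = X ^ 3 * (E ^ 3 * P) := by
      rw [theta_succ']; ring
    have h2 := hL.key (E ^ 3 * P)
    rw [map_add, mul_comp, pow_comp, hE, theta_succ_comp] at h2
    have h3 : (2 * X + 1) ^ 3 * (theta O n ^ 3 * P.comp (X + 1)) =
        theta O n ^ 3 * ((2 * X + 1) ^ 3 * P.comp (X + 1)) := by ring
    rw [h3, ih, ← hE] at h2
    have h4 : ((2 * X + 1) ^ 3 * P.comp (X + 1) : O[X]).comp (X + C (n : O)) =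
        (2 * X + C (2 * (n : O) + 1)) ^ 3 * P.comp (X + C ((n + 1 : ℕ) : O)) := by
      have h2c : (2 : O[X]).comp (X + C (n : O)) = 2 := by
        rw [show (2 : O[X]) = C 2 from rfl, C_comp]
      rw [mul_comp, pow_comp, add_comp, mul_comp, X_comp, one_comp, h2c, comp_assoc, add_comp,
        X_comp, one_comp]
      have e1 : (X + C (n : O) + 1 : O[X]) = X + C ((n + 1 : ℕ) : O) := by
        push_cast; rw [C_add, C_1]; ring
      have e2 : (2 * (X + C (n : O)) + 1 : O[X]) = 2 * X + C (2 * (n : O) + 1) := by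
        rw [C_add, C_mul, C_1, show (C (2 : O) : O[X]) = 2 from rfl]; ring
      rw [e1, e2]
    rw [h4] at h2
    have h5 : thetaP O (n + 1) ^ 3 * P.comp (X + C ((n + 1 : ℕ) : O)) =
        thetaP O n ^ 3 * ((2 * X + C (2 * (n : O) + 1)) ^ 3 * P.comp (X + C ((n + 1 : ℕ) : O))) := by
      rw [thetaP, prod_range_succ, ← thetaP]; ring
    rw [h1, h5, pow_succ (-1 : O) n]
    linear_combination h2

lemma dvd_of_map_mk (a : O) (F : O[X]) (h : F.map (Ideal.Quotient.mk (Ideal.span {a})) = 0) :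
    C a ∣ F := by
  have h1 : F ∈ RingHom.ker (mapRingHom (Ideal.Quotient.mk (Ideal.span {a}))) := by
    rw [RingHom.mem_ker]; exact h
  rw [ker_mapRingHom, Ideal.mk_ker, Ideal.map_span, Set.image_singleton,
    Ideal.mem_span_singleton] at h1
  exact h1

section Cong

variable (p : ℕ)

lemma quot_p_zero : ((p : ℕ) : O ⧸ Ideal.span {(p : O)}) = 0 := by
  rw [← map_natCast (Ideal.Quotient.mk (Ideal.span {(p : O)})), Ideal.Quotient.eq_zero_iff_mem]
  exact Ideal.mem_span_singleton_self _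

lemma cong_comp (Q : O[X]) : C (p : O) ∣ Q.comp (X + C (p : O)) - Q := by
  apply dvd_of_map_mk
  rw [Polynomial.map_sub, Polynomial.map_comp, Polynomial.map_add, map_X, map_C, map_natCast,
    quot_p_zero, C_0, add_zero, comp_X, sub_self]

lemma two_pow_charp {R : Type*} [CommRing R] [hp : Fact p.Prime] (hp0 : (p : R) = 0) :
    (2 : R) ^ p = 2 := by
  have h1 : ((2 ^ p - 2 : ℤ) : ZMod p) = 0 := by
    push_cast; rw [ZMod.pow_card]; ring
  obtain ⟨k, hk⟩ := (ZMod.intCast_zmod_eq_zero_iff_dvd _ p).1 h1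
  have h2 : ((2 ^ p - 2 : ℤ) : R) = ((p * k : ℤ) : R) := by rw [hk]
  push_cast at h2
  rw [hp0, zero_mul] at h2
  exact sub_eq_zero.1 h2

lemma cong_thetaP [hp : Fact p.Prime] (hodd : Odd p) (h2u : IsUnit (2 : O)) :
    C (p : O) ∣ thetaP O p - 2 * theta O p := by
  apply dvd_of_map_mk
  set φ := Ideal.Quotient.mk (Ideal.span {(p : O)}) with hφ
  have hp0 := quot_p_zero (O := O) p
  obtain ⟨h, h2⟩ := h2u.exists_right_inv
  have h2' : 2 * φ h = 1 := by
    rw [← map_ofNat φ 2, ← map_mul, h2, map_one]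
  have e1 : (thetaP O p).map φ = thetaP _ p := by
    rw [thetaP, Polynomial.map_prod, thetaP]
    refine prod_congr rfl fun i _ => ?_
    rw [Polynomial.map_add, Polynomial.map_mul, Polynomial.map_ofNat, map_X, map_C,
      map_add, map_mul, map_natCast, map_one, map_ofNat]
  have e2 : thetaP (O ⧸ Ideal.span {(p : O)}) p = 2 * theta _ p := by
    rw [thetaP, ← prod_half hp0 hodd (φ h) h2']
    have : ∀ i ∈ range p, (2 * X + C (2 * (i : O ⧸ Ideal.span {(p : O)}) + 1)) =
        C 2 * (X + C (φ h + (i : O ⧸ Ideal.span {(p : O)}))) := by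
      intro i _
      rw [mul_add, ← C_mul, show (C (2 : O ⧸ Ideal.span {(p : O)}) : (O ⧸ Ideal.span {(p : O)})[X])
        = 2 from rfl]
      congr 2
      linear_combination -h2'
    rw [prod_congr rfl this, prod_mul_distrib, prod_const, card_range, ← C_pow,
      two_pow_charp p hp0]
    rfl
  rw [Polynomial.map_sub, Polynomial.map_mul, theta_map, e1, e2, Polynomial.map_ofNat, sub_self]

end Cong

end Crest.Agent.R006.LemL255
end

-- ▼ part R006/P4_LemG_255

/-!
Row 6, block P4: Lemma L: `L (I^k) ⊆ p^(k-1)`, `I = (p, θ)`.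
-/

set_option autoImplicit false

namespace Crest.Agent.R006.LemL255

open Polynomial Finset

variable {O : Type*} [CommRing O]

/-- the ideal `(p, θ)` -/
noncomputable def Ith (O : Type*) [CommRing O] (p : ℕ) : Ideal O[X] :=
  Ideal.span {C (p : O), theta O p}

lemma theta_mem (p : ℕ) : theta O p ∈ Ith O p := Ideal.subset_span (by simp)
lemma Cp_mem (p : ℕ) : C (p : O) ∈ Ith O p := Ideal.subset_span (by simp)

lemma mem_pow_aux (p : ℕ) (L : O[X] →ₗ[O] O) (n : ℕ)
    (hyp : ∀ m ≤ n, ∀ Q, (p : O) ^ (m - 1) ∣ L (theta O p ^ m * Q)) :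
    ∀ k j : ℕ, k + j ≤ n → ∀ F ∈ Ith O p ^ k, (p : O) ^ (k + j - 1) ∣ L (theta O p ^ j * F) := by
  intro k
  induction k with
  | zero =>
    intro j hj F _
    rw [zero_add] at hj ⊢
    exact hyp j hj F
  | succ k ih =>
    intro j hj F hF
    rw [pow_succ] at hF
    refine Submodule.mul_induction_on hF (fun a ha b hb => ?_) (fun x y hx hy => ?_)
    · obtain ⟨x, y, hxy⟩ := Ideal.mem_span_pair.1 hb
      have h1 : theta O p ^ j * (a * b) =
          (p : O) • (theta O p ^ j * (a * x)) + theta O p ^ (j + 1) * (a * y) := by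
        rw [← hxy, smul_eq_C_mul]; ring
      rw [h1, map_add, map_smul, smul_eq_mul]
      refine dvd_add ?_ ?_
      · have h2 := ih j (by omega) (a * x) (Ideal.mul_mem_right _ _ ha)
        have h3 := mul_dvd_mul_left (p : O) h2
        refine dvd_trans ?_ h3
        rw [← pow_succ']
        exact pow_dvd_pow _ (by omega)
      · have h2 := ih (j + 1) (by omega) (a * y) (Ideal.mul_mem_right _ _ ha)
        rwa [show k + (j + 1) - 1 = k + 1 + j - 1 by omega] at h2
    · rw [mul_add, map_add]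
      exact dvd_add hx hy

/-- the main induction: existence of the correction term -/
lemma corr_mem (p : ℕ) (m : ℕ) (S t t' Q Q' η ζ ξ : O[X]) (I : Ideal O[X]) (ht : t ∈ I)
    (hp : C (p : O) ∈ I) (hS : S = 2 * t + C (p : O) * η) (ht' : t' = t + C (p : O) * ζ)
    (hQ : Q' = Q + C (p : O) * ξ) :
    ∃ W ∈ I ^ (m + 2), S ^ 3 * (t' ^ m * Q') = 8 * (t ^ (m + 3) * Q) + C (p : O) * W := by
  have hSI : S ∈ I := by
    rw [hS]; exact I.add_mem (I.mul_mem_left _ ht) (I.mul_mem_right _ hp)
  have ht'I : t' ∈ I := by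
    rw [ht']; exact I.add_mem ht (I.mul_mem_right _ hp)
  set W1 := η * (S ^ 2 + 2 * t * S + 4 * t ^ 2) with hW1
  have hW1I : W1 ∈ I ^ 2 := by
    rw [hW1]
    refine Ideal.mul_mem_left _ _ (Ideal.add_mem _ (Ideal.add_mem _ (Ideal.pow_mem_pow hSI 2) ?_) ?_)
    · rw [sq, mul_assoc]
      exact Ideal.mul_mem_left _ _ (Ideal.mul_mem_mul ht hSI)
    · exact Ideal.mul_mem_left _ _ (Ideal.pow_mem_pow ht 2)
  have h1 : S ^ 3 - 8 * t ^ 3 = C (p : O) * W1 := by
    rw [hW1]
    have : S - 2 * t = C (p : O) * η := by rw [hS]; ring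
    linear_combination (S ^ 2 + 2 * t * S + 4 * t ^ 2) * this
  set W2 := ζ * ∑ i ∈ range m, t' ^ i * t ^ (m - 1 - i) with hW2
  have h2 : t' ^ m - t ^ m = C (p : O) * W2 := by
    rw [hW2, ← geom_sum₂_mul t' t m]
    have : t' - t = C (p : O) * ζ := by rw [ht']; ring
    rw [this]; ring
  have hW2I : t ^ 3 * W2 ∈ I ^ (m + 2) := by
    rcases Nat.eq_zero_or_pos m with hm | hm
    · rw [hW2, hm]; simp
    · have h3 : W2 ∈ I ^ (m - 1) := by
        rw [hW2]
        refine Ideal.mul_mem_left _ _ (Ideal.sum_mem _ fun i hi => ?_)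
        have hi' := mem_range.mp hi
        have : i + (m - 1 - i) = m - 1 := by omega
        have h := Ideal.mul_mem_mul (Ideal.pow_mem_pow ht'I i) (Ideal.pow_mem_pow ht (m - 1 - i))
        rw [← pow_add, this] at h
        exact h
      have h4 := Ideal.mul_mem_mul (Ideal.pow_mem_pow ht 3) h3
      rw [← pow_add] at h4
      rwa [show 3 + (m - 1) = m + 2 by omega] at h4
  refine ⟨W1 * (t' ^ m * Q') + 8 * (t ^ 3 * W2) * Q' + 8 * (t ^ (m + 3)) * ξ, ?_, ?_⟩
  · refine Ideal.add_mem _ (Ideal.add_mem _ ?_ ?_) ?_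
    · have := Ideal.mul_mem_mul hW1I (Ideal.pow_mem_pow ht'I m)
      rw [← pow_add, add_comm 2 m] at this
      rw [← mul_assoc]
      exact Ideal.mul_mem_right _ _ this
    · exact Ideal.mul_mem_right _ _ (Ideal.mul_mem_left _ _ hW2I)
    · refine Ideal.mul_mem_right _ _ (Ideal.mul_mem_left _ _ ?_)
      exact Ideal.pow_le_pow_right (by omega) (Ideal.pow_mem_pow ht (m + 3))
  · have h5 : t ^ (m + 3) = t ^ 3 * t ^ m := by rw [pow_add, mul_comm]
    rw [h5]
    linear_combination (t' ^ m * Q') * h1 + (8 * t ^ 3 * Q') * h2 + (8 * t ^ 3 * t ^ m) * hQ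

/-- **Lemma L**: `p^(k-1) ∣ L (θ^k Q)`. -/
theorem lemmaL (p : ℕ) [hp : Fact p.Prime] (hodd : Odd p) (h2u : IsUnit (2 : O))
    (h3u : IsUnit (3 : O)) (L : O[X] →ₗ[O] O) (hL : IsMom L) :
    ∀ k : ℕ, ∀ Q : O[X], (p : O) ^ (k - 1) ∣ L (theta O p ^ k * Q) := by
  intro k
  induction k using Nat.strong_induction_on with
  | _ k ih =>
    intro Q
    rcases Nat.lt_or_ge k 3 with hk | hk
    · interval_cases k
      · simp
      · simp
      · simpa using base_mod p hodd h2u h3u L hL Q
    · obtain ⟨m, rfl⟩ : ∃ m, k = m + 3 := ⟨k - 3, by omega⟩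
      have h9 : IsUnit (9 : O) := by
        have : (9 : O) = 3 * 3 := by norm_num
        rw [this]; exact h3u.mul h3u
      obtain ⟨η, hη⟩ := cong_thetaP (O := O) p hodd h2u
      obtain ⟨ζ, hζ⟩ := cong_comp p (theta O p)
      obtain ⟨ξ, hξ⟩ := cong_comp p Q
      obtain ⟨W, hW, hWe⟩ := corr_mem p m (thetaP O p) (theta O p)
        ((theta O p).comp (X + C (p : O))) Q (Q.comp (X + C (p : O))) η ζ ξ (Ith O p)
        (theta_mem p) (Cp_mem p) (by rw [← hη]; ring) (by rw [← hζ]; ring) (by rw [← hξ]; ring)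
      have h1 := key_iter hL p (theta O p ^ m * Q)
      rw [hodd.neg_one_pow, mul_comp, pow_comp, hWe, map_add] at h1
      have h2 : theta O p ^ 3 * (theta O p ^ m * Q) = theta O p ^ (m + 3) * Q := by ring
      have h3 : L (8 * (theta O p ^ (m + 3) * Q)) = 8 * L (theta O p ^ (m + 3) * Q) := by
        have := map_smul L (8 : O) (theta O p ^ (m + 3) * Q)
        rw [smul_eq_C_mul, smul_eq_mul] at this
        exact this
      have h4 : L (C (p : O) * W) = p * L W := by
        rw [← smul_eq_C_mul, map_smul, smul_eq_mul]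
      rw [h2, h3, h4] at h1
      have h5 : 9 * L (theta O p ^ (m + 3) * Q) = - (p * L W) := by linear_combination h1
      have h6 : (p : O) ^ (m + 1) ∣ L W := by
        have := mem_pow_aux p L (m + 2) (fun m' hm' Q' => ih m' (by omega) Q') (m + 2) 0 (by omega) W hW
        simpa using this
      have h7 : (p : O) ^ (m + 2) ∣ 9 * L (theta O p ^ (m + 3) * Q) := by
        rw [h5, dvd_neg, pow_succ']
        exact mul_dvd_mul_left _ h6
      rw [show m + 3 - 1 = m + 2 by omega]
      exact (h9.dvd_mul_left).1 h7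

/-- **Lemma L**, ideal form: `L (I^k) ⊆ p^(k-1) O`. -/
theorem lemmaL_ideal (p : ℕ) [hp : Fact p.Prime] (hodd : Odd p) (h2u : IsUnit (2 : O))
    (h3u : IsUnit (3 : O)) (L : O[X] →ₗ[O] O) (hL : IsMom L) (k : ℕ) (F : O[X])
    (hF : F ∈ Ith O p ^ k) : (p : O) ^ (k - 1) ∣ L F := by
  have := mem_pow_aux p L k (fun m _ Q => lemmaL p hodd h2u h3u L hL m Q) k 0 (by omega) F hF
  simpa using this

end Crest.Agent.R006.LemL255
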