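import Crest.Agent.R006.P4L_nodes_869
import Crest.Agent.R006.P4L_hc_830
import Mathlib
import Crest.Agent.R006.FuncL_170
import Crest.Agent.R006.PsiInf_294
import Crest.Agent.R006.P4Chain_657
import Crest.Agent.R006.P4_Row_110
import Crest.Agent.R006.P4_LemA_255
import Crest.Agent.R006.P4_LemG_255
import Crest.Agent.R006.P4M_Bridge_531
import Crest.Agent.R006.P4M_PS_955
import Crest.Agent.R006.P4Toll_961

-- ▼ part R006/P4L_fin_869
section

/-!
Row 6, block P4, local input (L2), assembly (helper869): chains (P4L_nodes_869) + the recurrence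
of `h_c` (P4L_hc_830).

`f : B →+* E`, `O = f.range`, `p` a unit in `E`; `L : B[X] →ₗ[B] B` the moment functional,
`e c` the class idempotents at level `N`. Sites `x = r + p t`, `r : ℤ`
(integers: `t = τ`; half-integers `i - 1/2 + pτ`: `r = i + (p-1)/2`, `t = τ - 1/2`);
`hS r = h_c(x)`, `c = r mod p`. For every solution `ψ : sites → E` of
`2 (x^3 ψ(x) + (2x-1)^3 ψ(x-1)) = -(3x-1)` started in `O`, `ψ - f (hS)` is in the lattice of the
state of the site.
-/

set_option autoImplicit false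

namespace Crest.Agent.R006.P4L869

open Polynomial Finset Crest.Agent.R006.P4Row Crest.Agent.R006.P4Hc830

variable {B E : Type*} [CommRing B] [CommRing E]

/-- the local data at `p` over the integral ring `B` -/
structure Loc (p K N : ℕ) (L : B[X] →ₗ[B] B) (e : ℕ → B[X]) : Prop where
  key : ∀ P : B[X], L (X ^ 3 * P + (2 * X + 1) ^ 3 * P.comp (X + 1)) = 0
  one : L 1 = 0
  hX : 6 * L X = -1
  hX2 : 54 * L (X ^ 2) = 7
  sum : ∑ c ∈ range p, e c = 1
  J : ∀ a < p, ∀ b < p, a ≠ b → e a ∈ P4Hc830.J (p : B) (b : B) ^ N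
  err : ∀ F : B[X], (∀ b < p, F ∈ P4Hc830.J (p : B) (b : B) ^ N) → (p : B) ^ K ∣ L F
  pol : ∀ c < p, 2 * c < p → ∀ F ∈ P4Hc830.J (p : B) (c : B) ^ 2, (p : B) ∣ L (e c * F)
  reg : ∀ c < p, p < 2 * c → ∀ F : B[X], (p : B) ^ 2 ∣ L (e c * F)

/-- the site `r + p t` -/
def xS (p : ℕ) (t : B) (r : ℤ) : B := (r : B) + p * t

/-- class of the site -/
def cS (p : ℕ) (r : ℤ) : ℕ := (r % (p : ℤ)).toNat

/-- the analytic part at the site -/
noncomputable def hS (p N : ℕ) (L : B[X] →ₗ[B] B) (e : ℕ → B[X]) (t : B) (r : ℤ) : B :=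
  hfun p N L e (cS p r) (fun c' => Ring.inverse (xS p t r - c'))

/-- right hand side of the recurrence of `ψ - h` -/
noncomputable def dS (p N : ℕ) (L : B[X] →ₗ[B] B) (e : ℕ → B[X]) (t : B) (r : ℤ) : B :=
  (9 * xS p t r + 4) * L X + 9 * L (X ^ 2)
    - (xS p t r ^ 3 * hS p N L e t r + (2 * xS p t r - 1) ^ 3 * hS p N L e t (r - 1))

theorem cS_lt {p : ℕ} (hp : 0 < p) (r : ℤ) : cS p r < p := by
  unfold cS
  have h1 := Int.emod_lt_of_pos r (by exact_mod_cast hp : (0 : ℤ) < p)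
  have h2 := Int.emod_nonneg r (by exact_mod_cast hp.ne' : (p : ℤ) ≠ 0)
  omega

theorem cS_cast {p : ℕ} (hp : 0 < p) (r : ℤ) : ((cS p r : ℕ) : ℤ) = r % p := by
  unfold cS
  exact Int.toNat_of_nonneg (Int.emod_nonneg r (by exact_mod_cast hp.ne' : (p : ℤ) ≠ 0))

theorem cS_spec {p : ℕ} (hp : 0 < p) (r : ℤ) : ∃ k : ℤ, r = cS p r + p * k :=
  ⟨r / p, by rw [cS_cast hp]; exact (Int.emod_add_mul_ediv r p).symm⟩

theorem cS_unique {p : ℕ} (hp : 0 < p) {r : ℤ} {c : ℕ} (hc : c < p) {k : ℤ}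
    (h : r = c + p * k) : cS p r = c := by
  unfold cS
  rw [h, Int.add_mul_emod_self_left, Int.emod_eq_of_lt (by positivity) (by exact_mod_cast hc)]
  simp

theorem cS_pred {p : ℕ} (hp : 0 < p) (r : ℤ) : Pred p (cS p r) (cS p (r - 1)) := by
  obtain ⟨k, hk⟩ := cS_spec hp r
  have hlt := cS_lt hp r
  by_cases h0 : cS p r = 0
  · right
    refine ⟨h0, ?_⟩
    have : cS p (r - 1) = p - 1 := by
      refine cS_unique (k := k - 1) hp (by omega) ?_
      rw [h0] at hk
      push_cast [Nat.cast_sub hp]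
      push_cast at hk
      rw [hk]; ring
    omega
  · left
    have : cS p (r - 1) = cS p r - 1 := by
      refine cS_unique (k := k) hp (by omega) ?_
      rw [Nat.cast_sub (by omega)]
      push_cast
      omega
    omega

theorem cS_natCast (p n : ℕ) : cS p (n : ℤ) = n % p := by
  unfold cS
  have : ((n : ℤ) % (p : ℤ)) = ((n % p : ℕ) : ℤ) := by push_cast; rfl
  rw [this, Int.toNat_natCast]

section

variable {p K N : ℕ} {L : B[X] →ₗ[B] B} {e : ℕ → B[X]} {t : B}

theorem site_unit (hp : 0 < p)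
    (hu : ∀ m : ℤ, ¬ (p : ℤ) ∣ m → IsUnit ((m : B) + p * t))
    (r : ℤ) {c' : ℕ} (hc' : c' < p) (hne : c' ≠ cS p r) : IsUnit (xS p t r - c') := by
  have : xS p t r - c' = ((r - c' : ℤ) : B) + p * t := by unfold xS; push_cast; ring
  rw [this]
  apply hu
  rintro ⟨k, hk⟩
  exact hne (cS_unique (k := k) hp hc' (by omega)).symm

/-- the recurrence of `h` with the bound of the right hand side -/
theorem dS_dvd (hL : Loc p K N L e) (hp : p.Prime) (h2 : p ≠ 2) (hK : 2 ≤ K)
    (hu : ∀ m : ℤ, ¬ (p : ℤ) ∣ m → IsUnit ((m : B) + p * t)) (r : ℤ)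
    (hc : cS p r = 0 ∨ p < 2 * cS p r) : (p : B) ∣ dS p N L e t r := by
  have hodd : p % 2 = 1 := hp.eq_two_or_odd.resolve_left h2
  have hp3 : 3 ≤ p := by
    rcases hp.two_le.lt_or_eq with h | h
    · omega
    · exact absurd h.symm h2
  obtain ⟨δ', h1, _, h3, _⟩ := hfun_rec (K := K) (N := N) hL.key hL.one hL.sum hL.J hL.err hL.pol
    hL.reg hodd hp3 hK (cS_lt hp.pos r) (cS_lt hp.pos (r - 1)) (cS_pred hp.pos r) (xS p t r)
    (by
      obtain ⟨k, hk⟩ := cS_spec hp.pos r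
      refine ⟨(k : B) + t, ?_⟩
      have : (r : B) = (cS p r : B) + p * k := by
        have := congrArg (Int.cast : ℤ → B) hk
        push_cast at this
        exact this
      unfold xS
      rw [this]; ring)
    (fun c' => Ring.inverse (xS p t r - c')) (fun c' => Ring.inverse (xS p t (r - 1) - c'))
    (fun c' hc' hne => Ring.mul_inverse_cancel _ (site_unit hp.pos hu r hc' hne))
    (fun c' hc' hne => by
      have e1 : xS p t r - 1 - c' = xS p t (r - 1) - c' := by unfold xS; push_cast; ring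
      rw [e1]
      exact Ring.mul_inverse_cancel _ (site_unit hp.pos hu (r - 1) hc' hne))
  have h4 : dS p N L e t r = δ' := by
    unfold dS hS
    linear_combination -h1
  rw [h4]
  exact h3 hc

end

section final

variable (f : B →+* E) {p K N : ℕ} {L : B[X] →ₗ[B] B} {e : ℕ → B[X]}

/-- `m + kτ` is a unit of `B` for `m` prime to `p` -/
def BUnits (p : ℕ) (τ : B) : Prop := ∀ m : ℤ, ¬ (p : ℤ) ∣ m → ∀ k : ℕ, IsUnit ((m : B) + k * τ)

theorem BUnits.tau {τ : B} (h : BUnits p τ) : TauUnits f.range p (f τ) := by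
  intro m hm k
  obtain ⟨u, hu⟩ := h m hm k
  refine ⟨⟨(m : B) + k * τ, by simp⟩, f ((u⁻¹ : Bˣ) : B), ⟨_, rfl⟩, ?_⟩
  have : (m : E) + k * f τ = f (u : B) := by rw [hu]; simp
  rw [this, ← map_mul, Units.inv_mul, map_one]

theorem inP_of_dvd {b : B} (h : (p : B) ∣ b) : InP f.range p (f b) := by
  obtain ⟨k, rfl⟩ := h
  exact ⟨f k, ⟨k, rfl⟩, by simp⟩

/-- the recurrence of `φ = ψ - f h` from the one of `ψ` -/
theorem phi_rec (hL : Loc p K N L e) {t : B} {r : ℤ} {y y' : E}
    (h2E : IsUnit (2 : E)) (h3E : IsUnit (3 : E))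
    (h : 2 * (f (xS p t r) ^ 3 * y + (2 * f (xS p t r) - 1) ^ 3 * y')
      = -(3 * f (xS p t r) - 1)) :
    f (xS p t r) ^ 3 * (y - f (hS p N L e t r))
      + (2 * f (xS p t r) - 1) ^ 3 * (y' - f (hS p N L e t (r - 1)))
      = -(-f (dS p N L e t r)) := by
  have h6 : IsUnit (6 : E) := by
    have : (6 : E) = 2 * 3 := by norm_num
    rw [this]; exact h2E.mul h3E
  have e1 : 6 * f (L X) = -1 := by
    have := congrArg f hL.hX
    rwa [map_mul, map_neg, map_one, map_ofNat] at this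
  have e2 : 54 * f (L (X ^ 2)) = 7 := by
    have := congrArg f hL.hX2
    rwa [map_mul, map_ofNat, map_ofNat] at this
  rw [← sub_eq_zero]
  obtain ⟨u, hu⟩ := h6
  rw [← Units.mul_right_eq_zero u, hu]
  unfold dS
  simp only [map_sub, map_add, map_mul, map_pow, map_ofNat, map_one, neg_neg]
  linear_combination 3 * h - (9 * f (xS p t r) + 4) * e1 - e2

variable {τ : B}

/-- **Integer sites `n ≥ 0`.** -/
theorem int_up (hL : Loc p K N L e) (hp : p.Prime) (h5 : 5 ≤ p) (hK : 2 ≤ K)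
    (hE : IsUnit (p : E)) (hB : BUnits p τ) {ψ : ℤ → E} (h0 : ψ 0 ∈ f.range)
    (h : ∀ r : ℤ, 0 < r → r < p ^ 2 →
      2 * (f (xS p τ r) ^ 3 * ψ r + (2 * f (xS p τ r) - 1) ^ 3 * ψ (r - 1))
        = -(3 * f (xS p τ r) - 1)) :
    ∀ n : ℕ, n < p ^ 2 → Good f.range p (sUp p n) (ψ n - f (hS p N L e τ n)) := by
  have h2 : p ≠ 2 := by omega
  have hT := hB.tau f
  have h2E : IsUnit (2 : E) := by
    obtain ⟨_, w, _, hw⟩ := hT 2 (by
      intro hd
      have := Int.le_of_dvd (by norm_num) hd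
      omega) 0
    refine IsUnit.of_mul_eq_one w ?_
    rw [mul_comm]; simpa using hw
  have h3E : IsUnit (3 : E) := by
    obtain ⟨_, w, _, hw⟩ := hT 3 (by
      intro hd
      have := Int.le_of_dvd (by norm_num) hd
      omega) 0
    refine IsUnit.of_mul_eq_one w ?_
    rw [mul_comm]; simpa using hw
  have hu : ∀ m : ℤ, ¬ (p : ℤ) ∣ m → IsUnit ((m : B) + p * τ) := fun m hm => hB m hm p
  have hx : ∀ n : ℕ, f (xS p τ (n : ℤ)) = (n : E) + p * f τ := by
    intro n; unfold xS; simp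
  refine up_chain (O := f.range) (τ := f τ) (δ := fun n => -f (dS p N L e τ n)) hp h2 hE
    ⟨τ, rfl⟩ hT ?_ ?_ ?_ ?_
  · exact Subring.sub_mem _ (by simpa using h0) ⟨_, rfl⟩
  · intro n _ _; exact Subring.neg_mem _ ⟨_, rfl⟩
  · intro n _ _ hc
    refine (inP_of_dvd f (dS_dvd hL hp h2 hK hu n ?_)).neg
    rw [cS_natCast]; exact hc
  · intro n hn hn2
    have h1 := phi_rec f hL (t := τ) (r := (n : ℤ)) h2E h3E
      (h n (by exact_mod_cast hn) (by exact_mod_cast hn2))
    rw [hx] at h1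
    have e1 : ((n : ℤ) - 1) = ((n - 1 : ℕ) : ℤ) := by push_cast [Nat.cast_sub hn]; ring
    rw [e1] at h1
    exact h1

/-- **Integer sites `-m`, `m ≥ 1`.** -/
theorem int_down (hL : Loc p K N L e) (hp : p.Prime) (h5 : 5 ≤ p) (hK : 2 ≤ K)
    (hE : IsUnit (p : E)) (hB : BUnits p τ) {M : ℕ} (hM : 2 * M ≤ p ^ 2)
    {ψ : ℤ → E} (h0 : ψ 0 ∈ f.range)
    (h : ∀ r : ℤ, r ≤ 0 → 1 - (M : ℤ) < r →
      2 * (f (xS p τ r) ^ 3 * ψ r + (2 * f (xS p τ r) - 1) ^ 3 * ψ (r - 1))
        = -(3 * f (xS p τ r) - 1)) :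
    ∀ m : ℕ, 0 < m → m < M →
      Good f.range p (sDown p m) (ψ (-(m : ℤ)) - f (hS p N L e τ (-(m : ℤ)))) := by
  have h2 : p ≠ 2 := by omega
  have hT := hB.tau f
  have h2E : IsUnit (2 : E) := by
    obtain ⟨_, w, _, hw⟩ := hT 2 (by
      intro hd
      have := Int.le_of_dvd (by norm_num) hd
      omega) 0
    refine IsUnit.of_mul_eq_one w ?_
    rw [mul_comm]; simpa using hw
  have h3E : IsUnit (3 : E) := by
    obtain ⟨_, w, _, hw⟩ := hT 3 (by
      intro hd
      have := Int.le_of_dvd (by norm_num) hd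
      omega) 0
    refine IsUnit.of_mul_eq_one w ?_
    rw [mul_comm]; simpa using hw
  have hu : ∀ m : ℤ, ¬ (p : ℤ) ∣ m → IsUnit ((m : B) + p * τ) := fun m hm => hB m hm p
  have hx : ∀ n : ℕ, f (xS p τ (-(n : ℤ))) = -(n : E) + p * f τ := by
    intro n; unfold xS; simp
  have hcl : ∀ m : ℕ, 2 * (m % p) < p →
      cS p (-(m : ℤ)) = 0 ∨ p < 2 * cS p (-(m : ℤ)) := by
    intro m hm
    have hdm := Nat.mod_add_div m p
    by_cases hz : m % p = 0
    · left
      refine cS_unique (k := -((m / p : ℕ) : ℤ)) hp.pos hp.pos ?_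
      rw [hz] at hdm
      have : (m : ℤ) = p * (m / p : ℕ) := by
        rw [zero_add] at hdm; exact_mod_cast hdm.symm
      push_cast at this ⊢
      linarith
    · right
      have : cS p (-(m : ℤ)) = p - m % p := by
        refine cS_unique (k := -((m / p : ℕ) : ℤ) - 1) hp.pos (by omega) ?_
        rw [Nat.cast_sub (Nat.mod_lt m hp.pos).le]
        push_cast
        have := Int.emod_add_mul_ediv (m : ℤ) p
        linarith
      rw [this]; omega
  refine down_chain (O := f.range) (τ := f τ) (φ := fun m => ψ (-(m : ℤ)) - f (hS p N L e τ (-(m : ℤ))))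
    (δ := fun m => -f (dS p N L e τ (-(m : ℤ)))) hp h2 hE ⟨τ, rfl⟩ hT hM ?_ ?_ ?_ ?_
  · intro m _ _; exact Subring.neg_mem _ ⟨_, rfl⟩
  · intro m _ _ hc
    exact (inP_of_dvd f (dS_dvd hL hp h2 hK hu _ (hcl m hc))).neg
  · intro hM1
    have h1 := phi_rec f hL (t := τ) (r := 0) h2E h3E (h 0 le_rfl (by
      have : (1 : ℤ) < M := by exact_mod_cast hM1
      linarith))
    have hx0 : f (xS p τ 0) = 0 + p * f τ := by unfold xS; simp
    rw [hx0] at h1
    have hd : InP f.range p (f (dS p N L e τ 0)) :=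
      inP_of_dvd f (dS_dvd hL hp h2 hK hu 0 (by
        left; exact cS_unique (k := 0) hp.pos hp.pos (by simp)))
    have hφ0 : ψ 0 - f (hS p N L e τ 0) ∈ f.range := Subring.sub_mem _ h0 ⟨_, rfl⟩
    have hp3 : InP f.range p ((0 + (p : E) * f τ) ^ 3 * (ψ 0 - f (hS p N L e τ 0))) :=
      InP.cube_mul' ⟨f τ, ⟨τ, rfl⟩, by ring⟩ hφ0
    have e1 : (2 * (0 + (p : E) * f τ) - 1) ^ 3 *
        (ψ (-((1 : ℕ) : ℤ)) - f (hS p N L e τ (-((1 : ℕ) : ℤ)))) =
        f (dS p N L e τ 0) + -((0 + (p : E) * f τ) ^ 3 * (ψ 0 - f (hS p N L e τ 0))) := by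
      have e2 : (-((1 : ℕ) : ℤ)) = (0 : ℤ) - 1 := by norm_num
      rw [e2]
      linear_combination h1
    rw [e1]
    exact hd.add hp3.neg
  · intro m hm hmM
    have h1 := phi_rec f hL (t := τ) (r := -(m : ℤ)) h2E h3E (h _ (by
      have : (0 : ℤ) ≤ m := by positivity
      linarith) (by
      have : (m : ℤ) + 1 < M := by exact_mod_cast hmM
      linarith))
    rw [hx] at h1
    have e1 : (-(m : ℤ) - 1) = -((m + 1 : ℕ) : ℤ) := by push_cast; ring
    rw [e1] at h1
    exact h1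

/-- **Half-integer sites `l + 1/2`, `l ≥ 0`** (star germs; `ψ i` is the germ at `i - 1/2`). -/
theorem half_up (hL : Loc p K N L e) (hp : p.Prime) (h5 : 5 ≤ p) (hK : 2 ≤ K)
    (hE : IsUnit (p : E)) (hB : BUnits p τ) {hf : B} (hhf : 2 * hf = 1)
    {M : ℕ} (hM : 2 * M ≤ p ^ 2) {ψ : ℤ → E} (h0 : ψ 0 ∈ f.range)
    (h : ∀ i : ℤ, 0 < i → i ≤ M →
      2 * (((i : E) - f hf + p * f τ) ^ 3 * ψ i
        + (2 * ((i : E) - f hf + p * f τ) - 1) ^ 3 * ψ (i - 1))
        = -(3 * ((i : E) - f hf + p * f τ) - 1)) :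
    ∀ l : ℕ, l < M → Good f.range p (sStar p l)
      (ψ (l + 1) - f (hS p N L e (τ - hf) (l + 1 + ((p - 1) / 2 : ℕ)))) := by
  have h2 : p ≠ 2 := by omega
  have hodd : p % 2 = 1 := hp.eq_two_or_odd.resolve_left h2
  obtain ⟨g, hg⟩ : ∃ g, p = 2 * g + 1 := ⟨p / 2, by omega⟩
  have hg2 : (p - 1) / 2 = g := by omega
  rw [hg2]
  have hT := hB.tau f
  have h2nd : ¬ (p : ℤ) ∣ 2 := by
    intro hd
    have := Int.le_of_dvd (by norm_num) hd
    omega
  have h3nd : ¬ (p : ℤ) ∣ 3 := by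
    intro hd
    have := Int.le_of_dvd (by norm_num) hd
    omega
  have h2E : IsUnit (2 : E) := by
    obtain ⟨_, w, _, hw⟩ := hT 2 h2nd 0
    refine IsUnit.of_mul_eq_one w ?_
    rw [mul_comm]; simpa using hw
  have h3E : IsUnit (3 : E) := by
    obtain ⟨_, w, _, hw⟩ := hT 3 h3nd 0
    refine IsUnit.of_mul_eq_one w ?_
    rw [mul_comm]; simpa using hw
  have hpB : (p : B) = 2 * g + 1 := by rw [hg]; push_cast; ring
  have hhfE : 2 * f hf = 1 := by
    have := congrArg f hhf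
    rwa [map_mul, map_one, map_ofNat] at this
  have hpE : (p : E) = 2 * g + 1 := by rw [hg]; push_cast; ring
  have hu : ∀ m : ℤ, ¬ (p : ℤ) ∣ m → IsUnit ((m : B) + p * (τ - hf)) := by
    intro m hm
    have h1 := hB (2 * m - p) (by
      intro hd
      have h3 : (p : ℤ) ∣ 2 * m := by
        have := dvd_add hd (dvd_refl (p : ℤ))
        rwa [sub_add_cancel] at this
      rcases (Nat.prime_iff_prime_int.mp hp).dvd_or_dvd h3 with h | h
      · exact h2nd h
      · exact hm h) (2 * p)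
    have hhu : IsUnit hf := IsUnit.of_mul_eq_one 2 (by rw [mul_comm]; exact hhf)
    have := hhu.mul h1
    have e1 : (m : B) + p * (τ - hf) = hf * (((2 * m - p : ℤ) : B) + ((2 * p : ℕ) : B) * τ) := by
      push_cast; linear_combination (-(m : B) - p * τ) * hhf
    rw [e1]; exact this
  have hx : ∀ i : ℤ, f (xS p (τ - hf) (i + g)) = (i : E) - f hf + p * f τ := by
    intro i
    unfold xS
    simp only [map_add, map_mul, map_sub, map_intCast, map_natCast, Int.cast_add,
      Int.cast_natCast]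
    linear_combination (-(f hf)) * hpE - (g : E) * hhfE
  have hrec : ∀ i : ℤ, 0 < i → i ≤ M → ((i : E) - f hf + p * f τ) ^ 3 *
        (ψ i - f (hS p N L e (τ - hf) (i + g)))
      + (2 * ((i : E) - f hf + p * f τ) - 1) ^ 3 *
        (ψ (i - 1) - f (hS p N L e (τ - hf) (i - 1 + g)))
      = -(-f (dS p N L e (τ - hf) (i + g))) := by
    intro i hi hiM
    have h1 := phi_rec f hL (t := τ - hf) (r := i + g) (y := ψ i) (y' := ψ (i - 1)) h2E h3E (by
      rw [hx]; exact h i hi hiM)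
    rw [hx] at h1
    have e1 : i + g - 1 = i - 1 + g := by ring
    rw [e1] at h1
    exact h1
  have hcl : ∀ l : ℕ, 2 * (l % p) + 1 ≤ p →
      cS p ((l : ℤ) + 1 + g) = 0 ∨ p < 2 * cS p ((l : ℤ) + 1 + g) := by
    intro l hl
    have hdm := Nat.mod_add_div l p
    have hdm' : ((l % p : ℕ) : ℤ) + p * (l / p : ℕ) = l := by exact_mod_cast hdm
    by_cases hz : l % p = g
    · left
      refine cS_unique (k := (l / p : ℕ) + 1) hp.pos hp.pos ?_
      rw [hz] at hdm'
      have hp' : (p : ℤ) = 2 * g + 1 := by rw [hg]; push_cast; ring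
      rw [← hdm']
      push_cast
      linear_combination -hp'
    · right
      have : cS p ((l : ℤ) + 1 + g) = l % p + 1 + g := by
        refine cS_unique (k := (l / p : ℕ)) hp.pos (by omega) ?_
        have h6 := Int.emod_add_mul_ediv (l : ℤ) p
        push_cast
        linarith
      rw [this]; omega
  refine star_chain (O := f.range) (τ := f τ) (hf := f hf)
    (φ := fun l => ψ (l + 1) - f (hS p N L e (τ - hf) (l + 1 + g)))
    (δ := fun l => -f (dS p N L e (τ - hf) (l + 1 + g))) hp h2 hE ⟨τ, rfl⟩ hT ⟨hf, rfl⟩ hhfE hM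
    ?_ ?_ ?_ ?_
  · intro m _ _; exact Subring.neg_mem _ ⟨_, rfl⟩
  · intro m _ _ hc
    exact (inP_of_dvd f (dS_dvd hL hp h2 hK hu _ (hcl m hc))).neg
  · intro hM1
    have h1 := hrec 1 (by norm_num) (by exact_mod_cast hM1)
    have hd : InP f.range p (f (dS p N L e (τ - hf) (1 + g))) := by
      have := inP_of_dvd f (dS_dvd hL hp h2 hK hu _ (hcl 0 (by simp; omega)))
      simpa using this
    have hφ0 : ψ 0 - f (hS p N L e (τ - hf) (0 + g)) ∈ f.range :=
      Subring.sub_mem _ h0 ⟨_, rfl⟩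
    have hp3 : InP f.range p ((2 * (1 - f hf + (p : E) * f τ) - 1) ^ 3 *
        (ψ 0 - f (hS p N L e (τ - hf) (0 + g)))) :=
      InP.cube_mul' ⟨2 * f τ, ⟨2 * τ, by rw [map_mul, map_ofNat]⟩, by
        linear_combination (-1) * hhfE⟩ hφ0
    have e0 : (1 : ℤ) - 1 = 0 := by norm_num
    rw [e0] at h1
    have e1 : (f hf + (p : E) * f τ) ^ 3 *
        (ψ (((0 : ℕ) : ℤ) + 1) - f (hS p N L e (τ - hf) (((0 : ℕ) : ℤ) + 1 + g))) =
        f (dS p N L e (τ - hf) (1 + g)) + -((2 * (1 - f hf + (p : E) * f τ) - 1) ^ 3 *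
        (ψ 0 - f (hS p N L e (τ - hf) (0 + g)))) := by
      have e2 : (f hf + (p : E) * f τ) = ((1 : ℤ) : E) - f hf + p * f τ := by
        push_cast; linear_combination hhfE
      rw [e2]
      simp only [Nat.cast_zero, zero_add] at h1 ⊢
      push_cast at h1 ⊢
      linear_combination h1
    show InP f.range p ((f hf + (p : E) * f τ) ^ 3 *
        (ψ (((0 : ℕ) : ℤ) + 1) - f (hS p N L e (τ - hf) (((0 : ℕ) : ℤ) + 1 + g))))
    rw [e1]
    exact hd.add hp3.neg
  · intro l hl hlM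
    have h1 := hrec (l + 1) (by positivity) (by exact_mod_cast hlM)
    have e1 : ((l : ℤ) + 1 - 1) = ((l - 1 : ℕ) : ℤ) + 1 := by push_cast [Nat.cast_sub hl]; ring
    have e2 : (l : E) + f hf + p * f τ = ((l + 1 : ℤ) : E) - f hf + p * f τ := by
      push_cast; linear_combination hhfE
    rw [e1] at h1
    show ((l : E) + f hf + p * f τ) ^ 3 * (ψ (l + 1) - f (hS p N L e (τ - hf) (l + 1 + g)))
      + (2 * ((l : E) + f hf + p * f τ) - 1) ^ 3 *
        (ψ (((l - 1 : ℕ) : ℤ) + 1) - f (hS p N L e (τ - hf) (((l - 1 : ℕ) : ℤ) + 1 + g)))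
      = -(-f (dS p N L e (τ - hf) (l + 1 + g)))
    rw [e2]
    exact h1

/-- **Half-integer sites `-l - 1/2`, `l ≥ 0`** (`ψ i` is the germ at `i - 1/2`). -/
theorem half_down (hL : Loc p K N L e) (hp : p.Prime) (h5 : 5 ≤ p) (hK : 2 ≤ K)
    (hE : IsUnit (p : E)) (hB : BUnits p τ) {hf : B} (hhf : 2 * hf = 1)
    {M : ℕ} (hM : M ≤ p ^ 2) {ψ : ℤ → E} (h0 : ψ 0 ∈ f.range)
    (h : ∀ i : ℤ, i ≤ 0 → 1 - (M : ℤ) < i →
      2 * (((i : E) - f hf + p * f τ) ^ 3 * ψ i
        + (2 * ((i : E) - f hf + p * f τ) - 1) ^ 3 * ψ (i - 1))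
        = -(3 * ((i : E) - f hf + p * f τ) - 1)) :
    ∀ l : ℕ, l < M → Good f.range p (sUp p l)
      (ψ (-(l : ℤ)) - f (hS p N L e (τ - hf) (-(l : ℤ) + ((p - 1) / 2 : ℕ)))) := by
  have h2 : p ≠ 2 := by omega
  have hodd : p % 2 = 1 := hp.eq_two_or_odd.resolve_left h2
  obtain ⟨g, hg⟩ : ∃ g, p = 2 * g + 1 := ⟨p / 2, by omega⟩
  have hg2 : (p - 1) / 2 = g := by omega
  rw [hg2]
  have hT := hB.tau f
  have h2nd : ¬ (p : ℤ) ∣ 2 := by
    intro hd
    have := Int.le_of_dvd (by norm_num) hd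
    omega
  have h3nd : ¬ (p : ℤ) ∣ 3 := by
    intro hd
    have := Int.le_of_dvd (by norm_num) hd
    omega
  have h2E : IsUnit (2 : E) := by
    obtain ⟨_, w, _, hw⟩ := hT 2 h2nd 0
    refine IsUnit.of_mul_eq_one w ?_
    rw [mul_comm]; simpa using hw
  have h3E : IsUnit (3 : E) := by
    obtain ⟨_, w, _, hw⟩ := hT 3 h3nd 0
    refine IsUnit.of_mul_eq_one w ?_
    rw [mul_comm]; simpa using hw
  have hpB : (p : B) = 2 * g + 1 := by rw [hg]; push_cast; ring
  have hhfE : 2 * f hf = 1 := by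
    have := congrArg f hhf
    rwa [map_mul, map_one, map_ofNat] at this
  have hpE : (p : E) = 2 * g + 1 := by rw [hg]; push_cast; ring
  have hu : ∀ m : ℤ, ¬ (p : ℤ) ∣ m → IsUnit ((m : B) + p * (τ - hf)) := by
    intro m hm
    have h1 := hB (2 * m - p) (by
      intro hd
      have h3 : (p : ℤ) ∣ 2 * m := by
        have := dvd_add hd (dvd_refl (p : ℤ))
        rwa [sub_add_cancel] at this
      rcases (Nat.prime_iff_prime_int.mp hp).dvd_or_dvd h3 with h | h
      · exact h2nd h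
      · exact hm h) (2 * p)
    have hhu : IsUnit hf := IsUnit.of_mul_eq_one 2 (by rw [mul_comm]; exact hhf)
    have := hhu.mul h1
    have e1 : (m : B) + p * (τ - hf) = hf * (((2 * m - p : ℤ) : B) + ((2 * p : ℕ) : B) * τ) := by
      push_cast; linear_combination (-(m : B) - p * τ) * hhf
    rw [e1]; exact this
  have hx : ∀ i : ℤ, f (xS p (τ - hf) (i + g)) = (i : E) - f hf + p * f τ := by
    intro i
    unfold xS
    simp only [map_add, map_mul, map_sub, map_intCast, map_natCast, Int.cast_add,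
      Int.cast_natCast]
    linear_combination (-(f hf)) * hpE - (g : E) * hhfE
  have hrec : ∀ i : ℤ, i ≤ 0 → 1 - (M : ℤ) < i → ((i : E) - f hf + p * f τ) ^ 3 *
        (ψ i - f (hS p N L e (τ - hf) (i + g)))
      + (2 * ((i : E) - f hf + p * f τ) - 1) ^ 3 *
        (ψ (i - 1) - f (hS p N L e (τ - hf) (i - 1 + g)))
      = -(-f (dS p N L e (τ - hf) (i + g))) := by
    intro i hi hiM
    have h1 := phi_rec f hL (t := τ - hf) (r := i + g) (y := ψ i) (y' := ψ (i - 1)) h2E h3E (by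
      rw [hx]; exact h i hi hiM)
    rw [hx] at h1
    have e1 : i + g - 1 = i - 1 + g := by ring
    rw [e1] at h1
    exact h1
  have hcl : ∀ l : ℕ, p ≤ 2 * (l % p) + 1 →
      cS p (-(l : ℤ) + g) = 0 ∨ p < 2 * cS p (-(l : ℤ) + g) := by
    intro l hl
    have hlt := Nat.mod_lt l hp.pos
    have hdm := Nat.mod_add_div l p
    have hdm' : ((l % p : ℕ) : ℤ) + p * (l / p : ℕ) = l := by exact_mod_cast hdm
    by_cases hz : l % p = g
    · left
      refine cS_unique (k := -((l / p : ℕ) : ℤ)) hp.pos hp.pos ?_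
      rw [hz] at hdm'
      rw [← hdm']
      push_cast
      ring
    · right
      have : cS p (-(l : ℤ) + g) = p + g - l % p := by
        refine cS_unique (k := -((l / p : ℕ) : ℤ) - 1) hp.pos (by omega) ?_
        rw [Nat.cast_sub (by omega)]
        have h6 := Int.emod_add_mul_ediv (l : ℤ) p
        push_cast
        linarith
      rw [this]; omega
  refine w_chain (O := f.range) (τ := f τ) (hf := f hf)
    (φ := fun l => ψ (-(l : ℤ)) - f (hS p N L e (τ - hf) (-(l : ℤ) + g)))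
    (δ := fun l => -f (dS p N L e (τ - hf) (-(l : ℤ) + g))) hp h2 hE ⟨τ, rfl⟩ hT ⟨hf, rfl⟩ hhfE hM
    ?_ ?_ ?_ ?_
  · refine Subring.sub_mem _ (by simpa using h0) ⟨_, rfl⟩
  · intro m _; exact Subring.neg_mem _ ⟨_, rfl⟩
  · intro m _ hc
    exact (inP_of_dvd f (dS_dvd hL hp h2 hK hu _ (hcl m hc))).neg
  · intro l hlM
    have h1 := hrec (-(l : ℤ)) (by
      have : (0 : ℤ) ≤ l := by positivity
      linarith) (by
      have : (l : ℤ) + 1 < M := by exact_mod_cast hlM
      linarith)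
    have e1 : (-(l : ℤ) - 1) = -((l + 1 : ℕ) : ℤ) := by push_cast; ring
    have e2 : (-((l : E) + f hf) + p * f τ) = (((-(l : ℤ)) : ℤ) : E) - f hf + p * f τ := by
      push_cast; ring
    rw [e1] at h1
    rw [e2]
    exact h1

end final

end Crest.Agent.R006.P4L869
end

-- ▼ part R006/Cong_826
section

/-!
Row 6 (S0006), block P4: the congruence behind Lemma L (k = 2).
For `p = 2m+1` prime, `p ∣ Σ_{j ≤ m} (3j+1) 8^j C(m,j)^3`.
Proof: the terminating WZ identity
`Σ_{n ≤ m} (3n+m+1) (m+n)!^2 / (4^n (m-n)! n!^2 (2m+2n+1)!!) = 1`.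
-/

set_option autoImplicit false

namespace Crest.Agent.R006.Cong826

open Finset

/-- odd double factorial `(2N-1)!! = ∏_{i<N} (2i+1)` in `ℚ`. -/
def odf (N : ℕ) : ℚ := ∏ i ∈ range N, (2 * (i : ℚ) + 1)



/-- the term `X(m,n)` with `1/(m-n)!` (meant for `n ≤ m`). -/
def X (m n : ℕ) : ℚ :=
  ((m + n).factorial : ℚ) ^ 2 / (4 ^ n * ((m - n).factorial : ℚ) * (n.factorial : ℚ) ^ 2 * odf (m + n + 1))

def T (m n : ℕ) : ℚ := (3 * (n : ℚ) + m + 1) * X m n













section modp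

variable {m : ℕ}









end modp

end Crest.Agent.R006.Cong826
end

-- ▼ part R006/LemLa_170
section

/-!
Row 6 (S0006), block P4 (helper170): Lemma L, part a: reduction modulo `p`.

`theta p = X(X-1)...(X-p+1)`.  Facts in characteristic `p` and the explicit formula
`9 N(y) = S_p(y)` for `N(y) = Lam ((Theta(y) - Theta(X))/(y - X))`, `Theta = theta^3`.
-/

set_option autoImplicit false

open Polynomial Finset

namespace Crest.Agent.R006.LemLx170

open Crest.Agent.R006.FuncLx170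

variable {A : Type*} [CommRing A]

/-! ### 1. `theta` and `thetap` modulo `p` -/






/-! ### 2. vanishing on multiples of `theta ^ 3` in characteristic `p` -/



/-! ### 3. the functional equation of `nn` -/

/-- `nn a T y = Lam ((T(X) - T(y))/(X - y))`. -/
noncomputable def nn (a : ℕ → A) (T : A[X]) (y : A) : A :=
  Lam a ((T - C (T.eval y)) /ₘ (X - C y))




/-- the weight `w y = 9 a_2 + (9 y + 4) a_1` (`= -(3y-1)/2` for the moments of `psi`). -/
def ww (a : ℕ → A) (y : A) : A := 9 * a 2 + (9 * y + 4) * a 1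


end Crest.Agent.R006.LemLx170
end

-- ▼ part R006/LemLb_170
section

/-!
Row 6 (S0006), block P4 (helper170): Lemma L, part b: the case `k = 2` modulo `p`:
`Lam (theta^2 Q) = 0` over `ZMod p`.
-/

set_option autoImplicit false

open Polynomial Finset

namespace Crest.Agent.R006.LemLx170

open Crest.Agent.R006.FuncLx170

variable {A : Type*} [CommRing A]

/-- the recursive sums `S_m(y)`. -/
def SS (a : ℕ → A) (y : A) : ℕ → A
  | 0 => 0
  | m + 1 => SS a y m * (y - m) ^ 3
      + (-1) ^ m * ww a (y - m) * (∏ j ∈ range m, (2 * y - (2 * (j : A) + 1))) ^ 3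







/-! ### the value at `0` -/


section zmod

variable (p : ℕ) [hp : Fact p.Prime]






end zmod

end Crest.Agent.R006.LemLx170
private theorem rz_e34d9a0334 : type_of% @_root_.Crest.Agent.R006.LemLx170.SS.eq_def := @_root_.Crest.Agent.R006.LemLx170.SS.eq_def -- L19
private theorem rz_87161b2f7e : type_of% @_root_.Crest.Agent.R006.LemLx170.SS.eq_1 := @_root_.Crest.Agent.R006.LemLx170.SS.eq_1 -- L19
end

-- ▼ part R006/LemL_170
section

/-!
Row 6 (S0006), block P4 (helper170): **LEMMA L**.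

`A` a commutative ring with a ring homomorphism `π : A → ZMod p` whose kernel is `(p)`
(`A = ℤ_[p]`, or `A = Z_(p)`), `p ≥ 5`, `a : ℕ → A` moments with the key identity and
`a 0 = 0`, `6 a 1 = -1`, `54 a 2 = 7`.  With `I = (p, theta)`, `theta = X(X-1)...(X-p+1)`:

* `Lam_mem_pow` : `f ∈ I^k → p^(k-1) ∣ Lam a f`;
* `lemL` : `p^(k-1) ∣ Lam a (theta^k Q)`;
* `exists_moments` : the moments exist over `ℤ_[p]`;
* `lemL_padic`, `lemL_rat` : the same for functionals over `ℚ_[p]` and over `ℚ`.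
-/

set_option autoImplicit false

open Polynomial Finset

namespace Crest.Agent.R006.LemLx170

open Crest.Agent.R006.FuncLx170

variable {A : Type*} [CommRing A]

/-- the ideal `(p, theta)`. -/
noncomputable def II (A : Type*) [CommRing A] (p : ℕ) : Ideal A[X] :=
  Ideal.span {((p : ℕ) : A[X]), theta A p}





variable (p : ℕ) [hp : Fact p.Prime] (π : A →+* ZMod p) (hker : ∀ x : A, π x = 0 → (p : A) ∣ x)




/-! ### `ℤ_[p]`, `ℚ_[p]`, `ℚ` -/

theorem isUnit_natCast (m : ℕ) (hm : ¬ p ∣ m) : IsUnit ((m : ℕ) : ℤ_[p]) := by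
  rw [PadicInt.isUnit_iff]
  by_contra h
  have h1 : ‖((m : ℕ) : ℤ_[p])‖ < 1 := lt_of_le_of_ne (PadicInt.norm_le_one _) h
  have h2 : ‖((m : ℤ) : ℤ_[p])‖ < 1 := by simpa using h1
  rw [PadicInt.norm_int_lt_one_iff_dvd] at h2
  exact hm (by exact_mod_cast h2)








end Crest.Agent.R006.LemLx170
end

-- ▼ part R006/P4_BaseO_170
section

/-!
Row 6 (S0006), block P4, BASE (helper170, for 110 / 869 / 955).

`O p` = the subring `ℤ_(p)` of `ℚ`; `muO` = the moments `mu` of `ψ_∞` (294) as elements of `O p`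
(`p ≥ 5`); `phi : O p →+* PowerSeries ℚ[X]`; `res : O p →+* ZMod p` with kernel `(p)`.
-/

set_option autoImplicit false

open Polynomial Finset

namespace Crest.Agent.R006.P4BaseOx170

open Crest.Agent.R006

variable (p : ℕ) [hp : Fact p.Prime]

/-- the ring `ℤ_(p)`. -/
def O : Subring ℚ where
  carrier := {x | padicNorm p x ≤ 1}
  mul_mem' := by
    intro a b ha hb
    change padicNorm p (a * b) ≤ 1
    rw [padicNorm.mul]
    exact mul_le_one₀ ha (padicNorm.nonneg b) hb
  one_mem' := by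
    change padicNorm p 1 ≤ 1
    rw [padicNorm.one]
  add_mem' := by
    intro a b ha hb
    exact le_trans padicNorm.nonarchimedean (max_le ha hb)
  zero_mem' := by
    change padicNorm p 0 ≤ 1
    rw [padicNorm.zero]
    exact zero_le_one
  neg_mem' := by
    intro a ha
    change padicNorm p (-a) ≤ 1
    rw [padicNorm.neg]
    exact ha

variable {p}


theorem val_injective : Function.Injective (fun x : O p => (x : ℚ)) := Subtype.val_injective

theorem dvd_pow_iff (x : O p) (k : ℕ) :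
    (p : O p) ^ k ∣ x ↔ padicNorm p (x : ℚ) ≤ (p : ℚ) ^ (-(k : ℤ)) := by
  have hp0 : (p : ℚ) ≠ 0 := by exact_mod_cast hp.out.ne_zero
  have hpos : (0 : ℚ) < p := by exact_mod_cast hp.out.pos
  have hpn : padicNorm p (p : ℚ) = (p : ℚ)⁻¹ := padicNorm.padicNorm_p_of_prime
  have hpk : padicNorm p ((p : ℚ) ^ k) = (p : ℚ) ^ (-(k : ℤ)) := by
    induction k with
    | zero => simp
    | succ k ih =>
      rw [pow_succ, padicNorm.mul, ih, hpn]
      push_cast
      rw [neg_add, zpow_add₀ hp0, zpow_neg_one]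
  constructor
  · rintro ⟨c, rfl⟩
    push_cast
    rw [padicNorm.mul, hpk]
    exact mul_le_of_le_one_right (zpow_nonneg hpos.le _) c.2
  · intro h
    have hy : padicNorm p ((x : ℚ) / (p : ℚ) ^ k) ≤ 1 := by
      rw [padicNorm.div, hpk, div_le_one (zpow_pos hpos _)]
      exact h
    refine ⟨⟨(x : ℚ) / (p : ℚ) ^ k, hy⟩, ?_⟩
    apply val_injective
    push_cast
    field_simp


theorem isUnit_intCast {m : ℤ} (hm : ¬ (p : ℤ) ∣ m) : IsUnit (m : O p) := by
  have h1 : padicNorm p (m : ℚ) = 1 := (padicNorm.int_eq_one_iff m).2 hm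
  have h0 : (m : ℚ) ≠ 0 := by
    intro h
    rw [h, padicNorm.zero] at h1
    exact zero_ne_one h1
  have h2 : padicNorm p ((m : ℚ)⁻¹) ≤ 1 := by
    have h3 : padicNorm p ((1 : ℚ) / m) ≤ 1 := by
      rw [padicNorm.div, padicNorm.one, h1, div_one]
    rwa [one_div] at h3
  refine IsUnit.of_mul_eq_one ⟨(m : ℚ)⁻¹, h2⟩ ?_
  apply val_injective
  push_cast
  exact mul_inv_cancel₀ h0

theorem isUnit_natCast {m : ℕ} (hm : ¬ p ∣ m) : IsUnit (m : O p) := by
  have := isUnit_intCast (p := p) (m := (m : ℤ)) (by exact_mod_cast hm)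
  simpa using this


theorem isUnit_two (hp2 : p ≠ 2) : IsUnit (2 : O p) := by
  have := isUnit_natCast (p := p) (m := 2)
    (fun h => hp2 ((Nat.prime_dvd_prime_iff_eq hp.out Nat.prime_two).1 h))
  simpa using this

theorem isUnit_three (hp3 : p ≠ 3) : IsUnit (3 : O p) := by
  have := isUnit_natCast (p := p) (m := 3)
    (fun h => hp3 ((Nat.prime_dvd_prime_iff_eq hp.out Nat.prime_three).1 h))
  simpa using this

variable (p)

/-! ### the residue map -/





/-! ### the moments -/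

theorem isUnit_nine (hp5 : 5 ≤ p) : IsUnit (9 : O p) := by
  have h := isUnit_three (p := p) (by omega)
  have : (9 : O p) = 3 * 3 := by norm_num
  rw [this]
  exact h.mul h

/-- the moments of `ψ_∞` are `p`-integral for `p ≥ 5`. -/
theorem mu_mem (hp5 : 5 ≤ p) (k : ℕ) : PsiInf.mu k ∈ O p := by
  obtain ⟨u, hu⟩ := (isUnit_nine p hp5).exists_right_inv
  obtain ⟨t, ht⟩ := (isUnit_two (p := p) (by omega)).exists_right_inv
  obtain ⟨s, hs⟩ := (isUnit_three (p := p) (by omega)).exists_right_inv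
  obtain ⟨a, ha, h0, h1, h2⟩ := FuncLx170.exists_key u (0 : O p) (-(t * s)) (7 * (t * s * s * s)) hu
  have e2 : (2 : ℚ) * (t : ℚ) = 1 := by
    have := congrArg (O p).subtype ht
    rw [map_mul, map_ofNat, map_one] at this
    exact this
  have e3 : (3 : ℚ) * (s : ℚ) = 1 := by
    have := congrArg (O p).subtype hs
    rw [map_mul, map_ofNat, map_one] at this
    exact this
  have et : (t : ℚ) = 1 / 2 := by linarith
  have es : (s : ℚ) = 1 / 3 := by linarith
  have e7 : ((7 : O p) : ℚ) = 7 := map_ofNat (O p).subtype 7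
  have hmu : (fun k => ((a k : O p) : ℚ)) = fun k => ((PsiInf.mu k : ℚ) : ℚ) := by
    apply PsiInf.mu_unique
    · intro P
      have h := ha.map (O p).subtype
      have h3 := h P
      exact h3
    · rw [h0]; simp
    · rw [h0, h1]
      push_cast
      rw [et, es]
      try rw [e7]
      norm_num
    · rw [h0, h1, h2]
      push_cast
      rw [et, es]
      try rw [e7]
      norm_num
  have h := congrFun hmu k
  have h' : ((a k : O p) : ℚ) = PsiInf.mu k := h.trans (Rat.cast_id _)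
  rw [← h']
  exact (a k).2

/-- the moments in `O p`. -/
noncomputable def muO (hp5 : 5 ≤ p) (k : ℕ) : O p := ⟨PsiInf.mu k, mu_mem p hp5 k⟩

@[simp] theorem muO_coe (hp5 : 5 ≤ p) (k : ℕ) : ((muO p hp5 k : O p) : ℚ) = PsiInf.mu k := rfl

theorem lin_rat (m : ℕ → ℚ) : P4Row.lin m = PsiInf.lin m := rfl

theorem lin_muO_coe (hp5 : 5 ≤ p) (P : (O p)[X]) :
    ((P4Row.lin (muO p hp5) P : O p) : ℚ) = PsiInf.lin PsiInf.mu (P.map (O p).subtype) := by
  have h := P4Row.lin_map (O p).subtype (muO p hp5) P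
  rw [← lin_rat]
  exact h.symm

/-- the key identity (FuncL form). -/
theorem key_muO (hp5 : 5 ≤ p) : FuncLx170.Key (muO p hp5) := by
  intro P
  apply val_injective
  change ((P4Row.lin (muO p hp5) _ : O p) : ℚ) = ((0 : O p) : ℚ)
  rw [lin_muO_coe]
  have h := PsiInf.key_mu (P.map (O p).subtype)
  have e : (X ^ 3 * P + (2 * X + 1) ^ 3 * P.comp (X + 1)).map (O p).subtype
      = X ^ 3 * P.map (O p).subtype + (2 * X + 1) ^ 3 * (P.map (O p).subtype).comp (X + 1) := by
    simp only [Polynomial.map_add, Polynomial.map_mul, Polynomial.map_pow, Polynomial.map_X,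
      Polynomial.map_one, Polynomial.map_ofNat, Polynomial.map_comp]
  rw [e, h]
  rfl

theorem muO_zero (hp5 : 5 ≤ p) : muO p hp5 0 = 0 := by
  apply val_injective
  change PsiInf.mu 0 = ((0 : O p) : ℚ)
  rw [PsiInf.mu_zero]
  rfl

theorem muO_one (hp5 : 5 ≤ p) : 6 * muO p hp5 1 = -1 := by
  apply val_injective
  change (O p).subtype (6 * muO p hp5 1) = (O p).subtype (-1)
  rw [map_mul, map_ofNat, map_neg, map_one]
  change (6 : ℚ) * PsiInf.mu 1 = -1
  rw [PsiInf.mu_one]
  norm_num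

theorem muO_two (hp5 : 5 ≤ p) : 54 * muO p hp5 2 = 7 := by
  apply val_injective
  change (O p).subtype (54 * muO p hp5 2) = (O p).subtype 7
  rw [map_mul, map_ofNat, map_ofNat]
  change (54 : ℚ) * PsiInf.mu 2 = 7
  rw [PsiInf.mu_two]
  norm_num

theorem lin_eq_Lam {A : Type*} [CommRing A] (m : ℕ → A) :
    P4Row.lin m = FuncLx170.Lam m := by
  apply FuncLx170.Lam_unique
  intro i
  rw [P4Row.lin_eq_sum m (X ^ i) (n := i + 1) (by
    rw [← Nat.succ_eq_add_one]
    exact Nat.lt_succ_of_le (natDegree_X_pow_le i)), Finset.sum_eq_single i]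
  · simp
  · intro j _ hj
    rw [coeff_X_pow, if_neg hj, zero_mul]
  · intro h
    exact absurd (Finset.mem_range.2 (Nat.lt_succ_self i)) h

/-- 255's structure. -/
theorem isMom_muO (hp5 : 5 ≤ p) : LemL255.IsMom (P4Row.lin (muO p hp5)) where
  key := by rw [lin_eq_Lam]; exact key_muO p hp5
  m0 := by rw [lin_eq_Lam, FuncLx170.Lam_one, muO_zero]
  m1 := by rw [lin_eq_Lam, FuncLx170.Lam_X, muO_one]
  m2 := by rw [lin_eq_Lam, FuncLx170.Lam_X_pow, muO_two]

/-! ### the ring `PowerSeries ℚ[X]` -/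

/-- the structure map `O p → ℚ[X][[ε]]`. -/
noncomputable def phi : O p →+* PowerSeries ℚ[X] :=
  (PowerSeries.C (R := ℚ[X])).comp ((Polynomial.C (R := ℚ)).comp (O p).subtype)

theorem phi_apply (x : O p) : phi p x = PowerSeries.C (Polynomial.C (x : ℚ)) := rfl

theorem coeff_phi (x : O p) (j : ℕ) :
    PowerSeries.coeff j (phi p x) = if j = 0 then Polynomial.C (x : ℚ) else 0 := by
  rw [phi_apply, PowerSeries.coeff_C]

/-- `p^k ∣ x` gives `phi x` in the `k`-th step of the jet filtration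
`f ∈ FB v ↔ ∀ j, coeff j f ∈ PB (v - j)`. -/
theorem phi_mem (x : O p) (k : ℕ) (h : (p : O p) ^ k ∣ x) (j : ℕ) :
    ProdBound481.PB p ((k : ℤ) - j) (PowerSeries.coeff j (phi p x)) := by
  rw [coeff_phi]
  split_ifs with hj
  · subst hj
    apply ProdBound481.PB.C
    rw [Nat.cast_zero, sub_zero]
    exact (dvd_pow_iff x k).1 h
  · exact ProdBound481.PB.zero _

theorem phi_mem_zero (x : O p) (j : ℕ) :
    ProdBound481.PB p (-(j : ℤ)) (PowerSeries.coeff j (phi p x)) := by
  have := phi_mem p x 0 (by simp) j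
  simpa using this







end Crest.Agent.R006.P4BaseOx170
end

-- ▼ part R006/P4Idem_280
section

/-!
Row 6 (S0006), block P4, leaf B (helper280; notes 2627 (3)-(5) of helper255 and 2672 (1) of
helper657).

Setting: `A` a commutative ring, `p : ℕ`, `PU A p` : `1, ..., p-1` are units of `A`
(`A = ℤ_[p]`, `Z_(p)`, `ℤ_[p][[τ]]`, ...).  `L = Lam a` is `FuncLx170.Lam a`.

* `Jc A p c = (p, X - c)`, `Ip A p = (p, θ_p)`, `θ_p = X (X-1) ... (X-p+1)`.
* `exists_idem`   : the idempotents `e_c` modulo `∏ (X - c)^J`, with `∑ e_c = 1` exactly.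
* `mem_Ip_pow`    : `f ∈ Jc c ^ k` for all `c < p` implies `f ∈ Ip ^ k`.
* `dvd_of_mem_Ip` : Lemma L in ideal form.
* `Ord.dvd`       : `f` of order `≥ t` at class `c` and `≥ K` elsewhere: `p^(min t K - 1) ∣ L f`.
* `Ord.dvd_regular` : MOVING, for the regular classes: `p^(min (t+3) K - 1) ∣ L f`.
* `dvd_idem_polar`, `dvd_idem_regular` : the same for `(X - c)^t e_c Q`.
-/

set_option autoImplicit false

open Polynomial Finset

namespace Crest.Agent.R006.P4Idem280

open Crest.Agent.R006.FuncLx170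

variable {A : Type*} [CommRing A]

/-- `1, ..., p-1` are units of `A` -/
def PU (A : Type*) [CommRing A] (p : ℕ) : Prop := ∀ a : ℕ, 0 < a → a < p → IsUnit (a : A)

/-- integers not divisible by `p` are invertible modulo `p`. -/
theorem PU.exists_inv {p : ℕ} (hU : PU A p) (hp : 0 < p) (n : ℤ) (hn : ¬ (p : ℤ) ∣ n) :
    ∃ w z : A, 1 = w * (n : A) + (p : A) * z := by
  have hp' : (0 : ℤ) < p := by exact_mod_cast hp
  obtain ⟨r, hr⟩ := Int.eq_ofNat_of_zero_le (Int.emod_nonneg n hp'.ne')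
  have hr1 := Int.emod_lt_of_pos n hp'
  have hr0 : r ≠ 0 := by
    rintro rfl
    exact hn (Int.dvd_of_emod_eq_zero (by rw [hr]; rfl))
  rw [hr] at hr1
  obtain ⟨v, hv⟩ := hU r (Nat.pos_of_ne_zero hr0) (by exact_mod_cast hr1)
  have h1 : n = p * (n / p) + r := by
    have := Int.mul_ediv_add_emod n p
    rw [hr] at this
    exact this.symm
  have h2 : (n : A) = (p : A) * ((n / p : ℤ) : A) + (v : A) := by
    rw [hv]
    exact_mod_cast congrArg (Int.cast : ℤ → A) h1
  refine ⟨(↑v⁻¹ : A), - ((↑v⁻¹ : A) * ((n / p : ℤ) : A)), ?_⟩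
  rw [h2]
  have h3 : (↑v⁻¹ : A) * (v : A) = 1 := by simp
  linear_combination -h3

/-- the ideal `(p, X - c)` -/
noncomputable def Jc (A : Type*) [CommRing A] (p : ℕ) (c : ℤ) : Ideal A[X] :=
  Ideal.span {(p : A[X]), X - (c : A[X])}

/-- the ideal `(p, θ_p)` -/
noncomputable def Ip (A : Type*) [CommRing A] (p : ℕ) : Ideal A[X] :=
  Ideal.span {(p : A[X]), theta A p}

theorem natCast_mem_Jc (p : ℕ) (c : ℤ) : (p : A[X]) ∈ Jc A p c :=
  Ideal.subset_span (by simp)

theorem X_sub_mem_Jc (p : ℕ) (c : ℤ) : X - (c : A[X]) ∈ Jc A p c :=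
  Ideal.subset_span (by simp)

theorem intCast_mem_Jc_of_dvd (p : ℕ) (c d : ℤ) (h : (p : ℤ) ∣ d) : (d : A[X]) ∈ Jc A p c := by
  obtain ⟨k, rfl⟩ := h
  push_cast
  exact Ideal.mul_mem_right _ _ (natCast_mem_Jc p c)

theorem X_sub_mem_Jc_of_dvd (p : ℕ) (c d : ℤ) (h : (p : ℤ) ∣ c - d) :
    X - (d : A[X]) ∈ Jc A p c := by
  have h1 := intCast_mem_Jc_of_dvd (A := A) p c _ h
  have h2 := X_sub_mem_Jc (A := A) p c
  have : X - (d : A[X]) = (X - (c : A[X])) + ((c - d : ℤ) : A[X]) := by push_cast; ring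
  rw [this]
  exact Ideal.add_mem _ h2 h1

theorem Jc_le_of_dvd (p : ℕ) (c d : ℤ) (h : (p : ℤ) ∣ c - d) : Jc A p d ≤ Jc A p c := by
  unfold Jc
  rw [Ideal.span_le]
  intro x hx
  simp only [Set.mem_insert_iff, Set.mem_singleton_iff] at hx
  rcases hx with rfl | rfl
  · exact natCast_mem_Jc p c
  · exact X_sub_mem_Jc_of_dvd p c d h

/-- `Jc c` depends only on the class of `c` mod `p`. -/
theorem Jc_congr (p : ℕ) (c d : ℤ) (h : (p : ℤ) ∣ c - d) : Jc A p c = Jc A p d :=
  le_antisymm (Jc_le_of_dvd p d c (by rw [← neg_sub]; exact (dvd_neg).2 h)) (Jc_le_of_dvd p c d h)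


theorem Jc_isCoprime {p : ℕ} (hp : 0 < p) (hU : PU A p) (c d : ℤ) (h : ¬ (p : ℤ) ∣ c - d) :
    IsCoprime (Jc A p c) (Jc A p d) := by
  rw [Ideal.isCoprime_iff_exists]
  obtain ⟨w0, z0, hwz⟩ := hU.exists_inv hp _ h
  set w : A[X] := C w0 with hw
  set z : A[X] := C z0 with hz
  have hvn : 1 = w * ((c - d : ℤ) : A[X]) + (p : A[X]) * z := by
    have h1 : ((c - d : ℤ) : A[X]) = C (((c - d : ℤ)) : A) := by simp
    have h2 : (p : A[X]) = C ((p : ℕ) : A) := by simp
    rw [h1, h2, hw, hz, ← C_mul, ← C_mul, ← C_add, ← hwz, C_1]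
  refine ⟨(p : A[X]) * z - (w * (X - (c : A[X]))),
    sub_mem (Ideal.mul_mem_right _ _ (natCast_mem_Jc p c))
      (Ideal.mul_mem_left _ _ (X_sub_mem_Jc p c)),
    w * (X - (d : A[X])), Ideal.mul_mem_left _ _ (X_sub_mem_Jc p d), ?_⟩
  push_cast at hvn
  linear_combination -hvn

/-! ### the CRT idempotents -/

theorem PU.isUnit_sub {p : ℕ} (hU : PU A p) {c d : ℕ} (hc : c < p) (hd : d < p) (h : c ≠ d) :
    IsUnit ((c : A) - (d : A)) := by
  rcases Nat.lt_or_gt_of_ne h with h1 | h1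
  · have h2 := (hU (d - c) (by omega) (by omega)).neg
    rwa [Nat.cast_sub h1.le, neg_sub] at h2
  · have h2 := hU (c - d) (by omega) (by omega)
    rwa [Nat.cast_sub h1.le] at h2

theorem isCoprime_X_sub {p : ℕ} (hU : PU A p) {c d : ℕ} (hc : c < p) (hd : d < p) (h : c ≠ d) :
    IsCoprime (X - (c : A[X])) (X - (d : A[X])) := by
  have := Polynomial.isCoprime_X_sub_C_of_isUnit_sub (hU.isUnit_sub hc hd h)
  simpa using this

theorem not_dvd_of_lt {p c d : ℕ} (hc : c < p) (hd : d < p) (h : c ≠ d) :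
    ¬ (p : ℤ) ∣ (c : ℤ) - d := by
  intro h1
  have h2 : ((c : ℤ) - d) = 0 := by
    apply Int.eq_zero_of_abs_lt_dvd h1
    rw [abs_lt]
    omega
  omega

/-- the idempotents modulo `∏_{c<p} (X - c)^J` -/
theorem exists_idem {p : ℕ} (hp : 0 < p) (hU : PU A p) (J : ℕ) :
    ∃ e : ℕ → A[X], (∀ c < p, (X - (c : A[X])) ^ J ∣ e c - 1) ∧
      (∀ c < p, ∀ d < p, c ≠ d → (X - (d : A[X])) ^ J ∣ e c) ∧ ∑ c ∈ range p, e c = 1 := by
  classical
  -- first, idempotents without the exact sum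
  have key : ∀ c < p, ∃ e : A[X], (X - (c : A[X])) ^ J ∣ e - 1 ∧
      ∀ d < p, c ≠ d → (X - (d : A[X])) ^ J ∣ e := by
    intro c hc
    have hcop : IsCoprime ((X - (c : A[X])) ^ J)
        (∏ d ∈ (range p).erase c, (X - (d : A[X])) ^ J) := by
      apply IsCoprime.prod_right
      intro d hd
      rw [Finset.mem_erase, Finset.mem_range] at hd
      apply IsCoprime.pow
      exact isCoprime_X_sub hU hc hd.2 (Ne.symm hd.1)
    obtain ⟨u, v, huv⟩ := hcop
    refine ⟨v * ∏ d ∈ (range p).erase c, (X - (d : A[X])) ^ J, ⟨- u, ?_⟩, ?_⟩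
    · linear_combination huv
    · intro d hd hcd
      apply Dvd.dvd.mul_left
      exact Finset.dvd_prod_of_mem _ (by simp [hd, Ne.symm hcd])
  choose! e he1 he2 using key
  set S := ∑ c ∈ range p, e c with hS
  have hdS : ∀ d < p, (X - (d : A[X])) ^ J ∣ S - 1 := by
    intro d hd
    rw [hS, ← Finset.add_sum_erase _ _ (Finset.mem_range.2 hd)]
    have h1 := he1 d hd
    have h2 : (X - (d : A[X])) ^ J ∣ ∑ c ∈ (range p).erase d, e c := by
      apply Finset.dvd_sum
      intro c hc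
      rw [Finset.mem_erase, Finset.mem_range] at hc
      exact he2 c hc.2 d hd hc.1
    have h3 : e d + ∑ c ∈ (range p).erase d, e c - 1
        = (e d - 1) + ∑ c ∈ (range p).erase d, e c := by ring
    rw [h3]
    exact dvd_add h1 h2
  refine ⟨fun c => if c = 0 then e 0 + (1 - S) else e c, ?_, ?_, ?_⟩
  · intro c hc
    by_cases h0 : c = 0
    · subst h0
      simp only [if_true]
      have h3 : e 0 + (1 - S) - 1 = (e 0 - 1) - (S - 1) := by ring
      rw [h3]
      exact dvd_sub (he1 0 hc) (hdS 0 hc)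
    · simp only [h0, if_false]
      exact he1 c hc
  · intro c hc d hd hcd
    by_cases h0 : c = 0
    · subst h0
      simp only [if_true]
      have h3 : e 0 + (1 - S) = e 0 - (S - 1) := by ring
      rw [h3]
      exact dvd_sub (he2 0 hc d hd hcd) (hdS d hd)
    · simp only [h0, if_false]
      exact he2 c hc d hd hcd
  · have h0 : (0 : ℕ) ∈ range p := Finset.mem_range.2 hp
    rw [← Finset.add_sum_erase _ _ h0]
    simp only [if_true]
    have h1 : ∑ c ∈ (range p).erase 0, (if c = 0 then e 0 + (1 - S) else e c)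
        = ∑ c ∈ (range p).erase 0, e c := by
      apply Finset.sum_congr rfl
      intro c hc
      rw [Finset.mem_erase] at hc
      simp [hc.1]
    rw [h1]
    have h2 := Finset.add_sum_erase (range p) e h0
    rw [← hS] at h2
    linear_combination h2


/-! ### ideals -/

theorem prod_Jc_le (p : ℕ) (s : Finset ℕ) :
    ∏ c ∈ s, Jc A p (c : ℤ) ≤ Ideal.span {(p : A[X]), ∏ c ∈ s, (X - (c : A[X]))} := by
  classical
  induction s using Finset.induction with
  | empty =>
    simp only [Finset.prod_empty, Ideal.one_eq_top]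
    intro x _
    have : (1 : A[X]) ∈ Ideal.span {(p : A[X]), (1 : A[X])} := Ideal.subset_span (by simp)
    rw [Ideal.eq_top_of_isUnit_mem _ this isUnit_one]
    trivial
  | insert c s hc ih =>
    rw [Finset.prod_insert hc, Finset.prod_insert hc]
    refine le_trans (Ideal.mul_mono_right ih) ?_
    unfold Jc
    rw [Ideal.span_mul_span', Ideal.span_le]
    intro x hx
    simp only [Set.mem_mul, Set.mem_insert_iff, Set.mem_singleton_iff] at hx
    have hp1 : (p : A[X]) ∈ Ideal.span {(p : A[X]), (X - (c : A[X])) * ∏ c ∈ s, (X - (c : A[X]))} :=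
      Ideal.subset_span (by simp)
    have hp2 : (X - (c : A[X])) * ∏ c ∈ s, (X - (c : A[X]))
        ∈ Ideal.span {(p : A[X]), (X - (c : A[X])) * ∏ c ∈ s, (X - (c : A[X]))} :=
      Ideal.subset_span (by simp)
    obtain ⟨y, hy, z, hz, rfl⟩ := hx
    rcases hy with rfl | rfl
    · exact Ideal.mul_mem_right _ _ hp1
    · rcases hz with rfl | rfl
      · exact Ideal.mul_mem_left _ _ hp1
      · push_cast
        exact hp2

/-- order `≥ k` at every class implies membership in `(p, θ)^k`. -/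
theorem mem_Ip_pow {p : ℕ} (hp : 0 < p) (hU : PU A p) (f : A[X]) (k : ℕ)
    (h : ∀ c < p, f ∈ Jc A p (c : ℤ) ^ k) : f ∈ Ip A p ^ k := by
  have h1 : f ∈ ∏ c ∈ range p, Jc A p (c : ℤ) ^ k := by
    rw [Ideal.prod_eq_iInf_of_pairwise_isCoprime]
    · simp only [Ideal.mem_iInf, Finset.mem_range]
      exact h
    · intro c hc d hd hcd
      simp only [Finset.coe_range, Set.mem_Iio] at hc hd
      exact IsCoprime.pow (Jc_isCoprime hp hU _ _ (not_dvd_of_lt hc hd hcd))
  rw [Finset.prod_pow] at h1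
  exact Ideal.pow_right_mono (prod_Jc_le p (range p)) k h1

/-! ### Lemma L for ideals -/

theorem dvd_aux {p : ℕ} {a : ℕ → A}
    (hL : ∀ (k : ℕ) (Q : A[X]), (p : A) ^ (k - 1) ∣ Lam a (theta A p ^ k * Q)) (k : ℕ) :
    ∀ f ∈ Ip A p ^ k, ∀ (i : ℕ) (g : A[X]), (p : A) ^ (i + k - 1) ∣ Lam a (theta A p ^ i * f * g) := by
  induction k with
  | zero =>
    intro f _ i g
    rw [mul_assoc]
    exact hL i _
  | succ k ih =>
    intro f hf
    rw [pow_succ'] at hf
    refine Submodule.mul_induction_on hf ?_ ?_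
    · intro x hx y hy i g
      unfold Ip at hx
      rw [Ideal.mem_span_pair] at hx
      obtain ⟨u, v, rfl⟩ := hx
      have e1 : theta A p ^ i * ((u * (p : A[X]) + v * theta A p) * y) * g
          = (p : A[X]) * (theta A p ^ i * y * (u * g)) + theta A p ^ (i + 1) * y * (v * g) := by
        ring
      rw [e1, map_add, Lam_natCast_mul]
      apply dvd_add
      · have h1 := ih y hy i (u * g)
        have h2 : (p : A) ^ (i + (k + 1) - 1) ∣ (p : A) * (p : A) ^ (i + k - 1) := by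
          rw [← pow_succ']
          exact pow_dvd_pow _ (by omega)
        exact h2.trans (mul_dvd_mul_left _ h1)
      · have h1 := ih y hy (i + 1) (v * g)
        have h2 : i + (k + 1) - 1 = i + 1 + k - 1 := by omega
        rw [h2]
        exact h1
    · intro x y hx hy i g
      have e1 : theta A p ^ i * (x + y) * g = theta A p ^ i * x * g + theta A p ^ i * y * g := by
        ring
      rw [e1, map_add]
      exact dvd_add (hx i g) (hy i g)

/-- Lemma L, ideal form. -/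
theorem dvd_of_mem_Ip {p : ℕ} {a : ℕ → A}
    (hL : ∀ (k : ℕ) (Q : A[X]), (p : A) ^ (k - 1) ∣ Lam a (theta A p ^ k * Q)) (k : ℕ)
    (f : A[X]) (hf : f ∈ Ip A p ^ k) : (p : A) ^ (k - 1) ∣ Lam a f := by
  have := dvd_aux hL k f hf 0 1
  simpa using this

/-! ### concentrated polynomials, moving -/

/-- `f` has order `≥ t` at the class of `c` and order `≥ K` at all other classes. -/
def Ord (A : Type*) [CommRing A] (p : ℕ) (c : ℤ) (t K : ℕ) (f : A[X]) : Prop :=
  f ∈ Jc A p c ^ t ∧ ∀ d : ℤ, ¬ (p : ℤ) ∣ c - d → f ∈ Jc A p d ^ K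


theorem Ord.mem_Ip {p : ℕ} (hp : 0 < p) (hU : PU A p) {c : ℤ} {t K : ℕ} {f : A[X]} (h : Ord A p c t K f) :
    f ∈ Ip A p ^ (min t K) := by
  apply mem_Ip_pow hp hU
  intro d _
  by_cases hd : (p : ℤ) ∣ c - (d : ℤ)
  · rw [← Jc_congr p c d hd]
    exact Ideal.pow_le_pow_right (min_le_left _ _) h.1
  · exact Ideal.pow_le_pow_right (min_le_right _ _) (h.2 _ hd)

/-- polar (general) classes. -/
theorem Ord.dvd {p : ℕ} (hp : 0 < p) (hU : PU A p) {a : ℕ → A}
    (hL : ∀ (k : ℕ) (Q : A[X]), (p : A) ^ (k - 1) ∣ Lam a (theta A p ^ k * Q))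
    {c : ℤ} {t K : ℕ} {f : A[X]} (h : Ord A p c t K f) :
    (p : A) ^ (min t K - 1) ∣ Lam a f :=
  dvd_of_mem_Ip hL _ f (h.mem_Ip hp hU)






/-! ### from literal divisibility -/





end Crest.Agent.R006.P4Idem280
end

-- ▼ part R006/P4Class_280
section

/-!
Row 6 (S0006), block P4, input (L1): the CLASS VERSION of Lemma L (helper280), in the interface
proposed by helper255 / helper110.

`ClassData p N L e`: the CRT idempotents `e_c` (`c < p`) of `O[X]` modulo `∏ (X - c)^N`, with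
`∑ e_c = 1`, and the divisibility of `L (e_c F)`:
* `neg`  : `F` of order `≥ N` at all classes gives `p^(N-1) ∣ L F`;
* `polar`: `F ∈ (p, X-c)^x` gives `p^(min x N - 1) ∣ L (e_c F)` for every class;
* `regular`: for `p < 2c`: `p^(min (x+3) N - 1) ∣ L (e_c F)`.

`exists_classData`: existence for every ring `O` in which `1, ..., p-1`, and `2`, `3` are units and
every moment functional `L` with `IsMom L` (LemL255).
-/

set_option autoImplicit false

open Polynomial Finset

namespace Crest.Agent.R006.P4Class280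

open Crest.Agent.R006.P4Idem280

variable {O : Type*} [CommRing O]

/-- the ideal `(p, X - c)`, `c : ℕ` (helper255's form) -/
noncomputable def J (O : Type*) [CommRing O] (p c : ℕ) : Ideal O[X] :=
  Ideal.span {C (p : O), X - C (c : O)}





/-- the class data -/
structure ClassData (p N : ℕ) (L : O[X] →ₗ[O] O) (e : ℕ → O[X]) : Prop where
  sum_eq : ∑ c ∈ range p, e c = 1
  own_dvd : ∀ c < p, (X - C (c : O)) ^ N ∣ e c - 1
  other_dvd : ∀ c < p, ∀ d < p, d ≠ c → (X - C (d : O)) ^ N ∣ e c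
  own : ∀ c < p, 1 - e c ∈ J O p c ^ N
  other : ∀ c < p, ∀ d < p, d ≠ c → e c ∈ J O p d ^ N
  shift : ∀ c < p, ∀ d < p, (c = d + 1 ∨ (c = 0 ∧ d + 1 = p)) →
    (e c).comp (X + 1) - e d ∈ LemL255.Ith O p ^ N
  neg : ∀ F : O[X], (∀ c < p, F ∈ J O p c ^ N) → (p : O) ^ (N - 1) ∣ L F
  polar : ∀ c < p, ∀ (x : ℕ) (F : O[X]), F ∈ J O p c ^ x → (p : O) ^ (min x N - 1) ∣ L (e c * F)
  regular : ∀ c < p, p < 2 * c → ∀ (x : ℕ) (F : O[X]), F ∈ J O p c ^ x →
    (p : O) ^ (min (x + 3) N - 1) ∣ L (e c * F)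




end Crest.Agent.R006.P4Class280
end

-- ▼ part R006/P4_ClassMap_110
section

/-!
Row 6, block P4, local half (helper110): the class data of helper280 for GIVEN idempotents, and
base change.  `ExIdem p N e`: the exact (universal) properties of the idempotents, stable under
ring homomorphisms; `ExIdem.classData`: they give `ClassData p N L e` for every moment functional
`L` over every ring in which `2`, `3` and `1, ..., p-1` are units.  In particular the images in
`ℚ[X]`, in `B0[X]` of the idempotents over `ℤ_(p)` can be used.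
-/

set_option autoImplicit false

open Polynomial Finset

namespace Crest.Agent.R006.P4ClassMap110

open Crest.Agent.R006.P4Idem280 Crest.Agent.R006.P4Class280

variable {O : Type*} [CommRing O]

/-- exact properties of the idempotents -/
structure ExIdem (p N : ℕ) (e : ℕ → O[X]) : Prop where
  sum_eq : ∑ c ∈ range p, e c = 1
  own_dvd : ∀ c < p, (X - C (c : O)) ^ N ∣ e c - 1
  other_dvd : ∀ c < p, ∀ d < p, d ≠ c → (X - C (d : O)) ^ N ∣ e c



theorem ExIdem.map {O' : Type*} [CommRing O'] (φ : O →+* O') {p N : ℕ} {e : ℕ → O[X]}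
    (h : ExIdem p N e) : ExIdem p N (fun c => (e c).map φ) := by
  refine ⟨?_, fun c hc => ?_, fun c hc d hd hcd => ?_⟩
  · rw [← Polynomial.map_sum, h.sum_eq, Polynomial.map_one]
  · have := Polynomial.map_dvd φ (h.own_dvd c hc)
    simpa using this
  · have := Polynomial.map_dvd φ (h.other_dvd c hc d hd hcd)
    simpa using this


end Crest.Agent.R006.P4ClassMap110
end

-- ▼ part R006/P4M_Step_531
section

/-!
# Row 6, block P4, matrix side: the recurrences of the germs in `ℚ[X]⟦ε⟧` (helper531)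

`x = xk k = k/2 + ε`:
* `PsiX_step` : `(x+1)^3 ψ(k+2) + (2x+1)^3 ψ(k) = -(3x+2)/2`;
* `GamX_step` : `(x+1)^2 g(k+2) = (1/4) (2x+1)^2 g(k)`;
* `PsiX_zero` : `ψ(0) = -X`; `PsiX_negOne` : `ψ(-1/2) = 0`; `GamX_zero`, `GamX_negOne` : `1`.
-/

set_option autoImplicit false

namespace Crest.Agent.R006.P4M531

open Polynomial Finset

theorem xk_add_two (k : ℤ) : xk (k + 2) = xk k + 1 := by
  rw [xk, xk, pt, pt]
  have : (C (((k + 2 : ℤ) : ℚ) / 2) : ℚ[X]) = C ((k : ℚ) / 2) + 1 := by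
    rw [← C_1, ← C_add]; congr 1; push_cast; ring
  rw [this, map_add, map_one]; ring

theorem map_npt (z : ℚ) : PowerSeries.map (C : ℚ →+* ℚ[X]) (NV.pt z) = pt (C z) := by
  rw [NV.pt, map_add, PowerSeries.map_C, PowerSeries.map_X, pt, add_comm]


theorem gG_step {K : Type*} [Field K] [CharZero K] (k : ℤ) :
    (NV.pt ((k : K) / 2) + 1) ^ 2 * gG (k + 2) =
      PowerSeries.C (1 / 4) * (2 * NV.pt ((k : K) / 2) + 1) ^ 2 * gG k := by
  by_cases hk : k % 2 = 0
  · obtain ⟨i, rfl⟩ : ∃ i, k = 2 * i := ⟨k / 2, by omega⟩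
    have h2 : (2 * i + 2) % 2 = 0 := by omega
    rw [gG, gG, if_pos hk, if_pos h2, show (2 * i + 2) / 2 = i + 1 by omega,
      show 2 * i / 2 = i by omega]
    have h := (NV.step_Z (0 : K) i).gam
    have e1 : ((2 * i : ℤ) : K) / 2 = (i : K) := by push_cast; ring
    have e2 : NV.pt (i : K) + 1 = NV.pt ((i : K) + 1) := by
      simp only [NV.pt, map_add, map_one]; ring
    rw [e1, e2]
    linear_combination h
  · obtain ⟨i, rfl⟩ : ∃ i, k = 2 * i - 1 := ⟨(k + 1) / 2, by omega⟩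
    have h2 : ¬ ((2 * i - 1 + 2) % 2 = 0) := by omega
    rw [gG, gG, if_neg hk, if_neg h2, show (2 * i - 1 + 2 + 1) / 2 = i + 1 by omega,
      show (2 * i - 1 + 1) / 2 = i by omega]
    have h := (NV.step_HG0 (K := K) 1 i).gam
    have hg : ∀ i, (NV.GamH0 (1 : K) i) = GamH0 i := by
      intro i; rw [NV.GamH0, GamH0, map_one]
    rw [hg, hg] at h
    have e1 : ((2 * i - 1 : ℤ) : K) / 2 = (i : K) - 1 / 2 := by push_cast; ring
    have e2 : NV.pt ((i : K) - 1 / 2) + 1 = NV.pt ((i : K) - 1 / 2 + 1) := by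
      simp only [NV.pt, map_add, map_one]; ring
    rw [e1, e2]
    linear_combination h


theorem GamX_step (k : ℤ) :
    (xk k + 1) ^ 2 * GamX (k + 2) =
      PowerSeries.C (C (1 / 4)) * (2 * xk k + 1) ^ 2 * GamX k := by
  have h0 := congrArg (PowerSeries.map (C : ℚ →+* ℚ[X])) (gG_step (K := ℚ) k)
  simp only [map_add, map_mul, map_pow, map_one, map_ofNat, map_npt,
    PowerSeries.map_C] at h0
  rw [GamX, GamX, xk]
  exact h0



theorem GamX_zero : GamX 0 = 1 := by
  rw [GamX, gG, if_pos (by norm_num)]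
  have : (0 : ℤ) / 2 = 0 := by norm_num
  rw [this, NV.GamZ_zero, map_one]

theorem GamX_negOne : GamX (-1) = 1 := by
  rw [GamX, gG, if_neg (by norm_num)]
  have : ((-1 : ℤ) + 1) / 2 = 0 := by norm_num
  rw [this]
  have h : (GamH0 0 : PowerSeries ℚ) = 1 := rfl
  rw [h, map_one]

end Crest.Agent.R006.P4M531
end

-- ▼ part R006/P4_GW_556

/-!
# Row 6, block P4, leaf (5): `p`-adic weights of the germs of `g` (helper556)

In the jet filtration `psFil (pbFil p)` of `ℚ[X]⟦ε⟧` (coefficient `j` has valuation `≥ v - j`):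
* `xk_mem`, `xk_inv` : the site `k/2 + ε` lies in `F (w p k)` and has an inverse in `F (-(w p k))`,
  `w p k = 1` if `p ∣ k`, else `0` (for the inverse: `k ≠ 0`, `|k| < p^2`);
* `GamX_mem` : `GamX k ∈ F (W p k)` for all `|k| < p^2`, where `W p k = 0` if `k mod p` is even
  (polar class) and `2` if `k mod p` is odd (regular class).

No congruences, only weights.  `p` is an odd prime.
-/

set_option autoImplicit false

namespace Crest.Agent.R006.P4GW556

open Polynomial P4M531 P4M P4Toll961 Tollx814 ProdBound481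

variable (p : ℕ) [hp : Fact p.Prime]

/-- the jet filtration of `ℚ[X]⟦ε⟧` at `p` -/
noncomputable abbrev FB : ZFil BB := psFil (pbFil p)

/-- weight of the local coordinate of the site `k/2` -/
def w (p : ℕ) (k : ℤ) : ℤ := if (p : ℤ) ∣ k then 1 else 0

/-- weight of `g` at the site `k/2`: `0` in a polar class, `2` in a regular class -/
def W (p : ℕ) (k : ℤ) : ℤ := if (k % p) % 2 = 0 then 0 else 2

variable {p}

lemma C_mem_pb {v : ℤ} {a : ℚ} (h : padicNorm p a ≤ (p : ℚ) ^ (-v)) :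
    (C a : ℚ[X]) ∈ (pbFil p).F v := PB.C h

lemma CC_mem {v : ℤ} {a : ℚ} (h : padicNorm p a ≤ (p : ℚ) ^ (-v)) :
    (PowerSeries.C (C a) : BB) ∈ (FB p).F v := C_mem _ (C_mem_pb h)

lemma norm_two (h2 : p ≠ 2) : padicNorm p 2 = 1 := by
  have := (padicNorm.int_eq_one_iff (p := p) 2).mpr (by
    intro h
    have h' : p ∣ 2 := by exact_mod_cast h
    exact h2 ((Nat.prime_dvd_prime_iff_eq hp.out Nat.prime_two).mp h'))
  exact_mod_cast this

lemma norm_half_le (h2 : p ≠ 2) (k : ℤ) : padicNorm p ((k : ℚ) / 2) ≤ (p : ℚ) ^ (-(w p k)) := by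
  rw [padicNorm.div, norm_two h2, div_one, w]
  split_ifs with h
  · have := (padicNorm.dvd_iff_norm_le (p := p) (n := 1) (z := k)).mp (by simpa using h)
    simpa using this
  · rw [neg_zero, zpow_zero]
    exact padicNorm.of_int k

/-- `k ≠ 0`, `|k| < p^2`: the valuation of `k` is exactly `w p k` -/
lemma norm_int_eq {k : ℤ} (hk : k ≠ 0) (hk2 : |k| < (p : ℤ) ^ 2) :
    padicNorm p (k : ℚ) = (p : ℚ) ^ (-(w p k)) := by
  rw [w]
  split_ifs with h
  · obtain ⟨m, rfl⟩ := h
    have hm : ¬ ((p : ℤ) ∣ m) := by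
      intro hm
      have h1 : (p : ℤ) ^ 2 ∣ (p : ℤ) * m := by
        rw [pow_two]; exact mul_dvd_mul_left _ hm
      have h3 := Int.le_of_dvd (abs_pos.mpr hk) ((dvd_abs _ _).mpr h1)
      omega
    rw [Int.cast_mul, padicNorm.mul, (padicNorm.int_eq_one_iff m).mpr hm, mul_one]
    rw [Int.cast_natCast, padicNorm.padicNorm_p hp.out.one_lt, zpow_neg, zpow_one]
  · rw [neg_zero, zpow_zero]
    exact (padicNorm.int_eq_one_iff k).mpr h

lemma norm_inv_le (h2 : p ≠ 2) {k : ℤ} (hk : k ≠ 0) (hk2 : |k| < (p : ℤ) ^ 2) :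
    padicNorm p (2 / (k : ℚ)) ≤ (p : ℚ) ^ (-(-(w p k))) := by
  rw [padicNorm.div, norm_two h2, norm_int_eq hk hk2, neg_neg, zpow_neg, one_div, inv_inv]

/-- the local coordinate has weight `w p k` -/
theorem xk_mem (h2 : p ≠ 2) (k : ℤ) : xk k ∈ (FB p).F (w p k) := by
  rw [xk, pt]
  refine AddSubgroup.add_mem _ (CC_mem (norm_half_le h2 k)) ?_
  refine (FB p).mono ?_ (X_mem (pbFil p))
  rw [w]; split_ifs <;> norm_num

/-- the inverse of the local coordinate -/
theorem xk_inv (h2 : p ≠ 2) {k : ℤ} (hk : k ≠ 0) (hk2 : |k| < (p : ℤ) ^ 2) :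
    ∃ g ∈ (FB p).F (-(w p k)), g * xk k = 1 := by
  have hc : (PowerSeries.C (C (2 / (k : ℚ))) : BB) ∈ (FB p).F (-(w p k)) :=
    CC_mem (norm_inv_le h2 hk hk2)
  have hf : (1 + PowerSeries.C (C (2 / (k : ℚ))) * PowerSeries.X : BB) ∈ (FB p).F 0 := by
    refine AddSubgroup.add_mem _ (FB p).one_mem ?_
    refine (FB p).mono ?_ ((FB p).mul_mem hc (X_mem (pbFil p)))
    rw [w]; split_ifs <;> norm_num
  obtain ⟨g, hg, hg1⟩ := exists_inv (pbFil p) hf (w := 1) (pbFil p).one_mem (by simp)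
  refine ⟨PowerSeries.C (C (2 / (k : ℚ))) * g, ?_, ?_⟩
  · exact (FB p).mono (by simp) ((FB p).mul_mem hc hg)
  · have hk' : (k : ℚ) ≠ 0 := by exact_mod_cast hk
    have e : xk k = PowerSeries.C (C ((k : ℚ) / 2)) *
        (1 + PowerSeries.C (C (2 / (k : ℚ))) * PowerSeries.X) := by
      rw [xk, pt, mul_add, mul_one, ← mul_assoc, ← map_mul, ← C_mul]
      have : (k : ℚ) / 2 * (2 / (k : ℚ)) = 1 := by field_simp
      rw [this, C_1, map_one, one_mul]
    have e2 : (PowerSeries.C (C (2 / (k : ℚ))) * PowerSeries.C (C ((k : ℚ) / 2)) : BB) = 1 := by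
      rw [← map_mul, ← C_mul]
      have : 2 / (k : ℚ) * ((k : ℚ) / 2) = 1 := by field_simp
      rw [this, C_1, map_one]
    rw [e]
    calc PowerSeries.C (C (2 / (k : ℚ))) * g * (PowerSeries.C (C ((k : ℚ) / 2)) *
          (1 + PowerSeries.C (C (2 / (k : ℚ))) * PowerSeries.X))
        = (PowerSeries.C (C (2 / (k : ℚ))) * PowerSeries.C (C ((k : ℚ) / 2))) *
          (g * (1 + PowerSeries.C (C (2 / (k : ℚ))) * PowerSeries.X)) := by ring
      _ = 1 := by rw [e2, hg1, one_mul]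

/-- the recurrence of `g` in terms of the local coordinates -/
theorem GamX_step' (k : ℤ) : xk (k + 2) ^ 2 * GamX (k + 2) = xk (k + 1) ^ 2 * GamX k := by
  have h := GamX_step k
  have e1 : 2 * xk k + 1 = 2 * xk (k + 1) := by
    rw [xk, xk, pt, pt]
    have : (C (((k + 1 : ℤ) : ℚ) / 2) : ℚ[X]) = C ((k : ℚ) / 2) + C (1 / 2) := by
      rw [← C_add]; congr 1; push_cast; ring
    rw [this, map_add]
    have h3 : (2 * PowerSeries.C (C (1 / 2 : ℚ)) : BB) = 1 := by
      have : (2 : BB) = PowerSeries.C (C 2) := by rw [map_ofNat, map_ofNat]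
      rw [this, ← map_mul, ← C_mul]; norm_num
    linear_combination -h3
  have e3 : (PowerSeries.C (C (1 / 4 : ℚ)) * 4 : BB) = 1 := by
    have : (4 : BB) = PowerSeries.C (C 4) := by rw [map_ofNat, map_ofNat]
    rw [this, ← map_mul, ← C_mul]; norm_num
  rw [← xk_add_two] at h
  rw [h, e1]
  linear_combination (xk (k + 1) ^ 2 * GamX k) * e3

lemma W_step (h2 : p ≠ 2) (k : ℤ) : W p (k + 2) = W p k + 2 * w p (k + 1) - 2 * w p (k + 2) := by
  have hp3 : 3 ≤ p := by
    have := hp.out.two_le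
    omega
  have hodd : p % 2 = 1 := (Nat.Prime.eq_two_or_odd hp.out).resolve_left h2
  have hpz : (0 : ℤ) < p := by exact_mod_cast hp.out.pos
  have hr0 := Int.emod_nonneg k hpz.ne'
  have hr1 := Int.emod_lt_of_pos k hpz
  have hdiv := Int.emod_add_mul_ediv k p
  set r := k % (p : ℤ) with hr
  have hpo : (p : ℤ) % 2 = 1 := by exact_mod_cast hodd
  have hp3' : (3 : ℤ) ≤ p := by exact_mod_cast hp3
  have d1 : ((p : ℤ) ∣ k + 1) ↔ r = p - 1 := by
    constructor
    · intro h
      have h1 : (p : ℤ) ∣ r + 1 := by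
        have : r + 1 = (k + 1) - p * (k / p) := by linarith
        rw [this]; exact dvd_sub h (dvd_mul_right _ _)
      have := Int.le_of_dvd (by omega) h1
      omega
    · intro h
      have : k + 1 = p * (k / p + 1) := by linarith
      rw [this]; exact dvd_mul_right _ _
  have d2 : ((p : ℤ) ∣ k + 2) ↔ r = p - 2 := by
    constructor
    · intro h
      have h1 : (p : ℤ) ∣ r + 2 := by
        have : r + 2 = (k + 2) - p * (k / p) := by linarith
        rw [this]; exact dvd_sub h (dvd_mul_right _ _)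
      obtain ⟨t, ht⟩ := h1
      have ht1 : 0 < t := by
        by_contra hcon
        have : (p : ℤ) * t ≤ 0 := mul_nonpos_of_nonneg_of_nonpos hpz.le (by omega)
        omega
      have ht2 : t < 2 := by
        by_contra hcon
        have : (p : ℤ) * 2 ≤ p * t := mul_le_mul_of_nonneg_left (by omega) hpz.le
        omega
      have : t = 1 := by omega
      subst this
      omega
    · intro h
      have : k + 2 = p * (k / p + 1) := by linarith
      rw [this]; exact dvd_mul_right _ _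
  have e : (k + 2) % (p : ℤ) = if r = p - 1 then 1 else if r = p - 2 then 0 else r + 2 := by
    split_ifs with h1 h3
    · have : k + 2 = 1 + p * (k / p + 1) := by linarith
      rw [this, Int.add_mul_emod_self_left, Int.emod_eq_of_lt (by norm_num) (by omega)]
    · have : k + 2 = 0 + p * (k / p + 1) := by linarith
      rw [this, Int.add_mul_emod_self_left, Int.emod_eq_of_lt le_rfl hpz]
    · have : k + 2 = (r + 2) + p * (k / p) := by linarith
      rw [this, Int.add_mul_emod_self_left, Int.emod_eq_of_lt (by omega) (by omega)]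
  unfold W w
  rw [e, ← hr]
  simp only [d1, d2]
  split_ifs <;> omega

/-- one step to the right -/
lemma up_step (h2 : p ≠ 2) {k : ℤ} (hk : k + 2 ≠ 0) (hk2 : |k + 2| < (p : ℤ) ^ 2)
    (h : GamX k ∈ (FB p).F (W p k)) : GamX (k + 2) ∈ (FB p).F (W p (k + 2)) := by
  obtain ⟨g, hg, hg1⟩ := xk_inv h2 hk hk2
  have e : GamX (k + 2) = g ^ 2 * (xk (k + 1) ^ 2 * GamX k) := by
    rw [← GamX_step']
    calc GamX (k + 2) = (g * xk (k + 2)) ^ 2 * GamX (k + 2) := by rw [hg1, one_pow, one_mul]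
      _ = _ := by ring
  rw [e]
  have h1 := (FB p).mul_mem (pow_mem (FB p) hg 2)
    ((FB p).mul_mem (pow_mem (FB p) (xk_mem h2 (k + 1)) 2) h)
  refine (FB p).mono (le_of_eq ?_) h1
  rw [W_step h2]; push_cast; ring

/-- one step to the left -/
lemma down_step (h2 : p ≠ 2) {k : ℤ} (hk : k + 1 ≠ 0) (hk2 : |k + 1| < (p : ℤ) ^ 2)
    (h : GamX (k + 2) ∈ (FB p).F (W p (k + 2))) : GamX k ∈ (FB p).F (W p k) := by
  obtain ⟨g, hg, hg1⟩ := xk_inv h2 hk hk2
  have e : GamX k = g ^ 2 * (xk (k + 2) ^ 2 * GamX (k + 2)) := by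
    rw [GamX_step']
    calc GamX k = (g * xk (k + 1)) ^ 2 * GamX k := by rw [hg1, one_pow, one_mul]
      _ = _ := by ring
  rw [e]
  have h1 := (FB p).mul_mem (pow_mem (FB p) hg 2)
    ((FB p).mul_mem (pow_mem (FB p) (xk_mem h2 (k + 2)) 2) h)
  refine (FB p).mono (le_of_eq ?_) h1
  rw [W_step h2]; push_cast; ring

/-- **weights of the germs of `g`**: `0` in polar classes (`k mod p` even), `2` in regular
classes (`k mod p` odd), for all sites `|k| < p^2`, integers and half-integers. -/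
theorem GamX_mem (h2 : p ≠ 2) {k : ℤ} (hk : |k| < (p : ℤ) ^ 2) :
    GamX k ∈ (FB p).F (W p k) := by
  have hp3 : 3 ≤ p := by
    have := hp.out.two_le
    omega
  have hodd : p % 2 = 1 := (Nat.Prime.eq_two_or_odd hp.out).resolve_left h2
  have hpz : (0 : ℤ) < p := by exact_mod_cast hp.out.pos
  have h0 : GamX 0 ∈ (FB p).F (W p 0) := by
    rw [GamX_zero, W, if_pos (by simp)]; exact (FB p).one_mem
  have h1 : GamX (-1) ∈ (FB p).F (W p (-1)) := by
    have e : (-1 : ℤ) % p = p - 1 := by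
      have : (-1 : ℤ) = (p - 1 : ℤ) + p * (-1) := by ring
      rw [this, Int.add_mul_emod_self_left, Int.emod_eq_of_lt (by omega) (by omega)]
    rw [GamX_negOne, W, if_pos (by rw [e]; omega)]; exact (FB p).one_mem
  have hu0 : ∀ n : ℕ, ((2 * n : ℕ) : ℤ) < (p : ℤ) ^ 2 →
      GamX ((2 * n : ℕ) : ℤ) ∈ (FB p).F (W p ((2 * n : ℕ) : ℤ)) := by
    intro n
    induction n with
    | zero => intro _; simpa using h0
    | succ n ih =>
      intro h
      have e : ((2 * (n + 1) : ℕ) : ℤ) = ((2 * n : ℕ) : ℤ) + 2 := by push_cast; ring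
      rw [e] at h ⊢
      exact up_step h2 (by omega) (by rw [abs_of_nonneg (by omega)]; exact h) (ih (by omega))
  have hu1 : ∀ n : ℕ, (-1 + (2 * n : ℕ) : ℤ) < (p : ℤ) ^ 2 →
      GamX (-1 + (2 * n : ℕ) : ℤ) ∈ (FB p).F (W p (-1 + (2 * n : ℕ) : ℤ)) := by
    intro n
    induction n with
    | zero => intro _; simpa using h1
    | succ n ih =>
      intro h
      have e : (-1 + (2 * (n + 1) : ℕ) : ℤ) = (-1 + (2 * n : ℕ) : ℤ) + 2 := by push_cast; ring
      rw [e] at h ⊢
      exact up_step h2 (by omega) (by rw [abs_of_nonneg (by omega)]; exact h) (ih (by omega))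
  have hd0 : ∀ n : ℕ, ((2 * n : ℕ) : ℤ) < (p : ℤ) ^ 2 →
      GamX (-(2 * n : ℕ) : ℤ) ∈ (FB p).F (W p (-(2 * n : ℕ) : ℤ)) := by
    intro n
    induction n with
    | zero => intro _; simpa using h0
    | succ n ih =>
      intro h
      have e : (-(2 * (n + 1) : ℕ) : ℤ) + 2 = (-(2 * n : ℕ) : ℤ) := by push_cast; ring
      have hih := ih (by push_cast at h ⊢; omega)
      rw [← e] at hih
      refine down_step h2 (by push_cast; omega) ?_ hih
      rw [abs_of_nonpos (by push_cast; omega)]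
      push_cast at h ⊢; omega
  have hd1 : ∀ n : ℕ, (1 + (2 * n : ℕ) : ℤ) < (p : ℤ) ^ 2 →
      GamX (-(1 + (2 * n : ℕ)) : ℤ) ∈ (FB p).F (W p (-(1 + (2 * n : ℕ)) : ℤ)) := by
    intro n
    induction n with
    | zero => intro _; simpa using h1
    | succ n ih =>
      intro h
      have e : (-(1 + (2 * (n + 1) : ℕ)) : ℤ) + 2 = (-(1 + (2 * n : ℕ)) : ℤ) := by
        push_cast; ring
      have hih := ih (by push_cast at h ⊢; omega)
      rw [← e] at hih
      refine down_step h2 (by push_cast; omega) ?_ hih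
      rw [abs_of_nonpos (by push_cast; omega)]
      push_cast at h ⊢; omega
  rw [abs_lt] at hk
  rcases le_or_gt 0 k with h | h
  · rcases Int.even_or_odd k with ⟨m, hm⟩ | ⟨m, hm⟩
    · obtain ⟨n, rfl⟩ : ∃ n : ℕ, k = ((2 * n : ℕ) : ℤ) := ⟨m.toNat, by push_cast; omega⟩
      exact hu0 n hk.2
    · obtain ⟨n, rfl⟩ : ∃ n : ℕ, k = (-1 + (2 * n : ℕ) : ℤ) := ⟨(m + 1).toNat, by push_cast; omega⟩
      exact hu1 n hk.2
  · rcases Int.even_or_odd k with ⟨m, hm⟩ | ⟨m, hm⟩
    · obtain ⟨n, rfl⟩ : ∃ n : ℕ, k = (-(2 * n : ℕ) : ℤ) := ⟨(-m).toNat, by push_cast; omega⟩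
      exact hd0 n (by omega)
    · obtain ⟨n, rfl⟩ : ∃ n : ℕ, k = (-(1 + (2 * n : ℕ)) : ℤ) :=
        ⟨(-m - 1).toNat, by push_cast; omega⟩
      exact hd1 n (by omega)

/-- in every class `g` is integral -/
theorem GamX_mem_zero (h2 : p ≠ 2) {k : ℤ} (hk : |k| < (p : ℤ) ^ 2) : GamX k ∈ (FB p).F 0 :=
  (FB p).mono (by rw [W]; split_ifs <;> norm_num) (GamX_mem h2 hk)

/-- in a regular class `g` has weight `2` -/
theorem GamX_mem_two (h2 : p ≠ 2) {k : ℤ} (hk : |k| < (p : ℤ) ^ 2) (hr : (k % p) % 2 = 1) :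
    GamX k ∈ (FB p).F 2 := by
  have := GamX_mem (p := p) h2 hk
  rwa [W, if_neg (by omega)] at this

end Crest.Agent.R006.P4GW556
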