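import Crest.Agent.R006.Defs
import Crest.Agent.R006.P4L_nodes_869

/-!
Row 6, block P4, local half: the germs of `Defs` in the rescaled variable `ε = p τ` (helper620).

`A` is a `ℚ`-algebra (`ℚ[X]`, `ℚ_[p]`, `ℚ_[p][X]`, ..), `G : A` the value of `X`.

* `rs p A : ℚ⟦X⟧ →+* A⟦X⟧`, `f(ε) ↦ f(pτ)`; `coeff_rs : coeff j (rs f) = p^j * coeff j f`;
* `E3 A = A⟦X⟧ / (X^3)`, `mk3`, `tau A = mk3 X`, `tau_cube : tau^3 = 0`;
  `rq p A : ℚ⟦X⟧ →+* E3 A`, `rq_pt : rq (pt s) = s + p τ`.
* `psiE p G z`, `gamE p A z : E3 A`, the values of `psi0 - G psi1` and of `gam` at `z + pτ`.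
* **chains** `psiE_Z`, `psiE_H`, `gamE_Z`, `gamE_H` (all integers `i`):
  `x^3 ψ(x) + (2x-1)^3 ψ(x-1) = -(3x-1)/2`, `4 x^2 g(x) = (2x-1)^2 g(x-1)`,
  `x = i + pτ` resp. `x = i + 1/2 + pτ`; base values; `PsiZ c = psi0 + c psi1`.
* `OO A₀ : Subring (E3 A)` for a subring `A₀` of `A`; membership = the coefficients `j < 3`.
-/

set_option autoImplicit false

namespace Crest.Agent.R006.Germ620

open Polynomial Crest.Agent.R006.NV Crest.Agent.R006.P4L869
open Crest.Agent.R006.D (Site psi0 psi1 gam HomZ)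

/-! ### rescaling -/

section rescale

variable (p : ℕ) (A : Type*) [CommRing A] [Algebra ℚ A]

/-- `f(ε) ↦ f(pτ)` -/
noncomputable def rs : PowerSeries ℚ →+* PowerSeries A :=
  (PowerSeries.rescale (p : A)).comp (PowerSeries.map (algebraMap ℚ A))





/-- jets of order `≤ 2` in the variable `τ` -/
abbrev E3 := PowerSeries A ⧸ Ideal.span {(PowerSeries.X : PowerSeries A) ^ 3}

/-- the quotient map -/
noncomputable def mk3 : PowerSeries A →+* E3 A :=
  Ideal.Quotient.mk (Ideal.span {(PowerSeries.X : PowerSeries A) ^ 3})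





/-- constants -/
noncomputable def cst : A →+* E3 A := (mk3 A).comp PowerSeries.C

/-- the rescaled jet of a germ -/
noncomputable def rq : PowerSeries ℚ →+* E3 A := (mk3 A).comp (rs p A)





/-- `1/2` -/
noncomputable def hf : E3 A := cst A (algebraMap ℚ A (1 / 2))





end rescale

/-! ### the germs -/

section germs

variable {A : Type*} [CommRing A] [Algebra ℚ A]



/-- homogeneous chain -/
theorem hom_step (i : ℤ) :
    pt ((i : ℚ) + 1) ^ 3 * HomZ (i + 1) + (2 * pt (i : ℚ) + 1) ^ 3 * HomZ i = 0 := by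
  apply bi_step (K := ℚ) (a := fun i => pt ((i : ℚ) + 1) ^ 3)
      (b := fun i => (2 * pt (i : ℚ) + 1) ^ 3) (c := fun _ => 0)
  · intro i hi
    rw [map_pow, constantCoeff_pt]
    apply pow_ne_zero
    have : ((i + 1 : ℤ) : ℚ) ≠ 0 := by exact_mod_cast (by omega : (i + 1 : ℤ) ≠ 0)
    push_cast at this
    exact this
  · intro i hi
    rw [map_pow, map_add, map_mul, constantCoeff_pt, constantCoeff_two, map_one]
    apply pow_ne_zero
    have : ((2 * i + 1 : ℤ) : ℚ) ≠ 0 := by exact_mod_cast (by omega : (2 * i + 1 : ℤ) ≠ 0)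
    push_cast at this
    exact this

theorem HomZ_zero : HomZ 0 = 1 := rfl


variable (p : ℕ)









end germs

/-! ### the lattice -/

section lattice

variable {A : Type*} [CommRing A]

/-- jets with coefficients in `A₀` -/
noncomputable def OO (A₀ : Subring A) : Subring (E3 A) :=
  ((PowerSeries.map A₀.subtype).range).map (mk3 A)

theorem mem_range_map {A₀ : Subring A} {f : PowerSeries A} :
    f ∈ (PowerSeries.map A₀.subtype).range ↔ ∀ j, PowerSeries.coeff j f ∈ A₀ := by
  constructor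
  · rintro ⟨g, rfl⟩ j
    rw [PowerSeries.coeff_map]
    exact (PowerSeries.coeff j g).2
  · intro h
    refine ⟨PowerSeries.mk fun j => ⟨PowerSeries.coeff j f, h j⟩, ?_⟩
    ext j
    rw [PowerSeries.coeff_map, PowerSeries.coeff_mk]
    rfl







end lattice

end Crest.Agent.R006.Germ620
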