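import Mathlib
import Crest.Agent.R006.P4_LocalInput_955
import Crest.Agent.R006.P4_Bridge_110
import Crest.Agent.R006.P4L_hcv_830
import Crest.Agent.R006.P4L_nodes_869
import Crest.Agent.R6K.P4L_Gen_630
import Crest.Agent.R006.P4_GW_556_Mg
import Crest.Agent.R006.P4_Germ_620
import Crest.Agent.R006.P4_Flat_620

-- ▼ part R006/P4M_psi_830
section

/-!
Row 6, block P4, local input: conversion to 955's form (helper830).

`B0 p = OO (psFil (pbFil p))` the integral subring of `E = ℚ[X]⟦ε⟧`; the class idempotents are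
the universal ones of 630 over `ℤ`, so that everything over `B0` and over `ℚ` is the image of the
same integral polynomials.
-/

set_option autoImplicit false

namespace Crest.Agent.R006.P4Psi830

open Polynomial Finset Tollx814 P4Toll961
open Crest.Agent.R006.D Crest.Agent.R006.PsiInf Crest.Agent.R006.P4M
open Crest.Agent.R006.P4Row Crest.Agent.R006.P4L869 Crest.Agent.R6K.P4L

/-- the constants -/
noncomputable def kap : ℚ →+* PowerSeries ℚ[X] := (PowerSeries.C).comp (C : ℚ →+* ℚ[X])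


section prime

variable (p : ℕ) [hp : Fact p.Prime]

/-- the integral subring -/
noncomputable abbrev B0 : Subring (PowerSeries ℚ[X]) := OO (psFil (pbFil p))

/-- the inclusion -/
noncomputable abbrev io : B0 p →+* PowerSeries ℚ[X] := (B0 p).subtype

variable {p}

lemma C_mem_pb {q : ℚ} {v : ℤ} (h : padicNorm p q ≤ (p : ℚ) ^ (-v)) :
    (C q : ℚ[X]) ∈ (pbFil p).F v := by
  rw [mem_pbFil]; exact ProdBound481.PB.C h

lemma kap_mem {q : ℚ} {v : ℤ} (h : padicNorm p q ≤ (p : ℚ) ^ (-v)) :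
    kap q ∈ (psFil (pbFil p)).F v := C_mem (pbFil p) (C_mem_pb h)

lemma p_mem : ((p : ℕ) : PowerSeries ℚ[X]) ∈ (psFil (pbFil p)).F 1 := by
  have h : kap (p : ℚ) ∈ (psFil (pbFil p)).F 1 := by
    apply kap_mem
    rw [padicNorm.padicNorm_p_of_prime, zpow_neg, zpow_one]
  rwa [map_natCast] at h

lemma pinv_mem : kap ((p : ℚ)⁻¹) ∈ (psFil (pbFil p)).F (-1) := by
  apply kap_mem
  have h : padicNorm p ((p : ℚ)⁻¹) = p := by
    have h1 : padicNorm p ((p : ℚ)⁻¹ * p) = 1 := by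
      rw [inv_mul_cancel₀ (by exact_mod_cast hp.out.ne_zero)]; exact padicNorm.one
    rw [padicNorm.mul, padicNorm.padicNorm_p_of_prime] at h1
    have hp0 : (p : ℚ) ≠ 0 := by exact_mod_cast hp.out.ne_zero
    field_simp at h1
    rwa [one_div] at h1
  rw [h]; simp

lemma kap_inv_mem {m : ℤ} (hm : ¬ (p : ℤ) ∣ m) : kap ((m : ℚ)⁻¹) ∈ B0 p := by
  show kap ((m : ℚ)⁻¹) ∈ (psFil (pbFil p)).F 0
  apply kap_mem
  have h0 : (m : ℚ) ≠ 0 := by
    intro h
    apply hm
    have : m = 0 := by exact_mod_cast h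
    rw [this]; exact dvd_zero _
  have h1 : padicNorm p (m : ℚ) = 1 := (padicNorm.int_eq_one_iff m).mpr hm
  have h2 : padicNorm p ((m : ℚ)⁻¹ * m) = 1 := by
    rw [inv_mul_cancel₀ h0]; exact padicNorm.one
  rw [padicNorm.mul, h1, mul_one] at h2
  rw [h2]; simp

/-- divisibility in `B0` gives the filtration. -/
lemma dvd_mem {k : ℕ} {b : B0 p} (h : ((p : ℕ) : B0 p) ^ k ∣ b) :
    io p b ∈ (psFil (pbFil p)).F k := by
  obtain ⟨d, rfl⟩ := h
  rw [map_mul, map_pow, map_natCast]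
  exact mul_mem' _ (pow_one_mem _ p_mem k) d.2 (by simp)

/-- the weight of a state -/
def wt : St → ℤ
  | St.A => 0
  | St.B => 1
  | St.C => -2

lemma wt_le (s : St) : wt s ≤ 1 := by cases s <;> simp [wt]

lemma good_mem {s : St} {x : PowerSeries ℚ[X]} (h : Good (B0 p) p s x) :
    x ∈ (psFil (pbFil p)).F (wt s) := by
  cases s with
  | A => exact h
  | B =>
    obtain ⟨y, hy, rfl⟩ := h
    exact mul_mem' _ p_mem hy (by simp [wt])
  | C =>
    have h1 : ((p : ℕ) : PowerSeries ℚ[X]) ^ 2 * x ∈ (psFil (pbFil p)).F 0 := h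
    have h2 : kap ((p : ℚ)⁻¹) ^ 2 * (((p : ℕ) : PowerSeries ℚ[X]) ^ 2 * x) = x := by
      have h3 : kap ((p : ℚ)⁻¹) * ((p : ℕ) : PowerSeries ℚ[X]) = 1 := by
        rw [← map_natCast kap p, ← map_mul, inv_mul_cancel₀ (by exact_mod_cast hp.out.ne_zero),
          map_one]
      linear_combination (x * (kap ((p : ℚ)⁻¹) * ((p : ℕ) : PowerSeries ℚ[X]) + 1)) * h3
    rw [← h2]
    exact mul_mem' _ (pow_mem _ pinv_mem 2) h1 (by simp [wt])

end prime

/-! ### naturality -/

section nat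

variable {p : ℕ} [hp : Fact p.Prime] {m0 : ℕ → B0 p}
  (hm0 : ∀ k, io p (m0 k) = kap (mu k))

include hm0

lemma lin_cast (G : ℤ[X]) :
    io p (P4Row.lin m0 (G.map (Int.castRingHom (B0 p)))) =
      kap (PsiInf.lin mu (G.map (Int.castRingHom ℚ))) := by
  have h1 := P4Row.lin_map (io p) m0 (G.map (Int.castRingHom (B0 p)))
  have h2 := P4Row.lin_map kap mu (G.map (Int.castRingHom ℚ))
  have e1 : (G.map (Int.castRingHom (B0 p))).map (io p) =
      (G.map (Int.castRingHom ℚ)).map kap := by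
    rw [Polynomial.map_map, Polynomial.map_map]
    congr 1
    exact RingHom.ext_int _ _
  have e2 : (fun k => io p (m0 k)) = fun k => kap (mu k) := funext hm0
  rw [e1, e2] at h1
  rw [← h1, h2]
  rfl

omit hm0 in
lemma map_poly_cast {A : Type*} [CommRing A] (eZ : ℕ → ℤ[X]) (c u : ℕ) :
    (eZ c * (X - C (c : ℤ)) ^ u).map (Int.castRingHom A) = eA A eZ c * (X - C (c : A)) ^ u := by
  rw [Polynomial.map_mul, Polynomial.map_pow, Polynomial.map_sub, Polynomial.map_X, map_C,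
    map_natCast, eA]

lemma mom_cast (eZ : ℕ → ℤ[X]) (c : Fin p) (u : ℕ) :
    io p (P4D.mom (P4Row.lin m0) (fun i : Fin p => eA (B0 p) eZ i)
      (fun i => ((i : ℕ) : B0 p)) c u) = kap (momQ (fun i : Fin p => eA ℚ eZ i) c u) := by
  have h := lin_cast hm0 (eZ c * (X - C ((c : ℕ) : ℤ)) ^ u)
  rw [map_poly_cast, map_poly_cast] at h
  unfold momQ P4D.mom
  exact h

lemma wc_cast (eZ : ℕ → ℤ[X]) (M : ℕ) (c0 c : Fin p) (d : Fin p → B0 p)
    (hd : io p (d c) = kap ((((c0 : ℕ) : ℚ) - ((c : ℕ) : ℚ))⁻¹)) (k t : ℕ) :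
    io p (P4D.wc (P4Row.lin m0) (fun i : Fin p => eA (B0 p) eZ i)
      (fun i => ((i : ℕ) : B0 p)) d M c k t) =
      kap (wcQ (fun i : Fin p => eA ℚ eZ i) M c0 c k t) := by
  unfold wcQ P4D.wc
  rw [map_sum, map_sum]
  refine sum_congr rfl fun m _ => ?_
  have h := mom_cast hm0 eZ c (m - k + t)
  unfold momQ at h
  rw [map_mul, map_mul, map_mul, map_mul, map_mul, map_mul, h, map_pow, map_pow, map_pow, map_pow,
    hd, map_neg, map_neg, map_one, map_one, map_natCast, map_natCast]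

end nat

/-! ### the class data over `B0` from 630's universal idempotents -/

section classdata

variable {O : Type*} [CommRing O] {p : ℕ}

lemma Jz_eq (p c : ℕ) : Jz O p c = LemL255.J O p c := by
  unfold Jz LemL255.J
  rw [← Ideal.span_union, Set.singleton_union, Int.cast_natCast]

lemma classData_eA [hp : Fact p.Prime] (hodd : Odd p) (h2u : IsUnit (2 : O))
    (h3u : IsUnit (3 : O)) (hu : ∀ a : ℕ, 0 < a → a < p → IsUnit (a : O)) {L : O[X] →ₗ[O] O}
    (hL : LemL255.IsMom L) {N : ℕ} {eZ : ℕ → ℤ[X]} (he : IsIdem p N eZ) :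
    P4Hc830.ClassData p N L (eA O eZ) := by
  have h2 : ∀ c < p, ∀ c' < p, c' ≠ c → eA O eZ c ∈ LemL255.J O p c' ^ N := by
    intro c hc c' hc' hne
    rw [← Jz_eq]
    exact he.offA hp.out.pos hc (not_dvd_of_lt hc' hc hne)
  refine ⟨he.sumA, h2, ?_, ?_, ?_⟩
  · intro c hc
    have := he.onA (A := O) hc
    rw [← Jz_eq, ← neg_sub]
    exact neg_mem this
  · intro c hc x hx F hF
    apply LemL255.dvd_of_all hodd h2u h3u hu hL
    intro c' hc'
    by_cases h : c' = c
    · rw [h]; exact Ideal.mul_mem_left _ _ hF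
    · exact Ideal.mul_mem_right _ _ (Ideal.pow_le_pow_right hx (h2 c hc c' hc' h))
  · intro c hc hreg x hx F hF
    obtain ⟨m, hm⟩ := id hodd
    obtain ⟨d, rfl⟩ : ∃ d, c = m + 1 + d := ⟨c - (m + 1), by omega⟩
    refine LemL255.regular_bound hodd h2u h3u hu hL N x m hm hx d hc _
      (Ideal.mul_mem_left _ _ hF) ?_
    intro c' hc' hne
    exact Ideal.mul_mem_right _ _ (h2 _ hc c' hc' hne)

end classdata

/-! ### the conversion -/

section conv

variable {p : ℕ} [hp : Fact p.Prime] {m0 : ℕ → B0 p}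
  (hm0 : ∀ k, io p (m0 k) = kap (mu k))

include hm0

/-- **Conversion**: from the state of `ψ - h_c` to 955's `psi'`. -/
theorem psi'_mem {T N M : ℕ} {eZ : ℕ → ℤ[X]}
    (hcd : P4Hc830.ClassData p T (P4Row.lin m0) (eA (B0 p) eZ))
    (hNT : N ≤ T) (hMT : M ≤ T) (hN : 2 ≤ N) (hM : 2 ≤ M)
    (c0 : Fin p) (z : Site) (x y : B0 p) (hx : x = ((c0 : ℕ) : B0 p) + y)
    (hy : io p y = ys c0 z) (hpy : ((p : ℕ) : B0 p) ∣ y) (u : ℕ → B0 p)
    (hu : ∀ c' < p, c' ≠ (c0 : ℕ) → (x - c') * u c' = 1) {s : St}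
    (hG : Good (B0 p) p s (PsiX z - io p (hfun p N (P4Row.lin m0) (eA (B0 p) eZ) c0 u))) :
    psi' (fun i : Fin p => eA ℚ eZ i) M c0 z ∈ (psFil (pbFil p)).F (wt s) := by
  have hnd : ∀ c' < p, c' ≠ (c0 : ℕ) → ¬ (p : ℤ) ∣ ((c0 : ℕ) : ℤ) - c' := fun c' hc' hne =>
    not_dvd_of_lt c0.2 hc' (Ne.symm hne)
  -- the inverses of the differences of the classes
  let d : ℕ → B0 p := fun c' =>
    if h : c' < p ∧ c' ≠ (c0 : ℕ) then
      ⟨kap ((((((c0 : ℕ) : ℤ) - (c' : ℤ) : ℤ)) : ℚ)⁻¹), kap_inv_mem (hnd c' h.1 h.2)⟩ else 0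
  have hd' : ∀ c' < p, c' ≠ (c0 : ℕ) →
      io p (d c') = kap ((((c0 : ℕ) : ℚ) - (c' : ℚ))⁻¹) := by
    intro c' h1 h2
    show ((d c' : B0 p) : PowerSeries ℚ[X]) = _
    simp only [d]
    rw [dif_pos ⟨h1, h2⟩]
    push_cast
    rfl
  have hd : ∀ c' < p, c' ≠ (c0 : ℕ) → (((c0 : ℕ) : B0 p) - c') * d c' = 1 := by
    intro c' h1 h2
    apply Subtype.coe_injective
    have h3 := hd' c' h1 h2
    show io p ((((c0 : ℕ) : B0 p) - c') * d c') = io p 1
    rw [map_mul, h3, map_sub, map_natCast, map_natCast, map_one, ← map_natCast kap (c0 : ℕ),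
      ← map_natCast kap c', ← map_sub, ← map_mul, mul_inv_cancel₀, map_one]
    rw [sub_ne_zero]
    exact_mod_cast h2.symm
  have hb := P4Bridge110.bridge_fin (K := 1) (T := T) (N := N) (M := M) (q := ((p : ℕ) : B0 p))
    (P4Row.lin m0) (eA (B0 p) eZ) d u
    (fun c hc t ht F hF => hcd.pol c hc t ht F hF) hNT hMT (by omega) (by omega) c0 x y hx hpy hu hd
  have hb' := dvd_mem hb
  rw [map_sub, map_sum] at hb'
  have hsum : ∑ c ∈ univ.erase c0, io p (∑ k ∈ range M, y ^ k *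
      P4D.wc (P4Row.lin m0) (fun i : Fin p => eA (B0 p) eZ i) (fun i => ((i : ℕ) : B0 p))
        (fun i : Fin p => d i) M c k 0) =
      ∑ c ∈ univ.erase c0, ∑ k ∈ range M, ys c0 z ^ k *
        PowerSeries.C (C (wcQ (fun i : Fin p => eA ℚ eZ i) M c0 c k 0)) := by
    refine sum_congr rfl fun c hc => ?_
    rw [map_sum]
    refine sum_congr rfl fun k _ => ?_
    have hne : (c : ℕ) ≠ (c0 : ℕ) := fun h => (mem_erase.mp hc).1 (Fin.ext h)
    rw [map_mul, map_pow, hy, wc_cast hm0 eZ M c0 c (fun i : Fin p => d i) (hd' c c.2 hne) k 0]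
    rfl
  rw [hsum] at hb'
  have h1 : psi' (fun i : Fin p => eA ℚ eZ i) M c0 z =
      (PsiX z - io p (hfun p N (P4Row.lin m0) (eA (B0 p) eZ) c0 u)) +
      (io p (hfun p N (P4Row.lin m0) (eA (B0 p) eZ) c0 u) -
        ∑ c ∈ univ.erase c0, ∑ k ∈ range M, ys c0 z ^ k *
          PowerSeries.C (C (wcQ (fun i : Fin p => eA ℚ eZ i) M c0 c k 0))) := by
    unfold psi'
    ring
  rw [h1]
  refine AddSubgroup.add_mem _ (good_mem hG) ((psFil (pbFil p)).mono ?_ hb')
  exact_mod_cast wt_le s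

end conv

end Crest.Agent.R006.P4Psi830
private theorem rz_664458fa94 : type_of% @_root_.Crest.Agent.R006.P4Psi830.wt.eq_1 := @_root_.Crest.Agent.R006.P4Psi830.wt.eq_1 -- L87
end

-- ▼ part R006/P4L_PS_869
section

/-!
Row 6, block P4, local input (L2) (helper869): the instance of `P4L_fin_869` in
`E = PowerSeries ℚ[X]`, `B = B0 p` = the elements of weight `0` of 955's jet filtration
(`coeff_j f ∈ p^{-j} ℤ_(p)[X]`), `τ = ε / p`, for the germs `PsiX` of `P4_LocalInput_955`.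

Final statements: `good_Z_nonneg`, `good_Z_neg`, `good_H_nonneg`, `good_H_neg`, and with the
weights `weight_polar`, `weight_regular`, `weight_zero`.
-/

set_option autoImplicit false

namespace Crest.Agent.R006.P4L869

open Polynomial Finset Tollx814 P4Toll961 Crest.Agent.R006.P4M Crest.Agent.R006.P4BaseOx170
open Crest.Agent.R006.D (Site psi0 psi1 HomZ)

variable (p : ℕ) [hp : Fact p.Prime]

/-- the integral ring: elements of weight `0` of the jet filtration -/
noncomputable abbrev B0 : Subring (PowerSeries ℚ[X]) := OO (psFil (pbFil p))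

/-- `ℤ_(p) → B0` -/
noncomputable def phi0 : O p →+* B0 p := (phi p).codRestrict (B0 p) fun x j => by
  have := phi_mem_zero p x j
  rw [mem_pbFil]
  simpa using this


/-- constants -/
theorem CC_mem {v : ℤ} {a : ℚ} (h : padicNorm p a ≤ (p : ℚ) ^ (-v)) :
    PowerSeries.C (C a) ∈ (psFil (pbFil p)).F v := C_mem _ (ProdBound481.PB.C h)


theorem norm_inv_p : padicNorm p ((p : ℚ)⁻¹) ≤ (p : ℚ) ^ (-(-1 : ℤ)) := by
  have h : padicNorm p ((p : ℚ)⁻¹) = p := by
    have h1 := padicNorm.div (p := p) 1 (p : ℚ)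
    rw [one_div, padicNorm.one, padicNorm.padicNorm_p_of_prime, one_div, inv_inv] at h1
    exact h1
  rw [h]; simp

/-- `τ = ε / p` -/
noncomputable def tauB : B0 p :=
  ⟨PowerSeries.C (C ((p : ℚ)⁻¹)) * PowerSeries.X,
    mul_mem' _ (CC_mem p (norm_inv_p p)) (X_mem _) (by norm_num)⟩

theorem tauB_coe : ((tauB p : B0 p) : PowerSeries ℚ[X]) =
    PowerSeries.C (C ((p : ℚ)⁻¹)) * PowerSeries.X := rfl

/-- `1/2` -/
noncomputable def hfB : B0 p := Ring.inverse 2

theorem p_ne : (p : ℚ) ≠ 0 := by exact_mod_cast hp.out.ne_zero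

theorem p_tauB : (p : PowerSeries ℚ[X]) * (tauB p : PowerSeries ℚ[X]) = PowerSeries.X := by
  rw [tauB_coe, ← mul_assoc]
  have : (p : PowerSeries ℚ[X]) = PowerSeries.C (C (p : ℚ)) := by simp
  rw [this, ← map_mul, ← map_mul, mul_inv_cancel₀ (p_ne p)]
  simp

theorem isUnit_pE : IsUnit (p : PowerSeries ℚ[X]) := by
  have h : IsUnit (p : ℚ) := IsUnit.mk0 _ (p_ne p)
  have := h.map ((PowerSeries.C (R := ℚ[X])).comp (C (R := ℚ)))
  simpa using this

/-- units of `B0` -/
theorem isUnit_of_constantCoeff (f : B0 p) {w : ℚ[X]} (hw : w ∈ (pbFil p).F 0)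
    (h : w * PowerSeries.constantCoeff (f : PowerSeries ℚ[X]) = 1) : IsUnit f := by
  obtain ⟨g, hg, hgf⟩ := exists_inv (pbFil p) f.2 hw h
  refine IsUnit.of_mul_eq_one ⟨g, hg⟩ ?_
  apply Subtype.ext
  show (f : PowerSeries ℚ[X]) * g = 1
  rw [mul_comm]; exact hgf

theorem bunits : BUnits p (tauB p) := by
  intro m hm k
  have h1 : padicNorm p (m : ℚ) = 1 := (padicNorm.int_eq_one_iff m).2 hm
  have h0 : (m : ℚ) ≠ 0 := by
    intro h
    rw [h, padicNorm.zero] at h1
    exact zero_ne_one h1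
  have h2 : padicNorm p ((m : ℚ)⁻¹) ≤ (p : ℚ) ^ (-(0 : ℤ)) := by
    have h3 := padicNorm.div (p := p) 1 (m : ℚ)
    rw [padicNorm.one, h1, div_one, one_div] at h3
    rw [h3]; simp
  refine isUnit_of_constantCoeff p _ (w := C ((m : ℚ)⁻¹)) (ProdBound481.PB.C h2) ?_
  have e1 : (((m : B0 p) + (k : B0 p) * tauB p : B0 p) : PowerSeries ℚ[X]) =
      (m : PowerSeries ℚ[X]) + (k : PowerSeries ℚ[X]) *
        (PowerSeries.C (C ((p : ℚ)⁻¹)) * PowerSeries.X) := by
    push_cast; rw [tauB_coe]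
  rw [e1]
  have e2 : PowerSeries.constantCoeff ((m : PowerSeries ℚ[X]) + (k : PowerSeries ℚ[X]) *
      (PowerSeries.C (C ((p : ℚ)⁻¹)) * PowerSeries.X)) = C (m : ℚ) := by
    simp
  rw [e2, ← C_mul, inv_mul_cancel₀ h0, C_1]

variable {p}

theorem two_unit (h2 : p ≠ 2) : IsUnit (2 : B0 p) := by
  have hnd : ¬ (p : ℤ) ∣ 2 := by
    intro hd
    have h1 := Int.le_of_dvd (by norm_num) hd
    have h3 := hp.out.two_le
    have : (p : ℤ) = 2 := by omega
    exact h2 (by exact_mod_cast this)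
  have := bunits p 2 hnd 0
  simpa using this

theorem two_hfB (h2 : p ≠ 2) : 2 * hfB p = 1 := Ring.mul_inverse_cancel _ (two_unit h2)

theorem hfB_coe (h2 : p ≠ 2) :
    ((hfB p : B0 p) : PowerSeries ℚ[X]) = PowerSeries.C (C (1 / 2)) := by
  have h1 := congrArg (B0 p).subtype (two_hfB h2)
  rw [map_mul, map_ofNat, map_one] at h1
  have h3 : (2 : PowerSeries ℚ[X]) * PowerSeries.C (C (1 / 2)) = 1 := by
    have : (2 : PowerSeries ℚ[X]) = PowerSeries.C (C 2) :=
      (map_ofNat ((PowerSeries.C (R := ℚ[X])).comp (C (R := ℚ))) 2).symm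
    rw [this, ← map_mul, ← map_mul]
    norm_num
  have h4 : (2 : PowerSeries ℚ[X]) * ((hfB p : B0 p) : PowerSeries ℚ[X]) = 1 := h1
  linear_combination PowerSeries.C (C (1 / 2)) * h4 -
    ((hfB p : B0 p) : PowerSeries ℚ[X]) * h3

/-! ### the recurrences of `PsiX` -/

theorem map_pt (s : ℚ) : PowerSeries.map (C : ℚ →+* ℚ[X]) (NV.pt s) =
    PowerSeries.C (C s) + PowerSeries.X := by
  rw [NV.pt, map_add, PowerSeries.map_C, PowerSeries.map_X, add_comm]

theorem PsiX_Z (i : ℤ) :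
    2 * ((PowerSeries.C (C (i : ℚ)) + PowerSeries.X) ^ 3 * PsiX (.Z i)
      + (2 * (PowerSeries.C (C (i : ℚ)) + PowerSeries.X) - 1) ^ 3 * PsiX (.Z (i - 1)))
      = -(3 * (PowerSeries.C (C (i : ℚ)) + PowerSeries.X) - 1) := by
  have h1 := congrArg (PowerSeries.map (C : ℚ →+* ℚ[X])) (NV.step_Z (K := ℚ) 0 (i - 1)).psi
  have h2 := congrArg (PowerSeries.map (C : ℚ →+* ℚ[X])) (Germ620.hom_step (i - 1))
  have e1 : (((i - 1 : ℤ) : ℚ) + 1) = (i : ℚ) := by push_cast; ring
  have e2 : (((i - 1 : ℤ) : ℚ)) = (i : ℚ) - 1 := by push_cast; ring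
  rw [e1, e2, sub_add_cancel] at h1 h2
  simp only [map_add, map_mul, map_pow, map_one, map_neg, map_ofNat, map_pt,
    PowerSeries.map_C, map_zero, map_sub] at h1 h2
  have h3 : (2 : PowerSeries ℚ[X]) * PowerSeries.C (C (1 / 2)) = 1 := by
    have : (2 : PowerSeries ℚ[X]) = PowerSeries.C (C 2) :=
      (map_ofNat ((PowerSeries.C (R := ℚ[X])).comp (C (R := ℚ))) 2).symm
    rw [this, ← map_mul, ← map_mul]
    norm_num
  rw [PsiX, PsiX]
  simp only [psi0, psi1]
  linear_combination 2 * h1 - 2 * PowerSeries.C X * h2 -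
    (3 * (PowerSeries.C (C (i : ℚ)) - 1 + PowerSeries.X) + 2) * h3

theorem PsiX_H (i : ℤ) :
    2 * ((PowerSeries.C (C ((i : ℚ) + 1 / 2)) + PowerSeries.X) ^ 3 * PsiX (.H i)
      + (2 * (PowerSeries.C (C ((i : ℚ) + 1 / 2)) + PowerSeries.X) - 1) ^ 3 * PsiX (.H (i - 1)))
      = -(3 * (PowerSeries.C (C ((i : ℚ) + 1 / 2)) + PowerSeries.X) - 1) := by
  have h1 := congrArg (PowerSeries.map (C : ℚ →+* ℚ[X])) (NV.step_H (K := ℚ) (i - 1)).psi
  have e1 : (((i - 1 : ℤ) : ℚ) + 1 / 2 + 1) = (i : ℚ) + 1 / 2 := by push_cast; ring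
  have e2 : (((i - 1 : ℤ) : ℚ) + 1 / 2) = ((i : ℚ) + 1 / 2) - 1 := by push_cast; ring
  rw [e1, e2, sub_add_cancel] at h1
  have h3 : (2 : PowerSeries ℚ[X]) * PowerSeries.C (C (1 / 2)) = 1 := by
    have : (2 : PowerSeries ℚ[X]) = PowerSeries.C (C 2) :=
      (map_ofNat ((PowerSeries.C (R := ℚ[X])).comp (C (R := ℚ))) 2).symm
    rw [this, ← map_mul, ← map_mul]
    norm_num
  simp only [map_mul, map_pow, map_one, map_neg, map_ofNat, map_pt, map_sub,
    PowerSeries.map_C, map_add (PowerSeries.map (C : ℚ →+* ℚ[X])),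
    ] at h1
  rw [PsiX, PsiX]
  simp only [psi0, psi1, map_zero, mul_zero, sub_zero]
  linear_combination 2 * h1 -
    (3 * (PowerSeries.C (C ((i : ℚ) + 1 / 2)) - 1 + PowerSeries.X) + 2) * h3

theorem PsiX_zero : PsiX (.Z 0) = -PowerSeries.C X := by
  rw [PsiX]
  simp only [psi0, psi1]
  rw [NV.PsiZ_zero, Germ620.HomZ_zero]
  simp

theorem PsiX_neg_half : PsiX (.H (-1)) = 0 := by
  rw [PsiX]
  simp only [psi0, psi1]
  have : (NV.PsiH (-1) : PowerSeries ℚ) = 0 := NV.PsiH0_zero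
  rw [this]; simp

/-! ### the sites -/

/-- the shift `t` of the site: the site is `rS z + p (tS z)` -/
noncomputable def tS (p : ℕ) [Fact p.Prime] : Site → B0 p
  | .Z _ => tauB p
  | .H _ => tauB p - hfB p

/-- the integer of the site: `i`, resp. `i + (p+1)/2` for `i + 1/2` -/
def rS (p : ℕ) : Site → ℤ
  | .Z i => i
  | .H i => i + ((p + 1) / 2 : ℕ)

/-- the state of the site -/
def stS (p : ℕ) : Site → St
  | .Z i => if 0 ≤ i then sUp p i.toNat else sDown p (-i).toNat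
  | .H i => if 0 ≤ i then sStar p i.toNat else sUp p (-i - 1).toNat

omit hp in
theorem cS_rS (z : Site) : cS p (rS p z) = cl p z := by
  cases z <;> rfl

theorem odd_of (h2 : p ≠ 2) : p % 2 = 1 := hp.out.eq_two_or_odd.resolve_left h2

theorem xS_coe (h2 : p ≠ 2) (z : Site) :
    ((xS p (tS p z) (rS p z) : B0 p) : PowerSeries ℚ[X]) = xs z := by
  have hodd := odd_of h2
  have e0 : ∀ i : ℤ, (i : PowerSeries ℚ[X]) = PowerSeries.C (C (i : ℚ)) := by
    intro i; simp
  cases z with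
  | Z i =>
    have e1 : ((xS p (tS p (.Z i)) (rS p (.Z i)) : B0 p) : PowerSeries ℚ[X]) =
        (i : PowerSeries ℚ[X]) + (p : PowerSeries ℚ[X]) * (tauB p : PowerSeries ℚ[X]) := by
      simp only [xS, tS, rS]; push_cast; rfl
    rw [e1, p_tauB, xs, e0]; rfl
  | H i =>
    obtain ⟨g, hg⟩ : ∃ g, p = 2 * g + 1 := ⟨p / 2, by omega⟩
    have hg2 : (p + 1) / 2 = g + 1 := by omega
    have hpg : (p : PowerSeries ℚ[X]) = 2 * (g : PowerSeries ℚ[X]) + 1 := by
      have := congrArg (Nat.cast : ℕ → PowerSeries ℚ[X]) hg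
      push_cast at this; exact this
    have e1 : ((xS p (tS p (.H i)) (rS p (.H i)) : B0 p) : PowerSeries ℚ[X]) =
        (i : PowerSeries ℚ[X]) + ((g : PowerSeries ℚ[X]) + 1) +
          (p : PowerSeries ℚ[X]) * ((tauB p : PowerSeries ℚ[X]) -
            (hfB p : PowerSeries ℚ[X])) := by
      simp only [xS, tS, rS, hg2]; push_cast; rfl
    have h3 : (2 : PowerSeries ℚ[X]) * PowerSeries.C (C (1 / 2)) = 1 := by
      have : (2 : PowerSeries ℚ[X]) = PowerSeries.C (C 2) :=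
        (map_ofNat ((PowerSeries.C (R := ℚ[X])).comp (C (R := ℚ))) 2).symm
      rw [this, ← map_mul, ← map_mul]
      norm_num
    rw [e1, mul_sub, p_tauB, hfB_coe h2, xs]
    simp only [Site.val]
    rw [C_add, map_add, ← e0]
    linear_combination (-PowerSeries.C (C (1 / 2))) * hpg - ((g : PowerSeries ℚ[X]) + 1) * h3

section final

variable {K N : ℕ} {L : (B0 p)[X] →ₗ[B0 p] B0 p} {e : ℕ → (B0 p)[X]}

theorem good_Z_nonneg (h5 : 5 ≤ p) (hK : 2 ≤ K) (hL : Loc p K N L e) (n : ℕ) (hn : n < p ^ 2) :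
    Good (B0 p).subtype.range p (sUp p n)
      (PsiX (.Z n) - (B0 p).subtype (hS p N L e (tauB p) n)) := by
  have h2 : p ≠ 2 := by omega
  refine int_up (B0 p).subtype hL hp.out h5 hK (isUnit_pE p) (bunits p)
    (ψ := fun i => PsiX (.Z i)) ?_ ?_ n hn
  · rw [PsiX_zero]
    refine ⟨⟨-PowerSeries.C X, ?_⟩, rfl⟩
    refine Subring.neg_mem _ (C_mem (pbFil p) ?_)
    intro k
    rw [coeff_X]
    split_ifs
    · simp
    · simp
  · intro r _ _
    have := PsiX_Z r
    have e1 : (B0 p).subtype (xS p (tauB p) r) = PowerSeries.C (C (r : ℚ)) + PowerSeries.X :=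
      xS_coe h2 (.Z r)
    rw [e1]; exact this

theorem good_Z_neg (h5 : 5 ≤ p) (hK : 2 ≤ K) (hL : Loc p K N L e) (m : ℕ) (hm : 0 < m)
    (hmp : 2 * (m + 1) ≤ p ^ 2) :
    Good (B0 p).subtype.range p (sDown p m)
      (PsiX (.Z (-(m : ℤ))) - (B0 p).subtype (hS p N L e (tauB p) (-(m : ℤ)))) := by
  have h2 : p ≠ 2 := by omega
  refine int_down (B0 p).subtype hL hp.out h5 hK (isUnit_pE p) (bunits p) hmp
    (ψ := fun i => PsiX (.Z i)) ?_ ?_ m hm (Nat.lt_succ_self m)
  · rw [PsiX_zero]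
    refine ⟨⟨-PowerSeries.C X, ?_⟩, rfl⟩
    refine Subring.neg_mem _ (C_mem (pbFil p) ?_)
    intro k
    rw [coeff_X]
    split_ifs
    · simp
    · simp
  · intro r _ _
    have := PsiX_Z r
    have e1 : (B0 p).subtype (xS p (tauB p) r) = PowerSeries.C (C (r : ℚ)) + PowerSeries.X :=
      xS_coe h2 (.Z r)
    rw [e1]; exact this

theorem half_aux (h2 : p ≠ 2) (i : ℤ) :
    (i : PowerSeries ℚ[X]) - (B0 p).subtype (hfB p) +
        (p : PowerSeries ℚ[X]) * (B0 p).subtype (tauB p) =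
      PowerSeries.C (C (((i - 1 : ℤ) : ℚ) + 1 / 2)) + PowerSeries.X := by
  have h3 : (B0 p).subtype (hfB p) = PowerSeries.C (C (1 / 2)) := hfB_coe h2
  have h4 : (p : PowerSeries ℚ[X]) * (B0 p).subtype (tauB p) = PowerSeries.X := p_tauB p
  rw [h3, h4]
  have e0 : (i : PowerSeries ℚ[X]) = PowerSeries.C (C (i : ℚ)) := by simp
  rw [e0, ← map_sub, ← C_sub]
  congr 3
  push_cast; ring

theorem half_rec (h2 : p ≠ 2) (i : ℤ) :
    2 * (((i : PowerSeries ℚ[X]) - (B0 p).subtype (hfB p) +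
        (p : PowerSeries ℚ[X]) * (B0 p).subtype (tauB p)) ^ 3 * PsiX (.H (i - 1))
      + (2 * ((i : PowerSeries ℚ[X]) - (B0 p).subtype (hfB p)
        + (p : PowerSeries ℚ[X]) * (B0 p).subtype (tauB p)) - 1) ^ 3 * PsiX (.H (i - 1 - 1)))
      = -(3 * ((i : PowerSeries ℚ[X]) - (B0 p).subtype (hfB p)
        + (p : PowerSeries ℚ[X]) * (B0 p).subtype (tauB p)) - 1) := by
  rw [half_aux h2]
  exact PsiX_H (i - 1)

theorem good_H_nonneg (h5 : 5 ≤ p) (hK : 2 ≤ K) (hL : Loc p K N L e) (l : ℕ)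
    (hl : 2 * (l + 1) ≤ p ^ 2) :
    Good (B0 p).subtype.range p (sStar p l)
      (PsiX (.H l) - (B0 p).subtype (hS p N L e (tauB p - hfB p) (l + ((p + 1) / 2 : ℕ)))) := by
  have h2 : p ≠ 2 := by omega
  have hodd := odd_of h2
  have := half_up (B0 p).subtype hL hp.out h5 hK (isUnit_pE p) (bunits p) (two_hfB h2) hl
    (ψ := fun i => PsiX (.H (i - 1))) (by
      show PsiX (.H (0 - 1)) ∈ _
      rw [zero_sub, PsiX_neg_half]
      exact Subring.zero_mem _)
    (fun i _ _ => half_rec h2 i) l (Nat.lt_succ_self l)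
  have e1 : ((l : ℤ) + 1 + ((p - 1) / 2 : ℕ)) = l + ((p + 1) / 2 : ℕ) := by
    have : (p + 1) / 2 = 1 + (p - 1) / 2 := by omega
    rw [this]; push_cast; ring
  have e2 : ((l : ℤ) + 1 - 1) = l := by ring
  simp only [e1, e2] at this
  exact this

theorem good_H_neg (h5 : 5 ≤ p) (hK : 2 ≤ K) (hL : Loc p K N L e) (l : ℕ)
    (hl : l + 1 ≤ p ^ 2) :
    Good (B0 p).subtype.range p (sUp p l)
      (PsiX (.H (-(l : ℤ) - 1)) -
        (B0 p).subtype (hS p N L e (tauB p - hfB p) (-(l : ℤ) - 1 + ((p + 1) / 2 : ℕ)))) := by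
  have h2 : p ≠ 2 := by omega
  have hodd := odd_of h2
  have := half_down (B0 p).subtype hL hp.out h5 hK (isUnit_pE p) (bunits p) (two_hfB h2) hl
    (ψ := fun i => PsiX (.H (i - 1))) (by
      show PsiX (.H (0 - 1)) ∈ _
      rw [zero_sub, PsiX_neg_half]
      exact Subring.zero_mem _)
    (fun i _ _ => half_rec h2 i) l (Nat.lt_succ_self l)
  have e1 : (-(l : ℤ) + ((p - 1) / 2 : ℕ)) = -(l : ℤ) - 1 + ((p + 1) / 2 : ℕ) := by
    have : (p + 1) / 2 = 1 + (p - 1) / 2 := by omega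
    rw [this]; push_cast; ring
  simp only [e1] at this
  exact this

/-- **The local input (L2) at every site.** -/
theorem good_site (h5 : 5 ≤ p) (hK : 2 ≤ K) (hL : Loc p K N L e) (z : Site) (hz : InR p z) :
    Good (B0 p).subtype.range p (stS p z)
      (PsiX z - (B0 p).subtype (hS p N L e (tS p z) (rS p z))) := by
  cases z with
  | Z i =>
    simp only [InR, Site.val] at hz
    rcases le_or_gt 0 i with hi | hi
    · obtain ⟨n, rfl⟩ := Int.eq_ofNat_of_zero_le hi
      have h1 : 2 * n + 2 < p ^ 2 := by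
        have : |((n : ℤ) : ℚ)| = n := by push_cast; exact abs_of_nonneg (by positivity)
        rw [this] at hz
        exact_mod_cast hz
      have := good_Z_nonneg h5 hK hL n (by omega)
      simp only [stS, tS, rS]
      rw [if_pos hi]
      exact this
    · obtain ⟨m, rfl⟩ : ∃ m : ℕ, i = -(m : ℤ) := ⟨(-i).toNat, by omega⟩
      have hm : 0 < m := by omega
      have h1 : 2 * m + 2 < p ^ 2 := by
        have : |((-(m : ℤ) : ℤ) : ℚ)| = m := by
          push_cast; rw [abs_neg]; exact abs_of_nonneg (by positivity)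
        rw [this] at hz
        exact_mod_cast hz
      have := good_Z_neg h5 hK hL m hm (by omega)
      simp only [stS, tS, rS]
      rw [if_neg (by omega), neg_neg, Int.toNat_natCast]
      exact this
  | H i =>
    simp only [InR, Site.val] at hz
    rcases le_or_gt 0 i with hi | hi
    · obtain ⟨n, rfl⟩ := Int.eq_ofNat_of_zero_le hi
      have h1 : 2 * n + 3 < p ^ 2 := by
        have : |((n : ℤ) : ℚ) + 1 / 2| = n + 1 / 2 := by
          push_cast; exact abs_of_nonneg (by positivity)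
        rw [this] at hz
        have h3 : 2 * (n : ℚ) + 3 < (p : ℚ) ^ 2 := by linarith
        exact_mod_cast h3
      have := good_H_nonneg h5 hK hL n (by omega)
      simp only [stS, tS, rS]
      rw [if_pos hi]
      exact this
    · obtain ⟨l, rfl⟩ : ∃ l : ℕ, i = -(l : ℤ) - 1 := ⟨(-i - 1).toNat, by omega⟩
      have h1 : 2 * l + 3 < p ^ 2 := by
        have : |((-(l : ℤ) - 1 : ℤ) : ℚ) + 1 / 2| = l + 1 / 2 := by
          have h4 : ((-(l : ℤ) - 1 : ℤ) : ℚ) + 1 / 2 = -((l : ℚ) + 1 / 2) := by push_cast; ring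
          rw [h4, abs_neg]; exact abs_of_nonneg (by positivity)
        rw [this] at hz
        have h3 : 2 * (l : ℚ) + 3 < (p : ℚ) ^ 2 := by linarith
        exact_mod_cast h3
      have := good_H_neg h5 hK hL l (by omega)
      simp only [stS, tS, rS]
      rw [if_neg (by omega)]
      have e1 : (-(-(l : ℤ) - 1) - 1).toNat = l := by omega
      rw [e1]
      exact this

end final

/-! ### states and classes -/

theorem stS_zero (p : ℕ) {i : ℕ} (h : 2 * i < p) : stS p (.Z (i : ℤ)) = St.A := by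
  simp only [stS]
  rw [if_pos (by positivity), Int.toNat_natCast, sUp, if_pos h]

theorem stS_regular (h2 : p ≠ 2) {z : Site} (hc : p < 2 * cl p z)
    (hz : ∀ i, z = .H i → 0 ≤ i) : stS p z = St.B := by
  have hodd := odd_of h2
  have hp0 := hp.out.pos
  rw [← cS_rS] at hc
  cases z with
  | Z i =>
    simp only [rS] at hc
    simp only [stS]
    rcases le_or_gt 0 i with hi | hi
    · obtain ⟨n, rfl⟩ := Int.eq_ofNat_of_zero_le hi
      rw [cS_natCast] at hc
      rw [if_pos hi, Int.toNat_natCast, sUp, if_neg, if_pos hc]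
      intro h
      rw [Nat.mod_eq_of_lt (by omega)] at hc
      omega
    · obtain ⟨m, rfl⟩ : ∃ m : ℕ, i = -(m : ℤ) := ⟨(-i).toNat, by omega⟩
      rw [if_neg (by omega), neg_neg, Int.toNat_natCast, sDown]
      obtain ⟨k, hk⟩ := cS_spec hp0 (-(m : ℤ))
      have hlt := cS_lt hp0 (-(m : ℤ))
      set c := cS p (-(m : ℤ)) with hcdef
      have h1 : m % p = p - c := by
        have h2 : (m : ℤ) = ((p - c : ℕ) : ℤ) + p * (-k - 1) := by
          rw [Nat.cast_sub hlt.le]; linarith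
        have h3 : cS p (m : ℤ) = p - c := cS_unique hp0 (by omega) h2
        rwa [cS_natCast] at h3
      rw [h1, if_pos ⟨by omega, by omega⟩]
  | H i =>
    have hi := hz i rfl
    obtain ⟨l, rfl⟩ := Int.eq_ofNat_of_zero_le hi
    simp only [rS] at hc
    simp only [stS]
    rw [if_pos hi, Int.toNat_natCast, sStar, if_pos]
    have e1 : ((l : ℤ) + ((p + 1) / 2 : ℕ)) = ((l + (p + 1) / 2 : ℕ) : ℤ) := by push_cast; ring
    rw [e1, cS_natCast] at hc
    by_contra hcon
    have hlt := Nat.mod_lt l hp0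
    have hdm := Nat.mod_add_div l p
    have h1 : (l + (p + 1) / 2) % p = l % p + (p + 1) / 2 - p := by
      have h2 : l + (p + 1) / 2 = (l % p + (p + 1) / 2 - p) + p * (l / p + 1) := by
        rw [mul_add, mul_one]; omega
      rw [h2, Nat.add_mul_mod_self_left]
      exact Nat.mod_eq_of_lt (by omega)
    rw [h1] at hc
    omega

/-- the weight of a state -/
def wt : St → ℤ
  | St.A => 0
  | St.B => 1
  | St.C => -2

theorem wt_ge (s : St) : -2 ≤ wt s := by cases s <;> simp [wt]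

theorem natCast_p_mem : (p : PowerSeries ℚ[X]) ∈ (psFil (pbFil p)).F 1 := by
  have : (p : PowerSeries ℚ[X]) = PowerSeries.C (C (p : ℚ)) := by simp
  rw [this]
  refine CC_mem p ?_
  rw [padicNorm.padicNorm_p_of_prime]; simp

/-- `Good` in terms of the filtration -/
theorem Good.mem {s : St} {x : PowerSeries ℚ[X]}
    (h : Good (B0 p).subtype.range p s x) : x ∈ (psFil (pbFil p)).F (wt s) := by
  have hr : ∀ y, y ∈ (B0 p).subtype.range → y ∈ (psFil (pbFil p)).F 0 := by
    rintro y ⟨b, rfl⟩; exact b.2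
  cases s with
  | A => exact hr _ h
  | B =>
    obtain ⟨y, hy, rfl⟩ := h
    exact mul_mem' _ natCast_p_mem (hr _ hy) (by simp [wt])
  | C =>
    have h1 := hr _ h
    have h2 : PowerSeries.C (C ((p : ℚ)⁻¹)) ∈ (psFil (pbFil p)).F (-1) := CC_mem p (norm_inv_p p)
    have e1 : x = PowerSeries.C (C ((p : ℚ)⁻¹)) * (PowerSeries.C (C ((p : ℚ)⁻¹)) *
        ((p : PowerSeries ℚ[X]) ^ 2 * x)) := by
      have e2 : PowerSeries.C (C ((p : ℚ)⁻¹)) * (p : PowerSeries ℚ[X]) = 1 := by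
        have : (p : PowerSeries ℚ[X]) = PowerSeries.C (C (p : ℚ)) := by simp
        rw [this, ← map_mul, ← map_mul, inv_mul_cancel₀ (p_ne p)]
        simp
      linear_combination (-(1 + PowerSeries.C (C ((p : ℚ)⁻¹)) * (p : PowerSeries ℚ[X])) * x) * e2
    rw [e1]
    exact mul_mem' _ h2 (mul_mem' _ h2 h1 le_rfl) (by simp [wt])


/-! ### the moment functional and the class data -/

/-- the moments in `B0` -/
noncomputable def muB0 (hp5 : 5 ≤ p) (k : ℕ) : B0 p := phi0 p (muO p hp5 k)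


theorem isMom_muB0 (hp5 : 5 ≤ p) : LemL255.IsMom (P4Row.lin (muB0 hp5)) where
  key := by
    rw [lin_eq_Lam]
    exact (key_muO p hp5).map (phi0 p)
  m0 := by
    rw [lin_eq_Lam, FuncLx170.Lam_one, muB0, muO_zero, map_zero]
  m1 := by
    rw [lin_eq_Lam, FuncLx170.Lam_X, muB0]
    have h := congrArg (phi0 p) (muO_one p hp5)
    rw [map_mul, map_neg, map_one, map_ofNat] at h
    exact h
  m2 := by
    rw [lin_eq_Lam, FuncLx170.Lam_X_pow, muB0]
    have h := congrArg (phi0 p) (muO_two p hp5)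
    rw [map_mul, map_ofNat, map_ofNat] at h
    exact h


end Crest.Agent.R006.P4L869
private theorem rz_bfbd054bb5 : type_of% @_root_.Crest.Agent.R006.P4L869.rS.eq_1 := @_root_.Crest.Agent.R006.P4L869.rS.eq_1 -- L202
private theorem rz_0c1b71bc45 : type_of% @_root_.Crest.Agent.R006.P4L869.stS.eq_1 := @_root_.Crest.Agent.R006.P4L869.stS.eq_1 -- L207
private theorem rz_5a344bafe7 : type_of% @_root_.Crest.Agent.R006.P4L869.tS.eq_1 := @_root_.Crest.Agent.R006.P4L869.tS.eq_1 -- L197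
private theorem rz_08cf0f3309 : type_of% @_root_.Crest.Agent.R006.P4L869.wt.eq_1 := @_root_.Crest.Agent.R006.P4L869.wt.eq_1 -- L466
end

-- ▼ part R006/P4M_mom_630
section

/-!
# Row 6, block P4: the fields `sum_e`, `mom_polar`, `mom_regular` of 955's `LocalInput` (helper630)

`e c := (eZ c).map`, `eZ` the universal class idempotents over `ℤ[X]` of order `N' ≥ N + 3`.
-/

set_option autoImplicit false

open Polynomial Finset

namespace Crest.Agent.R006.P4Mom630

open Crest.Agent.R6K.P4L Crest.Agent.R006.P4BaseOx170 Crest.Agent.R006.P4M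
open Crest.Agent.R006.P4Toll961

theorem isPsi_of_isMom {A : Type*} [CommRing A] {L : A[X] →ₗ[A] A} (h : LemL255.IsMom L) :
    IsPsi L := ⟨h.key, h.m0, h.m1, h.m2⟩

/-- the idempotents over `ℚ`, indexed by `Fin p` -/
noncomputable def eQ (p : ℕ) (e : ℕ → ℤ[X]) (c : Fin p) : ℚ[X] := eA ℚ e c

variable {p : ℕ} [hp : Fact p.Prime]

omit hp in
theorem sum_eQ {N' : ℕ} {e : ℕ → ℤ[X]} (he : IsIdem p N' e) : ∑ c : Fin p, eQ p e c = 1 := by
  unfold eQ
  rw [← Finset.sum_range (fun c => eA ℚ e c)]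
  exact he.sumA

theorem momQ_eq (hp5 : 5 ≤ p) (e : ℕ → ℤ[X]) (c : Fin p) (t : ℕ) :
    momQ (eQ p e) c t =
      ((P4Row.lin (muO p hp5) (eA (O p) e c * ((X - C ((c : ℕ) : O p)) ^ t * 1)) : O p) : ℚ) := by
  rw [lin_muO_coe]
  unfold momQ P4D.mom eQ
  congr 1
  rw [Polynomial.map_mul, Polynomial.map_mul, Polynomial.map_pow, Polynomial.map_sub,
    Polynomial.map_X, Polynomial.map_C, Polynomial.map_one, mul_one, eA_map,
    map_natCast (O p).subtype]

theorem mom_polar (hp5 : 5 ≤ p) {N N' : ℕ} (hN : N + 3 ≤ N') {e : ℕ → ℤ[X]}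
    (he : IsIdem p N' e) (c : Fin p) (t : ℕ) (ht : t ≤ N) :
    C (momQ (eQ p e) c t) ∈ (pbFil p).F (max 0 ((t : ℤ) - 1)) := by
  rw [mem_pbFil]
  apply ProdBound481.PB.C
  rw [momQ_eq hp5]
  have h := (isPsi_of_isMom (isMom_muO p hp5)).class_polar hp5 he c.2 t 1
  rw [dvd_pow_iff] at h
  have e1 : ((min t N' - 1 : ℕ) : ℤ) = max 0 ((t : ℤ) - 1) := by omega
  rwa [e1] at h

theorem mom_regular (hp5 : 5 ≤ p) {N N' : ℕ} (hN : N + 3 ≤ N') {e : ℕ → ℤ[X]}
    (he : IsIdem p N' e) (c : Fin p) (hc : p < 2 * (c : ℕ)) (t : ℕ) (ht : t ≤ N) :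
    C (momQ (eQ p e) c t) ∈ (pbFil p).F ((t : ℤ) + 2) := by
  rw [mem_pbFil]
  apply ProdBound481.PB.C
  rw [momQ_eq hp5]
  have h := (isPsi_of_isMom (isMom_muO p hp5)).class_regular hp5 he c.2 hc t 1
  rw [dvd_pow_iff] at h
  have e1 : ((min (t + 3) N' - 1 : ℕ) : ℤ) = (t : ℤ) + 2 := by omega
  rwa [e1] at h

end Crest.Agent.R006.P4Mom630
end

-- ▼ part R006/P4_GWL_556
section

/-!
# Row 6, block P4: the fields `gam_polar`, `gam_regular` of `LocalInput` (helper556)
-/

set_option autoImplicit false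

namespace Crest.Agent.R006.P4GW556

open Polynomial P4Toll961 Tollx814 Crest.Agent.R006.D

/-- the half-integer index of a site -/
def code : Site → ℤ
  | .Z i => 2 * i
  | .H i => 2 * i + 1

lemma code_val (z : Site) : ((code z : ℤ) : ℚ) = 2 * z.val := by
  cases z with
  | Z i => simp [code, Site.val]
  | H i => simp only [code, Site.val]; push_cast; ring

lemma GamX_eq (z : Site) : P4M.GamX z = P4M531.GamX (code z) := by
  cases z with
  | Z i =>
    rw [P4M.GamX, P4M531.GamX, code, gG, if_pos (by omega)]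
    have : 2 * i / 2 = i := by omega
    rw [this]
    rfl
  | H i =>
    rw [P4M.GamX, P4M531.GamX, code, gG, if_neg (by omega)]
    have : (2 * i + 1 + 1) / 2 = i + 1 := by omega
    rw [this]
    rfl

lemma inR_code {p : ℕ} {z : Site} (h : P4M.InR p z) : |code z| < (p : ℤ) ^ 2 := by
  have h1 : ((|code z| : ℤ) : ℚ) < ((p : ℤ) ^ 2 : ℤ) := by
    push_cast
    rw [code_val, abs_mul, abs_two]
    have := h
    rw [P4M.InR] at this
    linarith
  exact_mod_cast h1

/-- parity of `code z mod p` and the class -/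
lemma code_emod {p : ℕ} (hp : Odd p) (z : Site) :
    (code z) % (p : ℤ) = if 2 * (P4M.cl p z : ℤ) < p then 2 * (P4M.cl p z : ℤ)
      else 2 * (P4M.cl p z : ℤ) - p := by
  obtain ⟨h, hh⟩ := hp
  have hpz : (0 : ℤ) < p := by omega
  have hcl : ∃ t : ℤ, code z = 2 * (P4M.cl p z : ℤ) + p * t ∧
      0 ≤ (P4M.cl p z : ℤ) ∧ (P4M.cl p z : ℤ) < p := by
    cases z with
    | Z i =>
      have h0 := Int.emod_nonneg i hpz.ne'
      have h1 := Int.emod_lt_of_pos i hpz
      have h2 := Int.emod_add_mul_ediv i p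
      simp only [P4M.cl, code, Int.toNat_of_nonneg h0]
      exact ⟨2 * (i / p), by linarith, h0, h1⟩
    | H i =>
      have h0 := Int.emod_nonneg (i + ((p + 1) / 2 : ℕ)) hpz.ne'
      have h1 := Int.emod_lt_of_pos (i + ((p + 1) / 2 : ℕ)) hpz
      have h2 := Int.emod_add_mul_ediv (i + ((p + 1) / 2 : ℕ)) p
      simp only [P4M.cl, code, Int.toNat_of_nonneg h0]
      have e : (((p + 1) / 2 : ℕ) : ℤ) = h + 1 := by
        have : (p + 1) / 2 = h + 1 := by omega
        rw [this]; push_cast; ring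
      have hp2 : (p : ℤ) = 2 * h + 1 := by rw [hh]; push_cast; ring
      rw [e] at h0 h1 h2 ⊢
      refine ⟨2 * ((i + (h + 1)) / p) - 1, ?_, h0, h1⟩
      have : (p : ℤ) * (2 * ((i + (h + 1)) / p) - 1) = 2 * (p * ((i + (h + 1)) / p)) - p := by ring
      rw [this]
      linarith
  obtain ⟨t, ht, hc0, hc1⟩ := hcl
  set c := (P4M.cl p z : ℤ) with hcdef
  have hp2 : (p : ℤ) = 2 * h + 1 := by rw [hh]; push_cast; ring
  split_ifs with hlt
  · rw [ht, Int.add_mul_emod_self_left, Int.emod_eq_of_lt (by omega) hlt]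
  · have : code z = (2 * c - p) + p * (t + 1) := by rw [ht]; ring
    rw [this, Int.add_mul_emod_self_left, Int.emod_eq_of_lt (by omega) (by omega)]

variable {p : ℕ} [hp : Fact p.Prime]

/-- field `gam_polar` of `LocalInput` -/
theorem gam_polar (h2 : p ≠ 2) (c : Fin p) (z : Site) (hz : P4M.InR p z)
    (_ : (c : ℕ) = P4M.cl p z) (_ : 2 * (c : ℕ) < p) :
    P4M.GamX z ∈ (P4M.psFil (pbFil p)).F 0 := by
  rw [GamX_eq]
  exact GamX_mem_zero h2 (inR_code hz)

/-- field `gam_regular` of `LocalInput` -/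
theorem gam_regular (h2 : p ≠ 2) (c : Fin p) (z : Site) (hz : P4M.InR p z)
    (hc : (c : ℕ) = P4M.cl p z) (hr : p < 2 * (c : ℕ)) :
    P4M.GamX z ∈ (P4M.psFil (pbFil p)).F 2 := by
  rw [GamX_eq]
  have hodd : Odd p := hp.out.odd_of_ne_two h2
  refine GamX_mem_two h2 (inR_code hz) ?_
  rw [code_emod hodd, ← hc, if_neg (by omega)]
  obtain ⟨h, hh⟩ := hodd
  omega

end Crest.Agent.R006.P4GW556
private theorem rz_a2796dd90a : type_of% @_root_.Crest.Agent.R006.P4GW556.code.eq_1 := @_root_.Crest.Agent.R006.P4GW556.code.eq_1 -- L15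
end

-- ▼ part R006/P4_LocalInput_830

/-!
Row 6, block P4: **the local input holds** (helper830).

`local_input : 5 ≤ p → ∃ e, LocalInput p N M e` (`M ≥ 2`), and the version `local_input_of` for
the universal idempotents of 630 at any level `T ≥ N + 3, M`.
-/

set_option autoImplicit false

namespace Crest.Agent.R006.P4Psi830

open Polynomial Finset Tollx814 P4Toll961
open Crest.Agent.R006.D Crest.Agent.R006.PsiInf Crest.Agent.R006.P4M
open Crest.Agent.R006.P4Row Crest.Agent.R6K.P4L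

variable {p : ℕ} [hp : Fact p.Prime]

omit hp in
lemma loc_of_classData {O : Type*} [CommRing O] {L : O[X] →ₗ[O] O} {T : ℕ} {e : ℕ → O[X]}
    (hT : 3 ≤ T) (hL : LemL255.IsMom L) (h : P4Hc830.ClassData p T L e) :
    P4L869.Loc p (T - 1) T L e := by
  refine ⟨hL.key, hL.m0, hL.m1, hL.m2, h.sum, ?_, ?_, ?_, ?_⟩
  · intro a ha b hb hab
    exact h.mem a ha b hb (Ne.symm hab)
  · intro F hF
    exact h.herr F hF
  · intro c hc _ F hF
    have := h.pol c hc 2 (by omega) F hF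
    simpa using this
  · intro c hc hr F
    have := h.reg c hc hr 0 (by omega) F (by simp)
    simpa using this

/-- all sites are units against the other classes. -/
lemma unit_site (h5 : 5 ≤ p) (z : Site) (m : ℤ) (hm : ¬ (p : ℤ) ∣ m) :
    IsUnit ((m : B0 p) + p * P4L869.tS p z) := by
  have h2 : p ≠ 2 := by omega
  cases z with
  | Z i => exact P4L869.bunits p m hm p
  | H i =>
    have h2nd : ¬ (p : ℤ) ∣ 2 := by
      intro hd
      have := Int.le_of_dvd (by norm_num) hd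
      omega
    have h1 := P4L869.bunits p (2 * m - p) (by
      intro hd
      have h3 : (p : ℤ) ∣ 2 * m := by
        have := dvd_add hd (dvd_refl (p : ℤ))
        rwa [sub_add_cancel] at this
      rcases (Nat.prime_iff_prime_int.mp hp.out).dvd_or_dvd h3 with h | h
      · exact h2nd h
      · exact hm h) (2 * p)
    have hhf := P4L869.two_hfB (p := p) h2
    have hhu : IsUnit (P4L869.hfB p) := IsUnit.of_mul_eq_one 2 (by rw [mul_comm]; exact hhf)
    have := hhu.mul h1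
    have e1 : (m : B0 p) + p * P4L869.tS p (.H i) =
        P4L869.hfB p * (((2 * m - p : ℤ) : B0 p) + ((2 * p : ℕ) : B0 p) * P4L869.tauB p) := by
      show (m : B0 p) + p * (P4L869.tauB p - P4L869.hfB p) = _
      push_cast
      linear_combination (-(m : B0 p) - p * P4L869.tauB p) * hhf
    rw [e1]; exact this

/-- `psi'` at every site. -/
theorem psi'_site (h5 : 5 ≤ p) {T M : ℕ} (hT : 3 ≤ T) (hM : 2 ≤ M) (hMT : M ≤ T)
    {eZ : ℕ → ℤ[X]} (he : IsIdem p T eZ) (c0 : Fin p) (z : Site) (hz : InR p z)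
    (hc : (c0 : ℕ) = cl p z) :
    psi' (P4Mom630.eQ p eZ) M c0 z ∈ (psFil (pbFil p)).F (P4L869.wt (P4L869.stS p z)) := by
  have h2 : p ≠ 2 := by omega
  have hodd : Odd p := hp.out.odd_of_ne_two h2
  have hu : ∀ a : ℕ, 0 < a → a < p → IsUnit (a : B0 p) := by
    intro a ha hap
    have hnd : ¬ (p : ℤ) ∣ (a : ℤ) := by
      intro hd
      have := Nat.le_of_dvd ha (by exact_mod_cast hd)
      omega
    have := P4L869.bunits p (a : ℤ) hnd 0
    simpa using this
  have h3u : IsUnit (3 : B0 p) := by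
    have := hu 3 (by norm_num) (by omega)
    simpa using this
  have hL := P4L869.isMom_muB0 (p := p) h5
  have hcd : P4Hc830.ClassData p T (P4Row.lin (P4L869.muB0 h5)) (eA (B0 p) eZ) :=
    classData_eA hodd (P4L869.two_unit h2) h3u hu hL he
  have hloc := loc_of_classData hT hL hcd
  have hG := P4L869.good_site h5 (by omega) hloc z hz
  rw [Subring.range_subtype] at hG
  have hcS : P4L869.cS p (P4L869.rS p z) = (c0 : ℕ) := by rw [P4L869.cS_rS, hc]
  have hx0 := P4L869.xS_coe h2 z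
  have hus := unit_site h5 z
  obtain ⟨k, hk⟩ := P4L869.cS_spec hp.out.pos (P4L869.rS p z)
  rw [hcS] at hk
  unfold P4L869.hS at hG
  rw [hcS] at hG
  refine psi'_mem (m0 := P4L869.muB0 h5) (fun k => rfl) (T := T) (N := T) hcd le_rfl hMT
    (by omega) hM c0 z (P4L869.xS p (P4L869.tS p z) (P4L869.rS p z))
    (P4L869.xS p (P4L869.tS p z) (P4L869.rS p z) - ((c0 : ℕ) : B0 p)) (by ring) ?_ ?_ _ ?_ hG
  · rw [map_sub, map_natCast]
    show ((P4L869.xS p (P4L869.tS p z) (P4L869.rS p z) : B0 p) : PowerSeries ℚ[X]) - _ = _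
    rw [hx0, xs, ys, C_sub, map_sub]
    have : ((c0 : ℕ) : PowerSeries ℚ[X]) = PowerSeries.C (C ((c0 : ℕ) : ℚ)) := by simp
    rw [this]; ring
  · refine ⟨(k : B0 p) + P4L869.tS p z, ?_⟩
    have h6 : ((P4L869.rS p z : ℤ) : B0 p) = ((c0 : ℕ) : B0 p) + p * k := by
      have := congrArg (Int.cast : ℤ → B0 p) hk
      push_cast at this
      exact this
    unfold P4L869.xS
    rw [h6]; ring
  · intro c' hc' hne
    refine Ring.mul_inverse_cancel _ (P4L869.site_unit hp.out.pos hus _ hc' ?_)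
    rw [hcS]; exact hne

/-- **The local input for the universal idempotents.** -/
theorem local_input_of (h5 : 5 ≤ p) {T N M : ℕ} (hM : 2 ≤ M) (hMT : M ≤ T) (hNT : N + 3 ≤ T)
    {eZ : ℕ → ℤ[X]} (he : IsIdem p T eZ) : LocalInput p N M (P4Mom630.eQ p eZ) := by
  have h2 : p ≠ 2 := by omega
  have hT : 3 ≤ T := by omega
  refine
    { sum_e := P4Mom630.sum_eQ he
      mom_polar := fun c _ t ht => P4Mom630.mom_polar h5 hNT he c t ht
      mom_regular := fun c hc t ht => P4Mom630.mom_regular h5 hNT he c hc t ht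
      psi_zero := ?_
      psi_polar := ?_
      psi_regular := ?_
      psi_flatZ := Crest.Agent.R006.P4M.psi_flatZ h2
      psi_flatH := Crest.Agent.R006.P4M.psi_flatH h2
      gam_polar := P4GW556.gam_polar h2
      gam_regular := P4GW556.gam_regular h2 }
  · intro c i hci hi
    have hz : InR p (.Z (i : ℤ)) := by
      unfold InR
      simp only [Site.val]
      have : |((i : ℤ) : ℚ)| = i := by push_cast; exact abs_of_nonneg (by positivity)
      rw [this]
      have h6 : 2 * i + 2 < p ^ 2 := by nlinarith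
      exact_mod_cast h6
    have hcl : (c : ℕ) = cl p (.Z (i : ℤ)) := by
      rw [← P4L869.cS_rS]
      show (c : ℕ) = P4L869.cS p (i : ℤ)
      rw [P4L869.cS_natCast, Nat.mod_eq_of_lt (by omega)]
      exact hci
    have h := psi'_site h5 hT hM hMT he c (.Z (i : ℤ)) hz hcl
    rw [P4L869.stS_zero p hi] at h
    exact h
  · intro c z hz hc _ _
    exact (psFil (pbFil p)).mono (P4L869.wt_ge _) (psi'_site h5 hT hM hMT he c z hz hc)
  · intro c z hz hc hr hH
    have h := psi'_site h5 hT hM hMT he c z hz hc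
    rw [P4L869.stS_regular h2 (by rw [← hc]; exact hr) hH] at h
    exact h

/-- **The local input.** -/
theorem local_input (h5 : 5 ≤ p) (N M : ℕ) (hM : 2 ≤ M) : ∃ e : Fin p → ℚ[X],
    LocalInput p N M e := by
  obtain ⟨eZ, he⟩ := exists_idem hp.out (N + 3 + M)
  exact ⟨_, local_input_of h5 hM (by omega) (by omega) he⟩

end Crest.Agent.R006.P4Psi830
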