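import Crest.Agent.R006.P4_LocalInput_955
import Crest.Agent.R006.NVDict_938
import Crest.Agent.R006.P4MatV_955
import Crest.Agent.R006.P4SideCls_110
import Crest.Agent.R006.P4Iface_814
import Crest.Agent.R006.P4SidePsi_938
import Crest.Agent.R006.P4SideDef_955

-- ▼ part R006/P4_GamOrd_938
section

/-!
# Row 6, block P4: the double zeros of `g` (helper938)

`X ^ 2 ∣ gam (Z (-m))` for `m > 0` and `X ^ 2 ∣ gam (H l)` for `l ≥ 0`.
-/

set_option autoImplicit false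

namespace Crest.Agent.R006.P4M938

open Crest.Agent.R006.P4M Crest.Agent.R006.D Crest.Agent.R006.NV

lemma dvd_of_dvd_unit_mul {x a f : PowerSeries ℚ} (ha : PowerSeries.constantCoeff a ≠ 0)
    (h : x ∣ a * f) : x ∣ f := by
  have e : f = a⁻¹ * (a * f) := by
    rw [← mul_assoc, PowerSeries.inv_mul_cancel _ ha, one_mul]
  rw [e]
  exact h.mul_left _

lemma constantCoeff_quarter (s : ℚ) (hs : 2 * s + 1 ≠ 0) :
    PowerSeries.constantCoeff (PowerSeries.C (1 / 4) * (2 * pt s + 1) ^ 2 : PowerSeries ℚ) ≠ 0 := by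
  rw [map_mul, PowerSeries.constantCoeff_C, map_pow, map_add, map_mul, constantCoeff_pt,
    constantCoeff_two, map_one]
  exact mul_ne_zero (by norm_num) (pow_ne_zero _ hs)

theorem X_sq_dvd_GamZ (m : ℕ) : PowerSeries.X ^ 2 ∣ (GamZ (-((m + 1 : ℕ) : ℤ)) : PowerSeries ℚ) := by
  induction m with
  | zero =>
    have h := (step_Z (0 : ℚ) (-1)).gam
    have e0 : (-1 + 1 : ℤ) = 0 := rfl
    rw [e0, GamZ_zero, mul_one] at h
    have e1 : (((-1 : ℤ) : ℚ) + 1) = 0 := by norm_num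
    rw [e1] at h
    have e2 : pt (0 : ℚ) = PowerSeries.X := by simp [pt]
    rw [e2] at h
    have e3 : (-((0 + 1 : ℕ) : ℤ)) = -1 := by norm_num
    rw [e3]
    apply dvd_of_dvd_unit_mul (constantCoeff_quarter ((-1 : ℤ) : ℚ) (by norm_num))
    rw [← h]
  | succ m ih =>
    have h := (step_Z (0 : ℚ) (-((m + 1 + 1 : ℕ) : ℤ))).gam
    have e0 : (-((m + 1 + 1 : ℕ) : ℤ) + 1) = -((m + 1 : ℕ) : ℤ) := by push_cast; ring
    rw [e0] at h
    apply dvd_of_dvd_unit_mul (constantCoeff_quarter ((-((m + 1 + 1 : ℕ) : ℤ) : ℤ) : ℚ) ?_)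
    · rw [← h]
      exact ih.mul_left _
    · have : (2 * (-((m + 1 + 1 : ℕ) : ℤ)) + 1 : ℤ) ≠ 0 := by omega
      exact_mod_cast this

theorem X_sq_dvd_GamH (l : ℕ) : PowerSeries.X ^ 2 ∣ NV.GamH (1 : ℚ) (l : ℤ) := by
  induction l with
  | zero =>
    have h := (step_HG (1 : ℚ) (-1)).gam
    have e0 : (-1 + 1 : ℤ) = 0 := rfl
    rw [e0] at h
    have e1 : NV.GamH (1 : ℚ) (-1) = 1 := by
      unfold NV.GamH
      rw [e0, GamH0_zero, map_one]
    rw [e1, mul_one] at h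
    have e2 : (2 * pt (((-1 : ℤ) : ℚ) + 1 / 2) + 1 : PowerSeries ℚ) = 2 * PowerSeries.X := by
      unfold pt
      have h1 : (2 : PowerSeries ℚ) * PowerSeries.C (((-1 : ℤ) : ℚ) + 1 / 2) = -1 := by
        have : (2 : PowerSeries ℚ) = PowerSeries.C 2 := (map_ofNat PowerSeries.C 2).symm
        rw [this, ← map_mul]
        norm_num
      linear_combination h1
    rw [e2] at h
    have e3 : (((0 : ℕ) : ℤ)) = 0 := rfl
    rw [e3]
    apply dvd_of_dvd_unit_mul (a := pt (((-1 : ℤ) : ℚ) + 1 / 2 + 1) ^ 2)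
    · rw [map_pow, constantCoeff_pt]
      norm_num
    · rw [h]
      exact ⟨PowerSeries.C (1 / 4) * 2 ^ 2, by ring⟩
  | succ l ih =>
    have h := (step_HG (1 : ℚ) (l : ℤ)).gam
    have e0 : ((l + 1 : ℕ) : ℤ) = (l : ℤ) + 1 := by push_cast; rfl
    rw [e0]
    apply dvd_of_dvd_unit_mul (a := pt (((l : ℤ) : ℚ) + 1 / 2 + 1) ^ 2)
    · rw [map_pow, constantCoeff_pt]
      apply pow_ne_zero
      have : (0 : ℚ) < ((l : ℤ) : ℚ) + 1 / 2 + 1 := by
        have h0 : (0 : ℚ) ≤ ((l : ℤ) : ℚ) := by exact_mod_cast (Int.natCast_nonneg l)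
        linarith
      exact this.ne'
    · rw [h]
      exact ih.mul_left _

/-- **the double zeros of `g`** -/
theorem gamOrd : GamOrd := by
  refine ⟨fun m hm => ?_, fun l => ?_⟩
  · obtain ⟨n, rfl⟩ : ∃ n, m = n + 1 := ⟨m - 1, by omega⟩
    exact X_sq_dvd_GamZ n
  · have e : gam (.H (l : ℤ)) = NV.GamH (1 : ℚ) (l : ℤ) := GamH_eq _
    rw [e]
    exact X_sq_dvd_GamH l

end Crest.Agent.R006.P4M938
end

-- ▼ part R006/P4SideRA_110
section

/-!
# Row 6, block P4, matrix side (helper110): the fields `A, B, B0, C` of `Tables` in the mode `rA`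
-/

set_option autoImplicit false

namespace Crest.Agent.R006.P4SideRAx110

open Polynomial Finset Tollx814 P4Toll961 Crest.Agent.R006.D Crest.Agent.R006.P4M
  Crest.Agent.R006.P8 Crest.Agent.R006.P4If Crest.Agent.R006.Bordx929
  Crest.Agent.R006.P4Asmx814
open Crest.Agent.R006.P4M531 (BB)

/-- the orders of the rows of the design (`e3 = h3 = 0`) -/
structure RowT (ρ : Crest.Agent.R006.D.Row) : Prop where
  le : ρ.2 ≤ 1
  z0 : ∀ i, ρ.1 = .Z i → 0 ≤ i → ρ.2 = 0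
  h0 : ∀ i, ρ.1 = .H i → i < 0 → ρ.2 = 0

theorem rowT {S : Shape} {u c : ℕ} (he : S.e3 = 0) (hh : S.h3 = 0) (x : RI S u c) :
    RowT (ofRow u c x) where
  le := P4M938.order_le_one he hh x
  z0 _ hi h := P4M938.order_Z_nonneg x hi h
  h0 _ hi h := (P4M938.order_H_neg x hi h).1



variable {p : ℕ} [hp : Fact p.Prime] {jR jT jQ jU ι : Type*} {D : Dat p jR jT jQ jU ι}
  {z : ℕ → ℕ} {NL : ℕ}

/-- the cases of the kinds -/
lemma kind_cases {ρ : Crest.Agent.R006.D.Row} (h : RowT ρ) :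
    (∃ i, ρ.1 = Site.Z i ∧ 0 ≤ i ∧ ρ.2 = 0 ∧ kindR ρ = kG) ∨
    (∃ i, ρ.1 = Site.Z i ∧ i < 0 ∧ ρ.2 = 0 ∧ kindR ρ = kE1) ∨
    (∃ i, ρ.1 = Site.Z i ∧ i < 0 ∧ ρ.2 = 1 ∧ kindR ρ = kE2) ∨
    (∃ i, ρ.1 = Site.H i ∧ 0 ≤ i ∧ ρ.2 = 0 ∧ kindR ρ = kH1) ∨
    (∃ i, ρ.1 = Site.H i ∧ 0 ≤ i ∧ ρ.2 = 1 ∧ kindR ρ = kH2) ∨
    (∃ i, ρ.1 = Site.H i ∧ i < 0 ∧ ρ.2 = 0 ∧ kindR ρ = kW) := by
  obtain ⟨z, o⟩ := ρ
  have hle := h.le
  rcases z with i | i
  · by_cases hi : 0 ≤ i
    · left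
      have h0 := h.z0 i rfl hi
      exact ⟨i, rfl, hi, h0, by simp [kindR, hi]⟩
    · simp only at hle
      by_cases ho : o = 0
      · right; left
        exact ⟨i, rfl, by omega, ho, by simp [kindR, hi, ho]⟩
      · right; right; left
        exact ⟨i, rfl, by omega, by simp only; omega, by simp [kindR, hi, ho]⟩
  · by_cases hi : 0 ≤ i
    · simp only at hle
      by_cases ho : o = 0
      · right; right; right; left
        exact ⟨i, rfl, hi, ho, by simp [kindR, hi, ho]⟩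
      · right; right; right; right; left
        exact ⟨i, rfl, hi, by simp only; omega, by simp [kindR, hi, ho]⟩
    · right; right; right; right; right
      have h0 := h.h0 i rfl (by omega)
      exact ⟨i, rfl, by omega, h0, by simp [kindR, hi]⟩

/-- **field `A`, mode `rA`** -/
theorem A_rA (L : LocalInput p NL D.M D.e) (hNL : D.G + D.Nb ≤ NL) (h2 : p ≠ 2)
    (hz : D.Zer z) (i : ι) (hr : RowT (D.ro i)) (hcs : (D.cs i : ℕ) = cl p (D.ro i).1)
    (hreg : p < 2 * (D.cs i : ℕ)) (hps : D.ps i ∈ (psFil (pbFil p)).F 1) (js : List ℤ) (j : ℤ)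
    (l : ℕ) :
    D.cA0 i l ∈ (pbFil p).F ((tabK .rA (kindR (D.ro i)) js j).R.a +
      P8.pos ((l : ℤ) + z (D.cs i) - (tabK .rA (kindR (D.ro i)) js j).R.b)) := by
  refine (pbFil p).mono ?_ (Dat.cA0_regular L hNL h2 hz i hcs hreg hps l)
  rcases kind_cases hr with ⟨i', -, -, ho, hk⟩ | ⟨i', -, -, ho, hk⟩ | ⟨i', -, -, ho, hk⟩ |
    ⟨i', -, -, ho, hk⟩ | ⟨i', -, -, ho, hk⟩ | ⟨i', -, -, ho, hk⟩ <;>
  · rw [ho, hk]
    simp only [tabK, Kind.row3, kG, kE1, kE2, kH1, kH2, kW, P8.pos]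
    split_ifs <;> simp only [] <;> omega

/-- **field `B`, mode `rA`** -/
theorem B_rA (h2 : p ≠ 2) (i : ι) (hr : RowT (D.ro i)) (hcs : (D.cs i : ℕ) = cl p (D.ro i).1)
    (js : List ℤ) (j : ℤ) (s : ℕ) :
    D.cB0 i s ∈ (pbFil p).F ((tabK .rA (kindR (D.ro i)) js j).X.a +
      P8.pos ((s : ℤ) - (tabK .rA (kindR (D.ro i)) js j).X.b)) := by
  refine (pbFil p).mono ?_ (Dat.cB0_mem h2 i hcs s)
  rcases kind_cases hr with ⟨i', -, -, ho, hk⟩ | ⟨i', -, -, ho, hk⟩ | ⟨i', -, -, ho, hk⟩ |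
    ⟨i', -, -, ho, hk⟩ | ⟨i', -, -, ho, hk⟩ | ⟨i', -, -, ho, hk⟩ <;>
  · rw [ho, hk]
    simp only [tabK, Kind.row3, kG, kE1, kE2, kH1, kH2, kW, P8.pos]
    split_ifs <;> simp only [] <;> omega


/-- **field `C`, mode `rA`** -/
theorem C_rA (L : LocalInput p NL D.M D.e) (h2 : p ≠ 2) (i : ι) (hr : RowT (D.ro i))
    (hin : InR p (D.ro i).1) (hcs : (D.cs i : ℕ) = cl p (D.ro i).1)
    (hreg : p < 2 * (D.cs i : ℕ)) (js : List ℤ) (j : ℤ) (n : ℕ) :
    D.cC0 i n ∈ (pbFil p).F ((tabK .rA (kindR (D.ro i)) js j).Q.a +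
      P8.pos ((n : ℤ) - (tabK .rA (kindR (D.ro i)) js j).Q.b)) := by
  have h0 : ∀ {i' : ℤ}, (D.ro i).1 = .Z i' → i' < 0 → D.cC0 i n = 0 := by
    intro i' h1 h3
    refine Dat.cC0_zero i ?_ n
    have h4 := P4M938.gamOrd.1 (-i').toNat (by omega)
    rw [show (-((-i').toNat : ℤ)) = i' by omega] at h4
    rw [h1]
    exact (pow_dvd_pow _ (by have := hr.le; omega)).trans h4
  have h0' : ∀ {i' : ℤ}, (D.ro i).1 = .H i' → 0 ≤ i' → D.cC0 i n = 0 := by
    intro i' h1 h3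
    refine Dat.cC0_zero i ?_ n
    have h4 := P4M938.gamOrd.2 i'.toNat
    rw [show ((i'.toNat : ℤ)) = i' by omega] at h4
    rw [h1]
    exact (pow_dvd_pow _ (by have := hr.le; omega)).trans h4
  have hC := Dat.cC0_mem (D := D) h2 i hcs (L.gam_regular (D.cs i) _ hin hcs hreg) n
  rcases kind_cases hr with ⟨i', h1, h3, ho, hk⟩ | ⟨i', h1, h3, ho, hk⟩ | ⟨i', h1, h3, ho, hk⟩ |
    ⟨i', h1, h3, ho, hk⟩ | ⟨i', h1, h3, ho, hk⟩ | ⟨i', h1, h3, ho, hk⟩
  · refine (pbFil p).mono ?_ hC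
    rw [ho, hk]
    simp only [tabK, Kind.row3, kG, P8.pos]
    split_ifs <;> simp only [] <;> omega
  · rw [h0 h1 h3]; exact AddSubgroup.zero_mem _
  · rw [h0 h1 h3]; exact AddSubgroup.zero_mem _
  · rw [h0' h1 h3]; exact AddSubgroup.zero_mem _
  · rw [h0' h1 h3]; exact AddSubgroup.zero_mem _
  · refine (pbFil p).mono ?_ hC
    rw [ho, hk]
    simp only [tabK, Kind.row3, kW, P8.pos]
    split_ifs <;> simp only [] <;> omega

end Crest.Agent.R006.P4SideRAx110
end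

-- ▼ part R006/P4SideTabA_110

/-!
# Row 6, block P4, matrix side (helper110): the mode `rA` on 955's final definitions

* `zer`, `pt_none` (regular classes have no partner), `cA_R0` (`dec ≠ rB`);
* `A_rA`, `B_rA`, `B0_rA`, `C_rA` : the fields of `Tables` for `RS` in the mode `rA`.
-/

set_option autoImplicit false

namespace Crest.Agent.R006.P4SideRSx110

open Polynomial Finset Tollx814 P4Toll961
open Crest.Agent.R006.D Crest.Agent.R006.Bordx929 Crest.Agent.R006.P4Asmx814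
  Crest.Agent.R006.GaugeP555 Crest.Agent.R006.P8 Crest.Agent.R006.P4If Crest.Agent.R006.P4M
  Crest.Agent.R006.P4SideDatx538 Crest.Agent.R006.P4S Crest.Agent.R006.P4SideRAx110
open Crest.Agent.R006.P4M531 (phi BB)
open Crest.Agent.R006.P4B1In657 (delB)

variable {S : Shape} {u c p : ℕ} [hp : Fact p.Prime] {dec : ℕ → Mode} {E : ℤ} {e : Fin p → ℚ[X]}
  (J : Fin c → RI S u c)

/-- the zeros of the gauge -/
theorem zer (h2 : p ≠ 2) : (DS S u c dec J E e).Zer (zS S u p) := by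
  intro a m
  have h := taylor_gaugeF_mem h2 S u ((a : ℕ) : ℤ) m
  rw [Int.cast_natCast] at h
  exact h

/-- the class of the node `h - l` -/
lemma cls_node (hodd : p % 2 = 1) {l : ℕ} (hl : l ≤ (p - 1) / 2) :
    clsS p (.Z ((((p - 1) / 2 : ℕ) : ℤ) - l)) = (p - 1) / 2 - l := by
  refine (P4SideCls110.cls_jS_Z hodd (a := (p - 1) / 2 - l) (j := 0) (by omega) ?_).1
  omega

/-- regular classes have no partner -/
theorem pt_none (H : Inp S u c p dec E e) (x : RI S u c)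
    (hd : dec (clsS p (ofRow u c x).1) ≠ .pol) : ptS S u c H.good p x = none := by
  by_contra h0
  obtain ⟨j, hj⟩ := Option.ne_none_iff_exists'.mp h0
  obtain ⟨l, hl, -, h1, -⟩ := P4GW657.gwPartner_some S u c H.good ((p - 1) / 2) hj
  have hx : (ofRow u c x).1 = .Z ((((p - 1) / 2 : ℕ) : ℤ) - l) := congrArg Prod.fst h1
  have h2 := cls_node H.odd hl
  have h3 : clsS p (ofRow u c x).1 = (p - 1) / 2 - l := by rw [hx, h2]
  have h4 := H.odd
  have h5 := Inp.p_pos p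
  refine hd ((H.dok.pol _ ?_).mpr ?_) <;> omega

omit hp in
lemma mode_reg {d : Mode} (h : d = .rA) : d ≠ .pol ∧ d ≠ .rB := by subst h; simp

/-- the coefficient `cA` before the reduction, `dec ≠ rB` -/
theorem cA_R0 (x : RI S u c) (hd : dec (clsS p (ofRow u c x).1) ≠ .rB) (l : Fin (NN S u E)) :
    (R0S S u c dec J E e).cA x l = (DS S u c dec J E e).cA0 x l := by
  show (DS S u c dec J E e).cA0 x l - ∑ s : Fin (NN S u E), (DS S u c dec J E e).cB0 x s *
    nrS S u c dec J E e (csS S u c p x) s l = _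
  have h : ∀ s : Fin (NN S u E), nrS S u c dec J E e (csS S u c p x) s l = 0 := fun s => by
    rw [nrS, if_neg]
    exact hd
  simp only [h, mul_zero, sum_const_zero, sub_zero]

lemma psG_mem_rA (H : Inp S u c p dec E e) (x : RI S u c)
    (hd : dec (clsS p (ofRow u c x).1) = .rA) :
    (DS S u c dec J E e).ps x ∈ (psFil (pbFil p)).F 1 := by
  have hreg : p < 2 * (csS S u c p x : ℕ) := (H.reg_iff (csS S u c p x)).mp (by
    show dec (clsS p (ofRow u c x).1) ≠ .pol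
    rw [hd]; simp)
  have hc := H.cs_eq J x
  have hin := H.inR J x
  show psG dec e (MM E) (csS S u c p x) (ofRow u c x).1 ∈ _
  change ((csS S u c p x : Fin p) : ℕ) = cl p (ofRow u c x).1 at hc
  change InR p (ofRow u c x).1 at hin
  rcases hz : (ofRow u c x).1 with i | i
  · rw [hz] at hc hin
    exact H.L.psi_regular _ _ hin hc hreg (fun i' h => by cases h)
  · rw [hz] at hc hin
    simp only [psG]
    split_ifs with h0
    · refine H.L.psi_regular _ _ hin hc hreg (fun i' h => ?_)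
      cases h; exact h0
    · have h1 : dec ((csS S u c p x : Fin p) : ℕ) = .rA := hd
      rw [h1]
      exact AddSubgroup.zero_mem _

theorem A_rA (H : Inp S u c p dec E e) (x : RI S u c)
    (hd : dec (clsS p (ofRow u c x).1) = .rA) (l : Fin (NN S u E)) :
    (RS S u c dec J E e H.good).cA x l ∈ (pbFil p).F ((tb S u c p dec x).R.a +
      P8.pos ((((l : ℕ) : ℕ) : ℤ) + zS S u p (csS S u c p x) - (tb S u c p dec x).R.b)) := by
  have h1 : (RS S u c dec J E e H.good).cA x l = (DS S u c dec J E e).cA0 x l := by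
    show subP (R0S S u c dec J E e).cA (ptS S u c H.good p) x l = _
    rw [subP_none _ (pt_none H x (mode_reg hd).1), cA_R0 J x (mode_reg hd).2]
  rw [h1]
  have hreg : p < 2 * (csS S u c p x : ℕ) := (H.reg_iff (csS S u c p x)).mp (mode_reg hd).1
  have h2 := P4SideRAx110.A_rA (D := DS S u c dec J E e) H.L (Inp.le_NLL S u E) H.ne2
    (zer J H.ne2) x (rowT H.e3 H.h3 x) (H.cs_eq J x) hreg (psG_mem_rA J H x hd)
    (jvec (bdS S) u p (clsS p (ofRow u c x).1)) (jS p (ofRow u c x).1) l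
  simp only [tb, tabX, hd]
  exact h2

theorem B_rA (H : Inp S u c p dec E e) (x : RI S u c)
    (hd : dec (clsS p (ofRow u c x).1) = .rA) (s : Fin (NN S u E)) :
    (RS S u c dec J E e H.good).cB x s ∈ (pbFil p).F ((tb S u c p dec x).X.a +
      P8.pos ((((s : ℕ) : ℕ) : ℤ) - (tb S u c p dec x).X.b)) := by
  have h1 : (RS S u c dec J E e H.good).cB x s = (DS S u c dec J E e).cB0 x s := by
    show subP (R0S S u c dec J E e).cB (ptS S u c H.good p) x s = _
    rw [subP_none _ (pt_none H x (mode_reg hd).1)]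
    rfl
  rw [h1]
  have h2 := P4SideRAx110.B_rA (D := DS S u c dec J E e) H.ne2 x (rowT H.e3 H.h3 x) (H.cs_eq J x)
    (jvec (bdS S) u p (clsS p (ofRow u c x).1)) (jS p (ofRow u c x).1) s
  simp only [tb, tabX, hd]
  exact h2


theorem C_rA (H : Inp S u c p dec E e) (x : RI S u c)
    (hd : dec (clsS p (ofRow u c x).1) = .rA) (n : Fin (NN S u E)) :
    (RS S u c dec J E e H.good).cC x n ∈ (pbFil p).F ((tb S u c p dec x).Q.a +
      P8.pos ((((n : ℕ) : ℕ) : ℤ) - (tb S u c p dec x).Q.b)) := by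
  have h1 : (RS S u c dec J E e H.good).cC x n = (DS S u c dec J E e).cC0 x n := by
    show subP (R0S S u c dec J E e).cC (ptS S u c H.good p) x n = _
    rw [subP_none _ (pt_none H x (mode_reg hd).1)]
    rfl
  rw [h1]
  have hreg : p < 2 * (csS S u c p x : ℕ) := (H.reg_iff (csS S u c p x)).mp (mode_reg hd).1
  have h2 := P4SideRAx110.C_rA (D := DS S u c dec J E e) H.L H.ne2 x (rowT H.e3 H.h3 x)
    (H.inR J x) (H.cs_eq J x) hreg
    (jvec (bdS S) u p (clsS p (ofRow u c x).1)) (jS p (ofRow u c x).1) n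
  simp only [tb, tabX, hd]
  exact h2

end Crest.Agent.R006.P4SideRSx110

/-! ### the leaves with 955's names -/

namespace Crest.Agent.R006.P4S

open Polynomial Finset Tollx814 P4Toll961
open Crest.Agent.R006.D Crest.Agent.R006.Bordx929 Crest.Agent.R006.P4Asmx814
  Crest.Agent.R006.GaugeP555 Crest.Agent.R006.P8 Crest.Agent.R006.P4If Crest.Agent.R006.P4M
  Crest.Agent.R006.P4SideDatx538
open Crest.Agent.R006.P4M531 (phi BB)
open Crest.Agent.R006.P4B1In657 (delB)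

variable {S : Shape} {u c p : ℕ} [hp : Fact p.Prime] {dec : ℕ → Mode} {E : ℤ} {e : Fin p → ℚ[X]}
  (J : Fin c → RI S u c)

namespace Inp

variable (H : Inp S u c p dec E e)
include H

theorem A_rA (x : RI S u c) (hx : dec (clsS p (ofRow u c x).1) = .rA) (l : Fin (NN S u E)) :
    (RS S u c dec J E e H.good).cA x l ∈ (pbFil p).F ((tb S u c p dec x).R.a +
      pos (((l : ℕ) : ℤ) + zS S u p (clsS p (ofRow u c x).1) - (tb S u c p dec x).R.b)) :=
  P4SideRSx110.A_rA J H x hx l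

theorem B_rA (x : RI S u c) (hx : dec (clsS p (ofRow u c x).1) = .rA) (s : Fin (NN S u E)) :
    (RS S u c dec J E e H.good).cB x s ∈ (pbFil p).F ((tb S u c p dec x).X.a +
      pos (((s : ℕ) : ℤ) - (tb S u c p dec x).X.b)) :=
  P4SideRSx110.B_rA J H x hx s

theorem C_rA (x : RI S u c) (hx : dec (clsS p (ofRow u c x).1) = .rA) (s : Fin (NN S u E)) :
    (RS S u c dec J E e H.good).cC x s ∈ (pbFil p).F ((tb S u c p dec x).Q.a +
      pos (((s : ℕ) : ℤ) - (tb S u c p dec x).Q.b)) :=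
  P4SideRSx110.C_rA J H x hx s

end Inp

end Crest.Agent.R006.P4S
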