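import Crest.Agent.R006.P6DetC_784
import Mathlib
import Crest.Agent.R006.P6V_784
import Crest.Agent.R006.Shape_378

-- ▼ part R006/P6Base_909
section

/-!
# Row 6, block P6, leaf L2: change of the basis of the `R`-space (helper909)

`PB_Minor_of_base` : a 2-adic bound of the determinant with the `R`-columns
`gauge * bin (a1 u) * X^(j % 2) * g (j / 2)` gives a bound of `Minor S u r`.
-/

set_option autoImplicit false

namespace Crest.Agent.R006.P6

open Polynomial Crest.Agent.R006.NV Crest.Agent.R006.PsiInf Crest.Agent.R006.D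
open Crest.Agent.R006.ProdBound481

/-! ### the entry is linear in `R` -/

/-- `ent0` as a linear map -/
noncomputable def ent0L (ρ : Row) : ℚ[X] →ₗ[ℚ] ℚ where
  toFun R := ent0 R ρ
  map_add' R R' := by
    have h : tau (R + R') = tau R + tau R' := by unfold tau; rw [map_add]
    unfold ent0
    rw [h, gm_add, gm_add, add_mul, ← map_add]
    congr 1
    ring
  map_smul' a R := by
    have h : tau (a • R) = C a * tau R := by
      unfold tau; rw [map_smul, smul_eq_C_mul]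
    unfold ent0
    rw [h, smul_eq_C_mul, gm_mul, gm_mul, gm_C, mul_assoc, ← mul_sub, PowerSeries.coeff_C_mul]
    rfl

/-- `ent1` as a linear map -/
noncomputable def ent1L (ρ : Row) : ℚ[X] →ₗ[ℚ] ℚ where
  toFun R := ent1 R ρ
  map_add' R R' := by
    unfold ent1
    rw [gm_add, add_mul, map_add]
  map_smul' a R := by
    unfold ent1
    rw [smul_eq_C_mul, gm_mul, gm_C, mul_assoc, PowerSeries.coeff_C_mul]
    rfl

lemma entR_sum {ι : Type*} (s : Finset ι) (a : ι → ℚ) (f : ι → ℚ[X]) (ρ : Row) :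
    entR (∑ l ∈ s, C (a l) * f l) ρ = ∑ l ∈ s, C (a l) * entR (f l) ρ := by
  have h0 : ent0 (∑ l ∈ s, C (a l) * f l) ρ = ∑ l ∈ s, a l * ent0 (f l) ρ := by
    have : ent0L ρ (∑ l ∈ s, a l • f l) = ∑ l ∈ s, a l * ent0L ρ (f l) := by
      rw [map_sum]
      exact Finset.sum_congr rfl fun l _ => by rw [map_smul, smul_eq_mul]
    simpa only [ent0L, LinearMap.coe_mk, AddHom.coe_mk, smul_eq_C_mul] using this
  have h1 : ent1 (∑ l ∈ s, C (a l) * f l) ρ = ∑ l ∈ s, a l * ent1 (f l) ρ := by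
    have : ent1L ρ (∑ l ∈ s, a l • f l) = ∑ l ∈ s, a l * ent1L ρ (f l) := by
      rw [map_sum]
      exact Finset.sum_congr rfl fun l _ => by rw [map_smul, smul_eq_mul]
    simpa only [ent1L, LinearMap.coe_mk, AddHom.coe_mk, smul_eq_C_mul] using this
  unfold entR
  rw [h0, h1, map_sum, map_sum, Finset.mul_sum, ← Finset.sum_sub_distrib]
  refine Finset.sum_congr rfl fun l _ => ?_
  rw [map_mul, map_mul]
  ring

/-! ### expansion in a monic basis -/

/-- expansion of a polynomial of degree `≤ j` in monic polynomials of degrees `0, .., j` -/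
lemma expand_monic (Q : ℕ → ℚ[X]) (hm : ∀ l, (Q l).Monic) (hd : ∀ l, (Q l).natDegree = l)
    (j : ℕ) : ∀ N : ℚ[X], N.natDegree ≤ j →
      ∃ p : ℕ → ℚ, N = ∑ l ∈ Finset.range (j + 1), C (p l) * Q l ∧ p j = N.coeff j := by
  induction j with
  | zero =>
    intro N hN
    refine ⟨fun _ => N.coeff 0, ?_, rfl⟩
    have h1 : Q 0 = 1 := (hm 0).natDegree_eq_zero.mp (hd 0)
    rw [zero_add, Finset.sum_range_one, h1, mul_one]
    exact eq_C_of_natDegree_le_zero hN
  | succ j ih =>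
    intro N hN
    have hlead : (Q (j + 1)).coeff (j + 1) = 1 := by
      have := (hm (j + 1)).coeff_natDegree
      rwa [hd] at this
    have h1 : (N - C (N.coeff (j + 1)) * Q (j + 1)).natDegree ≤ j := by
      rw [natDegree_le_iff_coeff_eq_zero]
      intro n hn
      rw [coeff_sub, coeff_C_mul]
      rcases Nat.lt_or_ge (j + 1) n with h | h
      · have e1 : N.coeff n = 0 := coeff_eq_zero_of_natDegree_lt (lt_of_le_of_lt hN h)
        have e2 : (Q (j + 1)).coeff n = 0 :=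
          coeff_eq_zero_of_natDegree_lt (by rw [hd]; exact h)
        rw [e1, e2, mul_zero, sub_zero]
      · have : n = j + 1 := by omega
        subst this
        rw [hlead, mul_one, sub_self]
    obtain ⟨p, hp, -⟩ := ih _ h1
    refine ⟨fun l => if l = j + 1 then N.coeff (j + 1) else p l, ?_, if_pos rfl⟩
    rw [Finset.sum_range_succ]
    simp only [if_true]
    have h2 : ∑ l ∈ Finset.range (j + 1),
        C (if l = j + 1 then N.coeff (j + 1) else p l) * Q l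
        = ∑ l ∈ Finset.range (j + 1), C (p l) * Q l := by
      refine Finset.sum_congr rfl fun l hl => ?_
      rw [if_neg (by have := Finset.mem_range.mp hl; omega)]
    rw [h2, ← hp]
    ring

/-- the shifted monic factorial polynomials -/
noncomputable def dQ (A l : ℕ) : ℚ[X] := (descPochhammer ℚ l).comp (X - C (A : ℚ))

lemma dQ_monic (A l : ℕ) : (dQ A l).Monic := (monic_descPochhammer ℚ l).comp_X_sub_C _

lemma dQ_natDegree (A l : ℕ) : (dQ A l).natDegree = l := by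
  rw [dQ, natDegree_comp, natDegree_X_sub_C, mul_one, descPochhammer_natDegree]

lemma bin_mul_dQ (A l : ℕ) :
    bin A * dQ A l = C (((A + l).factorial : ℚ) / (A.factorial : ℚ)) * bin (A + l) := by
  have h : descPochhammer ℚ A * dQ A l = descPochhammer ℚ (A + l) := by
    have := descPochhammer_mul ℚ A l
    rw [dQ, map_natCast]
    exact this
  have h1 : ((A + l).factorial : ℚ) ≠ 0 := by positivity
  rw [bin, bin, mul_assoc, h, ← mul_assoc, ← C_mul]
  congr 2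
  field_simp

/-! ### the leaf -/

/-- **leaf L2** : change of the `R`-basis -/
theorem PB_Minor_of_base {g : ℕ → ℚ[X]} (h : HTwo g) (S : Shape) (u : ℕ) (r : Col S u → Row)
    {V : ℤ} (hV : PB 2 V (MatN S u r (fun j => polN S u g j)).det) :
    PB 2 (V - ∑ j ∈ Finset.range (S.k * u), (lh (S.a1 * u + j) - lh (S.a1 * u)))
      (Minor S u r) := by
  classical
  set A := S.a1 * u with hA
  -- the polynomials `N j`
  have hg0 : ∀ m, g m ≠ 0 := by
    intro m h0
    have := h.lead m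
    rw [h0, leadingCoeff_zero, padicNorm.zero] at this
    exact zero_ne_one this
  have hdeg : ∀ j, (X ^ (j % 2) * g (j / 2) : ℚ[X]).natDegree = j := by
    intro j
    rw [natDegree_mul (pow_ne_zero _ X_ne_zero) (hg0 _), natDegree_X_pow, h.deg]
    omega
  have hlead : ∀ j, padicNorm 2 ((X ^ (j % 2) * g (j / 2) : ℚ[X]).coeff j) = 1 := by
    intro j
    have e : (X ^ (j % 2) * g (j / 2) : ℚ[X]).coeff j
        = (X ^ (j % 2) * g (j / 2) : ℚ[X]).leadingCoeff := by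
      rw [leadingCoeff, hdeg]
    rw [e, leadingCoeff_mul, leadingCoeff_X_pow, one_mul]
    exact h.lead _
  choose p hp hpj using fun j =>
    expand_monic (dQ A) (dQ_monic A) (dQ_natDegree A) j _ (hdeg j).le
  -- the coefficients
  set a : ℕ → ℕ → ℚ := fun j l => p j l * (((A + l).factorial : ℚ) / (A.factorial : ℚ)) with ha
  have hpolN : ∀ j, polN S u g j
      = ∑ l ∈ Finset.range (j + 1), C (a j l) * polR S u l := by
    intro j
    rw [polN, hp j, Finset.mul_sum]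
    refine Finset.sum_congr rfl fun l _ => ?_
    rw [polR, ha, C_mul, ← hA]
    have := bin_mul_dQ A l
    calc gauge S u * bin A * (C (p j l) * dQ A l)
        = C (p j l) * gauge S u * (bin A * dQ A l) := by ring
      _ = _ := by rw [this]; ring
  -- the matrix of the base change
  set P : Matrix (Fin (S.k * u)) (Fin (S.k * u)) ℚ[X] :=
    Matrix.of fun l j => if l ≤ j then C (a j l) else 0 with hP
  have hPdet : P.det = ∏ j : Fin (S.k * u), C (a j j) := by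
    rw [Matrix.det_of_isUpperTriangular]
    · exact Finset.prod_congr rfl fun j _ => by rw [hP, Matrix.of_apply, if_pos le_rfl]
    · intro i j hij
      rw [hP, Matrix.of_apply]
      exact if_neg (not_le.mpr hij)
  have hmul : MatN S u r (fun j => polN S u g j) = Mat S u r * Matrix.fromBlocks P 0 0 1 := by
    ext1 i j
    rw [Matrix.mul_apply, Fintype.sum_sum_type]
    rcases j with j | j
    · simp only [MatN, Matrix.of_apply, Sum.elim_inl, Matrix.fromBlocks_apply₁₁,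
        Matrix.fromBlocks_apply₂₁, Matrix.zero_apply, mul_zero, Finset.sum_const_zero, add_zero]
      rw [hpolN, entR_sum, Finset.sum_range]
      have hle : (j : ℕ) + 1 ≤ S.k * u := j.2
      -- both sums as sums over `range (k u)`
      have e1 : ∑ l : Fin (S.k * u), Mat S u r i (Sum.inl l) * P l j
          = ∑ l ∈ Finset.range (S.k * u),
              (if l ≤ (j : ℕ) then C (a j l) * entR (polR S u l) (r i) else 0) := by
        rw [Finset.sum_range]
        refine Finset.sum_congr rfl fun l _ => ?_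
        rw [hP, Matrix.of_apply]
        by_cases hl : l ≤ j
        · rw [if_pos hl, if_pos (by exact_mod_cast hl), mul_comm]
          rfl
        · rw [if_neg hl, if_neg (by exact_mod_cast hl), mul_zero]
      rw [e1, ← Finset.sum_range (fun l => C (a j l) * entR (polR S u l) (r i))]
      rw [← Finset.sum_filter]
      refine Finset.sum_congr ?_ fun _ _ => rfl
      ext l
      simp only [Finset.mem_range, Finset.mem_filter]
      omega
    · simp only [MatN, Matrix.of_apply, Sum.elim_inr, Matrix.fromBlocks_apply₁₂,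
        Matrix.fromBlocks_apply₂₂, Matrix.zero_apply, mul_zero, Finset.sum_const_zero, zero_add,
        Matrix.one_apply, mul_ite, mul_one, Finset.sum_ite_eq', Finset.mem_univ, if_true]
      rfl
  have hdet : (MatN S u r (fun j => polN S u g j)).det
      = Minor S u r * C (∏ j : Fin (S.k * u), a j j) := by
    rw [hmul, Matrix.det_mul, Matrix.det_fromBlocks_zero₂₁, Matrix.det_one, mul_one, hPdet,
      map_prod]
    rfl
  -- norms
  have hnorm : ∀ j, padicNorm 2 (a j j) = (2 : ℚ) ^ (-(lh (A + j) - lh A)) := by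
    intro j
    rw [ha]
    simp only
    rw [padicNorm.mul, hpj, hlead, one_mul, padicNorm.div, I2.factorial, I2.factorial,
      ← zpow_sub₀ (by norm_num : (2 : ℚ) ≠ 0)]
    congr 1
    ring
  have hne : ∀ j, a j j ≠ 0 := by
    intro j h0
    have := hnorm j
    rw [h0, padicNorm.zero] at this
    exact absurd this.symm (zpow_ne_zero _ (by norm_num))
  have hprod : padicNorm 2 (∏ j : Fin (S.k * u), a j j)
      = (2 : ℚ) ^ (-∑ j ∈ Finset.range (S.k * u), (lh (A + j) - lh A)) := by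
    rw [Finset.sum_range, ← Finset.sum_neg_distrib]
    generalize hs : (Finset.univ : Finset (Fin (S.k * u))) = s
    clear hs
    induction s using Finset.induction_on with
    | empty => simp
    | insert j s hj ih =>
      rw [Finset.prod_insert hj, Finset.sum_insert hj, padicNorm.mul, ih, hnorm,
        zpow_add₀ (by norm_num : (2 : ℚ) ≠ 0)]
  have hM : Minor S u r
      = C ((∏ j : Fin (S.k * u), a j j)⁻¹) * (MatN S u r (fun j => polN S u g j)).det := by
    have h0 : (∏ j : Fin (S.k * u), a j j) ≠ 0 := Finset.prod_ne_zero_iff.mpr fun j _ => hne _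
    rw [hdet, mul_comm, mul_assoc, ← C_mul, mul_inv_cancel₀ h0, C_1, mul_one]
  rw [hM]
  have hC : PB 2 (-∑ j ∈ Finset.range (S.k * u), (lh (A + j) - lh A))
      (C ((∏ j : Fin (S.k * u), a j j)⁻¹) : ℚ[X]) := by
    refine PB.C (le_of_eq ?_)
    have : padicNorm 2 ((∏ j : Fin (S.k * u), a j j)⁻¹)
        = (padicNorm 2 (∏ j : Fin (S.k * u), a j j))⁻¹ := by
      rw [← one_div, padicNorm.div, padicNorm.one, one_div]
    rw [this, hprod, ← zpow_neg]
    norm_num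
  refine (hC.mul hV).mono ?_
  linarith

end Crest.Agent.R006.P6
end

-- ▼ part R006/P6EvalLib_550
section

/-!
# Row 6, block P6 (p = 2), leaf E: elementary sums (helper550)

Two-sided bounds for `v_2(l!)`, for the sums of truncated tolls `max 0 (x - v_2(l!))`,
`max 0 (x - l - v_2(l!))`, and for sums of minima of linear functions.
-/

set_option autoImplicit false

namespace Crest.Agent.R006.P6E

open Finset

/-- `v_2(l!)` -/
def v2f (l : ℕ) : ℕ := padicValNat 2 l.factorial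

lemma v2f_eq (l : ℕ) : v2f l = l - (Nat.digits 2 l).sum := by
  have h := sub_one_mul_padicValNat_factorial (p := 2) l
  simpa [v2f] using h

lemma digits_sum_le (l : ℕ) : (Nat.digits 2 l).sum ≤ Nat.log 2 l + 1 := by
  rcases Nat.eq_zero_or_pos l with h | h
  · subst h; simp
  · have h1 : (Nat.digits 2 l).length = Nat.log 2 l + 1 := by
      rw [Nat.length_digits 2 l (by norm_num) (by omega)]
    have h2 : (Nat.digits 2 l).sum ≤ (Nat.digits 2 l).length * 1 := by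
      have := List.sum_le_card_nsmul (Nat.digits 2 l) 1 (fun x hx => by
        have := Nat.digits_lt_base (by norm_num : 1 < 2) hx
        omega)
      simpa using this
    omega

lemma v2f_le (l : ℕ) : v2f l ≤ l := by rw [v2f_eq]; omega

lemma v2f_ge (l : ℕ) : l ≤ v2f l + (Nat.log 2 l + 1) := by
  rw [v2f_eq]; have := digits_sum_le l; omega


/-- sum of `max 0 (y - l)` -/
lemma sum_trunc_le (y : ℤ) (hy : 0 ≤ y) (n : ℕ) :
    2 * ∑ l ∈ range n, max 0 (y - (l : ℤ)) ≤ y * (y + 1) := by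
  have key : ∀ n : ℕ, 2 * ∑ l ∈ range n, max 0 (y - (l : ℤ)) ≤
      y * (y + 1) - (max 0 (y - n)) * (max 0 (y - n) + 1) := by
    intro n
    induction n with
    | zero => simp [max_eq_right hy]
    | succ n ih =>
      rw [sum_range_succ, mul_add]
      rcases le_total (y - (n : ℤ)) 0 with h | h
      · have h' : y - ((n + 1 : ℕ) : ℤ) ≤ 0 := by push_cast; linarith
        rw [max_eq_left h] at ih ⊢
        rw [max_eq_left h']
        linarith
      · rw [max_eq_right h] at ih ⊢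
        rcases le_or_gt (y - ((n + 1 : ℕ) : ℤ)) 0 with h' | h'
        · rw [max_eq_left h']
          push_cast at h'
          have : y - (n : ℤ) = 0 ∨ y - (n : ℤ) = 1 := by omega
          rcases this with h2 | h2 <;> rw [h2] at ih ⊢ <;> linarith
        · rw [max_eq_right h'.le]
          push_cast
          nlinarith
  have h := key n
  have h2 : 0 ≤ (max 0 (y - (n : ℤ))) * (max 0 (y - n) + 1) := by positivity
  linarith

/-- sum of `max 0 (y - 2 l)` -/
lemma sum_trunc2_le (y : ℤ) (hy : 0 ≤ y) (n : ℕ) :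
    4 * ∑ l ∈ range n, max 0 (y - 2 * (l : ℤ)) ≤ (y + 1) ^ 2 := by
  have key : ∀ n : ℕ, 4 * ∑ l ∈ range n, max 0 (y - 2 * (l : ℤ)) ≤
      (y + 1) ^ 2 - (max 0 (y - 2 * n + 1)) ^ 2 := by
    intro n
    induction n with
    | zero => simp [max_eq_right (by linarith : (0 : ℤ) ≤ y + 1)]
    | succ n ih =>
      rw [sum_range_succ, mul_add]
      rcases le_or_gt (y - 2 * (n : ℤ) + 1) 0 with h | h
      · have h' : y - 2 * ((n + 1 : ℕ) : ℤ) + 1 ≤ 0 := by push_cast; linarith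
        rw [max_eq_left h] at ih
        rw [max_eq_left (by linarith : y - 2 * (n : ℤ) ≤ 0), max_eq_left h']
        linarith
      · have h0 : 0 ≤ y - 2 * (n : ℤ) := by omega
        rw [max_eq_right h.le] at ih
        rw [max_eq_right h0]
        rcases le_or_gt (y - 2 * ((n + 1 : ℕ) : ℤ) + 1) 0 with h' | h'
        · rw [max_eq_left h']
          push_cast at h'
          have : y - 2 * (n : ℤ) = 0 ∨ y - 2 * (n : ℤ) = 1 := by omega
          rcases this with h2 | h2 <;> rw [h2] at ih ⊢ <;> linarith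
        · rw [max_eq_right h'.le]
          push_cast
          nlinarith
  have h := key n
  have h2 : 0 ≤ (max 0 (y - 2 * (n : ℤ) + 1)) ^ 2 := by positivity
  linarith









/-- `log₂` is `o(u)`, with constants -/
theorem eventually_log (C D : ℕ) (δ : ℝ) (hδ : 0 < δ) :
    ∀ᶠ u : ℕ in Filter.atTop,
      (C : ℝ) * (u + 1) * (Nat.log 2 (D * u + D) + 1) ≤ δ * (u : ℝ) ^ 2 := by
  have ht : Filter.Tendsto (fun u : ℕ => Real.sqrt (u : ℝ)) Filter.atTop Filter.atTop :=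
    Real.tendsto_sqrt_atTop.comp tendsto_natCast_atTop_atTop
  filter_upwards [ht.eventually_ge_atTop (2 * C * (4 * Real.sqrt (2 * D) + 1) / δ),
    Filter.eventually_ge_atTop 1] with u hu hu1
  have hu1' : (1 : ℝ) ≤ u := by exact_mod_cast hu1
  have hlog : (Nat.log 2 (D * u + D) : ℝ) ≤ 4 * Real.sqrt ((D * u + D : ℕ) : ℝ) := by
    rcases Nat.eq_zero_or_pos (D * u + D) with h0 | h0
    · rw [h0]; simp
    · have hm : (0 : ℝ) < ((D * u + D : ℕ) : ℝ) := by exact_mod_cast h0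
      have h1 : (Nat.log 2 (D * u + D) : ℝ) ≤ Real.logb 2 ((D * u + D : ℕ) : ℝ) := by
        have := Real.natLog_le_logb (D * u + D) 2
        exact_mod_cast this
      have h2 : Real.log ((D * u + D : ℕ) : ℝ) ≤ 2 * Real.sqrt ((D * u + D : ℕ) : ℝ) := by
        have h3 : Real.log (Real.sqrt ((D * u + D : ℕ) : ℝ)) ≤
            Real.sqrt ((D * u + D : ℕ) : ℝ) - 1 :=
          Real.log_le_sub_one_of_pos (Real.sqrt_pos.2 hm)
        rw [Real.log_sqrt hm.le] at h3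
        linarith
      have h4 : (1 : ℝ) / 2 < Real.log 2 := by
        have := Real.log_two_gt_d9; linarith
      have h5 : Real.logb 2 ((D * u + D : ℕ) : ℝ) ≤ 4 * Real.sqrt ((D * u + D : ℕ) : ℝ) := by
        rw [Real.logb, div_le_iff₀ (by linarith)]
        nlinarith [Real.sqrt_nonneg ((D * u + D : ℕ) : ℝ)]
      linarith
  have hs : Real.sqrt ((D * u + D : ℕ) : ℝ) ≤ Real.sqrt (2 * D) * Real.sqrt u := by
    rw [← Real.sqrt_mul (by positivity)]
    apply Real.sqrt_le_sqrt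
    push_cast
    have : (0 : ℝ) ≤ D := by positivity
    nlinarith
  have hsu : (1 : ℝ) ≤ Real.sqrt u := by
    rw [show (1 : ℝ) = Real.sqrt 1 by simp]; exact Real.sqrt_le_sqrt hu1'
  have hC : (0 : ℝ) ≤ C := by positivity
  have hq : (0 : ℝ) ≤ Real.sqrt (2 * D) := Real.sqrt_nonneg _
  have h6 : (Nat.log 2 (D * u + D) : ℝ) + 1 ≤ (4 * Real.sqrt (2 * D) + 1) * Real.sqrt u := by
    nlinarith
  have h7 : (C : ℝ) * (u + 1) ≤ 2 * C * u := by nlinarith
  have h8 : (2 * C * (4 * Real.sqrt (2 * D) + 1)) ≤ δ * Real.sqrt u := by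
    rw [div_le_iff₀ hδ] at hu; linarith
  have hss : Real.sqrt u * Real.sqrt u = u := Real.mul_self_sqrt (by positivity)
  calc (C : ℝ) * (u + 1) * (Nat.log 2 (D * u + D) + 1)
      ≤ (2 * C * u) * ((4 * Real.sqrt (2 * D) + 1) * Real.sqrt u) := by
        apply mul_le_mul h7 h6 (by positivity) (by positivity)
    _ = (2 * C * (4 * Real.sqrt (2 * D) + 1)) * (u * Real.sqrt u) := by ring
    _ ≤ (δ * Real.sqrt u) * (u * Real.sqrt u) := by
        apply mul_le_mul_of_nonneg_right h8 (by positivity)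
    _ = δ * (u : ℝ) ^ 2 := by
        rw [show (δ * Real.sqrt u) * (u * Real.sqrt u) = δ * u * (Real.sqrt u * Real.sqrt u) by ring,
          hss]; ring

end Crest.Agent.R006.P6E
end

-- ▼ part R006/P6Eval_550
section

/-!
# Row 6, block P6 (p = 2), leaf E: evaluation of `Vlow` (helper550)
-/

set_option autoImplicit false

namespace Crest.Agent.R006.P6

open Crest.Agent.R006.D Crest.Agent.R006.P6E Finset

/-- `f u L ≥ α u² - o(u²)` uniformly in `L` -/
def Low (f : ℕ → ℕ → ℝ) (α : ℝ) : Prop :=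
  ∀ d : ℝ, 0 < d → ∀ᶠ u : ℕ in Filter.atTop, ∀ L : ℕ, (α - d) * (u : ℝ) ^ 2 ≤ f u L

lemma Low.add {f g : ℕ → ℕ → ℝ} {α β : ℝ} (hf : Low f α) (hg : Low g β) :
    Low (fun u L => f u L + g u L) (α + β) := by
  intro d hd
  filter_upwards [hf (d / 2) (by linarith), hg (d / 2) (by linarith)] with u h1 h2 L
  have := h1 L; have := h2 L
  nlinarith

lemma Low.mono {f g : ℕ → ℕ → ℝ} {α : ℝ} (hf : Low f α)
    (h : ∀ᶠ u : ℕ in Filter.atTop, ∀ L, f u L ≤ g u L) : Low g α := by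
  intro d hd
  filter_upwards [hf d hd, h] with u h1 h2 L
  exact le_trans (h1 L) (h2 L)

/-- error of size `u log u` -/
lemma Low.of_err {f : ℕ → ℕ → ℝ} {α : ℝ} (C D : ℕ)
    (h : ∀ u : ℕ, 1 ≤ u → ∀ L : ℕ,
      α * (u : ℝ) ^ 2 - C * (u + 1) * (Nat.log 2 (D * u + D) + 1) ≤ f u L) : Low f α := by
  intro d hd
  filter_upwards [eventually_log C D d hd, Filter.eventually_ge_atTop 1] with u h1 hu L
  have := h u hu L
  nlinarith

/-- tolls: if `y u ≤ (a + d) u` then `- y (y+1)/2 ≥ - a²/2 u² - ..` -/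
lemma low_toll1 {t : ℕ → ℕ → ℝ} {y : ℕ → ℝ} {a : ℝ} (ha : 0 ≤ a)
    (h0 : ∀ u, 0 ≤ y u)
    (hy : ∀ d : ℝ, 0 < d → ∀ᶠ u : ℕ in Filter.atTop, y u ≤ (a + d) * u)
    (ht : ∀ᶠ u : ℕ in Filter.atTop, ∀ L, 2 * t u L ≤ y u * (y u + 1)) :
    Low (fun u L => - t u L) (-(a ^ 2 / 2)) := by
  intro d hd
  set e : ℝ := min 1 (d / (2 * (a + 1))) with he
  have he0 : 0 < e := lt_min one_pos (by positivity)
  have he1 : e ≤ 1 := min_le_left _ _
  have he2 : e * (2 * (a + 1)) ≤ d := by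
    have := min_le_right 1 (d / (2 * (a + 1)))
    rw [← he, le_div_iff₀ (by positivity)] at this
    exact this
  filter_upwards [hy e he0, ht, Filter.eventually_ge_atTop ⌈(a + 1) / d⌉₊] with u h1 h2 hu L
  have hu' : (a + 1) / d ≤ u := le_trans (Nat.le_ceil _) (by exact_mod_cast hu)
  rw [div_le_iff₀ hd] at hu'
  have hu0 : (0 : ℝ) ≤ u := by positivity
  have h3 := h2 L
  have h4 : y u * (y u + 1) ≤ (a + e) * u * ((a + e) * u + 1) := by
    have := h0 u
    nlinarith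
  have h5 : (a + e) * u ≤ d * u ^ 2 := by nlinarith
  have h6 : (a + e) ^ 2 ≤ a ^ 2 + d := by nlinarith
  have h7 : (a + e) ^ 2 * u ^ 2 ≤ (a ^ 2 + d) * u ^ 2 :=
    mul_le_mul_of_nonneg_right h6 (by positivity)
  nlinarith

lemma low_toll2 {t : ℕ → ℕ → ℝ} {y : ℕ → ℝ} {a : ℝ} (ha : 0 ≤ a)
    (h0 : ∀ u, 0 ≤ y u)
    (hy : ∀ d : ℝ, 0 < d → ∀ᶠ u : ℕ in Filter.atTop, y u ≤ (a + d) * u)
    (ht : ∀ᶠ u : ℕ in Filter.atTop, ∀ L, 4 * t u L ≤ (y u + 1) ^ 2) :
    Low (fun u L => - t u L) (-(a ^ 2 / 4)) := by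
  intro d hd
  have key := low_toll1 (t := fun u L => 2 * t u L) (y := fun u => y u + 1) (a := a) ha
    (fun u => by have := h0 u; linarith) ?_ ?_ d hd
  · filter_upwards [key] with u hu L
    have := hu L
    have hu0 : (0 : ℝ) ≤ (u : ℝ) ^ 2 := by positivity
    nlinarith
  · intro d' hd'
    filter_upwards [hy (d' / 2) (by linarith), Filter.eventually_ge_atTop ⌈2 / d'⌉₊] with u h1 hu
    have hu' : 2 / d' ≤ u := le_trans (Nat.le_ceil _) (by exact_mod_cast hu)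
    rw [div_le_iff₀ hd'] at hu'
    nlinarith
  · filter_upwards [ht] with u hu L
    have := hu L
    have := h0 u
    nlinarith

lemma six_log {l : ℕ} (h : 64 ≤ l) : 6 * (Nat.log 2 l + 1) ≤ l := by
  have h1 : 2 ^ Nat.log 2 l ≤ l := Nat.pow_log_le_self 2 (by omega)
  have h2 : 6 ≤ Nat.log 2 l := by
    have : Nat.log 2 64 ≤ Nat.log 2 l := Nat.log_mono_right h
    have e : Nat.log 2 64 = 6 := by
      rw [show (64 : ℕ) = 2 ^ 6 by norm_num]; exact Nat.log_pow (by norm_num) 6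
    omega
  have key : ∀ k : ℕ, 6 ≤ k → 6 * (k + 1) ≤ 2 ^ k := by
    intro k hk
    induction k, hk using Nat.le_induction with
    | base => norm_num
    | succ k hk ih =>
      have : 2 ^ 6 ≤ 2 ^ k := Nat.pow_le_pow_right (by norm_num) hk
      rw [pow_succ]; omega
  have := key _ h2
  omega

/-- general toll bound of the first kind -/
lemma toll_gen (a X L : ℕ) (f : ℕ → ℤ)
    (hf : ∀ l, a ≤ l → f l ≤ X + a + 3 * (Nat.log 2 l + 1) - l)
    (hf0 : ∀ l, l < a → f l ≤ 0) :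
    2 * ∑ l ∈ range L, max 0 (f l) ≤
      ((X : ℤ) + 3 * (Nat.log 2 (2 * (X + a) + 64) + 1)) *
        ((X : ℤ) + 3 * (Nat.log 2 (2 * (X + a) + 64) + 1) + 1) := by
  set Y : ℤ := (X : ℤ) + 3 * (Nat.log 2 (2 * (X + a) + 64) + 1) with hY
  have hY0 : 0 ≤ Y := by positivity
  have h1 : ∀ l, max 0 (f l) ≤ if l < a then 0 else max 0 (Y - ((l - a : ℕ) : ℤ)) := by
    intro l
    split_ifs with h
    · rw [max_eq_left (hf0 l h)]
    · rw [not_lt] at h
      rcases le_total l (2 * (X + a) + 64) with h2 | h2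
      · apply max_le_max le_rfl
        have h3 : Nat.log 2 l ≤ Nat.log 2 (2 * (X + a) + 64) := Nat.log_mono_right h2
        have h4 := hf l h
        have h5 : (Nat.log 2 l : ℤ) ≤ Nat.log 2 (2 * (X + a) + 64) := by exact_mod_cast h3
        push_cast [Nat.cast_sub h]
        rw [hY]; linarith
      · have h3 := six_log (l := l) (by omega)
        have h4 := hf l h
        have h5 : f l ≤ 0 := by
          have : (6 : ℤ) * (Nat.log 2 l + 1) ≤ l := by exact_mod_cast h3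
          have h6 : (2 : ℤ) * (X + a) + 64 ≤ l := by exact_mod_cast h2
          linarith
        rw [max_eq_left h5]
        exact le_max_left _ _
  have h2 : ∑ l ∈ range L, max 0 (f l) ≤
      ∑ l ∈ range (a + L), if l < a then 0 else max 0 (Y - ((l - a : ℕ) : ℤ)) := by
    refine le_trans (sum_le_sum fun l _ => h1 l) ?_
    refine sum_le_sum_of_subset_of_nonneg (range_mono (by omega)) fun l _ _ => ?_
    split_ifs
    · exact le_rfl
    · exact le_max_left _ _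
  rw [sum_range_add] at h2
  have h3 : (∑ l ∈ range a, if l < a then (0 : ℤ) else max 0 (Y - ((l - a : ℕ) : ℤ))) = 0 := by
    apply sum_eq_zero; intro l hl; rw [if_pos (mem_range.1 hl)]
  have h4 : (∑ l ∈ range L, if a + l < a then (0 : ℤ) else max 0 (Y - ((a + l - a : ℕ) : ℤ))) =
      ∑ l ∈ range L, max 0 (Y - (l : ℤ)) := by
    apply sum_congr rfl; intro l _
    rw [if_neg (by omega), Nat.add_sub_cancel_left]
  rw [h3, h4] at h2
  have h5 := sum_trunc_le Y hY0 L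
  linarith

/-- general toll bound of the second kind -/
lemma toll_gen2 (X L : ℕ) (f : ℕ → ℤ)
    (hf : ∀ l, f l ≤ X + 3 * (Nat.log 2 l + 1) - 2 * l) :
    4 * ∑ l ∈ range L, max 0 (f l) ≤
      ((X : ℤ) + 3 * (Nat.log 2 (2 * X + 64) + 1) + 1) ^ 2 := by
  set Y : ℤ := (X : ℤ) + 3 * (Nat.log 2 (2 * X + 64) + 1) with hY
  have hY0 : 0 ≤ Y := by positivity
  have h1 : ∀ l : ℕ, max 0 (f l) ≤ max 0 (Y - 2 * (l : ℤ)) := by
    intro l
    rcases le_total l (2 * X + 64) with h2 | h2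
    · apply max_le_max le_rfl
      have h3 : Nat.log 2 l ≤ Nat.log 2 (2 * X + 64) := Nat.log_mono_right h2
      have h4 := hf l
      have h5 : (Nat.log 2 l : ℤ) ≤ Nat.log 2 (2 * X + 64) := by exact_mod_cast h3
      rw [hY]; linarith
    · have h3 := six_log (l := l) (by omega)
      have h4 := hf l
      have h5 : f l ≤ 0 := by
        have : (6 : ℤ) * (Nat.log 2 l + 1) ≤ l := by exact_mod_cast h3
        have h6 : (2 : ℤ) * X + 64 ≤ l := by exact_mod_cast h2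
        linarith
      rw [max_eq_left h5]
      exact le_max_left _ _
  have h2 : ∑ l ∈ range L, max 0 (f l) ≤ ∑ l ∈ range L, max 0 (Y - 2 * (l : ℤ)) :=
    sum_le_sum fun l _ => h1 l
  have h5 := sum_trunc2_le Y hY0 L
  linarith

lemma ev_log1 (C D : ℕ) (δ : ℝ) (hδ : 0 < δ) :
    ∀ᶠ u : ℕ in Filter.atTop, (C : ℝ) * (Nat.log 2 (D * u + D) + 1) ≤ δ * u := by
  filter_upwards [eventually_log C D δ hδ, Filter.eventually_ge_atTop 1] with u h1 hu
  have hu' : (1 : ℝ) ≤ u := by exact_mod_cast hu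
  have h2 : (0 : ℝ) ≤ (C : ℝ) * (Nat.log 2 (D * u + D) + 1) := by positivity
  have h3 : (C : ℝ) * (Nat.log 2 (D * u + D) + 1) * u ≤ δ * u * u := by nlinarith
  exact le_of_mul_le_mul_right h3 (by linarith)

/-- the natural number `⌈max 0 η * u⌉₊ + logs`, growth -/
lemma y_growth (η : ℝ) (a : ℕ) (d : ℝ) (hd : 0 < d) :
    ∀ᶠ u : ℕ in Filter.atTop,
      ((⌈max 0 η * u⌉₊ : ℝ) + 3 * (Nat.log 2 (2 * (⌈max 0 η * u⌉₊ + a * u) + 64) + 1)) ≤
        (max 0 η + d) * u := by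
  set A : ℝ := max 0 η with hA
  have hA0 : 0 ≤ A := le_max_left _ _
  set D : ℕ := 2 * (⌈A⌉₊ + 1 + a) + 64 with hD
  filter_upwards [ev_log1 3 D (d / 2) (by linarith), Filter.eventually_ge_atTop ⌈2 / d⌉₊,
    Filter.eventually_ge_atTop 1] with u h1 h2 h3
  have h3' : (1 : ℝ) ≤ u := by exact_mod_cast h3
  have hu' : 2 / d ≤ u := le_trans (Nat.le_ceil _) (by exact_mod_cast h2)
  rw [div_le_iff₀ hd] at hu'
  have h4 : (⌈A * u⌉₊ : ℝ) < A * u + 1 := Nat.ceil_lt_add_one (by positivity)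
  have h5 : ⌈A * u⌉₊ ≤ ⌈A⌉₊ * u := by
    apply Nat.ceil_le.2
    push_cast
    exact mul_le_mul_of_nonneg_right (Nat.le_ceil A) (by positivity)
  have h6 : 2 * (⌈A * u⌉₊ + a * u) + 64 ≤ D * u + D := by
    rw [hD]
    nlinarith
  have h7 : (Nat.log 2 (2 * (⌈A * u⌉₊ + a * u) + 64) : ℝ) ≤ Nat.log 2 (D * u + D) := by
    exact_mod_cast Nat.log_mono_right h6
  push_cast at h1
  nlinarith

/-- tolls of the first kind -/
lemma low_tollA (η : ℝ) (a : ℕ) (F : ℕ → ℕ → ℤ)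
    (hF : ∀ u : ℕ, 1 ≤ u → ∀ l : ℕ, a * u ≤ l →
      (F u l : ℝ) ≤ η * u + a * u + 3 * (Nat.log 2 l + 1) - l)
    (hF0 : ∀ u : ℕ, ∀ l : ℕ, l < a * u → F u l ≤ 0) :
    Low (fun u L => -((∑ l ∈ range L, max 0 (F u l) : ℤ) : ℝ)) (-((max 0 η) ^ 2 / 2)) := by
  refine low_toll1 (y := fun u => ((⌈max 0 η * u⌉₊ : ℝ) +
    3 * (Nat.log 2 (2 * (⌈max 0 η * u⌉₊ + a * u) + 64) + 1))) (le_max_left _ _)
    (fun u => by positivity) (fun d hd => y_growth η a d hd) ?_
  filter_upwards [Filter.eventually_ge_atTop 1] with u hu L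
  have h := toll_gen (a * u) ⌈max 0 η * u⌉₊ L (F u) (fun l hl => by
    have h1 := hF u hu l hl
    have h2 : η * u ≤ max 0 η * u := mul_le_mul_of_nonneg_right (le_max_right _ _) (by positivity)
    have h3 : max 0 η * u ≤ (⌈max 0 η * u⌉₊ : ℝ) := Nat.le_ceil _
    have h4 : (F u l : ℝ) ≤ ((⌈max 0 η * u⌉₊ + (a * u : ℕ) + 3 * (Nat.log 2 l + 1) - l : ℤ) : ℝ) := by
      push_cast; linarith
    exact_mod_cast h4) (hF0 u)
  have h' : ((2 * ∑ l ∈ range L, max 0 (F u l) : ℤ) : ℝ) ≤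
    ((((⌈max 0 η * u⌉₊ : ℤ) + 3 * (Nat.log 2 (2 * (⌈max 0 η * u⌉₊ + a * u) + 64) + 1)) *
        ((⌈max 0 η * u⌉₊ : ℤ) + 3 * (Nat.log 2 (2 * (⌈max 0 η * u⌉₊ + a * u) + 64) + 1) + 1) : ℤ) : ℝ) := by
    exact_mod_cast h
  push_cast at h' ⊢
  linarith

/-- tolls of the second kind -/
lemma low_tollB (η : ℝ) (F : ℕ → ℕ → ℤ)
    (hF : ∀ u : ℕ, 1 ≤ u → ∀ l : ℕ,
      (F u l : ℝ) ≤ η * u + 3 * (Nat.log 2 l + 1) - 2 * l) :
    Low (fun u L => -((∑ l ∈ range L, max 0 (F u l) : ℤ) : ℝ)) (-((max 0 η) ^ 2 / 4)) := by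
  refine low_toll2 (y := fun u => ((⌈max 0 η * u⌉₊ : ℝ) +
    3 * (Nat.log 2 (2 * (⌈max 0 η * u⌉₊ + 0 * u) + 64) + 1))) (le_max_left _ _)
    (fun u => by positivity) (fun d hd => y_growth η 0 d hd) ?_
  filter_upwards [Filter.eventually_ge_atTop 1] with u hu L
  have h := toll_gen2 ⌈max 0 η * u⌉₊ L (F u) (fun l => by
    have h1 := hF u hu l
    have h2 : η * u ≤ max 0 η * u := mul_le_mul_of_nonneg_right (le_max_right _ _) (by positivity)
    have h3 : max 0 η * u ≤ (⌈max 0 η * u⌉₊ : ℝ) := Nat.le_ceil _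
    have h4 : (F u l : ℝ) ≤ ((⌈max 0 η * u⌉₊ + 3 * (Nat.log 2 l + 1) - 2 * l : ℤ) : ℝ) := by
      push_cast; linarith
    exact_mod_cast h4)
  have h' : ((4 * ∑ l ∈ range L, max 0 (F u l) : ℤ) : ℝ) ≤
    ((((⌈max 0 η * u⌉₊ : ℤ) + 3 * (Nat.log 2 (2 * ⌈max 0 η * u⌉₊ + 64) + 1) + 1) ^ 2 : ℤ) : ℝ) := by
    exact_mod_cast h
  have e : 2 * (⌈max 0 η * (u : ℝ)⌉₊ + 0 * u) + 64 = 2 * ⌈max 0 η * (u : ℝ)⌉₊ + 64 := by ring
  push_cast at h' ⊢
  rw [e]
  linarith

/-! ### Riemann sums -/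

lemma riemann_anti (φ : ℝ → ℝ) (hφ : Antitone φ) (a b : ℕ) (hab : a ≤ b) (u : ℕ) (hu : 1 ≤ u) :
    (u : ℝ) ^ 2 * ∫ x in (a : ℝ)..b, φ x ≤
      ∑ n ∈ Ico (a * u) (b * u), (u : ℝ) * φ ((n : ℝ) / u) := by
  have hu0 : (0 : ℝ) < u := by exact_mod_cast hu
  have hf : AntitoneOn (fun x : ℝ => (u : ℝ) * φ (x / u))
      (Set.Icc ((a * u : ℕ) : ℝ) ((b * u : ℕ) : ℝ)) := by
    intro x _ y _ hxy
    exact mul_le_mul_of_nonneg_left (hφ (div_le_div_of_nonneg_right hxy hu0.le)) hu0.le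
  have h1 := hf.integral_le_sum_Ico (Nat.mul_le_mul_right u hab)
  refine le_trans (le_of_eq ?_) h1
  rw [intervalIntegral.integral_const_mul, intervalIntegral.integral_comp_div _ hu0.ne']
  push_cast
  rw [mul_div_assoc, div_self hu0.ne', mul_one, mul_div_assoc, div_self hu0.ne', mul_one,
    smul_eq_mul]
  ring

lemma riemann_mono (ψ : ℝ → ℝ) (hψ : Monotone ψ) (b : ℕ) (u : ℕ) (hu : 1 ≤ u) :
    (u : ℝ) ^ 2 * ∫ x in (0 : ℝ)..b, ψ x ≤
      ∑ n ∈ range (b * u), (u : ℝ) * ψ (((n : ℝ) + 1) / u) := by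
  have hu0 : (0 : ℝ) < u := by exact_mod_cast hu
  have hf : MonotoneOn (fun x : ℝ => (u : ℝ) * ψ (x / u))
      (Set.Icc ((0 : ℕ) : ℝ) ((b * u : ℕ) : ℝ)) := by
    intro x _ y _ hxy
    exact mul_le_mul_of_nonneg_left (hψ (div_le_div_of_nonneg_right hxy hu0.le)) hu0.le
  have h1 := hf.integral_le_sum_Ico (Nat.zero_le _)
  rw [Nat.Ico_zero_eq_range] at h1
  have h2 : ∑ n ∈ range (b * u), (u : ℝ) * ψ (((n + 1 : ℕ) : ℝ) / u) =
      ∑ n ∈ range (b * u), (u : ℝ) * ψ (((n : ℝ) + 1) / u) := by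
    apply sum_congr rfl; intro n _; push_cast; rfl
  rw [← h2]
  refine le_trans (le_of_eq ?_) h1
  rw [intervalIntegral.integral_const_mul, intervalIntegral.integral_comp_div _ hu0.ne']
  push_cast
  rw [zero_div, mul_div_assoc, div_self hu0.ne', mul_one, smul_eq_mul]
  ring

lemma low_anti (φ : ℝ → ℝ) (hφ : Antitone φ) (a b : ℕ) (hab : a ≤ b) (C D : ℕ) (G : ℕ → ℕ → ℤ)
    (hG : ∀ u : ℕ, 1 ≤ u → ∀ n : ℕ, a * u ≤ n → n < b * u →
      (u : ℝ) * φ ((n : ℝ) / u) - C * (Nat.log 2 (D * u + D) + 1) ≤ (G u n : ℝ)) :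
    Low (fun u _ => ((∑ n ∈ Ico (a * u) (b * u), G u n : ℤ) : ℝ)) (∫ x in (a : ℝ)..b, φ x) := by
  refine Low.of_err (C * b) D fun u hu L => ?_
  have h1 := riemann_anti φ hφ a b hab u hu
  have h2 : ∑ n ∈ Ico (a * u) (b * u),
      ((u : ℝ) * φ ((n : ℝ) / u) - C * (Nat.log 2 (D * u + D) + 1)) ≤
      ∑ n ∈ Ico (a * u) (b * u), (G u n : ℝ) :=
    sum_le_sum fun n hn => hG u hu n (mem_Ico.1 hn).1 (mem_Ico.1 hn).2
  rw [sum_sub_distrib, sum_const, Nat.card_Ico, nsmul_eq_mul] at h2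
  have h3 : ((b * u - a * u : ℕ) : ℝ) ≤ b * (u + 1) := by
    have : b * u - a * u ≤ b * (u + 1) := by
      have : b * u ≤ b * (u + 1) := Nat.mul_le_mul_left b (by omega)
      omega
    exact_mod_cast this
  have h4 : (0 : ℝ) ≤ C * (Nat.log 2 (D * u + D) + 1) := by positivity
  push_cast
  nlinarith

lemma low_mono (ψ : ℝ → ℝ) (hψ : Monotone ψ) (b : ℕ) (C D : ℕ) (G : ℕ → ℕ → ℤ)
    (hG : ∀ u : ℕ, 1 ≤ u → ∀ n : ℕ, n < b * u →
      (u : ℝ) * ψ (((n : ℝ) + 1) / u) - C * (Nat.log 2 (D * u + D) + 1) ≤ (G u n : ℝ)) :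
    Low (fun u _ => ((∑ n ∈ range (b * u), G u n : ℤ) : ℝ)) (∫ x in (0 : ℝ)..b, ψ x) := by
  refine Low.of_err (C * b) D fun u hu L => ?_
  have h1 := riemann_mono ψ hψ b u hu
  have h2 : ∑ n ∈ range (b * u),
      ((u : ℝ) * ψ (((n : ℝ) + 1) / u) - C * (Nat.log 2 (D * u + D) + 1)) ≤
      ∑ n ∈ range (b * u), (G u n : ℝ) :=
    sum_le_sum fun n hn => hG u hu n (mem_range.1 hn)
  rw [sum_sub_distrib, sum_const, card_range, nsmul_eq_mul] at h2
  have h3 : ((b * u : ℕ) : ℝ) ≤ b * (u + 1) := by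
    push_cast
    have : (0 : ℝ) ≤ b := by positivity
    nlinarith
  have h4 : (0 : ℝ) ≤ C * (Nat.log 2 (D * u + D) + 1) := by positivity
  push_cast
  nlinarith

lemma low_lin {f : ℕ → ℕ → ℝ} (C : ℕ) (h : ∀ u : ℕ, 1 ≤ u → ∀ L : ℕ, -(C * (u + 1) : ℝ) ≤ f u L) :
    Low f 0 := by
  refine Low.of_err C 1 fun u hu L => ?_
  have h1 := h u hu L
  have h2 : (0 : ℝ) ≤ (C : ℝ) * (u + 1) * Nat.log 2 (1 * u + 1) := by positivity
  nlinarith

/-! ### the pieces -/

lemma lh_le (l : ℕ) : (lh l : ℝ) ≤ l := by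
  have := v2f_le l
  unfold lh; unfold v2f at this
  exact_mod_cast this

lemma lh_ge (l : ℕ) : (l : ℝ) - (Nat.log 2 l + 1) ≤ lh l := by
  have := v2f_ge l
  unfold lh; unfold v2f at this
  have h : (l : ℝ) ≤ (padicValNat 2 l.factorial : ℝ) + (Nat.log 2 l + 1) := by exact_mod_cast this
  rw [Int.cast_natCast]
  linarith

lemma lh_ge' (l m : ℕ) (h : l ≤ m) : (l : ℝ) - (Nat.log 2 m + 1) ≤ lh l := by
  have h1 := lh_ge l
  have h2 : (Nat.log 2 l : ℝ) ≤ Nat.log 2 m := by exact_mod_cast Nat.log_mono_right h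
  linarith

lemma fl_ge (x : ℝ) : x - 1 ≤ (⌊x⌋ : ℝ) := (Int.sub_one_lt_floor x).le

lemma fl_le (x : ℝ) : (⌊x⌋ : ℝ) ≤ x := Int.floor_le x

lemma mul_min' (u : ℝ) (hu : 0 ≤ u) (a b : ℝ) : u * min a b = min (u * a) (u * b) :=
  mul_min_of_nonneg a b hu

/-- G-rows below `a1 u` -/
lemma low_G1 (S : Shape) (ξ : Par ℝ) :
    Low (fun u _ => ((∑ n ∈ Ico (0 * u) (S.a1 * u), piG S u (parOf ξ u) n : ℤ) : ℝ))
      (∫ x in ((0 : ℕ) : ℝ)..(S.a1 : ℝ), min ξ.xT (ξ.xQ - 4 * x)) := by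
  refine low_anti (fun x => min ξ.xT (ξ.xQ - 4 * x)) ?_ 0 S.a1 (Nat.zero_le _) 1 1
    (fun u n => piG S u (parOf ξ u) n) ?_
  · intro x y hxy
    exact min_le_min le_rfl (by linarith)
  · intro u hu n _ hn
    have hu0 : (0 : ℝ) < u := by exact_mod_cast hu
    simp only [piG, if_pos hn, parOf]
    rw [mul_min' _ hu0.le]
    have e : (u : ℝ) * (ξ.xQ - 4 * ((n : ℝ) / u)) = ξ.xQ * u - 4 * n := by field_simp
    rw [e, mul_comm (u : ℝ) ξ.xT]
    push_cast
    have h1 := fl_ge (ξ.xT * u)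
    have h2 := fl_ge (ξ.xQ * u)
    have h3 : (0 : ℝ) ≤ Nat.log 2 (1 * u + 1) := by positivity
    rw [le_min_iff]
    constructor
    · have := min_le_left (ξ.xT * u) (ξ.xQ * u - 4 * n); linarith
    · have := min_le_right (ξ.xT * u) (ξ.xQ * u - 4 * n); linarith

/-- G-rows above `a1 u` -/
lemma low_G2 (S : Shape) (ξ : Par ℝ) (hS : S.a1 ≤ S.B) :
    Low (fun u _ => ((∑ n ∈ Ico (S.a1 * u) (S.B * u), piG S u (parOf ξ u) n : ℤ) : ℝ))
      (∫ x in (S.a1 : ℝ)..(S.B : ℝ),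
        min ξ.xT (min (ξ.xR - 3 * x + S.a2 + S.r1) (ξ.xQ - 4 * x))) := by
  refine low_anti (fun x => min ξ.xT (min (ξ.xR - 3 * x + S.a2 + S.r1) (ξ.xQ - 4 * x))) ?_
    S.a1 S.B hS 4 (S.a2 + S.r1 + 1) (fun u n => piG S u (parOf ξ u) n) ?_
  · intro x y hxy
    exact min_le_min le_rfl (min_le_min (by linarith) (by linarith))
  · intro u hu n hn _
    have hu0 : (0 : ℝ) < u := by exact_mod_cast hu
    simp only [piG, if_neg (not_lt.2 hn), parOf]
    rw [mul_min' _ hu0.le, mul_min' _ hu0.le]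
    have e : (u : ℝ) * (ξ.xQ - 4 * ((n : ℝ) / u)) = ξ.xQ * u - 4 * n := by field_simp
    have e2 : (u : ℝ) * (ξ.xR - 3 * ((n : ℝ) / u) + S.a2 + S.r1) =
        ξ.xR * u - 3 * n + S.a2 * u + S.r1 * u := by field_simp
    rw [e, e2, mul_comm (u : ℝ) ξ.xT]
    push_cast
    have h1 := fl_ge (ξ.xT * u)
    have h2 := fl_ge (ξ.xQ * u)
    have h2' := fl_ge (ξ.xR * u)
    set Lg : ℝ := (Nat.log 2 ((S.a2 + S.r1 + 1) * u + (S.a2 + S.r1 + 1)) : ℝ) with hLg
    have h3 : (0 : ℝ) ≤ Lg := by positivity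
    have h4 : ((S.a2 * u : ℕ) : ℝ) - (Lg + 1) ≤ lh (S.a2 * u) :=
      lh_ge' _ _ (by nlinarith)
    have h5 : ((S.r1 * u : ℕ) : ℝ) - (Lg + 1) ≤ lh (S.r1 * u) :=
      lh_ge' _ _ (by nlinarith)
    push_cast at h4 h5
    have m1 := min_le_left (ξ.xT * u) (min (ξ.xR * u - 3 * n + S.a2 * u + S.r1 * u) (ξ.xQ * u - 4 * n))
    have m2 := min_le_right (ξ.xT * u) (min (ξ.xR * u - 3 * n + S.a2 * u + S.r1 * u) (ξ.xQ * u - 4 * n))
    have m3 := min_le_left (ξ.xR * u - 3 * n + S.a2 * u + S.r1 * u) (ξ.xQ * u - 4 * n)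
    have m4 := min_le_right (ξ.xR * u - 3 * n + S.a2 * u + S.r1 * u) (ξ.xQ * u - 4 * n)
    rw [le_min_iff, le_min_iff]
    refine ⟨?_, ?_, ?_⟩ <;> linarith

/-- the extra G-rows -/
lemma low_G3 (S : Shape) (c : ℕ) (ξ : Par ℝ) :
    Low (fun u _ => ((∑ n ∈ Ico (S.B * u) (S.B * u + c), piG S u (parOf ξ u) n : ℤ) : ℝ)) 0 := by
  set M : ℕ := ⌈|ξ.xT| + |ξ.xR| + |ξ.xQ|⌉₊ + 4 * (S.B + c) + 4 with hM
  refine low_lin (c * M) fun u hu L => ?_
  have hu0 : (1 : ℝ) ≤ u := by exact_mod_cast hu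
  have hA := Nat.le_ceil (|ξ.xT| + |ξ.xR| + |ξ.xQ|)
  have hM' : (M : ℝ) = (⌈|ξ.xT| + |ξ.xR| + |ξ.xQ|⌉₊ : ℝ) + 4 * (S.B + c) + 4 := by
    rw [hM]; push_cast; ring
  have a1 := abs_nonneg ξ.xT
  have a2 := abs_nonneg ξ.xR
  have a3 := abs_nonneg ξ.xQ
  have b1 := neg_abs_le ξ.xT
  have b2 := neg_abs_le ξ.xR
  have b3 := neg_abs_le ξ.xQ
  have key : ∀ n ∈ Ico (S.B * u) (S.B * u + c), -(M * u : ℝ) ≤ (piG S u (parOf ξ u) n : ℝ) := by
    intro n hn
    have hn2 : (n : ℝ) ≤ (S.B + c) * u := by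
      have h1 := (mem_Ico.1 hn).2
      have h2 : (n : ℝ) ≤ S.B * u + c := by exact_mod_cast h1.le
      have : (0 : ℝ) ≤ c := by positivity
      nlinarith
    have h1 := fl_ge (ξ.xT * u)
    have h2 := fl_ge (ξ.xQ * u)
    have h2' := fl_ge (ξ.xR * u)
    have h4 : (0 : ℝ) ≤ lh (S.a2 * u) := by unfold lh; positivity
    have h5 : (0 : ℝ) ≤ lh (S.r1 * u) := by unfold lh; positivity
    have c1 : -(M * u : ℝ) ≤ ξ.xT * u - 1 := by rw [hM']; nlinarith
    have c2 : -(M * u : ℝ) ≤ ξ.xR * u - 3 * n - 2 := by rw [hM']; nlinarith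
    have c3 : -(M * u : ℝ) ≤ ξ.xQ * u - 4 * n - 1 := by rw [hM']; nlinarith
    unfold piG
    split_ifs with h
    · simp only [parOf]; push_cast
      rw [le_min_iff]; constructor <;> linarith
    · simp only [parOf]; push_cast
      rw [le_min_iff, le_min_iff]; refine ⟨?_, ?_, ?_⟩ <;> linarith
  have h2 : ∑ n ∈ Ico (S.B * u) (S.B * u + c), -(M * u : ℝ) ≤
      ∑ n ∈ Ico (S.B * u) (S.B * u + c), (piG S u (parOf ξ u) n : ℝ) := sum_le_sum key
  rw [sum_const, Nat.card_Ico, Nat.add_sub_cancel_left, nsmul_eq_mul] at h2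
  push_cast
  have : (0 : ℝ) ≤ c * M := by positivity
  nlinarith

/-- the `w`-rows -/
lemma low_W (S : Shape) (ξ : Par ℝ) :
    Low (fun u _ => ((∑ n ∈ Ico (0 * u) (S.w * u), piW (parOf ξ u) n : ℤ) : ℝ))
      (∫ x in ((0 : ℕ) : ℝ)..(S.w : ℝ), min ξ.xTH (ξ.xQH - 4 * x)) := by
  refine low_anti (fun x => min ξ.xTH (ξ.xQH - 4 * x)) ?_ 0 S.w (Nat.zero_le _) 1 1
    (fun u n => piW (parOf ξ u) n) ?_
  · intro x y hxy
    exact min_le_min le_rfl (by linarith)
  · intro u hu n _ hn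
    have hu0 : (0 : ℝ) < u := by exact_mod_cast hu
    simp only [piW, parOf]
    rw [mul_min' _ hu0.le]
    have e : (u : ℝ) * (ξ.xQH - 4 * ((n : ℝ) / u)) = ξ.xQH * u - 4 * n := by field_simp
    rw [e, mul_comm (u : ℝ) ξ.xTH]
    push_cast
    have h1 := fl_ge (ξ.xTH * u)
    have h2 := fl_ge (ξ.xQH * u)
    have h3 : (0 : ℝ) ≤ Nat.log 2 (1 * u + 1) := by positivity
    rw [le_min_iff]
    constructor
    · have := min_le_left (ξ.xTH * u) (ξ.xQH * u - 4 * n); linarith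
    · have := min_le_right (ξ.xTH * u) (ξ.xQH * u - 4 * n); linarith

/-- constant rows -/
lemma low_const (m : ℕ) (x : ℝ) (X : ℕ → ℤ) (hX : ∀ u : ℕ, x * u - 1 ≤ (X u : ℝ)) :
    Low (fun u _ => ((((m * u : ℕ) : ℤ) * X u : ℤ) : ℝ)) (m * x) := by
  refine Low.of_err m 1 fun u hu L => ?_
  have hu0 : (1 : ℝ) ≤ u := by exact_mod_cast hu
  have h1 := hX u
  have h2 : (0 : ℝ) ≤ (m : ℝ) * (u + 1) * Nat.log 2 (1 * u + 1) := by positivity
  have h3 : (0 : ℝ) ≤ (m : ℝ) * u := by positivity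
  have h4 : (m : ℝ) * u * (x * u - 1) ≤ (m : ℝ) * u * X u := mul_le_mul_of_nonneg_left h1 h3
  have h5 : (0 : ℝ) ≤ m := by positivity
  push_cast
  nlinarith

lemma min_fl (x y : ℝ) (u : ℕ) : min x y * u - 1 ≤ ((min ⌊x * u⌋ ⌊y * u⌋ : ℤ) : ℝ) := by
  have h1 := fl_ge (x * u)
  have h2 := fl_ge (y * u)
  have hu : (0 : ℝ) ≤ u := by positivity
  have h3 : min x y * u ≤ x * u := mul_le_mul_of_nonneg_right (min_le_left _ _) hu
  have h4 : min x y * u ≤ y * u := mul_le_mul_of_nonneg_right (min_le_right _ _) hu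
  push_cast
  rw [le_min_iff]; constructor <;> linarith

/-- the loss from the extra rows -/
lemma low_c (c : ℕ) (ξ : Par ℝ) :
    Low (fun u _ => ((-((c : ℤ) * max (parOf ξ u).xT (parOf ξ u).xTH) : ℤ) : ℝ)) 0 := by
  set M : ℕ := ⌈|ξ.xT| + |ξ.xTH|⌉₊ with hM
  refine low_lin (c * M) fun u hu L => ?_
  have hA := Nat.le_ceil (|ξ.xT| + |ξ.xTH|)
  rw [← hM] at hA
  have hu0 : (1 : ℝ) ≤ u := by exact_mod_cast hu
  have h1 := fl_le (ξ.xT * u)
  have h2 := fl_le (ξ.xTH * u)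
  have a1 := abs_nonneg ξ.xT
  have a2 := abs_nonneg ξ.xTH
  have b1 := le_abs_self ξ.xT
  have b2 := le_abs_self ξ.xTH
  simp only [parOf]
  push_cast
  have h3 : max (⌊ξ.xT * u⌋ : ℝ) (⌊ξ.xTH * u⌋ : ℝ) ≤ M * u := by
    rw [max_le_iff]; constructor <;> nlinarith
  have h4 : (c : ℝ) * max (⌊ξ.xT * u⌋ : ℝ) (⌊ξ.xTH * u⌋ : ℝ) ≤ c * (M * u) :=
    mul_le_mul_of_nonneg_left h3 (by positivity)
  have : (0 : ℝ) ≤ c * M := by positivity
  nlinarith

/-! ### tolls -/

lemma low_sT (ξ : Par ℝ) :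
    Low (fun u L => -((∑ l ∈ range L, sT (parOf ξ u) l : ℤ) : ℝ)) (-((max 0 ξ.xT) ^ 2 / 2)) := by
  refine low_tollA ξ.xT 0 (fun u l => (parOf ξ u).xT + lg l - lh l) ?_ (fun u l hl => by omega)
  intro u hu l _
  have h1 := fl_le (ξ.xT * u)
  have h2 := lh_ge l
  simp only [parOf, lg]
  push_cast
  linarith

lemma low_sQ (ξ : Par ℝ) :
    Low (fun u L => -((∑ l ∈ range L, sQ (parOf ξ u) l : ℤ) : ℝ))
      (-((max 0 (ξ.xQ + ξ.s)) ^ 2 / 2)) := by
  refine low_tollA (ξ.xQ + ξ.s) 0 (fun u l => (parOf ξ u).xQ + (parOf ξ u).s - lh l) ?_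
    (fun u l hl => by omega)
  intro u hu l _
  have h1 := fl_le (ξ.xQ * u)
  have h1' := fl_le (ξ.s * u)
  have h2 := lh_ge l
  have h3 : (0 : ℝ) ≤ Nat.log 2 l := by positivity
  simp only [parOf]
  push_cast
  linarith

lemma low_sR (S : Shape) (ξ : Par ℝ) :
    Low (fun u L => -((∑ l ∈ range L, sR S u (parOf ξ u) l : ℤ) : ℝ))
      (-((max 0 (ξ.xR + ξ.r - S.a1)) ^ 2 / 2)) := by
  have h := low_tollA (ξ.xR + ξ.r - S.a1) S.a1
    (fun u l => if l < S.a1 * u then 0 else (parOf ξ u).xR + (parOf ξ u).r - lh l) ?_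
    (fun u l hl => by simp only [if_pos hl]; exact le_rfl)
  · refine h.mono (Filter.Eventually.of_forall fun u L => le_of_eq ?_)
    congr 2
    apply sum_congr rfl
    intro l _
    unfold sR
    split_ifs with h
    · simp
    · rfl
  · intro u hu l hl
    have h1 := fl_le (ξ.xR * u)
    have h1' := fl_le (ξ.r * u)
    have h2 := lh_ge l
    have h3 : (0 : ℝ) ≤ Nat.log 2 l := by positivity
    simp only [if_neg (not_lt.2 hl), parOf]
    push_cast
    linarith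

lemma low_sTH (ξ : Par ℝ) :
    Low (fun u L => -((∑ l ∈ range L, sTH (parOf ξ u) l : ℤ) : ℝ))
      (-((max 0 (ξ.xTH + ξ.h)) ^ 2 / 4)) := by
  refine low_tollB (ξ.xTH + ξ.h) (fun u l => (parOf ξ u).xTH + (parOf ξ u).h + lg l - l - lh l) ?_
  intro u hu l
  have h1 := fl_le (ξ.xTH * u)
  have h1' := fl_le (ξ.h * u)
  have h2 := lh_ge l
  simp only [parOf, lg]
  push_cast
  linarith

lemma low_sQH (ξ : Par ℝ) :
    Low (fun u L => -((∑ l ∈ range L, sQH (parOf ξ u) l : ℤ) : ℝ))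
      (-((max 0 (ξ.xQH + ξ.h')) ^ 2 / 4)) := by
  refine low_tollB (ξ.xQH + ξ.h') (fun u l => (parOf ξ u).xQH + (parOf ξ u).h' - l - lh l) ?_
  intro u hu l
  have h1 := fl_le (ξ.xQH * u)
  have h1' := fl_le (ξ.h' * u)
  have h2 := lh_ge l
  have h3 : (0 : ℝ) ≤ Nat.log 2 l := by positivity
  simp only [parOf]
  push_cast
  linarith

/-! ### columns -/

lemma low_kap (S : Shape) :
    Low (fun u _ => ((∑ _j ∈ range (S.k * u), -kap S u : ℤ) : ℝ))
      (-((S.k : ℝ) * (2 * S.i1 + S.a1 + S.a2 + S.r1))) := by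
  intro d hd
  filter_upwards [] with u L
  rw [sum_const, card_range, nsmul_eq_mul]
  have h1 := lh_le (S.a1 * u)
  have h2 := lh_le (S.a2 * u)
  have h3 := lh_le (S.i1 * u)
  have h4 := lh_le (S.r1 * u)
  have h5 : ((kap S u : ℤ) : ℝ) ≤ (2 * S.i1 + S.a1 + S.a2 + S.r1) * u := by
    unfold kap
    push_cast at h1 h2 h3 h4 ⊢
    linarith
  have h6 : (0 : ℝ) ≤ (S.k : ℝ) * u := by positivity
  have h7 : (S.k : ℝ) * u * (kap S u : ℝ) ≤ (S.k : ℝ) * u * ((2 * S.i1 + S.a1 + S.a2 + S.r1) * u) :=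
    mul_le_mul_of_nonneg_left h5 h6
  have h8 : (0 : ℝ) ≤ d * (u : ℝ) ^ 2 := by positivity
  push_cast
  nlinarith

lemma low_base (S : Shape) :
    Low (fun u _ => ((∑ j ∈ Ico (0 * u) (S.k * u), -(lh (S.a1 * u + j) - lh (S.a1 * u)) : ℤ) : ℝ))
      (-((S.k : ℝ) ^ 2 / 2)) := by
  have h := low_anti (fun x => -x) (fun x y hxy => by simpa using hxy) 0 S.k (Nat.zero_le _) 1
    (S.a1 + 1) (fun u j => -(lh (S.a1 * u + j) - lh (S.a1 * u))) ?_
  · have e : ∫ x in ((0 : ℕ) : ℝ)..(S.k : ℝ), -x = -((S.k : ℝ) ^ 2 / 2) := by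
      rw [intervalIntegral.integral_neg, integral_id]; push_cast; ring
    rw [e] at h
    exact h
  · intro u hu n _ _
    have hu0 : (0 : ℝ) < u := by exact_mod_cast hu
    have h1 := lh_le (S.a1 * u + n)
    have h2 := lh_ge' (S.a1 * u) ((S.a1 + 1) * u + (S.a1 + 1)) (by nlinarith)
    have e : (u : ℝ) * (-((n : ℝ) / u)) = -n := by field_simp
    rw [e]
    push_cast at h1 h2 ⊢
    linarith

lemma low_neglh (m : ℕ) :
    Low (fun u _ => ((∑ j ∈ Ico (0 * u) (m * u), -lh j : ℤ) : ℝ)) (-((m : ℝ) ^ 2 / 2)) := by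
  have h := low_anti (fun x => -x) (fun x y hxy => by simpa using hxy) 0 m (Nat.zero_le _) 1
    1 (fun _ j => -lh j) ?_
  · have e : ∫ x in ((0 : ℕ) : ℝ)..(m : ℝ), -x = -((m : ℝ) ^ 2 / 2) := by
      rw [intervalIntegral.integral_neg, integral_id]; push_cast; ring
    rw [e] at h
    exact h
  · intro u hu n _ _
    have hu0 : (0 : ℝ) < u := by exact_mod_cast hu
    have h1 := lh_le n
    have e : (u : ℝ) * (-((n : ℝ) / u)) = -n := by field_simp
    rw [e]
    have h3 : (0 : ℝ) ≤ Nat.log 2 (1 * u + 1) := by positivity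
    push_cast at h1 ⊢
    linarith

lemma low_minT (m : ℕ) (ξ : Par ℝ) :
    Low (fun u _ => ((∑ j ∈ Ico (0 * u) (m * u), min 0 ((parOf ξ u).h - j) : ℤ) : ℝ))
      (∫ x in ((0 : ℕ) : ℝ)..(m : ℝ), min 0 (ξ.h - x)) := by
  refine low_anti (fun x => min 0 (ξ.h - x)) (fun x y hxy => min_le_min le_rfl (by linarith))
    0 m (Nat.zero_le _) 1 1 (fun u j => min 0 ((parOf ξ u).h - j)) ?_
  intro u hu n _ _
  have hu0 : (0 : ℝ) < u := by exact_mod_cast hu
  simp only [parOf]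
  rw [mul_min' _ hu0.le]
  have e : (u : ℝ) * (ξ.h - (n : ℝ) / u) = ξ.h * u - n := by field_simp
  rw [e, mul_zero]
  have h1 := fl_ge (ξ.h * u)
  have h3 : (0 : ℝ) ≤ Nat.log 2 (1 * u + 1) := by positivity
  have m1 := min_le_left 0 (ξ.h * u - n)
  have m2 := min_le_right 0 (ξ.h * u - n)
  push_cast
  rw [le_min_iff]; constructor <;> linarith

lemma low_minQ (m : ℕ) (ξ : Par ℝ) :
    Low (fun u _ => ((∑ j ∈ Ico (0 * u) (m * u),
        min (parOf ξ u).s ((parOf ξ u).h' - j) : ℤ) : ℝ))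
      (∫ x in ((0 : ℕ) : ℝ)..(m : ℝ), min ξ.s (ξ.h' - x)) := by
  refine low_anti (fun x => min ξ.s (ξ.h' - x)) (fun x y hxy => min_le_min le_rfl (by linarith))
    0 m (Nat.zero_le _) 1 1 (fun u j => min (parOf ξ u).s ((parOf ξ u).h' - j)) ?_
  intro u hu n _ _
  have hu0 : (0 : ℝ) < u := by exact_mod_cast hu
  simp only [parOf]
  rw [mul_min' _ hu0.le]
  have e : (u : ℝ) * (ξ.h' - (n : ℝ) / u) = ξ.h' * u - n := by field_simp
  rw [e, mul_comm (u : ℝ) ξ.s]
  have h1 := fl_ge (ξ.h' * u)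
  have h2 := fl_ge (ξ.s * u)
  have h3 : (0 : ℝ) ≤ Nat.log 2 (1 * u + 1) := by positivity
  have m1 := min_le_left (ξ.s * u) (ξ.h' * u - n)
  have m2 := min_le_right (ξ.s * u) (ξ.h' * u - n)
  push_cast
  rw [le_min_iff]; constructor <;> linarith

lemma vb_ge (j m : ℕ) (h : j ≤ m) : (j : ℝ) - (Nat.log 2 m + 3) ≤ (vb (j / 2) : ℝ) := by
  have h1 := lh_ge' (j / 2) m (by omega)
  have h2 : (j : ℝ) - 1 ≤ 2 * ((j / 2 : ℕ) : ℝ) := by
    have : j ≤ 2 * (j / 2) + 1 := by omega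
    have h' : (j : ℝ) ≤ 2 * ((j / 2 : ℕ) : ℝ) + 1 := by exact_mod_cast this
    linarith
  have e : (vb (j / 2) : ℝ) = ((j / 2 : ℕ) : ℝ) + (lh (j / 2) : ℝ) - 1 := by
    unfold vb lh; push_cast; rfl
  rw [e]
  linarith

lemma low_minR (m : ℕ) (ξ : Par ℝ) :
    Low (fun u _ => ((∑ j ∈ range (m * u),
        min (parOf ξ u).r (min (vb (j / 2)) (vb (j / 2) + (parOf ξ u).h)) : ℤ) : ℝ))
      (∫ x in (0 : ℝ)..(m : ℝ), min ξ.r (min x (x + ξ.h))) := by
  refine low_mono (fun x => min ξ.r (min x (x + ξ.h)))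
    (fun x y hxy => min_le_min le_rfl (min_le_min hxy (by linarith))) m 5 (m + 1)
    (fun u j => min (parOf ξ u).r (min (vb (j / 2)) (vb (j / 2) + (parOf ξ u).h))) ?_
  intro u hu n hn
  have hu0 : (0 : ℝ) < u := by exact_mod_cast hu
  simp only [parOf]
  rw [mul_min' _ hu0.le, mul_min' _ hu0.le]
  have e : (u : ℝ) * (((n : ℝ) + 1) / u + ξ.h) = n + 1 + ξ.h * u := by field_simp
  have e2 : (u : ℝ) * (((n : ℝ) + 1) / u) = n + 1 := by field_simp
  rw [e, e2, mul_comm (u : ℝ) ξ.r]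
  have h1 := fl_ge (ξ.r * u)
  have h2 := fl_ge (ξ.h * u)
  have h4 := vb_ge n ((m + 1) * u + (m + 1)) (by nlinarith)
  set Lg : ℝ := (Nat.log 2 ((m + 1) * u + (m + 1)) : ℝ) with hLg
  have h3 : (0 : ℝ) ≤ Lg := by positivity
  have m1 := min_le_left (ξ.r * u) (min ((n : ℝ) + 1) (n + 1 + ξ.h * u))
  have m2 := min_le_right (ξ.r * u) (min ((n : ℝ) + 1) (n + 1 + ξ.h * u))
  have m3 := min_le_left ((n : ℝ) + 1) (n + 1 + ξ.h * u)
  have m4 := min_le_right ((n : ℝ) + 1) (n + 1 + ξ.h * u)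
  push_cast
  rw [le_min_iff, le_min_iff]; refine ⟨?_, ?_, ?_⟩ <;> linarith

/-! ### assembly -/

lemma Vlow_split (S : Shape) (u c : ℕ) (P : Par ℤ) (L : ℕ) (hS : S.a1 ≤ S.B) :
    Vlow S u c P L =
      (∑ n ∈ Ico (0 * u) (S.a1 * u), piG S u P n)
      + (∑ n ∈ Ico (S.a1 * u) (S.B * u), piG S u P n)
      + (∑ n ∈ Ico (S.B * u) (S.B * u + c), piG S u P n)
      + (((S.e1 + S.e2) * u : ℕ) : ℤ) * P.xT + ((S.e3 * u : ℕ) : ℤ) * min P.xT P.xQ
      + (((S.h1 + S.h2) * u : ℕ) : ℤ) * P.xTH + ((S.h3 * u : ℕ) : ℤ) * min P.xTH P.xQH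
      + (∑ m ∈ Ico (0 * u) (S.w * u), piW P m)
      + (-((c : ℤ) * max P.xT P.xTH))
      + (-(∑ l ∈ range L, sT P l)) + (-(∑ l ∈ range L, sR S u P l))
      + (-(∑ l ∈ range L, sQ P l)) + (-(∑ l ∈ range L, sTH P l)) + (-(∑ l ∈ range L, sQH P l))
      + (∑ _j ∈ range (S.k * u), -kap S u)
      + (∑ j ∈ range (S.k * u), min P.r (min (vb (j / 2)) (vb (j / 2) + P.h)))
      + (∑ j ∈ Ico (0 * u) (S.k * u), -(lh (S.a1 * u + j) - lh (S.a1 * u)))
      + (∑ j ∈ Ico (0 * u) (S.q * u), -lh j)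
      + (∑ j ∈ Ico (0 * u) (S.q * u), min 0 (P.h - j))
      + (∑ j ∈ Ico (0 * u) (S.g * u), -lh j)
      + (∑ j ∈ Ico (0 * u) (S.g * u), min P.s (P.h' - j)) := by
  have h1 : ∑ n ∈ range (S.B * u + c), piG S u P n =
      (∑ n ∈ Ico (0 * u) (S.a1 * u), piG S u P n)
      + (∑ n ∈ Ico (S.a1 * u) (S.B * u), piG S u P n)
      + (∑ n ∈ Ico (S.B * u) (S.B * u + c), piG S u P n) := by
    rw [zero_mul, sum_Ico_consecutive _ (Nat.zero_le _) (Nat.mul_le_mul_right u hS),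
      sum_Ico_consecutive _ (Nat.zero_le _) (Nat.le_add_right _ _), Nat.Ico_zero_eq_range]
  have h2 : tolls S u P L = (∑ l ∈ range L, sT P l) + (∑ l ∈ range L, sR S u P l)
      + (∑ l ∈ range L, sQ P l) + (∑ l ∈ range L, sTH P l) + (∑ l ∈ range L, sQH P l) := by
    unfold tolls
    simp only [sum_add_distrib]
  have h3 : sumCols S u P = (∑ _j ∈ range (S.k * u), -kap S u)
      + (∑ j ∈ range (S.k * u), min P.r (min (vb (j / 2)) (vb (j / 2) + P.h)))
      + (∑ j ∈ range (S.k * u), -(lh (S.a1 * u + j) - lh (S.a1 * u)))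
      + (∑ j ∈ range (S.q * u), -lh j)
      + (∑ j ∈ range (S.q * u), min 0 (P.h - j))
      + (∑ j ∈ range (S.g * u), -lh j)
      + (∑ j ∈ range (S.g * u), min P.s (P.h' - j)) := by
    unfold sumCols eR eT eQ
    have e1 : ∑ j ∈ range (S.k * u), (-kap S u + min P.r (min (vb (j / 2)) (vb (j / 2) + P.h)) -
        (lh (S.a1 * u + j) - lh (S.a1 * u))) = (∑ _j ∈ range (S.k * u), -kap S u)
      + (∑ j ∈ range (S.k * u), min P.r (min (vb (j / 2)) (vb (j / 2) + P.h)))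
      + (∑ j ∈ range (S.k * u), -(lh (S.a1 * u + j) - lh (S.a1 * u))) := by
      rw [← sum_add_distrib, ← sum_add_distrib]
      exact sum_congr rfl fun j _ => by ring
    have e2 : ∑ l ∈ range (S.q * u), (-lh l + min 0 (P.h - l)) =
        (∑ j ∈ range (S.q * u), -lh j) + (∑ j ∈ range (S.q * u), min 0 (P.h - j)) :=
      sum_add_distrib
    have e3 : ∑ l ∈ range (S.g * u), (-lh l + min P.s (P.h' - l)) =
        (∑ j ∈ range (S.g * u), -lh j) + (∑ j ∈ range (S.g * u), min P.s (P.h' - j)) :=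
      sum_add_distrib
    rw [e1, e2, e3]
    ring
  unfold Vlow sumRows
  rw [h1, h2, h3]
  simp only [zero_mul, Nat.Ico_zero_eq_range]
  ring

/-- **Leaf E1** -/
theorem Vlow_ge (S : Shape) (c : ℕ) (ξ : Par ℝ) (hS : S.a1 ≤ S.B) :
    ∀ d : ℝ, 0 < d → ∀ᶠ u : ℕ in Filter.atTop, ∀ L : ℕ,
      (val2 S ξ - d) * (u : ℝ) ^ 2 ≤ (Vlow S u c (parOf ξ u) L : ℝ) := by
  have H := ((((((((((((((((((((low_G1 S ξ).add (low_G2 S ξ hS)).add (low_G3 S c ξ)).add
    (low_const (S.e1 + S.e2) ξ.xT (fun u => (parOf ξ u).xT) (fun u => fl_ge _))).add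
    (low_const S.e3 (min ξ.xT ξ.xQ) (fun u => min (parOf ξ u).xT (parOf ξ u).xQ)
      (fun u => min_fl _ _ _))).add
    (low_const (S.h1 + S.h2) ξ.xTH (fun u => (parOf ξ u).xTH) (fun u => fl_ge _))).add
    (low_const S.h3 (min ξ.xTH ξ.xQH) (fun u => min (parOf ξ u).xTH (parOf ξ u).xQH)
      (fun u => min_fl _ _ _))).add
    (low_W S ξ)).add (low_c c ξ)).add (low_sT ξ)).add (low_sR S ξ)).add (low_sQ ξ)).add
    (low_sTH ξ)).add (low_sQH ξ)).add (low_kap S)).add (low_minR S.k ξ)).add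
    (low_base S)).add (low_neglh S.q)).add (low_minT S.q ξ)).add (low_neglh S.g)).add
    (low_minQ S.g ξ)
  have H3 := H.mono (g := fun u L => (Vlow S u c (parOf ξ u) L : ℝ))
    (Filter.Eventually.of_forall fun u L => le_of_eq (by
      rw [Vlow_split _ _ _ _ _ hS]
      simp only [Int.cast_add, Int.cast_neg]))
  have H4 : Low (fun u L => (Vlow S u c (parOf ξ u) L : ℝ)) (val2 S ξ) := by
    convert H3 using 1
    unfold val2
    rw [Nat.cast_zero, Nat.cast_add, Nat.cast_add]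
    ring
  exact H4

end Crest.Agent.R006.P6
end

-- ▼ part R006/P6Cert_909

/-!
# Row 6, block P6 (p = 2): the certificate for the frozen shape (helper909)

`val2_SN : val2 SN xiN = -40727/28` (the optimum of the dual problem), `|alpha2| = 1454.5357...`.
-/

set_option autoImplicit false

namespace Crest.Agent.R006.P6

open Crest.Agent.R006.D MeasureTheory intervalIntegral Set

/-- integral of a function that is linear on an interval -/
lemma int_lin {F : ℝ → ℝ} {a b p q : ℝ} (hab : a ≤ b)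
    (h : ∀ x ∈ Icc a b, F x = p + q * x) :
    IntervalIntegrable F volume a b ∧
      ∫ x in a..b, F x = p * (b - a) + q * (b ^ 2 - a ^ 2) / 2 := by
  have hc : IntervalIntegrable (fun x : ℝ => p + q * x) volume a b :=
    (by fun_prop : Continuous (fun x : ℝ => p + q * x)).intervalIntegrable _ _
  have hE : EqOn (fun x : ℝ => p + q * x) F (uIcc a b) := by
    intro x hx
    rw [uIcc_of_le hab] at hx
    exact (h x hx).symm
  refine ⟨hc.congr (fun x hx => hE (uIoc_subset_uIcc hx)), ?_⟩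
  rw [← integral_congr hE]
  have h1 : IntervalIntegrable (fun _ : ℝ => p) volume a b := by simp
  have h2 : IntervalIntegrable (fun x : ℝ => q * x) volume a b :=
    (by fun_prop : Continuous (fun x : ℝ => q * x)).intervalIntegrable _ _
  rw [intervalIntegral.integral_add h1 h2, intervalIntegral.integral_const,
    intervalIntegral.integral_const_mul, integral_id, smul_eq_mul]
  ring

/-- integral of a function that is linear on two adjacent intervals -/
lemma int_two {F : ℝ → ℝ} {a t b p q p' q' : ℝ} (hat : a ≤ t) (htb : t ≤ b)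
    (h1 : ∀ x ∈ Icc a t, F x = p + q * x) (h2 : ∀ x ∈ Icc t b, F x = p' + q' * x) :
    ∫ x in a..b, F x = p * (t - a) + q * (t ^ 2 - a ^ 2) / 2
      + (p' * (b - t) + q' * (b ^ 2 - t ^ 2) / 2) := by
  obtain ⟨i1, e1⟩ := int_lin hat h1
  obtain ⟨i2, e2⟩ := int_lin htb h2
  rw [← integral_add_adjacent_intervals i1 i2, e1, e2]

/-- the optimal dual variables for `SN` -/
noncomputable def xiN : Par ℝ where
  xT := 9
  xR := 83 / 7
  xQ := 403 / 14
  xTH := 115 / 14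
  xQH := 41 / 2
  r := 71 / 14
  s := -152 / 7
  h := 55 / 14
  h' := -205 / 14

/-- **the certificate**: the value of the dual problem for the frozen shape -/
theorem val2_SN : val2 SN xiN = -40727 / 28 := by
  have a1 : ∫ x in (0 : ℝ)..1, min (9 : ℝ) (403 / 14 - 4 * x) = 9 := by
    rw [(int_lin (p := 9) (q := 0) (by norm_num) fun x hx => ?_).2]
    · norm_num
    · rw [min_eq_left (by linarith [hx.2])]; ring
  have a2 : ∫ x in (1 : ℝ)..24, min (9 : ℝ) (min (83 / 7 - 3 * x) (403 / 14 - 4 * x))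
      = 83 / 7 * (237 / 14 - 1) - 3 * ((237 / 14) ^ 2 - 1) / 2
        + (403 / 14 * (24 - 237 / 14) - 4 * (24 ^ 2 - (237 / 14) ^ 2) / 2) := by
    rw [int_two (t := 237 / 14) (p := 83 / 7) (q := -3) (p' := 403 / 14) (q' := -4)
      (by norm_num) (by norm_num) (fun x hx => ?_) (fun x hx => ?_)]
    · norm_num
    · rw [min_eq_left (a := 83 / 7 - 3 * x) (by linarith [hx.2]),
        min_eq_right (by linarith [hx.1])]
      ring
    · rw [min_eq_right (a := 83 / 7 - 3 * x) (by linarith [hx.1]),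
        min_eq_right (by linarith [hx.1])]
      ring
  have a3 : ∫ x in (0 : ℝ)..6, min (115 / 14 : ℝ) (41 / 2 - 4 * x)
      = 115 / 14 * (43 / 14) + (41 / 2 * (6 - 43 / 14) - 4 * (6 ^ 2 - (43 / 14) ^ 2) / 2) := by
    rw [int_two (t := 43 / 14) (p := 115 / 14) (q := 0) (p' := 41 / 2) (q' := -4)
      (by norm_num) (by norm_num) (fun x hx => ?_) (fun x hx => ?_)]
    · norm_num
    · rw [min_eq_left (by linarith [hx.2])]; ring
    · rw [min_eq_right (by linarith [hx.1])]; ring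
  have a4 : ∫ x in (0 : ℝ)..21, min (71 / 14 : ℝ) (min x (x + 55 / 14))
      = (71 / 14) ^ 2 / 2 + 71 / 14 * (21 - 71 / 14) := by
    rw [int_two (t := 71 / 14) (p := 0) (q := 1) (p' := 71 / 14) (q' := 0)
      (by norm_num) (by norm_num) (fun x hx => ?_) (fun x hx => ?_)]
    · norm_num
    · rw [min_eq_left (a := x) (by linarith), min_eq_right (by linarith [hx.2])]; ring
    · rw [min_eq_left (a := x) (by linarith), min_eq_left (by linarith [hx.1])]; ring
  have a5 : ∫ x in (0 : ℝ)..10, min (0 : ℝ) (55 / 14 - x)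
      = 55 / 14 * (10 - 55 / 14) - (10 ^ 2 - (55 / 14) ^ 2) / 2 := by
    rw [int_two (t := 55 / 14) (p := 0) (q := 0) (p' := 55 / 14) (q' := -1)
      (by norm_num) (by norm_num) (fun x hx => ?_) (fun x hx => ?_)]
    · norm_num
    · rw [min_eq_left (by linarith [hx.2])]; ring
    · rw [min_eq_right (by linarith [hx.1])]; ring
  have a6 : ∫ x in (0 : ℝ)..10, min (-152 / 7 : ℝ) (-205 / 14 - x)
      = -152 / 7 * (99 / 14) + (-205 / 14 * (10 - 99 / 14) - (10 ^ 2 - (99 / 14) ^ 2) / 2) := by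
    rw [int_two (t := 99 / 14) (p := -152 / 7) (q := 0) (p' := -205 / 14) (q' := -1)
      (by norm_num) (by norm_num) (fun x hx => ?_) (fun x hx => ?_)]
    · norm_num
    · rw [min_eq_left (by linarith [hx.2])]; ring
    · rw [min_eq_right (by linarith [hx.1])]; ring
  have m1 : max (0 : ℝ) 9 = 9 := by norm_num
  have m2 : max (0 : ℝ) (83 / 7 + 71 / 14 - 1) = 223 / 14 := by norm_num
  have m3 : max (0 : ℝ) (403 / 14 + -152 / 7) = 99 / 14 := by norm_num
  have m4 : max (0 : ℝ) (115 / 14 + 55 / 14) = 85 / 7 := by norm_num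
  have m5 : max (0 : ℝ) (41 / 2 + -205 / 14) = 41 / 7 := by norm_num
  simp only [val2, xiN, SN_B, SN_e1, SN_e2, SN_e3, SN_h1, SN_h2, SN_h3, SN_w, SN_a1, SN_a2, SN_i1,
    SN_r1, SN_q, SN_g, SN_k, Nat.cast_ofNat, Nat.cast_zero, Nat.cast_one, add_zero]
  rw [a1, a2, a3, a4, a5, a6, m1, m2, m3, m4, m5]
  norm_num

end Crest.Agent.R006.P6
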