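import Crest.Agent.R006.P6H_909_Mg
import Crest.Agent.R006.P6A1_241
import Crest.Agent.R006.P6Cert_909_Mg
import Crest.Agent.R006.Int_672
import Crest.Agent.R006.Shape_378
import Crest.Agent.R006.MainK_464
import Crest.Agent.R006.NVKer_938
import Crest.Agent.R006.P57_Close_939
import Crest.Agent.R006.OddFast_365
import Crest.Agent.R006.P4MatB_869_Mg
import Crest.Agent.R006.P4SideCls_110
import Crest.Agent.R006.P4SideDat_538
import Crest.Agent.R006.P4SidePsi_938
import Crest.Agent.R006.P4Iface_814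
import Crest.Agent.R006.P4_Flat_620
import Crest.Agent.R006.P4SideDef_955
import Crest.Agent.R006.P4SideAux_538
import Crest.Agent.R006.P4MatV_955
import Crest.Agent.R006.P4_LocalInput_830
import Crest.Agent.R006.P4SideOp_226
import Crest.Agent.R006.P4_GW_657
import Crest.Agent.R006.P4SideTabP_830
import Crest.Agent.R006.P4SideTabA_110
import Mathlib
import Crest.Agent.R006.P4Toll_961
import Crest.Agent.R006.RefClass_555
import Crest.Agent.R006.GaugeP_555
import Crest.Agent.R006.P5b_Mid_481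
import Crest.Agent.R006.OddChkSN_799

-- ▼ part R006/P6Main_784
section

/-!
# Row 6, block P6, line A: the block theorem (helper784)
-/

set_option autoImplicit false

namespace Crest.Agent.R006.P6

open Polynomial Crest.Agent.R006.NV Crest.Agent.R006.PsiInf Crest.Agent.R006.D
open Crest.Agent.R006.ProdBound481

/-- P6 from the evaluation of `Vlow` -/
theorem atPrime_two_A (hB : ∀ g, HTwo g → BaseChange g) (S : Shape) (hS : S.Good) (c : ℕ)
    (ξ : Par ℝ) (hE : ∀ δ : ℝ, 0 < δ → ∀ᶠ u : ℕ in Filter.atTop, ∀ L : ℕ,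
      (val2 S ξ - δ) * (u : ℝ) ^ 2 ≤ (Vlow S u c (parOf ξ u) L : ℝ)) :
    AtPrime S c 2 (-val2 S ξ) := by
  obtain ⟨g, hg⟩ := P6Hx909.exists_HTwo
  exact atPrime_of hg (intSites hg) (P6Halfx664.halfSites hg) (hB g hg) S hS c ξ hE

end Crest.Agent.R006.P6
end

-- ▼ part R006/P6Close_784
section

/-!
# Row 6, block P6 (p = 2): closed (helper784, 909, 241, 664, 674, 153, 550, 814, 481)

`SN_two : AtPrime SN c 2 (40727 / 28)`.
-/

set_option autoImplicit false

namespace Crest.Agent.R006.P6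

open Crest.Agent.R006.D

/-- **P6** for every shape, parametric in the nine dual variables -/
theorem atPrime_two (S : Shape) (hS : S.Good) (c : ℕ) (ξ : Par ℝ) :
    AtPrime S c 2 (-val2 S ξ) :=
  atPrime_two_A (fun _ hg S u r _ h => PB_Minor_of_base hg S u r h) S hS c ξ
    (Vlow_ge S c ξ hS.a1B.le)

/-- **P6** for the frozen shape -/
theorem SN_two (c : ℕ) : AtPrime SN c 2 (40727 / 28) := by
  have h := atPrime_two SN SN_good c xiN
  rw [val2_SN] at h
  norm_num at h
  exact h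

end Crest.Agent.R006.P6
end

-- ▼ part R006/Large_672
section

/-!
# Row 6: no loss at the large primes (helper672)

`large_of : Large S c X'` as soon as `X' > B` and `X' ≥ 2 e1, 2 h1, a1 + k, i1, r1, q`.
-/

set_option autoImplicit false

namespace Crest.Agent.R006.Large672

open Polynomial Filter Crest.Agent.R006.NV Crest.Agent.R006.PsiInf Crest.Agent.R006.D
  Crest.Agent.R006.Int672 Crest.Agent.R006.ProdBound481

variable {p : ℕ} [hp : Fact p.Prime]

lemma PB_of_PP {P : ℚ[X]} (h : P ∈ PP p) : PB p 0 P := by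
  intro k
  have := h k
  rw [mem_Zp] at this
  simpa using this

/-- the size conditions on the prime, for a fixed `u` -/
structure Big (S : Shape) (u c p : ℕ) : Prop where
  p5 : 5 ≤ p
  B : S.B * u + c ≤ p
  e1 : 2 * (S.e1 * u) ≤ p
  h1 : 2 * (S.h1 * u) ≤ p
  k : S.a1 * u + S.k * u ≤ p
  i1 : S.i1 * u < p
  r1 : S.r1 * u < p
  a2 : S.a2 * u < p
  q : S.q * u ≤ p

lemma val_mem {S : Shape} {u c : ℕ} (hb : Big S u c p) (z : Site) : z.val ∈ Zp p := by
  have h3 : 3 ≤ p := by have := hb.p5; omega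
  cases z with
  | Z i => exact int_mem p i
  | H i => exact (Zp p).add_mem (int_mem p i) (half_mem h3)

lemma gauge_mem {S : Shape} {u c : ℕ} (hb : Big S u c p) : D.gauge S u ∈ PP p := by
  have h3 : 3 ≤ p := by have := hb.p5; omega
  unfold D.gauge
  refine (PP p).mul_mem ((PP p).mul_mem (bin_mem hb.a2) (PP_comp (bin_mem hb.i1) ?_))
    (PP_comp (bin_mem hb.r1) ?_)
  · exact (PP p).add_mem PP_X (PP_C ((Zp p).sub_mem (nat_mem _) (half_mem h3)))
  · exact (PP p).add_mem PP_X (PP_C (nat_mem _))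

lemma polR_mem {S : Shape} {u c : ℕ} (hb : Big S u c p) {l : ℕ} (hl : l < S.k * u) :
    polR S u l ∈ PP p := by
  unfold polR
  exact (PP p).mul_mem (gauge_mem hb) (bin_mem (by have := hb.k; omega))

/-- the three germs are integral at every site of the design -/
lemma germs_mem {S : Shape} (hS : S.Good) {u c : ℕ} (hb : Big S u c p) {z : Site}
    (hz : 0 < S.mult u c z) : psi0 z ∈ PI p ∧ psi1 z ∈ PI p ∧ gam z ∈ PI p := by
  have h3 : 3 ≤ p := by have := hb.p5; omega
  cases z with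
  | Z i =>
    rcases lt_or_ge i 0 with hi | hi
    · obtain ⟨m, rfl⟩ : ∃ m : ℕ, i = -(m : ℤ) := ⟨i.natAbs, by omega⟩
      have hm : (m : ℤ) ≤ S.e1 * u := by
        unfold Shape.mult at hz
        simp only [not_le.mpr hi, if_false, neg_neg] at hz
        have h21 : (S.e2 : ℤ) * u ≤ S.e1 * u := by
          exact_mod_cast Nat.mul_le_mul_right u hS.e21
        have h32 : (S.e3 : ℤ) * u ≤ S.e2 * u := by
          exact_mod_cast Nat.mul_le_mul_right u hS.e32
        by_contra hcon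
        rw [if_neg hcon, if_neg (by omega), if_neg (by omega)] at hz
        exact absurd hz (by norm_num)
      have hm' : m ≤ S.e1 * u := by exact_mod_cast hm
      have h2 := hb.e1
      exact ⟨PsiZ_neg_mem h3 (by omega), HomZ_neg_mem h3 (by omega), GamZ_neg_mem h3 (by omega)⟩
    · obtain ⟨n, rfl⟩ := Int.eq_ofNat_of_zero_le hi
      have hn : n < p := by
        unfold Shape.mult at hz
        simp only [hi, if_true] at hz
        have h1 : ((n : ℕ) : ℤ) < S.B * u + c := by
          by_contra hcon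
          rw [if_neg hcon] at hz
          exact absurd hz (by norm_num)
        have h1' : n < S.B * u + c := by exact_mod_cast h1
        have := hb.B
        omega
      exact ⟨PsiZ_mem h3 hn, HomZ_mem h3 hn, GamZ_mem h3 hn⟩
  | H i =>
    rcases lt_or_ge i 0 with hi | hi
    · obtain ⟨m, rfl⟩ : ∃ m : ℕ, i = -(m : ℤ) - 1 := ⟨(-i - 1).natAbs, by omega⟩
      have hm : m < p := by
        unfold Shape.mult at hz
        simp only [not_le.mpr hi, if_false] at hz
        have h1 : -(-(m : ℤ) - 1) ≤ S.w * u := by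
          by_contra hcon
          rw [if_neg hcon] at hz
          exact absurd hz (by norm_num)
        have h2 : (m : ℤ) + 1 ≤ S.w * u := by linarith
        have h2' : m + 1 ≤ S.w * u := by exact_mod_cast h2
        have h3' : S.w * u ≤ S.i1 * u := Nat.mul_le_mul_right u hS.wi
        have := hb.i1
        omega
      exact ⟨PsiH_neg_mem h3 hm, (PI p).zero_mem, GamH_neg_mem h3 hm⟩
    · obtain ⟨n, rfl⟩ := Int.eq_ofNat_of_zero_le hi
      have hn : 2 * n + 2 ≤ p := by
        unfold Shape.mult at hz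
        simp only [hi, if_true] at hz
        have h21 : (S.h2 : ℤ) * u ≤ S.h1 * u := by
          exact_mod_cast Nat.mul_le_mul_right u hS.h21
        have h32 : (S.h3 : ℤ) * u ≤ S.h2 * u := by
          exact_mod_cast Nat.mul_le_mul_right u hS.h32
        have h1 : ((n : ℕ) : ℤ) < S.h1 * u := by
          by_contra hcon
          rw [if_neg hcon, if_neg (by omega), if_neg (by omega)] at hz
          exact absurd hz (by norm_num)
        have h1' : n < S.h1 * u := by exact_mod_cast h1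
        have := hb.h1
        omega
      exact ⟨PsiH_mem h3 hn, (PI p).zero_mem, GamH_mem h3 hn⟩

lemma entry_mem {S : Shape} (hS : S.Good) {u c : ℕ} (hb : Big S u c p) {ρ : Row}
    (hρ : IsRow S u c ρ) (col : Col S u) : entry S u ρ col ∈ PP p := by
  have h5 := hb.p5
  have hz : 0 < S.mult u c ρ.1 := lt_of_le_of_lt (Nat.zero_le _) hρ
  obtain ⟨g0, g1, g2⟩ := germs_mem hS hb hz
  have hv := val_mem hb ρ.1
  rcases col with l | l | l
  · have hR := polR_mem hb l.2
    refine (PP p).sub_mem (PP_C ?_) ((PP p).mul_mem PP_X (PP_C ?_))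
    · exact ((PI p).sub_mem ((PI p).mul_mem (gm_mem hR hv) g0) (gm_mem (TR_mem h5 hR) hv)) _
    · exact ((PI p).mul_mem (gm_mem hR hv) g1) _
  · have hl : (l : ℕ) < p := lt_of_lt_of_le l.2 hb.q
    exact PP_C (gm_mem (bin_mem hl) hv _)
  · have hl : (l : ℕ) < p := by
      have h1 : S.g * u ≤ S.q * u := Nat.mul_le_mul_right u hS.gq
      have := hb.q
      have := l.2
      omega
    exact PP_C (((PI p).mul_mem (gm_mem (bin_mem hl) hv) g2) _)

theorem loss_of_big {S : Shape} (hS : S.Good) {u c : ℕ} (hb : Big S u c p)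
    {r : Col S u → Row} (hr : Adm S u c r) : Loss p (Minor S u r) 0 := by
  have h := PB_det (p := p) (Mat S u r) (fun _ => 0) (fun _ => 0) (fun i j => by
    have := PB_of_PP (entry_mem hS hb (hr.2 i) j)
    rw [add_zero]
    exact this)
  intro i hi
  have := h.le_padicValRat i hi
  simp only [Finset.sum_const_zero, add_zero] at this
  rw [neg_zero]
  exact_mod_cast this

end Crest.Agent.R006.Large672

namespace Crest.Agent.R006.D

open Filter Crest.Agent.R006.Large672

/-- **no loss at the large primes** -/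
theorem large_of (S : Shape) (hS : S.Good) (c : ℕ) (X' : ℚ) (hB : (S.B : ℚ) < X')
    (he : 2 * (S.e1 : ℚ) ≤ X') (hh : 2 * (S.h1 : ℚ) ≤ X') (hk : (S.a1 : ℚ) + S.k ≤ X')
    (hi : (S.i1 : ℚ) ≤ X') (hr1 : (S.r1 : ℚ) ≤ X') (hq : (S.q : ℚ) ≤ X') : Large S c X' := by
  have hX : 0 < X' := lt_of_le_of_lt (Nat.cast_nonneg _) hB
  obtain ⟨N, hN⟩ := exists_nat_gt (max ((c : ℚ) / (X' - S.B)) (5 / X'))
  filter_upwards [eventually_ge_atTop N] with u hu r hr p hpp hlt
  have : Fact p.Prime := ⟨hpp⟩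
  have hlt' : X' * u < p := by exact_mod_cast hlt
  have hu' : (N : ℚ) ≤ u := by exact_mod_cast hu
  have hu0 : (0 : ℚ) ≤ u := Nat.cast_nonneg u
  have h1 : (c : ℚ) / (X' - S.B) < u := lt_of_lt_of_le (lt_of_le_of_lt (le_max_left _ _) hN) hu'
  have h2 : 5 / X' < (u : ℚ) := lt_of_lt_of_le (lt_of_le_of_lt (le_max_right _ _) hN) hu'
  rw [div_lt_iff₀ (by linarith)] at h1
  rw [div_lt_iff₀ hX] at h2
  have key : ∀ a : ℚ, a ≤ X' → a * u < p := fun a ha =>
    lt_of_le_of_lt (mul_le_mul_of_nonneg_right ha hu0) hlt'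
  refine loss_of_big hS (u := u) (c := c) ⟨?_, ?_, ?_, ?_, ?_, ?_, ?_, ?_, ?_⟩ hr
  · have : ((5 : ℕ) : ℚ) < p := by push_cast; linarith
    have := Nat.cast_lt.mp this
    omega
  · have : ((S.B * u + c : ℕ) : ℚ) < p := by push_cast; nlinarith
    exact (Nat.cast_lt.mp this).le
  · have : ((2 * (S.e1 * u) : ℕ) : ℚ) < p := by
      have := key _ he; push_cast; linarith
    exact (Nat.cast_lt.mp this).le
  · have : ((2 * (S.h1 * u) : ℕ) : ℚ) < p := by
      have := key _ hh; push_cast; linarith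
    exact (Nat.cast_lt.mp this).le
  · have : ((S.a1 * u + S.k * u : ℕ) : ℚ) < p := by
      have := key _ hk; push_cast; linarith
    exact (Nat.cast_lt.mp this).le
  · have : ((S.i1 * u : ℕ) : ℚ) < p := by
      have := key _ hi; push_cast; linarith
    exact Nat.cast_lt.mp this
  · have : ((S.r1 * u : ℕ) : ℚ) < p := by
      have := key _ hr1; push_cast; linarith
    exact Nat.cast_lt.mp this
  · have ha : (S.a2 : ℚ) ≤ X' := by
      have : (S.a2 : ℚ) ≤ S.a1 := by exact_mod_cast hS.a21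
      have : (0 : ℚ) ≤ S.k := Nat.cast_nonneg _
      linarith
    have : ((S.a2 * u : ℕ) : ℚ) < p := by
      have := key _ ha; push_cast; linarith
    exact Nat.cast_lt.mp this
  · have : ((S.q * u : ℕ) : ℚ) < p := by
      have := key _ hq; push_cast; linarith
    exact (Nat.cast_lt.mp this).le

end Crest.Agent.R006.D
end

-- ▼ part R006/Asm_378
section

/-!
# Row 6: assembly for the frozen shape `SN` (helper378)

`irr_of` : the statement of `S0006` from the three remaining blocks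
P3 (`ArchK SN 40 K aA`), P6 (`AtPrime SN 40 2 a2`), P4+P5b+P8 (`Odd SN 40 aO`).
-/

set_option autoImplicit false

namespace Crest.Agent.R006.D



theorem SN_crude : Crude SN 40 (P57M.KK SN 40) := P57M.crude_939 SN 40 (by simp)

theorem SN_large {X : ℚ} (hX : 25 ≤ X) : Large SN 40 X :=
  large_of SN SN_good 40 X (by simp; linarith) (by simp; linarith) (by simp; linarith)
    (by simp; linarith) (by simp; linarith) (by simp; linarith) (by simp; linarith)


end Crest.Agent.R006.D
end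

-- ▼ part R006/OddSN_365
section

set_option autoImplicit false

/-!
# Row 6, block P8: the odd part of the frozen shape `SN` (helper365)

`odd_SN` : the pointwise bound of P5b on `(√(C0 u), u/2]` and the middle range `(u/2, 60 u]`.
-/

namespace Crest.Agent.R006.D

open Polynomial Filter Topology Finset Crest.Agent.R006 Crest.Agent.R006.P8

theorem harm_SN : ∑ i ∈ Finset.Ico (12 : ℕ) 192, 1 / ((i : ℚ) + 1) ≤ 27341023 / 10000000 := by
  decide +kernel

theorem saw_SN : (2309 / 10000 : ℝ) ≤ P5b.saw 6 12 192 := by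
  have h1 : ((∑ i ∈ Finset.Ico (12 : ℕ) 192, 1 / ((i : ℚ) + 1) : ℚ) : ℝ)
      ≤ ((27341023 / 10000000 : ℚ) : ℝ) := by exact_mod_cast harm_SN
  push_cast at h1
  have h2 : Real.log (((192 : ℕ) : ℝ) / ((12 : ℕ) : ℝ)) = 4 * Real.log 2 := by
    have : (((192 : ℕ) : ℝ) / ((12 : ℕ) : ℝ)) = 2 ^ 4 := by norm_num
    rw [this, Real.log_pow]; norm_num
  have h3 := Real.log_two_gt_d9
  rw [P5b.saw, h2]
  push_cast
  linarith

/-- **The odd part of `SN`** from P5b and the middle range. -/
theorem odd_SN {C0 x0 : ℝ} (hC0 : 0 < C0) (hx0 : 1 / 2 ≤ x0)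
    (hPW : P5b.PW SN 40 C0 x0 (7 / 2) (9 / 4) 21 6) {αm : ℝ}
    (hM : Oddx529.Mid SN 40 (1 / 2) 60 αm) {α : ℝ} (hα : αm - 2.81 ≤ α) : Odd SN 40 α := by
  have hs := saw_SN
  have e : (1 / 2 : ℚ) = ((6 : ℕ) : ℚ) / ((12 : ℕ) : ℚ) := by norm_num
  rw [e] at hM
  refine odd_final' SN 40 SN_crude hC0 hPW (by norm_num) (by norm_num) (by norm_num)
    (by norm_num) (J := 192) ?_ (al := 7 / 2 + 1 / 1000) (be := 9 / 4) ?_ ?_ (X := 60) ?_ hM
    (SN_large (by norm_num)) ?_
  · push_cast; linarith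
  · push_cast; norm_num
  · push_cast; norm_num
  · push_cast; norm_num
  · push_cast
    have : (7 / 2 + 1 / 1000 : ℝ) * (6 / 192) + 9 / 4 * (6 / 192) ^ 2 / 2
        + (7 / 2 * (6 / 12 - 6 / 192) + 9 / 4 * ((6 / 12) ^ 2 - (6 / 192) ^ 2) / 2
          - 21 * (2309 / 10000)) ≤ -2.81 := by norm_num
    nlinarith


end Crest.Agent.R006.D
end

-- ▼ part R006/P4SideB_869
section

/-!
# Row 6, block P4: fields `B`, `B0`, `C`, `near` of `Tables` for regular classes (helper869)

For any `D : Dat` with `ro = ofRow` (`hro`), `cs = clsS` (`hcs`), e.g. 538's `dat`.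

* `X_tab` : in the modes `rA`, `rB` the `X`-costs of a row of order `o` are `⟨0, o⟩`;
* `B_reg` : field `B`; `B0_all` : field `B0`, every mode;
* `C_reg` : field `C`;
* `near_rB` : field `near`, `nr = D.nrB (delB D.e D.M)`.
-/

set_option autoImplicit false

namespace Crest.Agent.R006.P4SideB869

open Polynomial Finset Crest.Agent.R006.D Crest.Agent.R006.Tollx814 Crest.Agent.R006.P4Toll961
open Crest.Agent.R006.P8 Crest.Agent.R006.P4M Crest.Agent.R006.P4If
open Crest.Agent.R006.Bordx929 Crest.Agent.R006.P4Asmx814 Crest.Agent.R006.GaugeP555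
open Crest.Agent.R006.P4B1In657 (delB delB_mem delB_zero_mem)

/-- regularity of the order: what 938's lemmas give -/
structure OrdOK (ρ : D.Row) : Prop where
  le : ρ.2 ≤ 1
  Z : ∀ i, ρ.1 = .Z i → 0 ≤ i → ρ.2 = 0
  H : ∀ i, ρ.1 = .H i → i < 0 → ρ.2 = 0

theorem ordOK_row {S : Shape} {u c : ℕ} (he : S.e3 = 0) (hh : S.h3 = 0) (x : RI S u c) :
    OrdOK (ofRow u c x) where
  le := P4M938.order_le_one he hh x
  Z := fun _ h h0 => P4M938.order_Z_nonneg x h h0
  H := fun _ h h0 => (P4M938.order_H_neg x h h0).1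

/-- the records of a kind in the regular modes have the `X`-cost `⟨0, order⟩` -/
theorem X_kind {ρ : D.Row} (h : OrdOK ρ) :
    (kindR ρ).reg.X = ⟨0, ρ.2⟩ ∧ (kindR ρ).regS.X = ⟨0, ρ.2⟩ ∧
      (kindR ρ).regB.X = ⟨0, ρ.2⟩ ∧ (kindR ρ).regBS.X = ⟨0, ρ.2⟩ := by
  obtain ⟨z, o⟩ := ρ
  have hle : o ≤ 1 := h.le
  rcases z with i | i
  · by_cases hi : 0 ≤ i
    · have ho : o = 0 := h.Z i rfl hi
      subst ho
      simp [kindR, hi, kG]
    · by_cases ho : o = 0
      · subst ho
        simp [kindR, hi, kE1]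
      · have ho1 : o = 1 := by omega
        subst ho1
        simp [kindR, hi, kE2]
  · by_cases hi : 0 ≤ i
    · by_cases ho : o = 0
      · subst ho
        simp [kindR, hi, kH1]
      · have ho1 : o = 1 := by omega
        subst ho1
        simp [kindR, hi, kH2]
    · have ho : o = 0 := h.H i rfl (by omega)
      subst ho
      simp [kindR, hi, kW]

theorem X_tab {S : Shape} {u p : ℕ} {dec : ℕ → Mode} {ρ : D.Row} (h : OrdOK ρ)
    (hd : dec (clsS p ρ.1) ≠ .pol) : (tabX S u p dec ρ).X = ⟨0, ρ.2⟩ := by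
  obtain ⟨h1, h2, h3, h4⟩ := X_kind h
  unfold tabX tabK Kind.row3
  cases hm : dec (clsS p ρ.1) with
  | pol => exact absurd hm hd
  | rA => simp only []; split_ifs <;> assumption
  | rB => simp only []; split_ifs <;> assumption

/-- `z0` only in the record of the base node in the mode `rB` -/
theorem z0_tab {S : Shape} {u p : ℕ} {dec : ℕ → Mode} {ρ : D.Row} (h : OrdOK ρ)
    (hz : (tabX S u p dec ρ).z0 = true) :
    ∃ i, ρ.1 = .Z i ∧ 0 ≤ i ∧ ρ.2 = 0 ∧ jS p ρ.1 = 0 ∧ dec (clsS p ρ.1) = .rB := by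
  obtain ⟨z, o⟩ := ρ
  unfold tabX tabK Kind.row3 at hz
  rcases z with i | i
  · by_cases hi : 0 ≤ i
    · refine ⟨i, rfl, hi, h.Z i rfl hi, ?_, ?_⟩
      · by_contra hj
        have hj' : ¬ jS p (.Z i) = (kindR (.Z i, o)).j0 := by
          simpa [kindR, hi, kG] using hj
        simp only [hj', if_false] at hz
        revert hz
        cases dec (clsS p (.Z i)) <;> simp [kindR, hi, kG]
      · revert hz
        cases dec (clsS p (.Z i)) <;> simp [kindR, hi, kG]
        split_ifs <;> simp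
    · exfalso
      revert hz
      by_cases ho : o = 0
      · cases dec (clsS p (.Z i)) <;> simp [kindR, hi, ho, kE1]
      · cases dec (clsS p (.Z i)) <;> simp [kindR, hi, ho, kE2]
  · exfalso
    revert hz
    by_cases hi : 0 ≤ i
    · by_cases ho : o = 0
      · cases dec (clsS p (.H i)) <;> simp [kindR, hi, ho, kH1]
        split_ifs <;> simp
      · cases dec (clsS p (.H i)) <;> simp [kindR, hi, ho, kH2]
        split_ifs <;> simp
    · cases dec (clsS p (.H i)) <;> simp [kindR, hi, kW]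

section fields

variable {p : ℕ} [hp : Fact p.Prime] {S : Shape} {u c : ℕ} {jR jT jQ jU : Type*}
  {D : Dat p jR jT jQ jU (RI S u c)} {dec : ℕ → Mode}

/-- **field `B`**, modes `rA`, `rB`. -/
theorem B_reg (h5 : 5 ≤ p) (hro : ∀ x, D.ro x = ofRow u c x)
    (hcs : ∀ x, (D.cs x : ℕ) = clsS p (ofRow u c x).1) (he : S.e3 = 0) (hh : S.h3 = 0)
    (x : RI S u c) (hd : dec (clsS p (ofRow u c x).1) ≠ .pol) (s : ℕ) :
    D.cB0 x s ∈ (pbFil p).F ((tabX S u p dec (ofRow u c x)).X.a +
      pos ((s : ℤ) - (tabX S u p dec (ofRow u c x)).X.b)) := by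
  rw [X_tab (ordOK_row he hh x) hd, zero_add, pos_eq, max_comm]
  have h1 := Dat.cB0_mem (D := D) (by omega) x (by
    rw [hcs, hro, P4SideCls110.cl_eq (P4SideCls110.odd_of_prime h5)]) s
  rw [hro] at h1
  exact h1

/-- **field `B0`**, every mode. -/
theorem B0_all (h5 : 5 ≤ p) (hro : ∀ x, D.ro x = ofRow u c x)
    (hcs : ∀ x, (D.cs x : ℕ) = clsS p (ofRow u c x).1) (he : S.e3 = 0) (hh : S.h3 = 0)
    (x : RI S u c) (hz : (tabX S u p dec (ofRow u c x)).z0 = true) {s : ℕ} (hs : s ≠ 0) :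
    D.cB0 x s = 0 := by
  obtain ⟨i, h1, hi, ho, hj, _⟩ := z0_tab (ordOK_row he hh x) hz
  rw [h1] at hj
  have h3 := P4SideCls110.jS_Z_zero_nat (P4SideCls110.odd_of_prime h5) hj
  have h3' : ((clsS p (.Z i) : ℕ) : ℚ) = (i : ℚ) := by
    have := congrArg (Int.cast : ℤ → ℚ) h3
    push_cast at this
    exact this.symm
  have hy : ys (D.cs x) (D.ro x).1 = PowerSeries.X := by
    rw [ys, hro, hcs, h1, Site.val, h3', sub_self]
    simp
  rw [Dat.cB0, hy, hro, ho, PowerSeries.coeff_X_pow, if_neg (by omega)]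

/-- **field `C`**, modes `rA`, `rB`. -/
theorem C_reg (h5 : 5 ≤ p) (hro : ∀ x, D.ro x = ofRow u c x)
    (hcs : ∀ x, (D.cs x : ℕ) = clsS p (ofRow u c x).1) (he : S.e3 = 0) (hh : S.h3 = 0)
    {NL : ℕ} (L : LocalInput p NL D.M D.e) (x : RI S u c) (hin : InR p (ofRow u c x).1)
    (hreg : p < 2 * clsS p (ofRow u c x).1)
    (hd : dec (clsS p (ofRow u c x).1) ≠ .pol) (t : ℕ) :
    D.cC0 x t ∈ (pbFil p).F ((tabX S u p dec (ofRow u c x)).Q.a +
      pos ((t : ℤ) - (tabX S u p dec (ofRow u c x)).Q.b)) := by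
  have hodd := P4SideCls110.odd_of_prime (p := p) h5
  have hcl : (D.cs x : ℕ) = cl p (D.ro x).1 := by rw [hcs, hro, P4SideCls110.cl_eq hodd]
  have hO := ordOK_row he hh x
  have hgam : GamX (D.ro x).1 ∈ (psFil (pbFil p)).F 2 := by
    refine L.gam_regular (D.cs x) _ (by rw [hro]; exact hin) hcl (by rw [hcs]; exact hreg)
  have hmain := Dat.cC0_mem (D := D) (by omega) x hcl hgam t
  have hzero : (∃ w : PowerSeries ℚ, gam (ofRow u c x).1 = PowerSeries.X ^ 2 * w) →
      D.cC0 x t = 0 := by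
    rintro ⟨w, hw⟩
    refine Dat.cC0_zero (D := D) x ?_ t
    rw [hro, hw]
    have := hO.le
    exact (pow_dvd_pow _ (by omega)).mul_right _
  have hno : (tabX S u p dec (ofRow u c x)).Q.a + pos ((t : ℤ) -
      (tabX S u p dec (ofRow u c x)).Q.b) = (tabX S u p dec (ofRow u c x)).Q.a + pos ((t : ℤ) -
      (tabX S u p dec (ofRow u c x)).Q.b) := rfl
  -- the `Q`-costs
  generalize hρ : ofRow u c x = ρ at *
  obtain ⟨z, o⟩ := ρ
  have hQ2 : o = 0 → (tabX S u p dec (z, o)).Q = ⟨2, 0⟩ →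
      D.cC0 x t ∈ (pbFil p).F ((tabX S u p dec (z, o)).Q.a +
        pos ((t : ℤ) - (tabX S u p dec (z, o)).Q.b)) := by
    intro ho hq
    rw [hq]
    refine (pbFil p).mono ?_ hmain
    rw [hro, hρ]
    simp only [ho, pos_eq]
    push_cast
    have : (0 : ℤ) ≤ t := by positivity
    rw [sub_zero, max_eq_left this]
    linarith
  rcases z with i | i
  · by_cases hi : 0 ≤ i
    · have ho : o = 0 := hO.Z i rfl hi
      refine hQ2 ho ?_
      unfold tabX tabK Kind.row3
      simp only [] at hd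
      cases hm : dec (clsS p (Site.Z i)) with
      | pol => exact absurd hm hd
      | rA => simp [kindR, hi, kG]
      | rB => simp only [kindR, hi, kG, if_true]; split_ifs <;> rfl
    · rw [hzero ?_]
      · exact AddSubgroup.zero_mem _
      · obtain ⟨w, hw⟩ := P4M.gamOrd.1 (-i).toNat (by omega)
        refine ⟨w, ?_⟩
        have e : i = -(((-i).toNat : ℕ) : ℤ) := by omega
        show gam (.Z i) = _
        rw [e]; exact hw
  · by_cases hi : 0 ≤ i
    · rw [hzero ?_]
      · exact AddSubgroup.zero_mem _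
      · obtain ⟨w, hw⟩ := P4M.gamOrd.2 i.toNat
        refine ⟨w, ?_⟩
        have e : i = ((i.toNat : ℕ) : ℤ) := by omega
        show gam (.H i) = _
        rw [e]; exact hw
    · have ho : o = 0 := hO.H i rfl (by omega)
      refine hQ2 ho ?_
      unfold tabX tabK Kind.row3
      simp only [] at hd
      cases hm : dec (clsS p (Site.H i)) with
      | pol => exact absurd hm hd
      | rA => simp [kindR, hi, kW]
      | rB => simp [kindR, hi, kW]

/-- **field `near`**, mode `rB`. -/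
theorem near_rB (h5 : 5 ≤ p) {NL : ℕ} (L : LocalInput p NL D.M D.e) (hM : 0 < D.M)
    (hMN : D.M ≤ NL) (hNL : D.G + D.Nb ≤ NL) {z : ℕ → ℕ} (hz : D.Zer z) (a : Fin p)
    (hreg : p < 2 * (a : ℕ)) (s l : ℕ) :
    D.nrB (delB D.e D.M) a s l ∈ (pbFil p).F (pos ((l : ℤ) + z a - s + 1)) := by
  rw [pos_eq, max_comm]
  exact Dat.nrB_mem (D := D) (delB D.e D.M) L hNL hz a hreg
    (delB_zero_mem (by omega) L hMN hM hreg)
    (fun k _ => delB_mem (by omega) L hMN hreg k) s l

end fields

end Crest.Agent.R006.P4SideB869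
end

-- ▼ part R006/P4SideA_657
section

/-!
# Row 6, block P4 (helper657): the field `A` of `Tables` in the classes with decomposition B1

`RowB D i` : the row `i` is in a regular class, its germ is `psi'`, resp. for the `W` rows the germ
with `psi2 = 0`.  `A_rB` : `cAB (delB ..) i l` satisfies the table `tabX` (`dec = rB`);
`cA_rB` : the same for the coefficient `cA0 - ∑ cB0 * nrB` of `Rows0`.
-/

set_option autoImplicit false

namespace Crest.Agent.R006.P4SideA657

open Polynomial Finset Tollx814 P4Toll961 P4M P4B1In657 P8 P4If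
open Crest.Agent.R006.D

variable {p : ℕ} [hp : Fact p.Prime] {jR jT jQ jU ι : Type*} {D : Dat p jR jT jQ jU ι}

/-- a row of a regular class with decomposition B1 -/
structure RowB (D : Dat p jR jT jQ jU ι) (i : ι) : Prop where
  cs : (D.cs i : ℕ) = clsS p (D.ro i).1
  reg : p < 2 * (D.cs i : ℕ)
  inR : InR p (D.ro i).1
  ord : (D.ro i).2 ≤ 1
  ordZ : ∀ n : ℤ, 0 ≤ n → (D.ro i).1 = .Z n → (D.ro i).2 = 0
  ps : (∀ n : ℤ, n < 0 → (D.ro i).1 ≠ .H n) → D.ps i = psi' D.e D.M (D.cs i) (D.ro i).1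
  psW : ∀ n : ℤ, n < 0 → (D.ro i).1 = .H n → D.ps i =
    ∑ k ∈ range D.M, ys (D.cs i) (D.ro i).1 ^ k * PowerSeries.C (C (delB D.e D.M (D.cs i) k))

omit hp in
/-- the record of a row in a class with decomposition B1 -/
lemma tabX_rB (S : Shape) (u : ℕ) {dec : ℕ → Mode} {ρ : Crest.Agent.R006.D.Row} (h : dec (clsS p ρ.1) = .rB) :
    tabX S u p dec ρ =
      if jS p ρ.1 = (kindR ρ).j0 then (kindR ρ).regBS else (kindR ρ).regB := by
  rw [tabX, h]
  rfl

namespace RowB

variable {i : ι} {NL : ℕ} {z : ℕ → ℕ}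

lemma cl (h : RowB D i) (h2 : p ≠ 2) : (D.cs i : ℕ) = P4M.cl p (D.ro i).1 := by
  rw [P4SideCls110.cl_eq (hp.out.eq_two_or_odd.resolve_left h2), h.cs]

omit hp in
lemma psi2_eq (h : RowB D i) (hW : ∀ n : ℤ, n < 0 → (D.ro i).1 ≠ .H n) :
    D.psi2 (delB D.e D.M) i = psi2 D.e D.M (D.cs i) (D.ro i).1 := by
  rw [Dat.psi2, h.ps hW, P4B1In657.psi2]

omit hp in
/-- the `W` rows -/
lemma psi2_W (h : RowB D i) {n : ℤ} (hn : n < 0) (hi : (D.ro i).1 = .H n) :
    D.psi2 (delB D.e D.M) i = 0 := by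
  rw [Dat.psi2, h.psW n hn hi, sub_self]

/-- generic bound of `psi2` -/
lemma psi2_mem (h : RowB D i) (h2 : p ≠ 2) (L : LocalInput p NL D.M D.e) (hM : D.M ≤ NL)
    (hW : ∀ n : ℤ, n < 0 → (D.ro i).1 ≠ .H n) :
    D.psi2 (delB D.e D.M) i ∈ (psFil (pbFil p)).F 1 := by
  rw [h.psi2_eq hW]
  refine P4B1In657.psi2_mem h2 L hM h.reg (h.cl h2) ?_
  refine L.psi_regular _ _ h.inR (h.cl h2) h.reg fun n hn => ?_
  by_contra h0
  exact hW n (by omega) hn

/-- generic bound of the `R`-coefficients -/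
lemma gen (h : RowB D i) (h2 : p ≠ 2) (L : LocalInput p NL D.M D.e) (hM : D.M ≤ NL)
    (hz : D.Zer z) (hW : ∀ n : ℤ, n < 0 → (D.ro i).1 ≠ .H n) (l : ℕ) :
    D.cAB (delB D.e D.M) i l ∈ (pbFil p).F (1 + pos ((l : ℤ) + z (D.cs i) - 0) - (D.ro i).2) := by
  refine (pbFil p).mono ?_ (Dat.cAB_mem _ h2 hz i (h.cl h2) (h.psi2_mem h2 L hM hW) l)
  rw [pos_eq]
  omega

/-- the star -/
lemma star (h : RowB D i) (h2 : p ≠ 2) (hM1 : 1000001 ≤ D.M) (hz : D.Zer z) {n : ℕ}
    (hi : (D.ro i).1 = .H (n : ℤ)) (hj : jS p (D.ro i).1 = -1) (l : ℕ) :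
    D.cAB (delB D.e D.M) i l ∈ (pbFil p).F (1000000 + pos ((l : ℤ) + z (D.cs i) - 0)) := by
  rw [hi] at hj
  have h3 := (P4SideCls110.jS_H (hp.out.eq_two_or_odd.resolve_left h2) hj).2.2
  have hW : ∀ m : ℤ, m < 0 → (D.ro i).1 ≠ .H m := by
    intro m hm hc
    rw [hi] at hc
    injection hc with hc
    omega
  have h4 : D.psi2 (delB D.e D.M) i ∈ (psFil (pbFil p)).F D.M := by
    rw [h.psi2_eq hW, hi]
    refine psi2_star h2 (by omega) h.reg ?_
    rw [h.cs, hi]
    exact h3
  refine (pbFil p).mono ?_ (Dat.cAB_mem _ h2 hz i (h.cl h2) h4 l)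
  have := h.ord
  rw [pos_eq]
  omega

/-- the node -/
lemma node (h : RowB D i) (h2 : p ≠ 2) (L : LocalInput p NL D.M D.e) (hM : D.M ≤ NL)
    (hM1 : 0 < D.M) (hz : D.Zer z) {n : ℤ} (hn : 0 ≤ n) (hi : (D.ro i).1 = .Z n)
    (hj : jS p (D.ro i).1 = 0) (l : ℕ) :
    D.cAB (delB D.e D.M) i l ∈ (pbFil p).F (3 + pos ((l : ℤ) + z (D.cs i) - 0)) := by
  rw [hi] at hj
  have h3 := P4SideCls110.jS_Z_zero_nat (hp.out.eq_two_or_odd.resolve_left h2) hj
  have hW : ∀ m : ℤ, m < 0 → (D.ro i).1 ≠ .H m := by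
    intro m _ hc
    rw [hi] at hc
    exact absurd hc (by simp)
  have h5 : n = ((D.cs i : ℕ) : ℤ) := by rw [h.cs, hi]; exact h3
  have h4 : PowerSeries.coeff 0 (D.psi2 (delB D.e D.M) i) ∈ (pbFil p).F 3 := by
    rw [h.psi2_eq hW, hi, h5, PowerSeries.coeff_zero_eq_constantCoeff_apply]
    exact psi2_node h2 L hM hM1 h.reg
  refine (pbFil p).mono ?_ (Dat.cAB_node_mem _ hz i (h.ordZ n hn hi) (by
    rw [hi, h5, Site.val]; push_cast; rfl) h4 l)
  rw [pos_eq]
  omega

/-- **The field `A` in the classes with decomposition B1.** -/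
theorem A_rB (h : RowB D i) (h2 : p ≠ 2) (L : LocalInput p NL D.M D.e) (hM : D.M ≤ NL)
    (hM1 : 1000001 ≤ D.M) (hz : D.Zer z) (S : Shape) (u : ℕ) {dec : ℕ → Mode}
    (hdec : dec (clsS p (D.ro i).1) = .rB) (l : ℕ) :
    D.cAB (delB D.e D.M) i l ∈ (pbFil p).F ((tabX S u p dec (D.ro i)).R.a +
      pos ((l : ℤ) + z (D.cs i) - (tabX S u p dec (D.ro i)).R.b)) := by
  rw [tabX_rB S u hdec]
  obtain ⟨n, hn⟩ | ⟨n, hn⟩ : (∃ n, (D.ro i).1 = .Z n) ∨ ∃ n, (D.ro i).1 = .H n := by
    rcases (D.ro i).1 with n | n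
    · exact Or.inl ⟨n, rfl⟩
    · exact Or.inr ⟨n, rfl⟩
  · -- integer sites
    have hW : ∀ m : ℤ, m < 0 → (D.ro i).1 ≠ .H m := by
      intro m _ hc
      rw [hn] at hc
      exact absurd hc (by simp)
    have hg := h.gen h2 L hM hz hW l
    have hro : D.ro i = (.Z n, (D.ro i).2) := by rw [← hn]
    rcases lt_or_ge n 0 with h0 | h0
    · rcases Nat.eq_zero_or_pos (D.ro i).2 with ho | ho
      · have hk : kindR (D.ro i) = kE1 := by
          rw [hro, kindR, if_neg (not_le.mpr h0), if_pos ho]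
        rw [hk]
        rw [ho] at hg
        have e : (if jS p (D.ro i).1 = kE1.j0 then kE1.regBS else kE1.regB) = kE1.regB := by
          split_ifs <;> rfl
        rw [e]
        exact (pbFil p).mono (by rw [Nat.cast_zero, sub_zero]; rfl) hg
      · have ho1 : (D.ro i).2 = 1 := by have := h.ord; omega
        have hk : kindR (D.ro i) = kE2 := by
          rw [hro, kindR, if_neg (not_le.mpr h0), if_neg (by rw [ho1]; norm_num)]
        rw [hk]
        rw [ho1] at hg
        have e : (if jS p (D.ro i).1 = kE2.j0 then kE2.regBS else kE2.regB) = kE2.regB := by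
          split_ifs <;> rfl
        rw [e]
        refine (pbFil p).mono ?_ hg
        show (0 : ℤ) + pos ((l : ℤ) + z (D.cs i) - 0) ≤ _
        push_cast
        linarith
    · have hk : kindR (D.ro i) = kG := by rw [hro, kindR, if_pos h0]
      rw [hk]
      split_ifs with hj
      · exact h.node h2 L hM (by omega) hz h0 hn hj l
      · rw [h.ordZ n h0 hn, Nat.cast_zero, sub_zero] at hg
        exact hg
  · have hro : D.ro i = (.H n, (D.ro i).2) := by rw [← hn]
    rcases lt_or_ge n 0 with h0 | h0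
    · -- `W` rows
      rw [Dat.cAB_zero _ i (h.psi2_W h0 hn) l]
      exact AddSubgroup.zero_mem _
    · -- stars
      have hW : ∀ m : ℤ, m < 0 → (D.ro i).1 ≠ .H m := by
        intro m hm hc
        rw [hn] at hc
        injection hc with hc
        omega
      have hg := h.gen h2 L hM hz hW l
      have hn' : (D.ro i).1 = .H ((n.toNat : ℕ) : ℤ) := by rw [Int.toNat_of_nonneg h0, hn]
      rcases Nat.eq_zero_or_pos (D.ro i).2 with ho | ho
      · have hk : kindR (D.ro i) = kH1 := by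
          rw [hro, kindR, if_pos h0, if_pos ho]
        rw [hk]
        rw [ho, Nat.cast_zero, sub_zero] at hg
        split_ifs with hj
        · exact h.star h2 hM1 hz hn' hj l
        · exact hg
      · have ho1 : (D.ro i).2 = 1 := by have := h.ord; omega
        have hk : kindR (D.ro i) = kH2 := by
          rw [hro, kindR, if_pos h0, if_neg (by rw [ho1]; norm_num)]
        rw [hk]
        rw [ho1] at hg
        split_ifs with hj
        · exact h.star h2 hM1 hz hn' hj l
        · refine (pbFil p).mono ?_ hg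
          show (0 : ℤ) + pos ((l : ℤ) + z (D.cs i) - 0) ≤ _
          push_cast
          linarith

/-- the same for the coefficient of `Rows0` with the near coefficients `nr = nrB` on the class -/
theorem cA_rB (h : RowB D i) (h2 : p ≠ 2) (L : LocalInput p NL D.M D.e) (hM : D.M ≤ NL)
    (hM1 : 1000001 ≤ D.M) (hz : D.Zer z) (hN : D.M + D.G + D.Nb ≤ D.N) (S : Shape) (u : ℕ)
    {dec : ℕ → Mode} (hdec : dec (clsS p (D.ro i).1) = .rB)
    (nr : Fin p → Fin D.N → Fin D.N → ℚ[X])
    (hnr : ∀ s l : Fin D.N, nr (D.cs i) s l = D.nrB (delB D.e D.M) (D.cs i) s l) (l : Fin D.N) :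
    (D.Rows0 nr).cA i l ∈ (pbFil p).F ((tabX S u p dec (D.ro i)).R.a +
      pos (((l : ℕ) : ℤ) + z (D.cs i) - (tabX S u p dec (D.ro i)).R.b)) := by
  show D.cA0 i l - ∑ s : Fin D.N, D.cB0 i s * nr (D.cs i) s l ∈ _
  simp only [hnr]
  rw [Dat.cA0_sub_near _ hN i l]
  exact h.A_rB h2 L hM hM1 hz S u hdec l

end RowB

end Crest.Agent.R006.P4SideA657
end

-- ▼ part R006/P4SideTabB_869
section

/-!
# Row 6, block P4, matrix side: the fields of `Tables` in the classes with decomposition B1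
(helper869, on 657's `P4SideA_657`)
-/

set_option autoImplicit false

namespace Crest.Agent.R006.P4S

open Polynomial Finset Tollx814 P4Toll961
open Crest.Agent.R006.D Crest.Agent.R006.Bordx929 Crest.Agent.R006.P4Asmx814
  Crest.Agent.R006.GaugeP555 Crest.Agent.R006.P8 Crest.Agent.R006.P4If Crest.Agent.R006.P4M
  Crest.Agent.R006.P4SideDatx538
open Crest.Agent.R006.P4M531 (phi BB)
open Crest.Agent.R006.P4B1In657 (delB)

variable {S : Shape} {u c p : ℕ} [hp : Fact p.Prime] {dec : ℕ → Mode} {E : ℤ} {e : Fin p → ℚ[X]}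
  (J : Fin c → RI S u c)

omit hp in
/-- rows of regular classes have no partner -/
theorem ptS_none (hS : S.Good) (hodd : p % 2 = 1) (x : RI S u c)
    (hx : p < 2 * clsS p (ofRow u c x).1) : ptS S u c hS p x = none := by
  rcases hpt : ptS S u c hS p x with _ | y
  · rfl
  · exfalso
    obtain ⟨l, hl, _, h1, _⟩ := P4GW657.gwPartner_some S u c hS _ hpt
    have ha : (p - 1) / 2 - l < p := by omega
    have e1 := (P4SideCls110.cls_jS_Z (p := p) hodd (a := (p - 1) / 2 - l) ha
      (i := (((p - 1) / 2 : ℕ) : ℤ) - l) (j := 0) (by omega)).1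
    rw [h1] at hx
    have e2 : clsS p ((Site.Z ((((p - 1) / 2 : ℕ) : ℤ) - l), 0) : D.Row).1 = (p - 1) / 2 - l := e1
    rw [e2] at hx
    omega

namespace Inp

variable (H : Inp S u c p dec E e)
include H

theorem reg_of (x : RI S u c) (hx : dec (clsS p (ofRow u c x).1) ≠ .pol) :
    p < 2 * clsS p (ofRow u c x).1 := (H.reg_iff (csS S u c p x)).mp hx

theorem RS_cA (x : RI S u c) (hx : dec (clsS p (ofRow u c x).1) ≠ .pol) (l : Fin (NN S u E)) :
    (RS S u c dec J E e H.good).cA x l = (R0S S u c dec J E e).cA x l :=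
  subP_none _ (ptS_none H.good H.odd x (H.reg_of x hx)) l

theorem RS_cB (x : RI S u c) (hx : dec (clsS p (ofRow u c x).1) ≠ .pol) (l : Fin (NN S u E)) :
    (RS S u c dec J E e H.good).cB x l = (R0S S u c dec J E e).cB x l :=
  subP_none _ (ptS_none H.good H.odd x (H.reg_of x hx)) l

theorem RS_cC (x : RI S u c) (hx : dec (clsS p (ofRow u c x).1) ≠ .pol) (l : Fin (NN S u E)) :
    (RS S u c dec J E e H.good).cC x l = (R0S S u c dec J E e).cC x l :=
  subP_none _ (ptS_none H.good H.odd x (H.reg_of x hx)) l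

/-- 657's hypotheses for a row of a class with decomposition B1 -/
theorem rowB (x : RI S u c) (hx : dec (clsS p (ofRow u c x).1) = .rB) :
    P4SideA657.RowB (DS S u c dec J E e) x where
  cs := rfl
  reg := H.reg_of x (by rw [hx]; decide)
  inR := H.inR J x
  ord := P4M938.order_le_one H.e3 H.h3 x
  ordZ := fun n h0 h => P4M938.order_Z_nonneg x h h0
  ps := by
    intro hW
    show psG dec e (MM E) (csS S u c p x) (ofRow u c x).1 = psi' e (MM E) (csS S u c p x)
      (ofRow u c x).1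
    have hW' : ∀ n : ℤ, n < 0 → (ofRow u c x).1 ≠ .H n := hW
    rcases hz : (ofRow u c x).1 with i | i
    · rfl
    · have hi : 0 ≤ i := by
        by_contra h0
        exact hW' i (by omega) hz
      simp only [psG, if_pos hi]
  psW := by
    intro n hn h
    have h' : (ofRow u c x).1 = .H n := h
    show psG dec e (MM E) (csS S u c p x) (ofRow u c x).1 =
      ∑ k ∈ range (MM E), ys (csS S u c p x) (ofRow u c x).1 ^ k *
        PowerSeries.C (C (delB e (MM E) (csS S u c p x) k))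
    have hx' : dec ((csS S u c p x : Fin p) : ℕ) = .rB := hx
    rw [h']
    simp only [psG, if_neg (not_le.mpr hn), hx']

/-- field `A`, from the zeros of the gauge -/
theorem A_rB' (hZ : (DS S u c dec J E e).Zer (zS S u p)) (x : RI S u c)
    (hx : dec (clsS p (ofRow u c x).1) = .rB) (l : Fin (NN S u E)) :
    (RS S u c dec J E e H.good).cA x l ∈ (pbFil p).F ((tb S u c p dec x).R.a +
      pos (((l : ℕ) : ℤ) + zS S u p (clsS p (ofRow u c x).1) - (tb S u c p dec x).R.b)) := by
  rw [H.RS_cA J x (by rw [hx]; decide) l]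
  refine (H.rowB J x hx).cA_rB H.ne2 H.L (MM_le S u E) ?_ hZ ?_ S u hx
    (nrS S u c dec J E e) (fun s l => ?_) l
  · show 1000001 ≤ MM E
    unfold MM; omega
  · show MM E + GG S u + S.k * u ≤ NN S u E
    unfold NN; omega
  · have hx' : dec ((csS S u c p x : Fin p) : ℕ) = .rB := hx
    exact if_pos hx'

theorem B_rB (x : RI S u c) (hx : dec (clsS p (ofRow u c x).1) = .rB) (s : Fin (NN S u E)) :
    (RS S u c dec J E e H.good).cB x s ∈ (pbFil p).F ((tb S u c p dec x).X.a +
      pos (((s : ℕ) : ℤ) - (tb S u c p dec x).X.b)) := by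
  have hd : dec (clsS p (ofRow u c x).1) ≠ .pol := by rw [hx]; decide
  rw [H.RS_cB J x hd s]
  exact P4SideB869.B_reg (D := DS S u c dec J E e) H.h5 (fun _ => rfl) (fun _ => rfl) H.e3 H.h3
    x hd s

theorem C_rB (x : RI S u c) (hx : dec (clsS p (ofRow u c x).1) = .rB) (s : Fin (NN S u E)) :
    (RS S u c dec J E e H.good).cC x s ∈ (pbFil p).F ((tb S u c p dec x).Q.a +
      pos (((s : ℕ) : ℤ) - (tb S u c p dec x).Q.b)) := by
  have hd : dec (clsS p (ofRow u c x).1) ≠ .pol := by rw [hx]; decide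
  rw [H.RS_cC J x hd s]
  exact P4SideB869.C_reg (D := DS S u c dec J E e) H.h5 (fun _ => rfl) (fun _ => rfl) H.e3 H.h3
    H.L x (H.inR J x) (H.reg_of x hd) hd s

theorem t_B0 (x : RI S u c) (s : Fin (NN S u E)) (hz : (tb S u c p dec x).z0 = true)
    (hs : (s : ℕ) ≠ 0) : (RS S u c dec J E e H.good).cB x s ∈ (pbFil p).F E := by
  obtain ⟨i, _, _, _, _, hr⟩ := P4SideB869.z0_tab (P4SideB869.ordOK_row H.e3 H.h3 x) hz
  rw [H.RS_cB J x (by rw [hr]; decide) s]
  have h0 : (R0S S u c dec J E e).cB x s = 0 :=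
    P4SideB869.B0_all (D := DS S u c dec J E e) H.h5 (fun _ => rfl) (fun _ => rfl) H.e3 H.h3
      x hz hs
  rw [h0]
  exact AddSubgroup.zero_mem _

theorem t_near' (hZ : (DS S u c dec J E e).Zer (zS S u p)) (a : Fin p) (s l : Fin (NN S u E))
    (hd : dec (a : ℕ) = .rB) :
    (WS S u c dec J E e).near a s l ∈
      (pbFil p).F (pos (((l : ℕ) : ℤ) + zS S u p a - (s : ℕ) + 1)) := by
  have h0 : (WS S u c dec J E e).near a s l = (DS S u c dec J E e).nrB (delB e (MM E)) a s l :=
    if_pos hd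
  rw [h0]
  refine P4SideB869.near_rB (D := DS S u c dec J E e) H.h5 H.L ?_ (MM_le S u E) (le_NLL S u E)
    hZ a ((H.reg_iff a).mp (by rw [hd]; decide)) s l
  show 0 < MM E
  unfold MM; omega

end Inp

end Crest.Agent.R006.P4S
end

-- ▼ part R006/P4SideTab_757
section

set_option autoImplicit false

/-!
# Row 6, block P4: fields of `Tables` that do not depend on the rows (helper757)

For 538's `dat` (any `cs`, `ps`, truncations `G M N`, `Nb = k u`) and any near coefficients `nr`: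
`rho_mem`, `th0_mem`, `q_mem`, `far_mem`, `lamp_mem`, `lamr_mem`, `errX_mem`, `errB_mem`, `err_mem`,
`errU_mem`, `Zer_dat`; `exists_params` : choice of the truncations.
-/

namespace Crest.Agent.R006.P4SideTab757

open Polynomial Finset Tollx814 P4Toll961
open Crest.Agent.R006.D Crest.Agent.R006.Bordx929 Crest.Agent.R006.P8
open Crest.Agent.R006.P4Asmx814 Crest.Agent.R006.GaugeP555 Crest.Agent.R006.P4M
open Crest.Agent.R006.P4SideDatx538
open Crest.Agent.R006.P4M531 (BB phi)

variable {p : ℕ} [hp : Fact p.Prime] {S : Shape} {u c : ℕ} {J : Fin c → RI S u c}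
  {e : Fin p → ℚ[X]} {cs : RI S u c → Fin p} {ps : RI S u c → BB} {G M N Nb NL : ℕ}

/-! ### the state vectors -/

theorem rho_mem (nr : Fin p → Fin N → Fin N → ℚ[X]) (a : Fin p) (l : Fin N)
    (j : Fin (S.k * u)) :
    ((dat S u c J e cs ps G M N Nb).Net0 nr).rho a l j ∈ (pbFil p).F 0 := by
  have h := taylor_bl_mem (p := p) S u j ((a : ℕ) : ℤ) l
  rw [Int.cast_natCast] at h
  exact h

theorem th0_mem (nr : Fin p → Fin N → Fin N → ℚ[X]) (a : Fin p) (l : Fin N)
    (j : Fin (S.q * u)) :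
    ((dat S u c J e cs ps G M N Nb).Net0 nr).th0 a l j ∈ (pbFil p).F 0 := by
  have h := taylor_desc_mem (p := p) (j : ℕ) ((a : ℕ) : ℤ) l
  rw [Int.cast_natCast] at h
  exact h

theorem q_mem (nr : Fin p → Fin N → Fin N → ℚ[X]) (a : Fin p) (l : Fin N)
    (j : Fin (S.g * u)) :
    ((dat S u c J e cs ps G M N Nb).Net0 nr).q a l j ∈ (pbFil p).F 0 := by
  have h := taylor_desc_mem (p := p) (j : ℕ) ((a : ℕ) : ℤ) l
  rw [Int.cast_natCast] at h
  exact h

theorem far_mem (nr : Fin p → Fin N → Fin N → ℚ[X]) (a : Fin p) (s : Fin N) (a' : Fin p)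
    (k : Fin N) :
    ((dat S u c J e cs ps G M N Nb).Net0 nr).far a s a' k ∈ (pbFil p).F 0 :=
  Dat.far0_mem M a a' s k

/-- the zeros of the gauge -/
theorem Zer_dat (h2 : p ≠ 2) :
    (dat S u c J e cs ps G M N Nb).Zer (fun a => zc S u p ((a : ℕ) : ℤ)) := by
  intro a m
  have h := taylor_gaugeF_mem h2 S u ((a : ℕ) : ℤ) m
  rw [Int.cast_natCast] at h
  exact h

/-! ### the moments -/

theorem lamp_mem (nr : Fin p → Fin N → Fin N → ℚ[X]) (h2 : p ≠ 2) (L : LocalInput p NL M e)
    (hNL : G + N + Nb ≤ NL) (a : Fin p) (ha : 2 * (a : ℕ) < p) (k l : Fin N) :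
    ((dat S u c J e cs ps G M N Nb).Net0 nr).Lam a k l ∈ (pbFil p).F
      (pos (((k : ℕ) : ℤ) + 1 + (l : ℕ) + zc S u p ((a : ℕ) : ℤ) - 2)) := by
  have h := Dat.Lam0_polar (D := dat S u c J e cs ps G M N Nb) L hNL (Zer_dat h2) a ha k.2 l
  refine (pbFil p).mono ?_ h
  rw [pos_eq, max_comm]
  exact max_le_max le_rfl (by linarith)

theorem lamr_mem (nr : Fin p → Fin N → Fin N → ℚ[X]) (h2 : p ≠ 2) (L : LocalInput p NL M e)
    (hNL : G + N + Nb ≤ NL) (a : Fin p) (ha : ¬ 2 * (a : ℕ) < p) (k l : Fin N) :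
    ((dat S u c J e cs ps G M N Nb).Net0 nr).Lam a k l ∈ (pbFil p).F
      (((k : ℕ) : ℤ) + 1 + (l : ℕ) + zc S u p ((a : ℕ) : ℤ) + 1) := by
  have hodd : p % 2 = 1 := hp.out.eq_two_or_odd.resolve_left h2
  have h := Dat.Lam0_regular (D := dat S u c J e cs ps G M N Nb) L hNL (Zer_dat h2) a
    (by omega) k.2 l
  refine (pbFil p).mono ?_ h
  linarith



/-! ### the error terms of the rows -/

/-- the order of a row is at most `2` -/
lemma order_le (x : RI S u c) : (ofRow u c x).2 ≤ 2 := by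
  obtain ⟨⟨z, hz⟩, ⟨o, ho⟩⟩ := x
  have ho' : o < S.mult u c z := ho
  simp only [ofRow]
  rcases z with i | i
  · rw [Shape.mult] at ho'
    split_ifs at ho' <;> omega
  · rw [Shape.mult] at ho'
    split_ifs at ho' <;> omega

lemma coeff_gaugeF_mem (h2 : p ≠ 2) (S : Shape) (u m : ℕ) :
    C ((gaugeF S u).coeff m) ∈ (pbFil p).F 0 := by
  have h := taylor_gaugeF_mem h2 S u 0 m
  rw [Int.cast_zero, taylor_zero] at h
  exact (pbFil p).mono (le_max_left _ _) h

lemma coeff_bl_mem (S : Shape) (u l m : ℕ) : C ((bl S u l).coeff m) ∈ (pbFil p).F 0 := by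
  have h := taylor_bl_mem (p := p) S u l 0 m
  rw [Int.cast_zero, taylor_zero] at h
  exact h

lemma coeff_mul_mem {P Q : ℚ[X]} (hP : ∀ m, C (P.coeff m) ∈ (pbFil p).F 0)
    (hQ : ∀ m, C (Q.coeff m) ∈ (pbFil p).F 0) (m : ℕ) :
    C ((P * Q).coeff m) ∈ (pbFil p).F 0 := by
  rw [coeff_mul, map_sum]
  refine (pbFil p).sum_mem _ _ _ fun x _ => ?_
  rw [C_mul]
  exact zero_mul_mem _ (hP _) (hQ _)


theorem errU_mem (nr : Fin p → Fin N → Fin N → ℚ[X]) (x : RI S u c) (t : Fin c) :
    ((dat S u c J e cs ps G M N Nb).Rows0 nr).err x (.inr (.inr (.inr t))) ∈ (pbFil p).F 0 := by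
  show (if x = J t then (1 : ℚ[X]) else 0) ∈ _
  split_ifs
  · exact (pbFil p).one_mem
  · exact AddSubgroup.zero_mem _

/-! ### the choice of the truncations -/


end Crest.Agent.R006.P4SideTab757
end

-- ▼ part R006/P4SideNet_757
section

set_option autoImplicit false
set_option linter.unusedSectionVars false

/-!
# Row 6, block P4: leaf (4) of 955's list (helper757): the fields of `Tables` for the network

`dsZer t_rho t_th0 t_q t_near0 t_far t_Lamp t_Lamr t_err t_errU`; `t_err0`, `t_errU0` for the rows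
before the reduction, `t_errP`, `t_errUP` for 226's `partRows`.
-/

namespace Crest.Agent.R006.P4S

open Polynomial Finset Tollx814 P4Toll961
open Crest.Agent.R006.D Crest.Agent.R006.Bordx929 Crest.Agent.R006.P4Asmx814
  Crest.Agent.R006.GaugeP555 Crest.Agent.R006.P8 Crest.Agent.R006.P4If Crest.Agent.R006.P4M
  Crest.Agent.R006.P4SideDatx538
open Crest.Agent.R006.P4M531 (phi BB)
open Crest.Agent.R006.P4B1In657 (delB)

variable {S : Shape} {u c p : ℕ} [hp : Fact p.Prime] {dec : ℕ → Mode} {E : ℤ} {e : Fin p → ℚ[X]}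
  (J : Fin c → RI S u c)

namespace Inp

lemma lt_GG (S : Shape) (u : ℕ) : (S.a1 + S.a2 + S.i1 + S.r1) * u < GG S u := by
  unfold GG; exact Nat.lt_succ_self _

lemma MM_GG_le (S : Shape) (u : ℕ) (E : ℤ) : MM E + (GG S u + S.k * u) ≤ NLL S u E := by
  unfold NLL
  generalize MM E = m
  generalize NN S u E = n
  omega

lemma GG_NN_le (S : Shape) (u : ℕ) (E : ℤ) : GG S u + NN S u E + S.k * u ≤ NLL S u E := by
  unfold NLL
  generalize MM E = m
  generalize NN S u E = n
  omega

lemma E3_le (E : ℤ) : E + 3 ≤ (MM E : ℤ) := by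
  have h := E_le E
  generalize (MM E : ℤ) = m at h
  linarith

variable (H : Inp S u c p dec E e)
include H

/-! (4) 757 -/
theorem dsZer : (DS S u c dec J E e).Zer (zS S u p) :=
  P4SideTab757.Zer_dat H.ne2

theorem t_rho (a : Fin p) (l : Fin (NN S u E)) (j : Fin (S.k * u)) :
    (WS S u c dec J E e).rho a l j ∈ (pbFil p).F 0 :=
  P4SideTab757.rho_mem _ a l j

theorem t_th0 (a : Fin p) (l : Fin (NN S u E)) (j : Fin (S.q * u)) :
    (WS S u c dec J E e).th0 a l j ∈ (pbFil p).F 0 :=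
  P4SideTab757.th0_mem _ a l j

theorem t_q (a : Fin p) (l : Fin (NN S u E)) (j : Fin (S.g * u)) :
    (WS S u c dec J E e).q a l j ∈ (pbFil p).F 0 :=
  P4SideTab757.q_mem _ a l j

theorem t_near0 (a : Fin p) (s l : Fin (NN S u E)) (hd : dec (a : ℕ) ≠ .rB) :
    (WS S u c dec J E e).near a s l ∈ (pbFil p).F E := by
  show nrS S u c dec J E e a s l ∈ _
  rw [nrS, if_neg hd]
  exact AddSubgroup.zero_mem _

theorem t_far (a : Fin p) (s : Fin (NN S u E)) (a' : Fin p) (k : Fin (NN S u E)) :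
    (WS S u c dec J E e).far a s a' k ∈ (pbFil p).F 0 :=
  P4SideTab757.far_mem _ a s a' k

theorem t_Lamp (a : Fin p) (k l : Fin (NN S u E)) (hd : dec (a : ℕ) = .pol) :
    (WS S u c dec J E e).Lam a k l ∈
      (pbFil p).F (pos (((k : ℕ) : ℤ) + 1 + (l : ℕ) + zS S u p a - 2)) :=
  P4SideTab757.lamp_mem _ H.ne2 H.L (GG_NN_le S u E) a ((H.pol_iff a).mp hd) k l

theorem t_Lamr (a : Fin p) (k l : Fin (NN S u E)) (hd : dec (a : ℕ) ≠ .pol) :
    (WS S u c dec J E e).Lam a k l ∈
      (pbFil p).F (((k : ℕ) : ℤ) + 1 + (l : ℕ) + zS S u p a + 1) :=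
  P4SideTab757.lamr_mem _ H.ne2 H.L (GG_NN_le S u E) a
    (fun h => hd ((H.pol_iff a).mpr h)) k l

/-- the rows before the reduction -/
theorem t_err0 (x : RI S u c) (d : CI S u c) (hd : kd d ≠ 3) :
    (R0S S u c dec J E e).err x d ∈ (pbFil p).F E := by
  rcases d with j | j | j | j
  · have h2 := MM_GG_le S u E
    have h3 := E3_le E
    have hM : (DS S u c dec J E e).M = MM E := rfl
    have hL : LocalInput p (NLL S u E) (DS S u c dec J E e).M (DS S u c dec J E e).e := H.L
    have hR : ∀ m, C (((DS S u c dec J E e).rho * (DS S u c dec J E e).b j).coeff m) ∈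
        (pbFil p).F 0 :=
      P4SideTab757.coeff_mul_mem (P4SideTab757.coeff_gaugeF_mem H.ne2 S u)
        (P4SideTab757.coeff_bl_mem S u j)
    have hn : ((DS S u c dec J E e).rho * (DS S u c dec J E e).b j).natDegree <
        GG S u + S.k * u := by
      refine lt_of_le_of_lt natDegree_mul_le ?_
      have e1 : (DS S u c dec J E e).rho.natDegree = (S.a1 + S.a2 + S.i1 + S.r1) * u :=
        natDegree_gaugeF S u
      have e2 : ((DS S u c dec J E e).b j).natDegree = j := natDegree_bl S u j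
      have e3 := lt_GG S u
      have e4 := j.2
      rw [e1, e2]
      omega
    have h := Dat.erR_mem (D := DS S u c dec J E e) hL H.ne2 x (H.cs_eq J x)
      ((DS S u c dec J E e).rho * (DS S u c dec J E e).b j) hR hn (by rw [hM]; exact h2)
    have h5 := h ((DS S u c dec J E e).ro x).2
    have e6 : (R0S S u c dec J E e).err x (.inl j) =
        - PowerSeries.coeff ((DS S u c dec J E e).ro x).2
          (erR (DS S u c dec J E e).e (DS S u c dec J E e).M ((DS S u c dec J E e).cs x)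
            ((DS S u c dec J E e).ro x).1
            ((DS S u c dec J E e).rho * (DS S u c dec J E e).b j)) := rfl
    rw [e6]
    refine AddSubgroup.neg_mem _ ((pbFil p).mono ?_ h5)
    have h6 : ((((DS S u c dec J E e).ro x).2 : ℕ) : ℤ) ≤ 2 := by
      exact_mod_cast P4SideTab757.order_le x
    rw [hM]
    linarith
  · exact AddSubgroup.zero_mem _
  · exact AddSubgroup.zero_mem _
  · exact absurd rfl hd

theorem t_errU0 (x : RI S u c) (t : Fin c) :
    (R0S S u c dec J E e).err x (.inr (.inr (.inr t))) ∈ (pbFil p).F 0 :=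
  P4SideTab757.errU_mem _ x t

theorem t_err (x : RI S u c) (d : CI S u c) (hd : kd d ≠ 3) :
    (RS S u c dec J E e H.good).err x d ∈ (pbFil p).F E := by
  show subP (R0S S u c dec J E e).err (ptS S u c H.good p) x d ∈ _
  rcases h : ptS S u c H.good p x with _ | y
  · rw [subP_none _ h]
    exact H.t_err0 J x d hd
  · rw [subP_some _ h]
    exact AddSubgroup.sub_mem _ (H.t_err0 J x d hd) (H.t_err0 J y d hd)

theorem t_errU (x : RI S u c) (t : Fin c) :
    (RS S u c dec J E e H.good).err x (.inr (.inr (.inr t))) ∈ (pbFil p).F 0 := by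
  show subP (R0S S u c dec J E e).err (ptS S u c H.good p) x (.inr (.inr (.inr t))) ∈ _
  rcases h : ptS S u c H.good p x with _ | y
  · rw [subP_none _ h]
    exact H.t_errU0 J x t
  · rw [subP_some _ h]
    exact AddSubgroup.sub_mem _ (H.t_errU0 J x t) (H.t_errU0 J y t)



end Inp

end Crest.Agent.R006.P4S
end

-- ▼ part R006/P4SideDet_814
section

set_option autoImplicit false

/-!
# Row 6, block P4, matrix side: the determinant of the reduced network (helper814)

`det_side` : the field `det_eq` of `Side` for 538's data, any near coefficients, and the rows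
reduced by 657's `gwPartner` (226's `partRows`);
`cls_side` : the field `cls`;
`partRows_cases` : a row is reduced by its partner or not.
-/

namespace Crest.Agent.R006.P4SideDetx814

open Polynomial Finset Crest.Agent.R006.D Crest.Agent.R006.Bordx929
open Crest.Agent.R006.P4Asmx814 Crest.Agent.R006.P4M Crest.Agent.R006.P4If
open Crest.Agent.R006.P4Toll961 Crest.Agent.R006.P4GW657 Crest.Agent.R006.P4SideCls110
open Crest.Agent.R006.P4SideDatx538
open Crest.Agent.R006.P4M531 (BB)

variable {S : Shape} {u c p : ℕ}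

/-- the partner of a row is in the same class -/
theorem gw_cls (hodd : p % 2 = 1) (hS : S.Good) {x y : RI S u c}
    (h : gwPartner S u c hS ((p - 1) / 2) x = some y) :
    clsS p (ofRow u c y).1 = clsS p (ofRow u c x).1 := by
  obtain ⟨l, hl, _, h1, h2⟩ := gwPartner_some S u c hS _ h
  rw [h1, h2]
  have ha : (p - 1) / 2 - l < p := by omega
  have e1 := (cls_jS_Z (p := p) hodd (a := (p - 1) / 2 - l) ha
    (i := (((p - 1) / 2 : ℕ) : ℤ) - l) (j := 0) (by omega)).1
  have e2 := (cls_jS_H (p := p) hodd (a := (p - 1) / 2 - l) ha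
    (i := -1 - (l : ℤ)) (j := -1) (by omega)).1
  show clsS p (.H (-1 - (l : ℤ))) = clsS p (.Z ((((p - 1) / 2 : ℕ) : ℤ) - l))
  rw [e1, e2]

/-- **The field `det_eq` of `Side`.** -/
theorem det_side (hodd : p % 2 = 1) (hS : S.Good) (J : Fin c → RI S u c) (e : Fin p → ℚ[X])
    (cs : RI S u c → Fin p) (ps : RI S u c → BB) (G M N Nb : ℕ)
    (hcs : ∀ x, (cs x : ℕ) = clsS p (ofRow u c x).1)
    (hOK : (dat S u c J e cs ps G M N Nb).OK)
    (nr : Fin p → Fin N → Fin N → ℚ[X]) (e' : RI S u c ≃ CI S u c) :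
    (Matrix.of fun i j => brow S u c J i (e' j)).det =
      (Matrix.of fun i j => ((dat S u c J e cs ps G M N Nb).Net0 nr).mat
        (partRows ((dat S u c J e cs ps G M N Nb).Rows0 nr)
          (gwPartner S u c hS ((p - 1) / 2))) i (e' j)).det := by
  rw [det_mat_partRows ((dat S u c J e cs ps G M N Nb).Net0 nr)
    ((dat S u c J e cs ps G M N Nb).Rows0 nr) (gwPartner S u c hS ((p - 1) / 2))
    (fun i j hij => ?_) (gwPartner_partner S u c hS _) e']
  · congr 1
    refine Matrix.ext fun i j => ?_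
    rw [Matrix.of_apply, Matrix.of_apply, brow_eq S u c J e cs ps G M N Nb i (e' j)]
    exact (Dat.mat_eq hOK nr i (e' j)).symm
  · refine Fin.ext ?_
    show (cs j : ℕ) = cs i
    rw [hcs, hcs, gw_cls hodd hS hij]


end Crest.Agent.R006.P4SideDetx814
end

-- ▼ part R006/P4SideDet2_814
section

set_option autoImplicit false

/-!
# Row 6, block P4, matrix side: the leaf `det_eq` of 955's final record (helper814)

`subRows_eq` : 955's `subRows` is 226's `partRows`;
`Inp.det_eq_of` : the determinant, from `dsOK`.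
-/

namespace Crest.Agent.R006.P4S

open Polynomial Finset Tollx814 P4Toll961
open Crest.Agent.R006.D Crest.Agent.R006.Bordx929 Crest.Agent.R006.P4Asmx814
  Crest.Agent.R006.GaugeP555 Crest.Agent.R006.P8 Crest.Agent.R006.P4If Crest.Agent.R006.P4M
  Crest.Agent.R006.P4SideDatx538
open Crest.Agent.R006.P4M531 (phi BB)
open Crest.Agent.R006.P4B1In657 (delB)

section sub

variable {A : Type*} [CommRing A] {Cl : Type*} {jR jT jQ jU : Type*} {N : ℕ}
variable {ι : Type*} [Fintype ι] [DecidableEq ι]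

lemma subP_eq {α : Type*} (f : ι → α → A) (pt : ι → Option ι) :
    subP f pt = fun i x => f i x + ∑ j, partE A pt i j * f j x := by
  funext i x
  rw [sum_partE pt i (fun j => f j x), subP]
  rcases pt i with _ | j
  · simp
  · simp only; ring

lemma subRows_eq (R : Rows A Cl jR jT jQ jU N ι) (pt : ι → Option ι) :
    subRows R pt = partRows R pt := by
  rw [subRows, partRows, rowop, subP_eq, subP_eq, subP_eq, subP_eq]

end sub

variable {S : Shape} {u c p : ℕ} [hp : Fact p.Prime] {dec : ℕ → Mode} {E : ℤ} {e : Fin p → ℚ[X]}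
  (J : Fin c → RI S u c)

namespace Inp

variable (H : Inp S u c p dec E e)
include H

/-- **The leaf `det_eq`**, with `dsOK` as a hypothesis. -/
theorem det_eq_of (hOK : (DS S u c dec J E e).OK) (f : RI S u c ≃ CI S u c) :
    (Matrix.of fun i j => brow S u c J i (f j)).det =
      (Matrix.of fun i j => (WS S u c dec J E e).mat (RS S u c dec J E e H.good) i (f j)).det := by
  have h := P4SideDetx814.det_side H.odd H.good J e (csS S u c p) (psS S u c dec E e) (GG S u)
    (MM E) (NN S u E) (S.k * u) (fun x => rfl) hOK (nrS S u c dec J E e) f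
  rw [h, RS, subRows_eq]
  rfl

end Inp

end Crest.Agent.R006.P4S
end

-- ▼ part R006/P4SideOK_938
section

/-!
# Row 6, block P4, matrix side: `dsOK` (helper938)
-/

set_option autoImplicit false

namespace Crest.Agent.R006.P4S

open Polynomial Finset Tollx814 P4Toll961
open Crest.Agent.R006.D Crest.Agent.R006.Bordx929 Crest.Agent.R006.P4Asmx814
  Crest.Agent.R006.GaugeP555 Crest.Agent.R006.P8 Crest.Agent.R006.P4If Crest.Agent.R006.P4M
  Crest.Agent.R006.P4SideDatx538
open Crest.Agent.R006.P4M531 (phi BB)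
open Crest.Agent.R006.P4B1In657 (delB)

variable {S : Shape} {u c p : ℕ} [hp : Fact p.Prime] {dec : ℕ → Mode} {E : ℤ} {e : Fin p → ℚ[X]}
  (J : Fin c → RI S u c)

namespace Inp

variable (H : Inp S u c p dec E e)
include H

/-! (6) 938 -/
theorem dsOK : (DS S u c dec J E e).OK where
  sum_e := H.L.sum_e
  hG := by
    show (gaugeF S u).natDegree < GG S u
    rw [natDegree_gaugeF]
    unfold GG
    omega
  hb := fun j => bl_lt S u j
  hNb := by
    show S.k * u ≤ NN S u E
    unfold NN; omega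
  hT := fun j => by
    have h := desc_lt j
    show (descPochhammer ℚ (j : ℕ)).natDegree < NN S u E
    unfold NN; omega
  hQ := fun j => by
    have h := desc_lt j
    show (descPochhammer ℚ (j : ℕ)).natDegree < NN S u E
    unfold NN; omega
  hMN := by
    show MM E ≤ NN S u E
    unfold NN; omega
  hps := fun x => by
    show psG dec e (MM E) (csS S u c p x) (ofRow u c x).1 =
        psi' e (MM E) (csS S u c p x) (ofRow u c x).1 ∨
      PowerSeries.X ^ ((ofRow u c x).2 + 1) ∣ NV.gm (ofRow u c x).1.val (gaugeF S u)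
    rcases hx : (ofRow u c x).1 with i | i
    · left; rfl
    · by_cases hi : 0 ≤ i
      · left
        simp only [psG, if_pos hi]
      · right
        rw [← hx]
        exact P4M938.X_pow_dvd_gaugeF_of_W H.good x hx (not_le.mp hi)

end Inp

end Crest.Agent.R006.P4S
end

-- ▼ part R006/P4SideX_830
section

/-!
# Row 6, block P4: final record of the matrix side (955's text of note 3291, assembled by helper830)
-/

set_option autoImplicit false

namespace Crest.Agent.R006.P4S

open Polynomial Finset Tollx814 P4Toll961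
open Crest.Agent.R006.D Crest.Agent.R006.Bordx929 Crest.Agent.R006.P4Asmx814
  Crest.Agent.R006.GaugeP555 Crest.Agent.R006.P8 Crest.Agent.R006.P4If Crest.Agent.R006.P4M
  Crest.Agent.R006.P4SideDatx538
open Crest.Agent.R006.P4M531 (phi BB)
open Crest.Agent.R006.P4B1In657 (delB)

variable {S : Shape} {u c p : ℕ} [hp : Fact p.Prime] {dec : ℕ → Mode} {E : ℤ} {e : Fin p → ℚ[X]}
  (J : Fin c → RI S u c)

/-- the final record -/
theorem side_of_830 (H : Inp S u c p dec E e) :
    Side p S u c dec J E (NN S u E) (WS S u c dec J E e) (RS S u c dec J E e H.good) where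
  det_eq f := H.det_eq_of J (H.dsOK J) f
  cls x := rfl
  errU x t := H.t_errU J x t
  tab :=
    { rho := H.t_rho J
      th0 := H.t_th0 J
      q := H.t_q J
      A := by
        intro x l
        rcases h : dec (clsS p (ofRow u c x).1) with _ | _ | _
        · exact H.A_pol J x h l
        · exact H.A_rA J x h l
        · exact H.A_rB' J (H.dsZer J) x h l
      B := by
        intro x l
        rcases h : dec (clsS p (ofRow u c x).1) with _ | _ | _
        · exact H.B_pol J x h l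
        · exact H.B_rA J x h l
        · exact H.B_rB J x h l
      B0 := fun x s hz hs => H.t_B0 J x s hz hs
      C := by
        intro x l
        rcases h : dec (clsS p (ofRow u c x).1) with _ | _ | _
        · exact H.C_pol J x h l
        · exact H.C_rA J x h l
        · exact H.C_rB J x h l
      near := H.t_near' J (H.dsZer J)
      near0 := H.t_near0 J
      far := H.t_far J
      Lamp := H.t_Lamp J
      Lamr := H.t_Lamr J
      err := by
        intro x d hd
        show (if kd d = 3 then 0 else (RS S u c dec J E e H.good).err x d) ∈ _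
        rw [if_neg hd]
        exact H.t_err J x d hd
      errU := by
        intro x t
        have h0 : (zeroU (RS S u c dec J E e H.good)).err x (.inr (.inr (.inr t))) = 0 := by
          simp [zeroU, kd]
        rw [h0]
        exact AddSubgroup.zero_mem _
      errX := fun _ _ _ => AddSubgroup.zero_mem _
      errB := fun _ _ _ => AddSubgroup.zero_mem _ }

/-- **The matrix side.** -/
theorem matrixSide_830 (S : Shape) (c : ℕ) (hS : S.Good) (e3 : S.e3 = 0) (h3 : S.h3 = 0) :
    MatrixSide S c (2 * (S.B + S.e1 + S.h1 + S.w + c) + 8) := by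
  intro u p hp h5 hC dec hd J _ E
  obtain ⟨e, he⟩ := P4Psi830.local_input h5 (NLL S u E) (MM E) (by unfold MM; omega)
  have H : Inp S u c p dec E e := ⟨hS, e3, h3, h5, hC, hd, he⟩
  exact ⟨_, _, _, side_of_830 J H⟩

end Crest.Agent.R006.P4S
end

-- ▼ part R006/P5b_Core_481
section

set_option autoImplicit false

/-!
# Row 6, block P5b (small strip `√(Cu) < p ≤ x₀ u`): the arithmetic core (helper481)

Classes `c : ι` (`card ι = p`), `M c` rows in the class, one potential `D c` per class, tolls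
`(D c - s)⁺` on the `T`-states, `(D c + lam + α c - l)⁺` on the `R`-states,
`(D c + mu + β c - u)⁺` on the `Q`-states.  The best choice of `lam, mu, D` gives a closed form.
Nothing is assumed on the distribution of the rows.
-/

namespace Crest.Agent.R006.P5b

open Finset

/-- `x (x+1) / 2` as a real number -/
noncomputable def tri (x : ℤ) : ℝ := (x : ℝ) * (x + 1) / 2

/-- value of the certificate in one class -/
noncomputable def clsVal (M D a b : ℤ) : ℝ := (M : ℝ) * D - tri D - tri (D + a) - tri (D + b)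

/-- nearest potential -/
noncomputable def Dopt (M a b : ℤ) : ℤ := round (((M : ℝ) - a - b - 3 / 2) / 3)

lemma clsVal_Dopt (M a b : ℤ) :
    ((M : ℝ) - a - b - 3 / 2) ^ 2 / 6 - ((a : ℝ) ^ 2 + a + b ^ 2 + b) / 2 - 3 / 8 ≤
      clsVal M (Dopt M a b) a b := by
  have h := abs_sub_round (((M : ℝ) - a - b - 3 / 2) / 3)
  have hD : (Dopt M a b : ℝ) = round (((M : ℝ) - a - b - 3 / 2) / 3) := rfl
  rw [← hD] at h
  generalize (Dopt M a b : ℤ) = d at h
  unfold clsVal tri
  push_cast
  generalize hd : (d : ℝ) = y at h ⊢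
  have h2 : (((M : ℝ) - a - b - 3 / 2) / 3 - y) ^ 2 ≤ 1 / 4 := by
    have := sq_le_sq' (by linarith [(abs_le.mp h).1]) (abs_le.mp h).2
    linarith
  nlinarith

/-- the identity behind the closed form -/
lemma key_identity (P A q K δ ε : ℝ) (hP : P ≠ 0) :
    P * (((A + q + K) / P - ((A - q) / P + δ) - ((K - q) / P + ε) - 3 / 2) ^ 2 / 6
      - (((A - q) / P + δ) ^ 2 + ((A - q) / P + δ) + ((K - q) / P + ε) ^ 2 + ((K - q) / P + ε)) / 2)
      + ((A - q) / P + δ) * A + ((K - q) / P + ε) * K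
    = (A ^ 2 + K ^ 2 + q ^ 2) / (2 * P) - (A + q + K) / 2 + 3 * P / 8
      - P * ((δ ^ 2 + ε ^ 2 - δ * ε) / 3) := by
  field_simp
  ring

lemma quad_le {δ ε : ℝ} (hδ : |δ| ≤ 1 / 2) (hε : |ε| ≤ 1 / 2) :
    (δ ^ 2 + ε ^ 2 - δ * ε) / 3 ≤ 1 / 4 := by
  have hδ2 := abs_le.mp hδ
  have hε2 := abs_le.mp hε
  have h1 : δ ^ 2 ≤ 1 / 4 := by nlinarith
  have h2 : ε ^ 2 ≤ 1 / 4 := by nlinarith
  have h3 : -(δ * ε) ≤ 1 / 4 := by nlinarith
  linarith

variable {ι : Type*} [Fintype ι]

/-- deviations from the mean have sum zero -/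
lemma sum_dev (f : ι → ℝ) {p S : ℝ} (hp : (Fintype.card ι : ℝ) = p) (hp0 : 0 < p)
    (hS : ∑ c, f c = S) : ∑ c, (f c - S / p) = 0 := by
  rw [Finset.sum_sub_distrib, Finset.sum_const, Finset.card_univ, nsmul_eq_mul, hp, hS]
  field_simp
  ring

/-- expansion of the sum of the class values -/
lemma sum_expand (m α β : ι → ℝ) {p : ℝ} (hp : (Fintype.card ι : ℝ) = p) (e a0 b0 : ℝ)
    (hm : ∑ c, m c = 0) (hα : ∑ c, α c = 0) (hβ : ∑ c, β c = 0) :
    ∑ c, ((m c - α c - β c + e) ^ 2 / 6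
      - ((α c + a0) ^ 2 + (α c + a0) + (β c + b0) ^ 2 + (β c + b0)) / 2 - 3 / 8)
      = (∑ c, (m c - α c - β c) ^ 2) / 6 - (∑ c, (α c ^ 2 + β c ^ 2)) / 2
        + p * (e ^ 2 / 6 - (a0 ^ 2 + a0 + b0 ^ 2 + b0) / 2 - 3 / 8) := by
  have hpt : ∀ c, ((m c - α c - β c + e) ^ 2 / 6
      - ((α c + a0) ^ 2 + (α c + a0) + (β c + b0) ^ 2 + (β c + b0)) / 2 - 3 / 8)
      = (m c - α c - β c) ^ 2 / 6 - (α c ^ 2 + β c ^ 2) / 2
        + (e ^ 2 / 6 - (a0 ^ 2 + a0 + b0 ^ 2 + b0) / 2 - 3 / 8)
        + (e / 3) * m c + (-(e / 3) - a0 - 1 / 2) * α c + (-(e / 3) - b0 - 1 / 2) * β c := by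
    intro c; ring
  rw [Finset.sum_congr rfl fun c _ => hpt c]
  rw [Finset.sum_add_distrib, Finset.sum_add_distrib, Finset.sum_add_distrib,
    Finset.sum_add_distrib, Finset.sum_sub_distrib, ← Finset.mul_sum, ← Finset.mul_sum,
    ← Finset.mul_sum, ← Finset.sum_div, ← Finset.sum_div, hm, hα, hβ, Finset.sum_const,
    Finset.card_univ, nsmul_eq_mul, hp]
  ring

/-- the optimal multiplier (an explicit integer) -/
noncomputable def lamOpt (p A q S : ℝ) : ℤ := round ((A - q) / p - S / p)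

/-- **Arithmetic core of P5b.** -/
theorem core (M α β : ι → ℤ) (A q K : ℤ) (hN : ∑ c, M c = A + q + K) {p : ℝ}
    (hp : (Fintype.card ι : ℝ) = p) (hp0 : 0 < p) (lam mu : ℤ)
    (hlam : lam = lamOpt p A q (∑ c, (α c : ℝ))) (hmu : mu = lamOpt p K q (∑ c, (β c : ℝ))) :
    ((A : ℝ) ^ 2 + K ^ 2 + q ^ 2) / (2 * p) - ((A : ℝ) + q + K) / 2
      - (∑ c, (α c : ℝ)) / p * A - (∑ c, (β c : ℝ)) / p * K - p / 4
      - (∑ c, (((α c : ℝ) - (∑ c, (α c : ℝ)) / p) ^ 2
          + ((β c : ℝ) - (∑ c, (β c : ℝ)) / p) ^ 2)) / 2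
    ≤ (lam : ℝ) * A + mu * K
      + ∑ c, clsVal (M c) (Dopt (M c) (lam + α c) (mu + β c)) (lam + α c) (mu + β c) := by
  obtain ⟨δ, hδ⟩ : ∃ δ : ℝ, δ = (lam : ℝ) - (((A : ℝ) - q) / p - (∑ c, (α c : ℝ)) / p) := ⟨_, rfl⟩
  obtain ⟨ε, hε⟩ : ∃ ε : ℝ, ε = (mu : ℝ) - (((K : ℝ) - q) / p - (∑ c, (β c : ℝ)) / p) := ⟨_, rfl⟩
  have hδ1 : |δ| ≤ 1 / 2 := by
    have h := abs_sub_round (((A : ℝ) - q) / p - (∑ c, (α c : ℝ)) / p)
    rw [abs_sub_comm] at h
    rw [hδ, hlam]
    exact h
  have hε1 : |ε| ≤ 1 / 2 := by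
    have h := abs_sub_round (((K : ℝ) - q) / p - (∑ c, (β c : ℝ)) / p)
    rw [abs_sub_comm] at h
    rw [hε, hmu]
    exact h
  have hq := quad_le hδ1 hε1
  have hNr : ∑ c, (M c : ℝ) = (A : ℝ) + q + K := by exact_mod_cast hN
  have hsumα := sum_dev (fun c => (α c : ℝ)) hp hp0 rfl
  have hsumβ := sum_dev (fun c => (β c : ℝ)) hp hp0 rfl
  have hsumM := sum_dev (fun c => (M c : ℝ)) hp hp0 hNr
  generalize (∑ c, (α c : ℝ)) / p = αb at *
  generalize (∑ c, (β c : ℝ)) / p = βb at *
  have hexp := sum_expand (fun c => (M c : ℝ) - ((A : ℝ) + q + K) / p)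
    (fun c => (α c : ℝ) - αb) (fun c => (β c : ℝ) - βb) hp
    (((A : ℝ) + q + K) / p - (((A : ℝ) - q) / p + δ) - (((K : ℝ) - q) / p + ε) - 3 / 2)
    (((A : ℝ) - q) / p + δ) (((K : ℝ) - q) / p + ε) hsumM hsumα hsumβ
  have hcls : ∀ c ∈ (univ : Finset ι), (((M c : ℝ) - ((A : ℝ) + q + K) / p) - ((α c : ℝ) - αb)
      - ((β c : ℝ) - βb) + (((A : ℝ) + q + K) / p - (((A : ℝ) - q) / p + δ)
        - (((K : ℝ) - q) / p + ε) - 3 / 2)) ^ 2 / 6
      - ((((α c : ℝ) - αb) + (((A : ℝ) - q) / p + δ)) ^ 2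
        + (((α c : ℝ) - αb) + (((A : ℝ) - q) / p + δ))
        + (((β c : ℝ) - βb) + (((K : ℝ) - q) / p + ε)) ^ 2
        + (((β c : ℝ) - βb) + (((K : ℝ) - q) / p + ε))) / 2 - 3 / 8
      ≤ clsVal (M c) (Dopt (M c) (lam + α c) (mu + β c)) (lam + α c) (mu + β c) := by
    intro c _
    refine le_trans (le_of_eq ?_) (clsVal_Dopt (M c) (lam + α c) (mu + β c))
    have e1 : ((lam + α c : ℤ) : ℝ) = ((α c : ℝ) - αb) + (((A : ℝ) - q) / p + δ) := by
      push_cast; linarith
    have e2 : ((mu + β c : ℤ) : ℝ) = ((β c : ℝ) - βb) + (((K : ℝ) - q) / p + ε) := by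
      push_cast; linarith
    rw [e1, e2]
    ring
  have hsum := Finset.sum_le_sum hcls
  rw [hexp] at hsum
  have hX : 0 ≤ (∑ c, ((M c : ℝ) - ((A : ℝ) + q + K) / p - ((α c : ℝ) - αb)
      - ((β c : ℝ) - βb)) ^ 2) / 6 := by positivity
  have hkey := key_identity p A q K δ ε hp0.ne'
  have hpq : p * ((δ ^ 2 + ε ^ 2 - δ * ε) / 3) ≤ p * (1 / 4) :=
    mul_le_mul_of_nonneg_left hq hp0.le
  have hfin : (lam : ℝ) * A + mu * K
      = (((A : ℝ) - q) / p + δ) * A + (((K : ℝ) - q) / p + ε) * K - αb * A - βb * K := by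
    have e1 : (lam : ℝ) = (((A : ℝ) - q) / p + δ) - αb := by linarith
    have e2 : (mu : ℝ) = (((K : ℝ) - q) / p + ε) - βb := by linarith
    rw [e1, e2]; ring
  rw [hfin]
  linarith [hsum, hX, hkey, hpq]

end Crest.Agent.R006.P5b
end

-- ▼ part R006/P5b_Closed_481
section

set_option autoImplicit false

/-!
# Row 6, block P5b: closed form of the loss on the small strip (helper481)

`p` odd, classes `Fin p`, a class is polar iff `2 c < p`.  `z c` = number of gauge zeros in the
class.  The factorial normalisation of the bases against the certificate of `P5b_Core_481`.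
-/

namespace Crest.Agent.R006.P5b

open Finset

/-! ### floor sums -/



lemma floor_fract (p : ℕ) (w : ℕ) :
    ((w / p : ℕ) : ℝ) = (w : ℝ) / p - Int.fract ((w : ℝ) / p) := by
  have h1 := Int.self_sub_floor ((w : ℝ) / p)
  have h2 : ((⌊(w : ℝ) / p⌋₊ : ℕ) : ℝ) = ((⌊(w : ℝ) / p⌋ : ℤ) : ℝ) :=
    natCast_floor_eq_intCast_floor (by positivity)
  rw [Nat.floor_div_eq_div] at h2
  linarith

/-! ### the two families of classes -/

/-- shift of the `R`-potential: polar `2`, regular `-1` -/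
def sP (p : ℕ) (c : Fin p) : ℤ := if 2 * (c : ℕ) < p then 2 else -1

/-- shift of the `Q`-potential: polar `0`, regular `-2` -/
def tP (p : ℕ) (c : Fin p) : ℤ := if 2 * (c : ℕ) < p then 0 else -2






end Crest.Agent.R006.P5b
end

-- ▼ part R006/P5b_Cert_481
section

set_option autoImplicit false
set_option linter.unusedSectionVars false

/-!
# Row 6, block P5b: the certificate in toll form (helper481)

Abstract classes `Cl`, shifts `sa c` (`R`-states: cost `l + z c - sa c`) and `sb c` (`Q`-states: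
cost `l - sb c`); polar `sa = 2, sb = 0`, regular `sa = -1, sb = -2`.
One potential `D c ≥ -1` per class.
-/

namespace Crest.Agent.R006.P5b

open Finset Crest.Agent.R006.Tollx814 Crest.Agent.R006.P4Toll961

/-- truncated linear toll -/
def toll (θ : ℤ) (l : ℕ) : ℤ := max 0 (θ - l)

lemma toll_nonneg (θ : ℤ) (l : ℕ) : 0 ≤ toll θ l := le_max_left _ _

lemma le_toll (θ : ℤ) (l : ℕ) : θ - l ≤ toll θ l := le_max_right _ _

lemma two_sum_toll (θ : ℤ) (n : ℕ) : 2 * ∑ l ∈ range n, toll θ l ≤ θ * (θ + 1) := by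
  -- for θ ≤ 0 the sum vanishes
  have h0 : 0 ≤ θ * (θ + 1) := by
    rcases le_or_gt 0 θ with h | h
    · positivity
    · nlinarith
  rcases le_or_gt θ 0 with h | h
  · have : ∑ l ∈ range n, toll θ l = 0 := by
      refine Finset.sum_eq_zero fun l _ => ?_
      unfold toll
      exact max_eq_left (by
        have : (0 : ℤ) ≤ l := Nat.cast_nonneg l
        linarith)
    rw [this]; simp [h0]
  · obtain ⟨k, rfl⟩ : ∃ k : ℕ, θ = k := ⟨θ.toNat, (Int.toNat_of_nonneg h.le).symm⟩
    -- ∑_{l<n} max 0 (k-l) ≤ ∑_{l<k} (k-l)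
    have key : ∀ n : ℕ, 2 * ∑ l ∈ range n, toll (k : ℤ) l ≤ (k : ℤ) * (k + 1) ∧
        (n ≤ k → 2 * ∑ l ∈ range n, toll (k : ℤ) l = (n : ℤ) * (2 * k + 1 - n)) := by
      intro n
      induction n with
      | zero => exact ⟨by simpa using h0, fun _ => by simp⟩
      | succ n ih =>
        rw [Finset.sum_range_succ, mul_add]
        by_cases hn : n < k
        · have h1 : toll (k : ℤ) n = (k : ℤ) - n := by
            unfold toll
            exact max_eq_right (by
              have : (n : ℤ) ≤ k := by exact_mod_cast hn.le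
              linarith)
          have h2 := ih.2 hn.le
          have h3 : 2 * ∑ l ∈ range n, toll (k : ℤ) l + 2 * toll (k : ℤ) n
              = ((n + 1 : ℕ) : ℤ) * (2 * k + 1 - ((n + 1 : ℕ) : ℤ)) := by
            rw [h1, h2]; push_cast; ring
          refine ⟨?_, fun _ => h3⟩
          rw [h3]
          push_cast
          have hnk : (n : ℤ) + 1 ≤ k := by exact_mod_cast hn
          nlinarith [mul_nonneg (sub_nonneg.mpr hnk) (sub_nonneg.mpr hnk)]
        · have h1 : toll (k : ℤ) n = 0 := by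
            unfold toll
            exact max_eq_left (by
              have : (k : ℤ) ≤ n := by exact_mod_cast not_lt.mp hn
              linarith)
          rw [h1]
          refine ⟨by simpa using ih.1, fun hk => absurd (by omega) hn⟩
    exact (key n).1


variable {A : Type*} [CommRing A]
variable {Cl : Type*} [Fintype Cl] [DecidableEq Cl]
variable {jR jT jQ jU : Type*} [Fintype jR] [DecidableEq jR] [Fintype jT] [DecidableEq jT]
  [Fintype jQ] [DecidableEq jQ] [Fintype jU] [DecidableEq jU]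
variable {N : ℕ}
variable {ι : Type*} [Fintype ι] [DecidableEq ι]

/-- the costs of decomposition A -/
structure CostA (Fil : ZFil A) (W : Net A Cl jR jT jQ N) (r : Rows A Cl jR jT jQ jU N ι)
    (z sa sb : Cl → ℤ) (ord : ι → ℕ) (E : ℤ) : Prop where
  rho : ∀ c l j, W.rho c l j ∈ Fil.F 0
  th0 : ∀ c l j, W.th0 c l j ∈ Fil.F 0
  q : ∀ c l j, W.q c l j ∈ Fil.F 0
  A : ∀ i (l : Fin N), r.cA i l ∈ Fil.F (z (r.cls i) + (l : ℕ) - sa (r.cls i) - ord i)
  B : ∀ i (s : Fin N), r.cB i s ∈ Fil.F (((s : ℕ) : ℤ) - ord i)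
  C : ∀ i (u : Fin N), r.cC i u ∈ Fil.F (((u : ℕ) : ℤ) - sb (r.cls i) - ord i)
  err : ∀ i d, r.err i d ∈ Fil.F E
  near : ∀ c s l, W.near c s l = 0
  far : ∀ c s c' k, W.far c s c' k ∈ Fil.F 0
  errX : ∀ c s j, W.errX c s j ∈ Fil.F E
  Lam : ∀ c (k l : Fin N), W.Lam c k l ∈ Fil.F (z c + (l : ℕ) + 1 - sa c)
  errB : ∀ c k j, W.errB c k j ∈ Fil.F E







end Crest.Agent.R006.P5b
end

-- ▼ part R006/P5_MidArith_788
section

/-!
# Row 6, block P5, mid range: the class sums of the closed-form certificate (helper788)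

For `p² > ` all sizes the closed-form tolls (`λ = ⌊(a₁+k)u/p⌋ + ⌊i₁u/p⌋`, `μ = ⌊gu/p⌋ + 1`,
`ν = ⌊qu/p⌋`) and the normalising factorials give the loss
`u (k/2 - g) + 2 p - ⌊ku/p⌋ (i₁u mod p) + O(u/p)` (plus the jets).

* `two_sum_toll_le` : `2 ∑_{l<L} (x - l)^+ ≤ x (x+1)`;
* `R_part`, `Q_part`, `T_part` : the three parts, abstractly;
* `cnt` facts : `cnt_mem`, `sum_cnt`, `sum_cnt_polar`;
* `mid_arith` : the total.
-/

set_option autoImplicit false

open Finset

namespace Crest.Agent.R006.P5Mid788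

open Crest.Agent.R006.RefClass555

/-! ### tolls -/


/-! ### polar / regular -/

/-- sign of a class: `+1` polar (`2 c < p`), `-1` regular -/
def sg (p c : ℕ) : ℤ := if 2 * c < p then 1 else -1

/-- `ε_c` : `-2` polar, `+1` regular -/
def eps (p c : ℕ) : ℤ := if 2 * c < p then -2 else 1

/-- `δ_c` : `0` polar, `2` regular -/
def del (p c : ℕ) : ℤ := if 2 * c < p then 0 else 2

lemma sum_sg (p : ℕ) (hodd : p % 2 = 1) : ∑ c ∈ range p, sg p c = 1 := by
  obtain ⟨h, rfl⟩ : ∃ h, p = h + 1 + h := ⟨p / 2, by omega⟩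
  rw [Finset.sum_range_add]
  have h1 : ∀ c ∈ range (h + 1), sg (h + 1 + h) c = 1 := by
    intro c hc
    have := mem_range.mp hc
    unfold sg
    rw [if_pos (by omega)]
  have h2 : ∀ c ∈ range h, sg (h + 1 + h) (h + 1 + c) = -1 := by
    intro c hc
    unfold sg
    rw [if_neg (by omega)]
  rw [Finset.sum_congr rfl h1, Finset.sum_congr rfl h2]
  simp


/-- an antitone function has more mass on the polar classes -/
lemma sum_sg_mul_nonneg (p : ℕ) (hodd : p % 2 = 1) (f : ℕ → ℤ) (hf : ∀ c, c < p → 0 ≤ f c)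
    (hanti : ∀ c d, c ≤ d → d < p → f d ≤ f c) : 0 ≤ ∑ c ∈ range p, sg p c * f c := by
  obtain ⟨h, rfl⟩ : ∃ h, p = h + 1 + h := ⟨p / 2, by omega⟩
  rw [Finset.sum_range_add, Finset.sum_range_succ]
  have h1 : ∀ c ∈ range h, sg (h + 1 + h) c * f c = f c := by
    intro c hc
    have := mem_range.mp hc
    unfold sg
    rw [if_pos (by omega), one_mul]
  have h2 : ∀ c ∈ range h, sg (h + 1 + h) (h + 1 + c) * f (h + 1 + c) = -f (h + 1 + c) := by
    intro c hc
    unfold sg
    rw [if_neg (by omega)]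
    ring
  have h0 : sg (h + 1 + h) h * f h = f h := by
    unfold sg
    rw [if_pos (by omega), one_mul]
  rw [Finset.sum_congr rfl h1, Finset.sum_congr rfl h2, h0, Finset.sum_neg_distrib]
  have h3 : ∑ c ∈ range h, f (h + 1 + c) ≤ ∑ c ∈ range h, f c := by
    refine Finset.sum_le_sum fun c hc => hanti _ _ (by omega) ?_
    have := mem_range.mp hc
    omega
  have h4 := hf h (by omega)
  linarith

/-! ### the three parts -/


/-- **Q-part** (doubled), `n c ∈ {mu - 1, mu}` columns in the class `c`. -/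
theorem Q_part (p : ℕ) (hodd : p % 2 = 1) (n : ℕ → ℤ) (mu : ℤ)
    (hn : ∀ c, c < p → n c = mu - 1 ∨ n c = mu) :
    ∑ c ∈ range p, (n c * (n c - 1) - 2 * mu * n c + (mu - del p c) * (mu - del p c + 1))
      = -2 * ∑ c ∈ range p, n c + p - 1 + 2 * mu := by
  have hs := sum_sg p hodd
  have key : ∀ c ∈ range p, (n c * (n c - 1) - 2 * mu * n c
        + (mu - del p c) * (mu - del p c + 1))
      = 2 * mu - 2 * n c + (1 - 2 * mu) * (1 - sg p c) := by
    intro c hc
    have hc' := mem_range.mp hc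
    unfold sg del
    split_ifs with hp <;> rcases hn c hc' with h | h <;> rw [h] <;> ring
  rw [Finset.sum_congr rfl key]
  simp only [Finset.sum_add_distrib, Finset.sum_sub_distrib, ← Finset.mul_sum,
      Finset.sum_const, Finset.card_range, nsmul_eq_mul]
  rw [hs]
  ring

/-- **T-part** (doubled), `n c ∈ {nu, nu + 1}` columns in the class `c`. -/
theorem T_part (p : ℕ) (n : ℕ → ℤ) (nu : ℤ)
    (hn : ∀ c, c < p → n c = nu ∨ n c = nu + 1) :
    ∑ c ∈ range p, (n c * (n c - 1) - 2 * nu * n c + nu * (nu + 1)) = 0 := by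
  refine Finset.sum_eq_zero fun c hc => ?_
  rcases hn c (mem_range.mp hc) with h | h <;> rw [h] <;> ring

/-! ### facts on `cnt` -/

lemma cnt_mem (n p c : ℕ) (hc : c < p) : cnt n p c = n / p ∨ cnt n p c = n / p + 1 := by
  have hp : 0 < p := by omega
  unfold cnt
  have h1 : n / p ≤ (n + p - 1 - c) / p := Nat.div_le_div_right (by omega)
  have h2 : (n + p - 1 - c) / p ≤ n / p + 1 := by
    rw [← Nat.add_div_right n hp]
    exact Nat.div_le_div_right (by omega)
  omega

lemma cnt_anti (n p c d : ℕ) (hcd : c ≤ d) : cnt n p d ≤ cnt n p c :=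
  Nat.div_le_div_right (by omega)

lemma sum_cnt (n p : ℕ) (hp : 0 < p) : ∑ c ∈ range p, cnt n p c = n := by
  induction n with
  | zero => exact Finset.sum_eq_zero fun c hc => cnt_zero p c (mem_range.mp hc)
  | succ n ih =>
    have h1 : ∀ c ∈ range p, cnt (n + 1) p c = cnt n p c + if n % p = c then 1 else 0 :=
      fun c hc => cnt_succ n p c (mem_range.mp hc)
    rw [Finset.sum_congr rfl h1, Finset.sum_add_distrib, ih, Finset.sum_ite_eq,
      if_pos (mem_range.mpr (Nat.mod_lt n hp))]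

lemma cnt_add_ge (n m p c : ℕ) (hc : c < p) : cnt n p c + m / p ≤ cnt (n + m) p c := by
  have hp : 0 < p := by omega
  unfold cnt
  have h1 : n + m + p - 1 - c = (n + p - 1 - c) + m := by omega
  rw [h1]
  exact Nat.div_add_div_le_add_div

lemma sum_sg_cnt (n p : ℕ) (hodd : p % 2 = 1) :
    0 ≤ ∑ c ∈ range p, sg p c * (cnt n p c : ℤ) :=
  sum_sg_mul_nonneg p hodd (fun c => (cnt n p c : ℤ)) (fun _ _ => Int.natCast_nonneg _)
    fun c d hcd _ => by exact_mod_cast cnt_anti n p c d hcd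

/-! ### the half-integer window -/

/-- the reflection `c ↦ -1/2 - c` mod `p` : `(p-1)/2 - c` (polar), `(3p-1)/2 - c` (regular) -/
def rfl2 (p c : ℕ) : ℕ := if 2 * c < p then (p - 1) / 2 - c else (3 * p - 1) / 2 - c

lemma rfl2_lt (p c : ℕ) (hc : c < p) (hodd : p % 2 = 1) : rfl2 p c < p := by
  unfold rfl2; split_ifs <;> omega

lemma sg_rfl2 (p c : ℕ) (hc : c < p) (hodd : p % 2 = 1) : sg p (rfl2 p c) = sg p c := by
  unfold sg rfl2
  by_cases h : 2 * c < p
  · rw [if_pos h, if_pos h, if_pos (by omega)]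
  · rw [if_neg h, if_neg h, if_neg (by omega)]

lemma rfl2_rfl2 (p c : ℕ) (hc : c < p) (hodd : p % 2 = 1) : rfl2 p (rfl2 p c) = c := by
  unfold rfl2
  by_cases h : 2 * c < p
  · rw [if_pos h, if_pos (by omega)]
    omega
  · rw [if_neg h, if_neg (by omega)]
    omega

lemma sum_rfl2 {M : Type*} [AddCommMonoid M] (p : ℕ) (hodd : p % 2 = 1) (f : ℕ → M) :
    ∑ c ∈ range p, f (rfl2 p c) = ∑ c ∈ range p, f c := by
  refine Finset.sum_nbij' (rfl2 p) (rfl2 p) ?_ ?_ ?_ ?_ ?_
  · exact fun c hc => mem_range.mpr (rfl2_lt p c (mem_range.mp hc) hodd)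
  · exact fun c hc => mem_range.mpr (rfl2_lt p c (mem_range.mp hc) hodd)
  · exact fun c hc => rfl2_rfl2 p c (mem_range.mp hc) hodd
  · exact fun c hc => rfl2_rfl2 p c (mem_range.mp hc) hodd
  · exact fun c hc => rfl

/-- number of `m < n` with `-1/2 - m ≡ c` mod `p` -/
def cntH (n p c : ℕ) : ℕ := cnt n p (rfl2 p c)

lemma cntH_mem (n p c : ℕ) (hc : c < p) (hodd : p % 2 = 1) :
    cntH n p c = n / p ∨ cntH n p c = n / p + 1 := cnt_mem n p _ (rfl2_lt p c hc hodd)

lemma sum_cntH (n p : ℕ) (hodd : p % 2 = 1) : ∑ c ∈ range p, cntH n p c = n := by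
  unfold cntH
  rw [sum_rfl2 p hodd (fun c => cnt n p c)]
  exact sum_cnt n p (by omega)

lemma sum_sg_cntH (n p : ℕ) (hodd : p % 2 = 1) :
    0 ≤ ∑ c ∈ range p, sg p c * (cntH n p c : ℤ) := by
  have h : ∑ c ∈ range p, sg p c * (cntH n p c : ℤ)
      = ∑ c ∈ range p, (fun d => sg p d * (cnt n p d : ℤ)) (rfl2 p c) := by
    refine Finset.sum_congr rfl fun c hc => ?_
    simp only
    rw [sg_rfl2 p c (mem_range.mp hc) hodd]
    rfl
  rw [h, sum_rfl2 p hodd (fun d => sg p d * (cnt n p d : ℤ))]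
  exact sum_sg_cnt n p hodd

/-! ### the total -/











end Crest.Agent.R006.P5Mid788
end

-- ▼ part R006/P5b_Closed2_788
section

/-!
# Row 6, block P5b: sharper closed form of the loss on the small strip (helper788)

The constant potential `ν = ⌊q/p⌋`, `λ' = ⌊(a+A)/p⌋ + ⌊w/p⌋ - ν`, `μ' = ⌊K/p⌋ + 1 - ν` in 481's
format: the factorial normalisation minus the certificate is at most
`A/2 - K + (9/4) p - A fract (w/p) + O(1/p)`.
-/

set_option autoImplicit false

open Finset

namespace Crest.Agent.R006.P5Mid788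

open Crest.Agent.R006.RefClass555 Crest.Agent.R006.P5b

/-- **R-part** with the exact cross term (doubled). -/
theorem R_part' (p : ℕ) (hodd : p % 2 = 1) (A a y : ℕ → ℤ) (lam Y D G : ℤ)
    (hD : ∀ c, c < p → (A c + y c - lam) * (A c + y c - lam - 2) ≤ D)
    (ha : 0 ≤ ∑ c ∈ range p, sg p c * a c) (hyG : -G ≤ ∑ c ∈ range p, sg p c * y c) :
    ∑ c ∈ range p, (A c * (A c - 1) - a c * (a c - 1) + 2 * (A c - a c) * (Y - lam)
        + (lam - eps p c - a c - y c) * (lam - eps p c - a c - y c + 1))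
      ≤ ∑ c ∈ range p, (A c - a c) + 3 * lam + 3 * (p + 1) + D * p + 3 * G
        - 2 * ∑ c ∈ range p, (A c - a c) * (y c - Y) := by
  have hs := sum_sg p hodd
  have key : ∀ c ∈ range p, (A c * (A c - 1) - a c * (a c - 1) + 2 * (A c - a c) * (Y - lam)
        + (lam - eps p c - a c - y c) * (lam - eps p c - a c - y c + 1))
      ≤ D + (A c - a c) + 3 * lam * sg p c - 3 * (sg p c * a c) - 3 * (sg p c * y c)
        + 3 * (1 + sg p c) - 2 * ((A c - a c) * (y c - Y)) := by
    intro c hc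
    have hc' := mem_range.mp hc
    have h1 := hD c hc'
    unfold sg eps
    split_ifs with hp
    · have e : A c * (A c - 1) - a c * (a c - 1) + 2 * (A c - a c) * (Y - lam)
          + (lam - -2 - a c - y c) * (lam - -2 - a c - y c + 1)
          = (A c + y c - lam) * (A c + y c - lam - 2) + (A c - a c) + 3 * (lam - a c - y c) + 6
            - 2 * ((A c - a c) * (y c - Y)) := by ring
      rw [e]
      linarith
    · have e : A c * (A c - 1) - a c * (a c - 1) + 2 * (A c - a c) * (Y - lam)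
          + (lam - 1 - a c - y c) * (lam - 1 - a c - y c + 1)
          = (A c + y c - lam) * (A c + y c - lam - 2) + (A c - a c) - 3 * (lam - a c - y c)
            - 2 * ((A c - a c) * (y c - Y)) := by ring
      rw [e]
      linarith
  refine (Finset.sum_le_sum key).trans ?_
  have e : ∑ c ∈ range p, (D + (A c - a c) + 3 * lam * sg p c - 3 * (sg p c * a c)
        - 3 * (sg p c * y c) + 3 * (1 + sg p c) - 2 * ((A c - a c) * (y c - Y)))
      = D * p + ∑ c ∈ range p, (A c - a c) + 3 * lam * ∑ c ∈ range p, sg p c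
        - 3 * ∑ c ∈ range p, sg p c * a c - 3 * ∑ c ∈ range p, sg p c * y c
        + 3 * (p + ∑ c ∈ range p, sg p c) - 2 * ∑ c ∈ range p, (A c - a c) * (y c - Y) := by
    simp only [Finset.sum_add_distrib, Finset.sum_sub_distrib, ← Finset.mul_sum,
      Finset.sum_const, Finset.card_range, nsmul_eq_mul]
    ring
  rw [e, hs]
  linarith

/-- the cross term: two `0/1`-valued families with sums `r`, `κ` -/
lemma cross_ge (p : ℕ) (hp : 0 < p) (x y : ℕ → ℤ) (m r κ : ℤ)
    (hx : ∀ c, c < p → x c = m ∨ x c = m + 1) (hy : ∀ c, c < p → y c = 0 ∨ y c = 1)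
    (hr : ∑ c ∈ range p, x c = m * p + r) (hκ : ∑ c ∈ range p, y c = κ) (hr0 : 0 ≤ r) (hrp : r ≤ p)
    (hκ0 : 0 ≤ κ) (hκp : κ ≤ p) :
    ((m * p + r : ℤ) : ℝ) * κ / p - p / 4 ≤ ((∑ c ∈ range p, x c * y c : ℤ) : ℝ) := by
  have hp' : (0 : ℝ) < p := by exact_mod_cast hp
  -- two lower bounds
  have h1 : m * κ ≤ ∑ c ∈ range p, x c * y c := by
    rw [← hκ, Finset.mul_sum]
    refine Finset.sum_le_sum fun c hc => ?_
    have hc' := mem_range.mp hc
    rcases hx c hc' with h | h <;> rcases hy c hc' with h' | h' <;> rw [h, h'] <;> linarith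
  have h2 : m * κ + (r + κ - p) ≤ ∑ c ∈ range p, x c * y c := by
    have e : m * κ + (r + κ - p) = ∑ c ∈ range p, (m * y c + (x c - m + y c - 1)) := by
      rw [Finset.sum_add_distrib, Finset.sum_sub_distrib, Finset.sum_add_distrib,
        Finset.sum_sub_distrib, ← Finset.mul_sum, hr, hκ]
      simp only [Finset.sum_const, Finset.card_range, nsmul_eq_mul]
      ring
    rw [e]
    refine Finset.sum_le_sum fun c hc => ?_
    have hc' := mem_range.mp hc
    rcases hx c hc' with h | h <;> rcases hy c hc' with h' | h' <;> rw [h, h'] <;> linarith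
  have h1' : (m : ℝ) * κ ≤ ((∑ c ∈ range p, x c * y c : ℤ) : ℝ) := by exact_mod_cast h1
  have h2' : (m : ℝ) * κ + (r + κ - p) ≤ ((∑ c ∈ range p, x c * y c : ℤ) : ℝ) := by
    exact_mod_cast h2
  have hr0' : (0 : ℝ) ≤ r := by exact_mod_cast hr0
  have hrp' : (r : ℝ) ≤ p := by exact_mod_cast hrp
  have hκ0' : (0 : ℝ) ≤ κ := by exact_mod_cast hκ0
  have hκp' : (κ : ℝ) ≤ p := by exact_mod_cast hκp
  have e : ((m * p + r : ℤ) : ℝ) * κ / p = m * κ + r * κ / p := by
    push_cast
    field_simp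
  rw [e]
  rcases le_total ((r : ℝ) + κ) p with h | h
  · have : (r : ℝ) * κ / p ≤ p / 4 := by
      rw [div_le_div_iff₀ hp' (by norm_num)]
      nlinarith [sq_nonneg ((r : ℝ) - κ)]
    linarith
  · have : (r : ℝ) * κ / p ≤ p / 4 + (r + κ - p) := by
      rw [div_le_iff₀ hp']
      nlinarith [sq_nonneg ((r : ℝ) - κ), mul_nonneg (sub_nonneg.mpr hrp') (sub_nonneg.mpr hκp')]
    linarith

lemma two_sum_floor (n p : ℕ) (hp : 0 < p) :
    (2 * ((∑ l ∈ range n, l / p : ℕ) : ℤ))
      = ∑ c ∈ range p, (cnt n p c : ℤ) * ((cnt n p c : ℤ) - 1) := by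
  rw [sum_div_eq n p hp]
  rw [Nat.cast_sum, Finset.mul_sum]
  exact Finset.sum_congr rfl fun c _ => two_mul_choose_two _

lemma two_sum_floor_shift (a n p : ℕ) (hp : 0 < p) :
    (2 * ((∑ l ∈ range n, (a + l) / p : ℕ) : ℤ))
      = ∑ c ∈ range p, ((cnt (a + n) p c : ℤ) * ((cnt (a + n) p c : ℤ) - 1)
          - (cnt a p c : ℤ) * ((cnt a p c : ℤ) - 1)) := by
  rw [Finset.sum_sub_distrib, ← two_sum_floor _ p hp, ← two_sum_floor _ p hp,
    Finset.sum_range_add]
  push_cast
  ring

lemma cnt_add_le (n m p c : ℕ) (hc : c < p) : cnt (n + m) p c ≤ cnt n p c + m / p + 1 := by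
  have hp : 0 < p := by omega
  unfold cnt
  have h1 : n + m + p - 1 - c = (n + p - 1 - c) + m := by omega
  rw [h1, Nat.add_div hp]
  split_ifs <;> omega

/-- **Closed form of the loss**, slope `9/4`. -/
theorem closed2 (p : ℕ) (hodd : p % 2 = 1) (M z : Fin p → ℤ) (A q K a w : ℕ)
    (hN : ∑ c, M c = A + q + K) (hz : ∀ c : Fin p, z c = cnt a p c + cntH w p c)
    (lam mu nu : ℤ) (hlam : lam = ((a + A) / p : ℕ) + (w / p : ℕ) - (q / p : ℕ))
    (hmu : mu = (K / p : ℕ) + 1 - (q / p : ℕ)) (hnu : nu = (q / p : ℕ)) :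
    ((∑ l ∈ range A, (a + l) / p : ℕ) : ℝ) + A * ((w / p : ℕ) : ℝ)
      + ((∑ l ∈ range q, l / p : ℕ) : ℝ) + ((∑ l ∈ range K, l / p : ℕ) : ℝ)
      - ((lam : ℝ) * A + mu * K
        + ∑ c, clsVal (M c) nu (lam + (sP p c - z c)) (mu + tP p c))
    ≤ (A : ℝ) / 2 - K + 9 / 4 * p - A * Int.fract ((w : ℝ) / p)
      + (3 / 2 * (a + A + w) + K) / p + 2 := by
  have hp0 : 0 < p := by omega
  have hpr : (0 : ℝ) < p := by exact_mod_cast hp0
  set AA : ℕ → ℤ := fun c => (cnt (a + A) p c : ℤ) with hAA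
  set aa : ℕ → ℤ := fun c => (cnt a p c : ℤ) with haa
  set y : ℕ → ℤ := fun c => (cntH w p c : ℤ) with hy
  set nq : ℕ → ℤ := fun c => (cnt q p c : ℤ) with hnq
  set ng : ℕ → ℤ := fun c => (cnt K p c : ℤ) with hng
  set Y : ℤ := ((w / p : ℕ) : ℤ) with hY
  set m : ℤ := ((A / p : ℕ) : ℤ) with hm
  set L : ℤ := (((a + A) / p : ℕ) : ℤ) + Y with hL
  set U : ℤ := ((K / p : ℕ) : ℤ) + 1 with hU
  have sA : ∑ c ∈ range p, AA c = a + A := by
    have := sum_cnt (a + A) p hp0
    have h : ((∑ c ∈ range p, cnt (a + A) p c : ℕ) : ℤ) = ((a + A : ℕ) : ℤ) := by rw [this]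
    push_cast at h
    exact h
  have sa : ∑ c ∈ range p, aa c = a := by
    have := sum_cnt a p hp0
    have h : ((∑ c ∈ range p, cnt a p c : ℕ) : ℤ) = ((a : ℕ) : ℤ) := by rw [this]
    push_cast at h
    exact h
  have sq' : ∑ c ∈ range p, nq c = q := by
    have := sum_cnt q p hp0
    have h : ((∑ c ∈ range p, cnt q p c : ℕ) : ℤ) = ((q : ℕ) : ℤ) := by rw [this]
    push_cast at h
    exact h
  have sg' : ∑ c ∈ range p, ng c = K := by
    have := sum_cnt K p hp0
    have h : ((∑ c ∈ range p, cnt K p c : ℕ) : ℤ) = ((K : ℕ) : ℤ) := by rw [this]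
    push_cast at h
    exact h
  have sy : ∑ c ∈ range p, y c = w := by
    have := sum_cntH w p hodd
    have h : ((∑ c ∈ range p, cntH w p c : ℕ) : ℤ) = ((w : ℕ) : ℤ) := by rw [this]
    push_cast at h
    exact h
  have hyY : ∀ c, c < p → y c = Y ∨ y c = Y + 1 := by
    intro c hc
    rcases cntH_mem w p c hc hodd with e | e
    · left; simp only [hy]; rw [e]
    · right; simp only [hy]; rw [e, Nat.cast_succ]
  -- the R-part
  have hR := R_part' p hodd AA aa y L Y 0 0
    (by
      intro c hc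
      have e1' : AA c = (((a + A) / p : ℕ) : ℤ) ∨ AA c = (((a + A) / p : ℕ) : ℤ) + 1 := by
        rcases cnt_mem (a + A) p c hc with e | e
        · left; simp only [hAA]; rw [e]
        · right; simp only [hAA]; rw [e, Nat.cast_succ]
      rw [hL]
      rcases e1' with e | e <;> rcases hyY c hc with e' | e' <;> rw [e, e'] <;> ring_nf <;>
        norm_num)
    (sum_sg_cnt a p hodd) (by simpa using sum_sg_cntH w p hodd)
  have hQ := Q_part p hodd ng U
    (by
      intro c hc
      rcases cnt_mem K p c hc with e | e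
      · left; simp only [hng, hU]; rw [e]; ring
      · right; simp only [hng, hU]; rw [e, Nat.cast_succ])
  have hT := T_part p nq nu
    (by
      intro c hc
      rcases cnt_mem q p c hc with e | e
      · left; simp only [hnq, hnu]; rw [e]
      · right; simp only [hnq, hnu]; rw [e, Nat.cast_succ])
  -- remainders
  have hrA : (A : ℤ) = m * p + (A % p : ℕ) := by
    have := Nat.div_add_mod A p
    have h : ((p * (A / p) + A % p : ℕ) : ℤ) = ((A : ℕ) : ℤ) := by rw [this]
    rw [Nat.cast_add, Nat.cast_mul] at h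
    rw [hm]; linarith
  have hrw : (w : ℤ) = Y * p + (w % p : ℕ) := by
    have := Nat.div_add_mod w p
    have h : ((p * (w / p) + w % p : ℕ) : ℤ) = ((w : ℕ) : ℤ) := by rw [this]
    rw [Nat.cast_add, Nat.cast_mul] at h
    rw [hY]; linarith
  -- the cross term
  have hC := cross_ge p hp0 (fun c => AA c - aa c) (fun c => y c - Y) m ((A % p : ℕ) : ℤ)
    ((w % p : ℕ) : ℤ)
    (by
      intro c hc
      have e1 := cnt_add_ge a A p c hc
      have e2 := cnt_add_le a A p c hc
      simp only [hAA, haa, hm]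
      omega)
    (by
      intro c hc
      rcases hyY c hc with e | e
      · left; rw [e]; ring
      · right; rw [e]; ring)
    (by
      rw [Finset.sum_sub_distrib, sA, sa]; linarith)
    (by
      rw [Finset.sum_sub_distrib, sy]
      simp only [Finset.sum_const, Finset.card_range, nsmul_eq_mul]
      linarith)
    (by positivity) (by exact_mod_cast (Nat.mod_lt A hp0).le)
    (by positivity) (by exact_mod_cast (Nat.mod_lt w hp0).le)
  rw [← hrA] at hC
  have hfr : Int.fract ((w : ℝ) / p) = ((w % p : ℕ) : ℝ) / p := by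
    have h1 := floor_fract p w
    have h2 : (w : ℝ) = (w / p : ℕ) * p + (w % p : ℕ) := by
      have := Nat.div_add_mod w p
      have h : ((p * (w / p) + w % p : ℕ) : ℝ) = ((w : ℕ) : ℝ) := by rw [this]
      rw [Nat.cast_add, Nat.cast_mul] at h
      linarith
    have h3 : Int.fract ((w : ℝ) / p) = (w : ℝ) / p - ((w / p : ℕ) : ℝ) := by linarith
    rw [h3]
    rw [eq_div_iff hpr.ne', sub_mul, div_mul_cancel₀ _ hpr.ne']
    linarith
  have hC' : (A : ℝ) * Int.fract ((w : ℝ) / p) - p / 4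
      ≤ ((∑ c ∈ range p, (AA c - aa c) * (y c - Y) : ℤ) : ℝ) := by
    rw [hfr, ← mul_div_assoc]
    simp only [Int.cast_natCast] at hC
    exact hC
  -- the certificate
  have hcert : 2 * ((lam : ℝ) * A + mu * K
        + ∑ c, clsVal (M c) nu (lam + (sP p c - z c)) (mu + tP p c))
      = ((2 * (L * A + U * K + nu * q)
        - ∑ c ∈ range p, ((L - eps p c - aa c - y c) * (L - eps p c - aa c - y c + 1))
        - ∑ c ∈ range p, nu * (nu + 1)
        - ∑ c ∈ range p, (U - del p c) * (U - del p c + 1) : ℤ) : ℝ) := by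
    have hlam' : lam = L - nu := by rw [hlam, hL, hnu]
    have hmu' : mu = U - nu := by rw [hmu, hU, hnu]
    have e1 : ∀ c : Fin p, 2 * clsVal (M c) nu (lam + (sP p c - z c)) (mu + tP p c)
        = ((2 * nu * M c - (L - eps p c - aa c - y c) * (L - eps p c - aa c - y c + 1)
          - nu * (nu + 1) - (U - del p c) * (U - del p c + 1) : ℤ) : ℝ) := by
      intro c
      have hs : sP p c = -eps p c := by
        unfold sP eps
        split_ifs <;> rfl
      have ht : tP p c = -del p c := by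
        unfold tP del
        split_ifs <;> simp
      unfold clsVal tri
      rw [hs, ht, hz c, hlam', hmu']
      simp only [haa, hy]
      push_cast
      ring
    rw [mul_add, Finset.mul_sum, Finset.sum_congr rfl fun c _ => e1 c, ← Int.cast_sum]
    rw [Finset.sum_sub_distrib, Finset.sum_sub_distrib, Finset.sum_sub_distrib,
      ← Finset.mul_sum, hN]
    rw [Fin.sum_univ_eq_sum_range
        (fun c => (L - eps p c - aa c - y c) * (L - eps p c - aa c - y c + 1)) p,
      Fin.sum_univ_eq_sum_range (fun _ => nu * (nu + 1)) p,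
      Fin.sum_univ_eq_sum_range (fun c => (U - del p c) * (U - del p c + 1)) p]
    rw [hlam', hmu']
    push_cast
    ring
  -- floors
  have n1 := two_sum_floor_shift a A p hp0
  have n3 := two_sum_floor q p hp0
  have n4 := two_sum_floor K p hp0
  have hkA : ∑ c ∈ range p, (AA c - aa c) = A := by
    rw [Finset.sum_sub_distrib, sA, sa]; ring
  have eR : ∑ c ∈ range p, (AA c * (AA c - 1) - aa c * (aa c - 1) + 2 * (AA c - aa c) * (Y - L)
        + (L - eps p c - aa c - y c) * (L - eps p c - aa c - y c + 1))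
      = ∑ c ∈ range p, (AA c * (AA c - 1) - aa c * (aa c - 1)) + 2 * (Y - L) * A
        + ∑ c ∈ range p, ((L - eps p c - aa c - y c) * (L - eps p c - aa c - y c + 1)) := by
    rw [Finset.sum_add_distrib, Finset.sum_add_distrib, ← hkA, Finset.mul_sum]
    congr 2
    exact Finset.sum_congr rfl fun c _ => by ring
  have eQ : ∑ c ∈ range p, (ng c * (ng c - 1) - 2 * U * ng c
        + (U - del p c) * (U - del p c + 1))
      = ∑ c ∈ range p, ng c * (ng c - 1) - 2 * U * K
        + ∑ c ∈ range p, (U - del p c) * (U - del p c + 1) := by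
    rw [Finset.sum_add_distrib, Finset.sum_sub_distrib, ← Finset.mul_sum, sg']
  have eT : ∑ c ∈ range p, (nq c * (nq c - 1) - 2 * nu * nq c + nu * (nu + 1))
      = ∑ c ∈ range p, nq c * (nq c - 1) - 2 * nu * q + ∑ c ∈ range p, nu * (nu + 1) := by
    rw [Finset.sum_add_distrib, Finset.sum_sub_distrib, ← Finset.mul_sum, sq']
  rw [eR, hkA] at hR
  rw [eQ, sg'] at hQ
  rw [eT] at hT
  set FR : ℕ := ∑ l ∈ range A, (a + l) / p with hFR
  set FT : ℕ := ∑ l ∈ range q, l / p with hFT
  set FQ : ℕ := ∑ l ∈ range K, l / p with hFQ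
  set Cr : ℤ := ∑ c ∈ range p, (AA c - aa c) * (y c - Y) with hCr
  -- the integer inequality
  have hint : 2 * (FR : ℤ) + 2 * A * Y + 2 * FT + 2 * FQ - (2 * (L * A + U * K + nu * q)
        - ∑ c ∈ range p, ((L - eps p c - aa c - y c) * (L - eps p c - aa c - y c + 1))
        - ∑ c ∈ range p, nu * (nu + 1)
        - ∑ c ∈ range p, (U - del p c) * (U - del p c + 1))
      ≤ A + 3 * L + 3 * (p + 1) - 2 * K + p - 1 + 2 * U - 2 * Cr := by
    rw [n1, n3, n4]
    linarith
  have hreal : 2 * (FR : ℝ) + 2 * A * Y + 2 * FT + 2 * FQ - 2 * ((lam : ℝ) * A + mu * K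
        + ∑ c, clsVal (M c) nu (lam + (sP p c - z c)) (mu + tP p c))
      ≤ A + 3 * L + 3 * (p + 1) - 2 * K + p - 1 + 2 * U - 2 * Cr := by
    rw [hcert]
    exact_mod_cast hint
  -- bounds for `L`, `U`
  have hLb : (L : ℝ) ≤ (a + A + w) / p := by
    have e1 : (((a + A) / p : ℕ) : ℝ) ≤ ((a + A : ℕ) : ℝ) / p := Nat.cast_div_le
    have e2 : ((w / p : ℕ) : ℝ) ≤ (w : ℝ) / p := Nat.cast_div_le
    rw [hL, hY, Int.cast_add, Int.cast_natCast, Int.cast_natCast, add_div]
    rw [Nat.cast_add] at e1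
    exact add_le_add e1 e2
  have hUb : (U : ℝ) ≤ K / p + 1 := by
    have e1 : ((K / p : ℕ) : ℝ) ≤ (K : ℝ) / p := Nat.cast_div_le
    rw [hU, Int.cast_add, Int.cast_natCast, Int.cast_one]
    linarith
  have hYr : (Y : ℝ) = ((w / p : ℕ) : ℝ) := by rw [hY, Int.cast_natCast]
  rw [hYr] at hreal
  have efin : (3 / 2 * ((a : ℝ) + A + w) + K) / p = 3 / 2 * (((a : ℝ) + A + w) / p) + K / p := by
    field_simp
  rw [efin]
  linarith

/-! ### the number of gauge zeros -/

lemma half_div (x p : ℤ) : (2 * x + 1) / (2 * p) = x / p := by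
  rw [← Int.ediv_ediv_of_nonneg (by norm_num : (0 : ℤ) ≤ 2)]
  congr 1
  omega

lemma cntH_eq_jst (i u p c : ℕ) (hc : c < p) (hodd : p % 2 = 1) :
    ((cntH (i * u) p c : ℕ) : ℤ)
      = Crest.Agent.R006.P8.jst 0 1 u p c - Crest.Agent.R006.P8.jst (-(i : ℤ)) 1 u p c := by
  have hp : (0 : ℤ) < p := by exact_mod_cast (by omega : 0 < p)
  obtain ⟨h, hh⟩ : ∃ h, p = 2 * h + 1 := ⟨p / 2, by omega⟩
  unfold Crest.Agent.R006.P8.jst cntH cnt rfl2
  by_cases hcp : 2 * c < p
  · rw [if_pos hcp]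
    have e1 : (2 * (c : ℤ) + 1 * p - 2 * 0 * u) / (2 * p) = 0 := by
      apply Int.ediv_eq_zero_of_lt
      · linarith [Int.natCast_nonneg c]
      · have : (2 * c : ℤ) < p := by exact_mod_cast hcp
        linarith
    have e2 : 2 * (c : ℤ) + 1 * p - 2 * -(i : ℤ) * u
        = 2 * (((i * u + h + c : ℕ)) : ℤ) + 1 := by
      rw [hh]; push_cast; ring
    rw [e1, e2, half_div, Int.natCast_ediv]
    have e3 : i * u + p - 1 - ((p - 1) / 2 - c) = i * u + h + c := by omega
    rw [e3]
    ring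
  · rw [if_neg hcp]
    have e1 : (2 * (c : ℤ) + 1 * p - 2 * 0 * u) / (2 * p) = 1 := by
      have h1 : (p : ℤ) ≤ 2 * c := by exact_mod_cast not_lt.mp hcp
      have h2 : (c : ℤ) < p := by exact_mod_cast hc
      rw [Int.ediv_eq_iff_of_pos (by linarith)]
      constructor <;> linarith
    have e2 : 2 * (c : ℤ) + 1 * p - 2 * -(i : ℤ) * u
        = 2 * (((i * u + c - (h + 1) : ℕ)) : ℤ) + 1 + 1 * (2 * p) := by
      rw [Nat.cast_sub (by omega)]
      rw [hh]; push_cast; ring
    rw [e1, e2, Int.add_mul_ediv_right _ _ (by linarith), half_div, Int.natCast_ediv]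
    have e3 : i * u + p - 1 - ((3 * p - 1) / 2 - c) = i * u + c - (h + 1) := by omega
    rw [e3]
    ring

/-- 555's number of gauge zeros, for `a2 = r1 = 0` -/
theorem zc_eq_cnt (S : Crest.Agent.R006.D.Shape) (u p c : ℕ) (hc : c < p) (hodd : p % 2 = 1)
    (ha2 : S.a2 = 0) (hr1 : S.r1 = 0) :
    (Crest.Agent.R006.GaugeP555.zc S u p c : ℤ) = cnt (S.a1 * u) p c + cntH (S.i1 * u) p c := by
  have h0 := Crest.Agent.R006.GaugeP555.jst_zero u p c (by positivity) (by exact_mod_cast hc)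
  rw [Crest.Agent.R006.GaugeP555.zc_eq S u p c (by positivity) (by exact_mod_cast hc) hodd, ha2, hr1,
    cnt_eq_jst _ _ _ _ hc, cntH_eq_jst _ _ _ _ hc hodd]
  simp only [Nat.cast_zero, neg_zero]
  rw [h0]
  ring

end Crest.Agent.R006.P5Mid788
end

-- ▼ part R006/P5b_Inst_481
section

set_option autoImplicit false
set_option linter.unusedSectionVars false
set_option linter.unreachableTactic false
set_option linter.unnecessarySeqFocus false
set_option linter.unusedTactic false

/-!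
# Row 6, block P5b: the instance (helper481)

From 814's `MatrixSide` (modes `pol` / `rA` only) to the pointwise bound `PW`:
* `CostS`, `certS`, `det_boundS` : the toll certificate with one constant potential;
* `costS_of_side` : `Side` gives `CostS` with `sa = 2 / -1`, `sb = 0 / -2`, `ord` = order of the row;
* `loss_small` : the loss at a prime `p^2 > C0 u`;
* `pw` : `PW S c C0 x0 (k/2 - g + e2 + 2 e3 + h2 + 2 h3) (9/4) k i1` (788's closed form).
-/

namespace Crest.Agent.R006.P5b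

open Finset Crest.Agent.R006.Tollx814 Crest.Agent.R006.P4Toll961

section abs

variable {A : Type*} [CommRing A]
variable {Cl : Type*} [Fintype Cl] [DecidableEq Cl]
variable {jR jT jQ jU : Type*} [Fintype jR] [DecidableEq jR] [Fintype jT] [DecidableEq jT]
  [Fintype jQ] [DecidableEq jQ] [Fintype jU] [DecidableEq jU]
variable {N : ℕ}
variable {ι : Type*} [Fintype ι] [DecidableEq ι]

/-- the costs of decomposition A, with unit columns -/
structure CostS (Fil : ZFil A) (W : Net A Cl jR jT jQ N) (r : Rows A Cl jR jT jQ jU N ι)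
    (z sa sb : Cl → ℤ) (ord : ι → ℕ) (E : ℤ) : Prop where
  rho : ∀ c l j, W.rho c l j ∈ Fil.F 0
  th0 : ∀ c l j, W.th0 c l j ∈ Fil.F 0
  q : ∀ c l j, W.q c l j ∈ Fil.F 0
  A : ∀ i (l : Fin N), r.cA i l ∈ Fil.F (z (r.cls i) + (l : ℕ) - sa (r.cls i) - ord i)
  B : ∀ i (s : Fin N), r.cB i s ∈ Fil.F (((s : ℕ) : ℤ) - ord i)
  C : ∀ i (u : Fin N), r.cC i u ∈ Fil.F (((u : ℕ) : ℤ) - sb (r.cls i) - ord i)
  err : ∀ i d, kd d ≠ 3 → r.err i d ∈ Fil.F E
  errU : ∀ i t, r.err i (.inr (.inr (.inr t))) ∈ Fil.F 0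
  near : ∀ c s l, W.near c s l ∈ Fil.F E
  far : ∀ c s c' k, W.far c s c' k ∈ Fil.F 0
  errX : ∀ c s j, W.errX c s j ∈ Fil.F E
  Lam : ∀ c (k l : Fin N), W.Lam c k l ∈ Fil.F (z c + (l : ℕ) + 1 - sa c)
  errB : ∀ c k j, W.errB c k j ∈ Fil.F E

/-- the certificate -/
def certS (z sa sb : Cl → ℤ) (ord : ι → ℕ) (lam mu D : ℤ) : Cert Cl N ι where
  lam := lam
  mu := mu
  nu := -D
  D0 := fun i => D - ord i
  DX := fun _ _ => 0
  DB := fun _ _ => 0
  sR := fun c l => toll (D + (lam + (sa c - z c))) l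
  sX := fun _ s => toll D s
  sQ := fun c u => toll (D + (mu + sb c)) u
  sB := fun _ _ => 0

theorem certS_valid {Fil : ZFil A} {W : Net A Cl jR jT jQ N} {r : Rows A Cl jR jT jQ jU N ι}
    {z sa sb : Cl → ℤ} {ord : ι → ℕ} {E : ℤ} (h : CostS Fil W r z sa sb ord E) {lam mu D : ℤ}
    (hD : -1 ≤ D) (hE1 : lam ≤ E) (hE2 : D ≤ E) (hE3 : D + lam ≤ E) (hE4 : D + mu ≤ E) :
    Valid Fil W r (certS z sa sb ord lam mu D) := by
  refine ⟨fun _ _ => toll_nonneg _ _, fun _ _ => toll_nonneg _ _, fun _ _ => toll_nonneg _ _,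
    fun _ _ => le_rfl, h.rho, h.th0, h.q, ?_, ?_, ?_, ?_, fun _ _ => le_rfl, ?_, ?_, ?_, ?_, ?_⟩
  · intro i l
    refine Fil.mono ?_ (h.A i l)
    have := le_toll (D + (lam + (sa (r.cls i) - z (r.cls i)))) l
    simp only [certS]
    linarith
  · intro i s
    refine Fil.mono ?_ (h.B i s)
    have := le_toll D s
    simp only [certS]
    linarith
  · intro i u
    refine Fil.mono ?_ (h.C i u)
    have := le_toll (D + (mu + sb (r.cls i))) u
    simp only [certS]
    linarith
  · intro i d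
    have h4 : (0 : ℤ) ≤ ord i := Nat.cast_nonneg _
    rcases d with d | d | d | d
    · refine Fil.mono ?_ (h.err i _ (by simp [kd]))
      simp [certS, kd, Cert.lk]; linarith
    · refine Fil.mono ?_ (h.err i _ (by simp [kd]))
      simp [certS, kd, Cert.lk]; linarith
    · refine Fil.mono ?_ (h.err i _ (by simp [kd]))
      simp [certS, kd, Cert.lk]; linarith
    · refine Fil.mono ?_ (h.errU i d)
      simp [certS, kd, Cert.lk]
  · intro c s l
    refine Fil.mono ?_ (h.near c s l)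
    have := toll_nonneg (D + (lam + (sa c - z c))) l
    simp only [certS]
    linarith
  · intro c s c' k
    exact Fil.mono (by simp [certS]) (h.far c s c' k)
  · intro c s j
    exact Fil.mono (by simpa [certS] using hE1) (h.errX c s j)
  · intro c k l
    refine Fil.mono ?_ (h.Lam c k l)
    have := le_toll (D + (lam + (sa c - z c))) l
    simp only [certS]
    linarith
  · intro c k j
    exact Fil.mono (by simpa [certS] using hE1) (h.errB c k j)

/-- the toll of a class, doubled -/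
def tau2 (x y z : ℤ) : ℤ := x * (x + 1) + y * (y + 1) + z * (z + 1)

/-- **the determinant bound with a constant potential** -/
theorem det_boundS {Fil : ZFil A} {W : Net A Cl jR jT jQ N} {r : Rows A Cl jR jT jQ jU N ι}
    {z sa sb : Cl → ℤ} {ord : ι → ℕ} {E : ℤ} (h : CostS Fil W r z sa sb ord E) {lam mu D : ℤ}
    (hD : -1 ≤ D) (hE1 : lam ≤ E) (hE2 : D ≤ E) (hE3 : D + lam ≤ E) (hE4 : D + mu ≤ E)
    (e : ι ≃ Col jR jT jQ jU) :
    ∃ v : ℤ, Matrix.det (Matrix.of fun i j => W.mat r i (e j)) ∈ Fil.F v ∧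
      2 * ((lam + D) * Fintype.card jR + D * Fintype.card jT + (mu + D) * Fintype.card jQ)
        - ∑ c, tau2 (D + (lam + (sa c - z c))) D (D + (mu + sb c)) - 2 * ∑ i, (ord i : ℤ)
        ≤ 2 * v := by
  refine ⟨_, det_mem_equiv (certS_valid h hD hE1 hE2 hE3 hE4) e, ?_⟩
  have hcard : (Fintype.card ι : ℤ) = Fintype.card jR + Fintype.card jT + Fintype.card jQ
      + Fintype.card jU := by
    rw [Fintype.card_congr e]
    simp only [Fintype.card_sum]
    push_cast
    ring
  have h0 : ∑ i : ι, (D - (ord i : ℤ)) = D * Fintype.card ι - ∑ i, (ord i : ℤ) := by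
    rw [Finset.sum_sub_distrib, Finset.sum_const, Finset.card_univ, nsmul_eq_mul, mul_comm]
  have h1 : ∀ c ∈ (univ : Finset Cl), 2 * ∑ l : Fin N, (toll (D + (lam + (sa c - z c))) l
      + toll D l + toll (D + (mu + sb c)) l + 0)
      ≤ tau2 (D + (lam + (sa c - z c))) D (D + (mu + sb c)) := by
    intro c _
    have t1 := two_sum_toll (D + (lam + (sa c - z c))) N
    have t2 := two_sum_toll D N
    have t3 := two_sum_toll (D + (mu + sb c)) N
    rw [← Fin.sum_univ_eq_sum_range] at t1 t2 t3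
    simp only [add_zero, Finset.sum_add_distrib]
    unfold tau2
    linarith
  have h2 := Finset.sum_le_sum h1
  rw [← Finset.mul_sum] at h2
  simp only [certS]
  rw [h0, hcard]
  linarith

end abs

/-! ### the costs of the table -/

open Polynomial Crest.Agent.R006.D Crest.Agent.R006.P8 Crest.Agent.R006.Bordx929
  Crest.Agent.R006.P4Asmx814 Crest.Agent.R006.P4If Crest.Agent.R006.P5Mid788
  Crest.Agent.R006.RefClass555 Crest.Agent.R006.D.Oddx529 Crest.Agent.R006.GaugeP555

/-- the modes of P5b: `pol` / `rA` -/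
def mdA (p a : ℕ) : Mode := if 2 * a < p then .pol else .rA

lemma mdA_ok (S : Shape) (u p : ℕ) : DecOK S u p (mdA p) where
  pol := fun a _ => by unfold mdA; split_ifs with h <;> simp [h]

lemma costR (S : Shape) (u p : ℕ) (ρ : D.Row) :
    (tabX S u p (mdA p) ρ).R.b - (tabX S u p (mdA p) ρ).R.a
      ≤ -eps p (clsS p ρ.1) + (ρ.2 : ℕ) := by
  obtain ⟨z, o⟩ := ρ
  unfold tabX tabK
  generalize hk : kindR (z, o) = K
  unfold kindR at hk
  simp only at hk ⊢
  unfold Kind.row3 mdA eps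
  rcases z with i | i
  · simp only at hk
    split_ifs at hk with h0 h1 <;> subst hk
    · split_ifs <;> simp [kG] <;> omega
    · split_ifs <;> simp [kE1] <;> omega
    · split_ifs <;> simp [kE2] <;> omega
  · simp only at hk
    split_ifs at hk with h0 h1 <;> subst hk
    · split_ifs <;> simp [kH1] <;> omega
    · split_ifs <;> simp [kH2] <;> omega
    · split_ifs <;> simp [kW] <;> omega

lemma costX (S : Shape) (u p : ℕ) (ρ : D.Row) :
    (tabX S u p (mdA p) ρ).X.b - (tabX S u p (mdA p) ρ).X.a ≤ (ρ.2 : ℕ) := by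
  obtain ⟨z, o⟩ := ρ
  unfold tabX tabK
  generalize hk : kindR (z, o) = K
  unfold kindR at hk
  simp only at hk ⊢
  unfold Kind.row3 mdA
  rcases z with i | i
  · simp only at hk
    split_ifs at hk with h0 h1 <;> subst hk
    · split_ifs <;> simp [kG]
    · split_ifs <;> simp [kE1]
    · split_ifs <;> simp [kE2] <;> omega
  · simp only at hk
    split_ifs at hk with h0 h1 <;> subst hk
    · split_ifs <;> simp [kH1]
    · split_ifs <;> simp [kH2] <;> omega
    · split_ifs <;> simp [kW]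

lemma costQ (S : Shape) (u p : ℕ) (ρ : D.Row) :
    (tabX S u p (mdA p) ρ).Q.b - (tabX S u p (mdA p) ρ).Q.a
      ≤ -del p (clsS p ρ.1) + (ρ.2 : ℕ) := by
  obtain ⟨z, o⟩ := ρ
  unfold tabX tabK
  generalize hk : kindR (z, o) = K
  unfold kindR at hk
  simp only at hk ⊢
  unfold Kind.row3 mdA del
  rcases z with i | i
  · simp only at hk
    split_ifs at hk with h0 h1 <;> subst hk
    · split_ifs <;> simp [kG] <;> omega
    · split_ifs <;> simp [kE1, cNo] <;> omega
    · split_ifs <;> simp [kE2, cNo] <;> omega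
  · simp only at hk
    split_ifs at hk with h0 h1 <;> subst hk
    · split_ifs <;> simp [kH1, cNo] <;> omega
    · split_ifs <;> simp [kH2, cNo] <;> omega
    · split_ifs <;> simp [kW] <;> omega

lemma self_le_pos (x : ℤ) : x ≤ pos x := by
  rw [pos_eq]; exact le_max_left _ _

/-- `Side` with the modes `pol` / `rA` gives the costs -/
theorem costS_of_side {p : ℕ} [Fact p.Prime] {S : Shape} {u c : ℕ}
    {J : Fin c → RI S u c} {E : ℤ} {N : ℕ}
    {W : Net ℚ[X] (Fin p) (Fin (S.k * u)) (Fin (S.q * u)) (Fin (S.g * u)) N}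
    {R : Rows ℚ[X] (Fin p) (Fin (S.k * u)) (Fin (S.q * u)) (Fin (S.g * u)) (Fin c) N
      (RI S u c)} (h : Side p S u c (mdA p) J E N W R) :
    CostS (pbFil p) W R (fun a : Fin p => ((zc S u p ((a : ℕ) : ℤ) : ℕ) : ℤ))
      (fun a : Fin p => -eps p a) (fun a : Fin p => -del p a) (fun x => (ofRow u c x).2) E where
  rho := h.tab.rho
  th0 := h.tab.th0
  q := h.tab.q
  A := fun x l => by
    refine (pbFil p).mono ?_ (h.tab.A x l)
    have h1 := costR S u p (ofRow u c x)
    rw [← h.cls x] at h1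
    have h2 := self_le_pos (((l : ℕ) : ℤ) + ((zc S u p (((R.cls x : Fin p) : ℕ) : ℤ) : ℕ) : ℤ)
      - (tabX S u p (mdA p) (ofRow u c x)).R.b)
    simp only [zeroU]
    linarith
  B := fun x s => by
    refine (pbFil p).mono ?_ (h.tab.B x s)
    have h1 := costX S u p (ofRow u c x)
    have h2 := self_le_pos (((s : ℕ) : ℤ) - (tabX S u p (mdA p) (ofRow u c x)).X.b)
    linarith
  C := fun x s => by
    refine (pbFil p).mono ?_ (h.tab.C x s)
    have h1 := costQ S u p (ofRow u c x)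
    have h2 := self_le_pos (((s : ℕ) : ℤ) - (tabX S u p (mdA p) (ofRow u c x)).Q.b)
    rw [← h.cls x] at h1
    linarith
  err := fun x d hd => by
    have := h.tab.err x d hd
    simpa [zeroU, hd] using this
  errU := h.errU
  near := fun a s l => h.tab.near0 a s l (by simp only [mdA]; split_ifs <;> simp)
  far := h.tab.far
  errX := h.tab.errX
  Lam := fun a k l => by
    by_cases ha : 2 * (a : ℕ) < p
    · refine (pbFil p).mono ?_ (h.tab.Lamp a k l (by simp only [mdA]; rw [if_pos ha]))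
      have h2 := self_le_pos (((k : ℕ) : ℤ) + 1 + (l : ℕ)
        + ((zc S u p ((a : ℕ) : ℤ) : ℕ) : ℤ) - 2)
      have h3 : (0 : ℤ) ≤ (k : ℕ) := Int.natCast_nonneg _
      unfold eps
      rw [if_pos ha]
      linarith
    · refine (pbFil p).mono ?_ (h.tab.Lamr a k l (by simp only [mdA]; rw [if_neg ha]; simp))
      have h3 : (0 : ℤ) ≤ (k : ℕ) := Int.natCast_nonneg _
      unfold eps
      rw [if_neg ha]
      linarith
  errB := h.tab.errB

/-! ### the total order -/

lemma sum_fin_le_three (m : ℕ) (a b c : Prop) [Decidable a] [Decidable b] [Decidable c]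
    (hbc : c → b) (hab : b → a)
    (hm : m = (if a then 1 else 0) + (if b then 1 else 0) + (if c then 1 else 0)) :
    ∑ j : Fin m, ((j : ℕ) : ℤ) = (if b then 1 else 0) + 2 * (if c then 1 else 0) := by
  rw [Fin.sum_univ_eq_sum_range (fun j => ((j : ℕ) : ℤ)) m]
  by_cases hc : c
  · have hb := hbc hc
    have ha := hab hb
    simp only [ha, hb, hc, if_true] at hm ⊢
    rw [hm]
    simp [Finset.sum_range_succ]
  · by_cases hb : b
    · have ha := hab hb
      simp only [ha, hb, hc, if_true, if_false] at hm ⊢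
      rw [hm]
      simp [Finset.sum_range_succ]
    · simp only [hb, hc, if_false] at hm ⊢
      by_cases ha : a
      · simp only [ha, if_true] at hm
        rw [hm]
        simp
      · simp only [ha, if_false] at hm
        rw [hm]
        simp

set_option maxHeartbeats 1000000 in
theorem sum_ord {S : Shape} (hS : S.Good) (u c : ℕ) :
    ∑ x : RI S u c, (((ofRow u c x).2 : ℕ) : ℤ)
      = ((S.e2 + 2 * S.e3 + S.h2 + 2 * S.h3 : ℕ) : ℤ) * u := by
  have h1 := Nat.mul_le_mul_right u hS.e21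
  have h2 := Nat.mul_le_mul_right u hS.e32
  have h3 := Nat.mul_le_mul_right u hS.h21
  have h4 := Nat.mul_le_mul_right u hS.h32
  zify at h1 h2 h3 h4
  have e0 : ∑ x : RI S u c, (((ofRow u c x).2 : ℕ) : ℤ)
      = ∑ z ∈ sites S u c, ∑ j : Fin (S.mult u c z), ((j : ℕ) : ℤ) := by
    rw [Fintype.sum_sigma]
    exact Finset.sum_coe_sort (sites S u c)
      (fun z => ∑ j : Fin (S.mult u c z), ((j : ℕ) : ℤ))
  rw [e0, sites, Finset.sum_disjUnion, Finset.sum_map, Finset.sum_map]
  simp only [Function.Embedding.coeFn_mk]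
  have e1 : ∀ i : ℤ, ∑ j : Fin (S.mult u c (Site.Z i)), ((j : ℕ) : ℤ)
      = ((if i < 0 ∧ -i ≤ S.e2 * u then 1 else 0 : ℕ) : ℤ)
        + 2 * ((if i < 0 ∧ -i ≤ S.e3 * u then 1 else 0 : ℕ) : ℤ) := by
    intro i
    by_cases h : 0 ≤ i
    · rw [sum_fin_le_three (S.mult u c (Site.Z i)) (i < S.B * u + c) False False
        (fun h => h) (fun h => h.elim) (by simp only [Shape.mult, if_pos h]; simp)]
      simp [not_lt.mpr h]
    · rw [sum_fin_le_three (S.mult u c (Site.Z i)) (-i ≤ S.e1 * u) (-i ≤ S.e2 * u)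
        (-i ≤ S.e3 * u) (fun h => h.trans h2) (fun h => h.trans h1)
        (by simp only [Shape.mult, if_neg h])]
      simp only [not_le.mp h, true_and]
      push_cast
      rfl
  have e2 : ∀ i : ℤ, ∑ j : Fin (S.mult u c (Site.H i)), ((j : ℕ) : ℤ)
      = ((if 0 ≤ i ∧ i < S.h2 * u then 1 else 0 : ℕ) : ℤ)
        + 2 * ((if 0 ≤ i ∧ i < S.h3 * u then 1 else 0 : ℕ) : ℤ) := by
    intro i
    by_cases h : 0 ≤ i
    · rw [sum_fin_le_three (S.mult u c (Site.H i)) (i < S.h1 * u) (i < S.h2 * u)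
        (i < S.h3 * u) (fun h => h.trans_le h4) (fun h => h.trans_le h3)
        (by simp only [Shape.mult, if_pos h])]
      simp only [h, true_and]
      push_cast
      rfl
    · rw [sum_fin_le_three (S.mult u c (Site.H i)) (-i ≤ S.w * u) False False
        (fun h => h) (fun h => h.elim) (by simp only [Shape.mult, if_neg h]; simp)]
      simp [h]
  simp only [e1, e2, Finset.sum_add_distrib, ← Finset.mul_sum, ← Nat.cast_sum]
  rw [sum_ind _ _ (-((S.e2 * u : ℕ) : ℤ)) 0, sum_ind _ _ (-((S.e3 * u : ℕ) : ℤ)) 0,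
    sum_ind _ _ 0 ((S.h2 * u : ℕ) : ℤ), sum_ind _ _ 0 ((S.h3 * u : ℕ) : ℤ)]
  · simp only [sub_zero, zero_sub, neg_neg, Int.toNat_natCast]
    push_cast
    ring
  all_goals
    intro i
    have p1 : (0 : ℤ) ≤ S.e1 * u := by positivity
    have p2 : (0 : ℤ) ≤ S.e2 * u := by positivity
    have p3 : (0 : ℤ) ≤ S.e3 * u := by positivity
    have p4 : (0 : ℤ) ≤ S.h1 * u := by positivity
    have p5 : (0 : ℤ) ≤ S.h2 * u := by positivity
    have p6 : (0 : ℤ) ≤ S.h3 * u := by positivity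
    have p7 : (0 : ℤ) ≤ S.w * u := by positivity
    have p8 : (0 : ℤ) ≤ S.B * u := by positivity
    have p9 : (0 : ℤ) ≤ c := by positivity
    push_cast
    omega

/-! ### the loss -/

/-- **the loss at a prime `p^2 > C0 u`** -/
theorem loss_small {S : Shape} (hS : S.Good) (ha2 : S.a2 = 0) (hr1 : S.r1 = 0) {c C1 : ℕ}
    (hM : MatrixSide S c C1) (u p : ℕ) [hp : Fact p.Prime]
    (hp5 : 5 ≤ p) (hC1 : C1 * (u + 1) < p ^ 2) (h1 : (S.a1 + S.k) * u ≤ p ^ 2)
    (h2 : S.i1 * u < p ^ 2) (h3 : S.q * u ≤ p ^ 2) (h4 : S.g * u ≤ p ^ 2)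
    (r : Col S u → D.Row) (hr : Adm S u c r) :
    Loss p (Minor S u r) (((S.k : ℝ) / 2 - S.g
      + ((S.e2 + 2 * S.e3 + S.h2 + 2 * S.h3 : ℕ) : ℝ)) * u + 9 / 4 * p
      - S.k * u * Int.fract ((S.i1 : ℝ) * u / p)
      + (3 / 2 * (S.a1 + S.k + S.i1) + S.g) * (u / p) + 5 / 2) := by
  have hodd : p % 2 = 1 := by
    rcases hp.out.eq_two_or_odd with h | h
    · omega
    · exact h
  set V : ℤ := ((S.q * u / p : ℕ) : ℤ) with hV
  set L : ℤ := ((S.a1 * u + S.k * u) / p : ℕ) + (S.i1 * u / p : ℕ) - (S.q * u / p : ℕ) with hL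
  set M : ℤ := (S.g * u / p : ℕ) + 1 - (S.q * u / p : ℕ) with hMM
  have hV0 : 0 ≤ V := Int.natCast_nonneg _
  set O : ℤ := ((S.e2 + 2 * S.e3 + S.h2 + 2 * S.h3 : ℕ) : ℤ) * u with hO
  set TT : ℤ := ∑ a : Fin p, tau2 (V + (L + (-eps p a - ((zc S u p ((a : ℕ) : ℤ) : ℕ) : ℤ)))) V
        (V + (M + -del p a)) with hTT
  set T2 : ℤ := 2 * ((L + V) * (S.k * u) + V * (S.q * u) + (M + V) * (S.g * u))
    - TT - 2 * O with hT2
  have key : ∀ J : Fin c → RI S u c, Function.Injective J → ∀ e : RI S u c ≃ CI S u c,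
      (Matrix.of fun i j => brow S u c J i (e j)).det ∈ (P4Toll961.pbFil p).F (T2 / 2) := by
    intro J hJ e
    obtain ⟨N, W, R, hside⟩ := hM u p hp5 hC1 (mdA p) (mdA_ok S u p) J hJ (|L| + |M| + |V|)
    have a1 := le_abs_self L
    have a2 := le_abs_self M
    have a3 := le_abs_self V
    have b1 := abs_nonneg L
    have b2 := abs_nonneg M
    have b3 := abs_nonneg V
    obtain ⟨v, hv, hv2⟩ := det_boundS (costS_of_side hside) (lam := L) (mu := M) (D := V)
      (by linarith) (by linarith) (by linarith) (by linarith) (by linarith) e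
    rw [hside.det_eq e]
    refine (P4Toll961.pbFil p).mono ?_ hv
    rw [← hTT, sum_ord hS u c, ← hO] at hv2
    simp only [Fintype.card_fin] at hv2
    have : T2 ≤ 2 * v := by
      rw [hT2]
      rw [Nat.cast_mul, Nat.cast_mul, Nat.cast_mul] at hv2
      linarith
    omega
  refine loss_mono (loss_of_border S u c hS r hr key) ?_
  -- 788's closed form
  have hcl := closed2 p hodd (fun a : Fin p => if a = ⟨0, hp.out.pos⟩ then
      ((S.k * u : ℕ) : ℤ) + (S.q * u : ℕ) + (S.g * u : ℕ) else 0)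
    (fun a : Fin p => ((zc S u p ((a : ℕ) : ℤ) : ℕ) : ℤ)) (S.k * u) (S.q * u) (S.g * u)
    (S.a1 * u) (S.i1 * u) (by simp) (fun a => zc_eq_cnt S u p a a.2 hodd ha2 hr1)
    L M V hL hMM hV
  have hden := val_den_div S u p h1 h3 h4
    (by rw [ha2, zero_mul]; exact pow_pos hp.out.pos 2) h2
    (by rw [hr1, zero_mul]; exact pow_pos hp.out.pos 2)
  rw [ha2, hr1] at hden
  simp only [zero_mul, Nat.zero_div, zero_add, add_zero] at hden
  -- the certificate value
  have hval : 2 * ((L : ℝ) * ((S.k * u : ℕ) : ℝ) + M * ((S.g * u : ℕ) : ℝ)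
      + ∑ a : Fin p, clsVal (if a = ⟨0, hp.out.pos⟩ then
        ((S.k * u : ℕ) : ℤ) + (S.q * u : ℕ) + (S.g * u : ℕ) else 0) V
        (L + (sP p a - ((zc S u p ((a : ℕ) : ℤ) : ℕ) : ℤ))) (M + tP p a))
      = ((2 * ((L + V) * (S.k * u) + V * (S.q * u) + (M + V) * (S.g * u)) - TT : ℤ) : ℝ) := by
    have e1 : ∀ a : Fin p, 2 * clsVal (if a = ⟨0, hp.out.pos⟩ then
        ((S.k * u : ℕ) : ℤ) + (S.q * u : ℕ) + (S.g * u : ℕ) else 0) V
        (L + (sP p a - ((zc S u p ((a : ℕ) : ℤ) : ℕ) : ℤ))) (M + tP p a)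
        = ((2 * V * (if a = ⟨0, hp.out.pos⟩ then
        ((S.k * u : ℕ) : ℤ) + (S.q * u : ℕ) + (S.g * u : ℕ) else 0)
          - tau2 (V + (L + (-eps p a - ((zc S u p ((a : ℕ) : ℤ) : ℕ) : ℤ)))) V
          (V + (M + -del p a)) : ℤ) : ℝ) := by
      intro a
      have hs : sP p a = -eps p a := by
        unfold sP eps
        split_ifs <;> rfl
      have ht : tP p a = -del p a := by
        unfold tP del
        split_ifs <;> simp
      unfold clsVal P5b.tri tau2
      rw [hs, ht]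
      push_cast
      ring
    rw [mul_add, Finset.mul_sum, Finset.sum_congr rfl fun a _ => e1 a, ← Int.cast_sum,
      Finset.sum_sub_distrib, ← hTT, ← Finset.mul_sum, Finset.sum_ite_eq' Finset.univ,
      if_pos (Finset.mem_univ _)]
    push_cast
    ring
  have hT : T2 - 1 ≤ 2 * (T2 / 2) := by omega
  have hT' : ((T2 : ℤ) : ℝ) - 1 ≤ 2 * ((T2 / 2 : ℤ) : ℝ) := by exact_mod_cast hT
  have hT2' : ((T2 : ℤ) : ℝ) = ((2 * ((L + V) * (S.k * u) + V * (S.q * u) + (M + V) * (S.g * u))
      - TT : ℤ) : ℝ) - 2 * (((S.e2 + 2 * S.e3 + S.h2 + 2 * S.h3 : ℕ) : ℝ) * u) := by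
    rw [hT2, Int.cast_sub, hO]
    push_cast
    ring
  rw [← hval] at hT2'
  rw [hden]
  have hc1 : ((S.i1 * u : ℕ) : ℝ) = (S.i1 : ℝ) * u := by push_cast; ring
  rw [hc1] at hcl
  have hc2 : (3 / 2 * (((S.a1 * u : ℕ) : ℝ) + ((S.k * u : ℕ) : ℝ) + (S.i1 : ℝ) * u)
      + ((S.g * u : ℕ) : ℝ)) / p = (3 / 2 * (S.a1 + S.k + S.i1) + S.g) * (u / p) := by
    push_cast; ring
  rw [hc2] at hcl
  rw [Nat.cast_add, Nat.cast_add, Nat.cast_add, Nat.cast_mul (S.k * u)]
  have hc3 : ((S.k * u : ℕ) : ℝ) = (S.k : ℝ) * u := by push_cast; ring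
  have hc4 : ((S.g * u : ℕ) : ℝ) = (S.g : ℝ) * u := by push_cast; ring
  rw [hc3, hc4] at hcl hT2'
  rw [hc3]
  linarith

/-- **P5b, pointwise.** -/
theorem pw {S : Shape} (hS : S.Good) (ha2 : S.a2 = 0) (hr1 : S.r1 = 0) {c C1 : ℕ}
    (hM : MatrixSide S c C1) {C0 : ℝ}
    (hC0 : ((2 * C1 + S.a1 + S.k + S.i1 + S.q + S.g + 1 : ℕ) : ℝ) ≤ C0) (x0 : ℝ) :
    PW S c C0 x0 ((S.k : ℝ) / 2 - S.g + ((S.e2 + 2 * S.e3 + S.h2 + 2 * S.h3 : ℕ) : ℝ)) (9 / 4)
      S.k S.i1 := by
  refine ⟨3 / 2 * (S.a1 + S.k + S.i1) + S.g + 5 / 2, ?_⟩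
  filter_upwards [Filter.eventually_ge_atTop 1] with u hu r hr p hp hp5 hpC _
  have : Fact p.Prime := ⟨hp⟩
  have hu1 : (1 : ℝ) ≤ u := by exact_mod_cast hu
  have hu0 : (0 : ℝ) < u := by linarith
  have hp0 : (0 : ℝ) < p := by exact_mod_cast hp.pos
  have hb : ∀ m : ℕ, m ≤ 2 * C1 + S.a1 + S.k + S.i1 + S.q + S.g + 1 → m * u < p ^ 2 := by
    intro m hm
    have h1 : (m : ℝ) ≤ C0 := le_trans (by exact_mod_cast hm) hC0
    have h2 : (m : ℝ) * u < (p : ℝ) ^ 2 := lt_of_le_of_lt (by nlinarith) hpC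
    exact_mod_cast h2
  have hC1 : C1 * (u + 1) < p ^ 2 := by
    have := hb (2 * C1) (by omega)
    nlinarith
  have hl := loss_small hS ha2 hr1 hM u p hp5 hC1 (hb _ (by omega)).le (hb _ (by omega))
    (hb _ (by omega)).le (hb _ (by omega)).le r hr
  refine loss_mono hl ?_
  -- p ≥ √u
  have hup : (u : ℝ) / p ≤ Real.sqrt u := by
    have h1 : (u : ℝ) < (p : ℝ) ^ 2 := by
      have := hb 1 (by omega)
      rw [one_mul] at this
      exact_mod_cast this
    have h2 : Real.sqrt u ≤ p := by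
      rw [Real.sqrt_le_left hp0.le]
      exact h1.le
    rw [div_le_iff₀ hp0]
    calc (u : ℝ) = Real.sqrt u * Real.sqrt u := (Real.mul_self_sqrt hu0.le).symm
      _ ≤ Real.sqrt u * p := mul_le_mul_of_nonneg_left h2 (Real.sqrt_nonneg _)
  have hs1 : 1 ≤ Real.sqrt u := by
    rw [Real.one_le_sqrt]; exact hu1
  have h5 : (3 / 2 * (S.a1 + S.k + S.i1) + S.g : ℝ) * (u / p)
      ≤ (3 / 2 * (S.a1 + S.k + S.i1) + S.g) * Real.sqrt u :=
    mul_le_mul_of_nonneg_left hup (by positivity)
  have e2 : (3 / 2 * (S.a1 + S.k + S.i1) + S.g + 5 / 2 : ℝ) * Real.sqrt u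
      = (3 / 2 * (S.a1 + S.k + S.i1) + S.g) * Real.sqrt u + 5 / 2 * Real.sqrt u := by ring
  rw [e2]
  linarith

/-- **P5b for the frozen shape** -/
theorem pw_SN {C1 : ℕ} (hM : MatrixSide SN 40 C1) (x0 : ℝ) :
    PW SN 40 ((2 * C1 + 49 : ℕ) : ℝ) x0 (7 / 2) (9 / 4) 21 6 := by
  have h := pw SN_good rfl rfl hM (C0 := ((2 * C1 + 49 : ℕ) : ℝ)) (by
    simp only [SN_a1, SN_k, SN_i1, SN_q, SN_g]
    exact_mod_cast (by omega : 2 * C1 + 1 + 21 + 6 + 10 + 10 + 1 ≤ 2 * C1 + 49)) x0
  simp only [SN_k, SN_g, SN_e2, SN_e3, SN_h2, SN_h3, SN_i1] at h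
  have e : ((21 : ℕ) : ℝ) / 2 - ((10 : ℕ) : ℝ) + ((2 + 2 * 0 + 1 + 2 * 0 : ℕ) : ℝ) = 7 / 2 := by
    norm_num
  rw [e] at h
  exact_mod_cast h

end Crest.Agent.R006.P5b
end

-- ▼ part R006/OddDone_365

set_option autoImplicit false

/-!
# Row 6: the odd part of the frozen shape `SN`, outright (helper365)

P4 (matrix side, 830/955 and 814's class form), P5b (481), P8 (kernel certificate of 799 with the
data of 595).  `OddAll_365` is a second, independent kernel certificate of the same total.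
-/

namespace Crest.Agent.R006.D

/-- **P4 + P5 + P8 for `SN`.** -/
theorem SN_odd : Odd SN 40 (-453.5) := by
  have hMS := P4S.matrixSide_830 SN 40 SN_good rfl rfl
  refine odd_SN (x0 := 1) ?_ (by norm_num) (P5b.pw_SN hMS 1) (ChkSN799.mid_SN hMS) ?_
  · positivity
  · norm_num

end Crest.Agent.R006.D
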