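import Crest.Agent.R006.NumSum_464

/-!
# Row 6, certified numerics: line checker (helper746)

`chkLine L P d IA IB c T0 Ts = true` (closed by `decide +kernel`) implies
`potL L (gc P + t * gc d) + a + b * t ≤ c / 2^48` for all real `t` from `T0` to the last element of
`Ts` (`T0 < Ts[0] < Ts[1] < ...` are the cell ends; `IA`, `IB` enclose `a`, `b`).

Method: on a cell every end point `A` of a segment `[A, A+e]` contributes a `Phi` whose deviation
from its chord is at most `|d|² h² / (8 |e| dist)`, and at most `|Re (d/e)| h / 2.718` when `A` is an
end point of the cell.  So the maximum over a cell is at most the larger end value plus these bounds.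
End points of segments must be ends of the cell or at positive distance from it, and no segment
line may cross the interior of a cell.
-/

set_option autoImplicit false

namespace Crest.Agent.R006.Chk746

open Real Set Num482 Crest.Agent.R006.NumPhix179 Crest.Agent.R006.NumSegx464

/-! ### deviation from the chord -/

/-- value at `t` of the chord of `f` over `[l, r]` -/
noncomputable def chord (f : ℝ → ℝ) (l r t : ℝ) : ℝ := ((r - t) * f l + (t - l) * f r) / (r - l)

/-- `f` differs from its chord over `[l, r]` by at most `D` -/
def CDev (f : ℝ → ℝ) (l r D : ℝ) : Prop := ∀ t ∈ Icc l r, |f t - chord f l r t| ≤ D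

theorem CDev.mono {f : ℝ → ℝ} {l r D D' : ℝ} (h : CDev f l r D) (hD : D ≤ D') : CDev f l r D' :=
  fun t ht => (h t ht).trans hD


theorem CDev.add {f g : ℝ → ℝ} {l r D E : ℝ} (hf : CDev f l r D) (hg : CDev g l r E) :
    CDev (fun t => f t + g t) l r (D + E) := by
  intro t ht
  have e : (f t + g t) - chord (fun t => f t + g t) l r t =
      (f t - chord f l r t) + (g t - chord g l r t) := by unfold chord; ring
  rw [e]
  exact (abs_add_le _ _).trans (add_le_add (hf t ht) (hg t ht))

theorem CDev.sub {f g : ℝ → ℝ} {l r D E : ℝ} (hf : CDev f l r D) (hg : CDev g l r E) :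
    CDev (fun t => f t - g t) l r (D + E) := by
  intro t ht
  have e : (f t - g t) - chord (fun t => f t - g t) l r t =
      (f t - chord f l r t) - (g t - chord g l r t) := by unfold chord; ring
  rw [e]
  exact (abs_sub _ _).trans (add_le_add (hf t ht) (hg t ht))

theorem CDev.smul {f : ℝ → ℝ} {l r D : ℝ} (c : ℝ) (hf : CDev f l r D) :
    CDev (fun t => c * f t) l r (|c| * D) := by
  intro t ht
  have e : c * f t - chord (fun t => c * f t) l r t = c * (f t - chord f l r t) := by
    unfold chord; ring
  rw [e, abs_mul]
  exact mul_le_mul_of_nonneg_left (hf t ht) (abs_nonneg _)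


/-- the upper bound used by the checker -/
theorem CDev.le {f : ℝ → ℝ} {l r D C : ℝ} (hlr : l < r) (h : CDev f l r D) (hl : f l + D ≤ C)
    (hr : f r + D ≤ C) : ∀ t ∈ Icc l r, f t ≤ C := by
  intro t ht
  have h1 := (abs_le.1 (h t ht)).2
  have h0 : 0 < r - l := sub_pos.2 hlr
  have h2 : chord f l r t ≤ C - D := by
    unfold chord
    rw [div_le_iff₀ h0]
    have e1 : 0 ≤ r - t := by linarith [ht.2]
    have e2 : 0 ≤ t - l := by linarith [ht.1]
    nlinarith [mul_le_mul_of_nonneg_left (by linarith : f l ≤ C - D) e1,
      mul_le_mul_of_nonneg_left (by linarith : f r ≤ C - D) e2]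
  linarith



/-! ### singular end points -/









/-! ### integer geometry -/









/-! ### one weighted segment, lists -/





/-! ### the line checker -/










end Crest.Agent.R006.Chk746
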