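import Mathlib
import Crest.Agent.R006.PsiJ2_576
import Crest.Agent.R006.G1Base_186

-- ▼ part R006/Wedge_516
section

/-!
Row 6 (Catalan), block P3, leaf "wedge" (helper516).

Contour integrals along the two rays `-k0 + t (-c ± I)`, `t > 0`, versus the sum of the residues
at the sites `-1/2-l`, `l ≥ k0`.  Everything is built from straight segments
`sg p v a b Φ = v * ∫ t in a..b, Φ (p + t v)`.
-/

set_option autoImplicit false

open Complex MeasureTheory Set Filter Topology intervalIntegral Metric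
open scoped Real Interval

noncomputable section

namespace Crest.Agent.R006.Wedge516

/-- integral of `Φ` along the segment `t ↦ p + t v`, `t ∈ [a,b]`. -/
def sg (p v : ℂ) (a b : ℝ) (Φ : ℂ → ℂ) : ℂ := v * ∫ t in a..b, Φ (p + t * v)

lemma continuous_line (p v : ℂ) : Continuous (fun t : ℝ => p + t * v) := by fun_prop

lemma sg_ftc {p v : ℂ} {a b : ℝ} {Φ G : ℂ → ℂ}
    (h : ∀ t ∈ uIcc a b, HasDerivAt G (Φ (p + t * v)) (p + t * v))
    (hc : ContinuousOn (fun t : ℝ => Φ (p + t * v)) (uIcc a b)) :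
    sg p v a b Φ = G (p + b * v) - G (p + a * v) := by
  have h1 : ∀ t ∈ uIcc a b, HasDerivAt (fun t : ℝ => G (p + t * v)) (Φ (p + t * v) * v) t := by
    intro t ht
    have h2 : HasDerivAt (fun t : ℝ => p + (t : ℂ) * v) v t := by
      have := ((Complex.ofRealCLM.hasDerivAt (x := t)).mul_const v).const_add p
      simpa using this
    exact (h t ht).comp_of_eq t h2 rfl
  have h3 := intervalIntegral.integral_eq_sub_of_hasDerivAt h1
    ((hc.mul continuousOn_const).intervalIntegrable)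
  rw [sg, ← h3, ← intervalIntegral.integral_const_mul]
  exact intervalIntegral.integral_congr fun t _ => mul_comm _ _

lemma sg_congr {p v : ℂ} {a b : ℝ} {Φ Ψ : ℂ → ℂ}
    (h : ∀ t ∈ uIcc a b, Φ (p + t * v) = Ψ (p + t * v)) : sg p v a b Φ = sg p v a b Ψ := by
  rw [sg, sg, intervalIntegral.integral_congr h]

lemma sg_add {p v : ℂ} {a b : ℝ} {Φ Ψ : ℂ → ℂ}
    (h1 : ContinuousOn (fun t : ℝ => Φ (p + t * v)) (uIcc a b))
    (h2 : ContinuousOn (fun t : ℝ => Ψ (p + t * v)) (uIcc a b)) :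
    sg p v a b (fun z => Φ z + Ψ z) = sg p v a b Φ + sg p v a b Ψ := by
  rw [sg, sg, sg, intervalIntegral.integral_add h1.intervalIntegrable h2.intervalIntegrable]
  ring

lemma sg_const_mul {p v : ℂ} {a b : ℝ} (c : ℂ) {Φ : ℂ → ℂ} :
    sg p v a b (fun z => c * Φ z) = c * sg p v a b Φ := by
  rw [sg, sg, intervalIntegral.integral_const_mul]
  ring

/-- A linear functional which kills holomorphic functions and has the right values on the powers
`(z-s)^(-m)` computes residues. -/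
lemma residue_rec (L : (ℂ → ℂ) → ℂ) (P S : Set ℂ) (s : ℂ) (hsP : s ∉ P)
    (hPS : P ⊆ S) (hS : S ∈ 𝓝 s)
    (hadd : ∀ f g : ℂ → ℂ, ContinuousOn f P → ContinuousOn g P →
      L (fun z => f z + g z) = L f + L g)
    (hsmul : ∀ (c : ℂ) (f : ℂ → ℂ), L (fun z => c * f z) = c * L f)
    (hcongr : ∀ f g : ℂ → ℂ, EqOn f g P → L f = L g)
    (h0 : ∀ g : ℂ → ℂ, DifferentiableOn ℂ g S → L g = 0)
    (h1 : L (fun z => (z - s)⁻¹) = 2 * π * I)
    (h2 : ∀ m : ℕ, L (fun z => ((z - s) ^ (m + 2))⁻¹) = 0) :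
    ∀ (n : ℕ) (f : ℂ → ℂ), DifferentiableOn ℂ f S →
      L (fun z => f z / (z - s) ^ (n + 1)) = 2 * π * I * ((fun f => dslope f s)^[n] f) s := by
  have hne : ∀ z ∈ P, z - s ≠ 0 := fun z hz h => hsP (by rw [← sub_eq_zero.1 h]; exact hz)
  have hpc : ∀ m : ℕ, ContinuousOn (fun z => ((z - s) ^ m)⁻¹) P := fun m =>
    ContinuousOn.inv₀ (by fun_prop) (fun z hz => pow_ne_zero _ (hne z hz))
  intro n
  induction n with
  | zero =>
    intro f hf
    have hd : DifferentiableOn ℂ (dslope f s) S := (differentiableOn_dslope hS).2 hf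
    have e : EqOn (fun z => f z / (z - s) ^ (0 + 1))
        (fun z => f s * (z - s)⁻¹ + dslope f s z) P := by
      intro z hz
      have hz' := hne z hz
      have : z ≠ s := fun h => hsP (h ▸ hz)
      simp only
      rw [dslope_of_ne _ this, slope_def_field]
      field_simp
      ring
    rw [hcongr _ _ e, hadd _ _ _ (hd.continuousOn.mono hPS), hsmul, h1, h0 _ hd]
    · simp [mul_comm]
    · have := hpc 1
      simp only [pow_one] at this
      exact continuousOn_const.mul this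
  | succ n ih =>
    intro f hf
    have hd : DifferentiableOn ℂ (dslope f s) S := (differentiableOn_dslope hS).2 hf
    have e : EqOn (fun z => f z / (z - s) ^ (n + 1 + 1))
        (fun z => f s * ((z - s) ^ (n + 2))⁻¹ + dslope f s z / (z - s) ^ (n + 1)) P := by
      intro z hz
      have hz' := hne z hz
      have : z ≠ s := fun h => hsP (h ▸ hz)
      simp only
      rw [dslope_of_ne _ this, slope_def_field]
      field_simp
      ring
    rw [hcongr _ _ e, hadd, hsmul, h2, mul_zero, zero_add, ih _ hd, Function.iterate_succ_apply]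
    · exact continuousOn_const.mul (hpc _)
    · refine ContinuousOn.div (hd.continuousOn.mono hPS) (by fun_prop)
        (fun z hz => pow_ne_zero _ (hne z hz))

/-- the same for circles -/
lemma circle_residue {s : ℂ} {r : ℝ} (hr : 0 < r) {S : Set ℂ} (hS : IsOpen S)
    (hb : closedBall s r ⊆ S) (n : ℕ) {f : ℂ → ℂ} (hf : DifferentiableOn ℂ f S) :
    (∮ z in C(s, r), f z / (z - s) ^ (n + 1)) = 2 * π * I * ((fun f => dslope f s)^[n] f) s := by
  refine residue_rec (fun g => ∮ z in C(s, r), g z) (sphere s r) S s ?_ ?_ ?_ ?_ ?_ ?_ ?_ ?_ ?_ n f hf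
  · simp [hr.ne]
  · exact sphere_subset_closedBall.trans hb
  · exact hS.mem_nhds (hb (mem_closedBall_self hr.le))
  · intro f g h1 h2
    exact circleIntegral.integral_add (h1.circleIntegrable hr.le) (h2.circleIntegrable hr.le)
  · intro c f
    exact circleIntegral.integral_const_mul c f s r
  · intro f g h
    exact circleIntegral.integral_congr hr.le h
  · intro g hg
    refine circleIntegral_eq_zero_of_differentiable_on_off_countable hr.le countable_empty
      (hg.continuousOn.mono hb) ?_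
    intro z hz
    exact hg.differentiableAt (hS.mem_nhds (hb (ball_subset_closedBall hz.1)))
  · exact circleIntegral.integral_sub_center_inv s hr.ne'
  · intro m
    have := circleIntegral.integral_sub_zpow_of_ne (n := -((m : ℤ) + 2)) (by omega) s s r
    rw [← this]
    refine circleIntegral.integral_congr hr.le (fun z _ => ?_)
    rw [zpow_neg]
    norm_cast


/-! ### the trapezoid -/

/-- closed trapezoid with corners `-(κ+c a) ± a I`, `-(κ+c b) ± b I` (counterclockwise). -/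
def trap (κ c a b : ℝ) (Φ : ℂ → ℂ) : ℂ :=
  sg ((-(κ + c * a) : ℝ) : ℂ) I (-a) a Φ + sg (-κ) (-c + I) a b Φ
    - sg ((-(κ + c * b) : ℝ) : ℂ) I (-b) b Φ - sg (-κ) (-c - I) a b Φ

def trapP (κ c a b : ℝ) : Set ℂ :=
  ((fun t : ℝ => ((-(κ + c * a) : ℝ) : ℂ) + t * I) '' uIcc (-a) a) ∪
  ((fun t : ℝ => (-κ : ℂ) + t * (-c + I)) '' uIcc a b) ∪
  ((fun t : ℝ => ((-(κ + c * b) : ℝ) : ℂ) + t * I) '' uIcc (-b) b) ∪
  ((fun t : ℝ => (-κ : ℂ) + t * (-c - I)) '' uIcc a b)

def strip (x0 x1 : ℝ) : Set ℂ := {z | x0 < z.re ∧ z.re < x1}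

lemma isOpen_strip (x0 x1 : ℝ) : IsOpen (strip x0 x1) :=
  (isOpen_lt continuous_const Complex.continuous_re).inter
    (isOpen_lt Complex.continuous_re continuous_const)

lemma convex_strip (x0 x1 : ℝ) : Convex ℝ (strip x0 x1) :=
  (convex_halfSpace_re_gt x0).inter (convex_halfSpace_re_lt x1)

section Trap

variable {κ c a b : ℝ}

lemma line1_mem {t : ℝ} (ht : t ∈ uIcc (-a) a) :
    ((-(κ + c * a) : ℝ) : ℂ) + t * I ∈ trapP κ c a b :=
  Or.inl (Or.inl (Or.inl ⟨t, ht, rfl⟩))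
lemma line2_mem {t : ℝ} (ht : t ∈ uIcc a b) :
    (-κ : ℂ) + t * (-c + I) ∈ trapP κ c a b := Or.inl (Or.inl (Or.inr ⟨t, ht, rfl⟩))
lemma line3_mem {t : ℝ} (ht : t ∈ uIcc (-b) b) :
    ((-(κ + c * b) : ℝ) : ℂ) + t * I ∈ trapP κ c a b := Or.inl (Or.inr ⟨t, ht, rfl⟩)
lemma line4_mem {t : ℝ} (ht : t ∈ uIcc a b) :
    (-κ : ℂ) + t * (-c - I) ∈ trapP κ c a b := Or.inr ⟨t, ht, rfl⟩

lemma trapP_subset (hc : 0 < c) (hab : a < b) {x0 x1 : ℝ}
    (h0 : x0 < -(κ + c * b)) (h1 : -(κ + c * a) < x1) : trapP κ c a b ⊆ strip x0 x1 := by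
  have hm : ∀ t ∈ uIcc a b, c * a ≤ c * t ∧ c * t ≤ c * b := by
    intro t ht
    rw [uIcc_of_le hab.le] at ht
    exact ⟨mul_le_mul_of_nonneg_left ht.1 hc.le, mul_le_mul_of_nonneg_left ht.2 hc.le⟩
  have hcab : c * a < c * b := mul_lt_mul_of_pos_left hab hc
  rintro z (((⟨t, ht, rfl⟩ | ⟨t, ht, rfl⟩) | ⟨t, ht, rfl⟩) | ⟨t, ht, rfl⟩) <;>
    show _ ∧ _
  · simp; constructor <;> linarith
  · have := hm t ht
    simp; constructor <;> nlinarith
  · simp; constructor <;> linarith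
  · have := hm t ht
    simp; constructor <;> nlinarith

lemma continuousOn_line {P : Set ℂ} {Φ : ℂ → ℂ} (h : ContinuousOn Φ P) {p v : ℂ} {a b : ℝ}
    (hm : ∀ t ∈ uIcc a b, p + (t : ℂ) * v ∈ P) :
    ContinuousOn (fun t : ℝ => Φ (p + t * v)) (uIcc a b) :=
  h.comp (continuous_line p v).continuousOn hm

lemma trap_add {f g : ℂ → ℂ} (hf : ContinuousOn f (trapP κ c a b))
    (hg : ContinuousOn g (trapP κ c a b)) :
    trap κ c a b (fun z => f z + g z) = trap κ c a b f + trap κ c a b g := by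
  unfold trap
  rw [sg_add (continuousOn_line hf fun t ht => line1_mem ht)
      (continuousOn_line hg fun t ht => line1_mem ht),
    sg_add (continuousOn_line hf fun t ht => line2_mem ht)
      (continuousOn_line hg fun t ht => line2_mem ht),
    sg_add (continuousOn_line hf fun t ht => line3_mem ht)
      (continuousOn_line hg fun t ht => line3_mem ht),
    sg_add (continuousOn_line hf fun t ht => line4_mem ht)
      (continuousOn_line hg fun t ht => line4_mem ht)]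
  ring

lemma trap_smul (d : ℂ) (f : ℂ → ℂ) :
    trap κ c a b (fun z => d * f z) = d * trap κ c a b f := by
  unfold trap
  rw [sg_const_mul, sg_const_mul, sg_const_mul, sg_const_mul]
  ring

lemma trap_congr {f g : ℂ → ℂ} (h : EqOn f g (trapP κ c a b)) :
    trap κ c a b f = trap κ c a b g := by
  unfold trap
  rw [sg_congr (fun t ht => h (line1_mem ht)), sg_congr (fun t ht => h (line2_mem ht)),
    sg_congr (fun t ht => h (line3_mem ht)), sg_congr (fun t ht => h (line4_mem ht))]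

/-- a primitive along the path kills the closed integral -/
lemma trap_eq_zero_of_primitive {f G : ℂ → ℂ}
    (h : ∀ z ∈ trapP κ c a b, HasDerivAt G (f z) z) (hc : ContinuousOn f (trapP κ c a b)) :
    trap κ c a b f = 0 := by
  unfold trap
  rw [sg_ftc (fun t ht => h _ (line1_mem ht)) (continuousOn_line hc fun t ht => line1_mem ht),
    sg_ftc (fun t ht => h _ (line2_mem ht)) (continuousOn_line hc fun t ht => line2_mem ht),
    sg_ftc (fun t ht => h _ (line3_mem ht)) (continuousOn_line hc fun t ht => line3_mem ht),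
    sg_ftc (fun t ht => h _ (line4_mem ht)) (continuousOn_line hc fun t ht => line4_mem ht)]
  have e1 : ((-(κ + c * a) : ℝ) : ℂ) + (a : ℝ) * I = -κ + (a : ℝ) * (-c + I) := by
    push_cast; ring
  have e2 : ((-(κ + c * a) : ℝ) : ℂ) + ((-a : ℝ) : ℂ) * I = -κ + (a : ℝ) * (-c - I) := by
    push_cast; ring
  have e3 : ((-(κ + c * b) : ℝ) : ℂ) + (b : ℝ) * I = -κ + (b : ℝ) * (-c + I) := by
    push_cast; ring
  have e4 : ((-(κ + c * b) : ℝ) : ℂ) + ((-b : ℝ) : ℂ) * I = -κ + (b : ℝ) * (-c - I) := by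
    push_cast; ring
  rw [e1, e2, e3, e4]
  ring

lemma trap_holo (hc : 0 < c) (hab : a < b) {x0 x1 : ℝ}
    (h0 : x0 < -(κ + c * b)) (h1 : -(κ + c * a) < x1) {g : ℂ → ℂ}
    (hg : DifferentiableOn ℂ g (strip x0 x1)) : trap κ c a b g = 0 := by
  obtain ⟨G, hG⟩ := (convex_strip x0 x1).exists_forall_hasDerivWithinAt hg
  have hsub := trapP_subset hc hab h0 h1
  exact trap_eq_zero_of_primitive
    (fun z hz => (hG z (hsub hz)).hasDerivAt ((isOpen_strip x0 x1).mem_nhds (hsub hz)))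
    (hg.continuousOn.mono hsub)

lemma trap_pow {s : ℂ} (hs : s ∉ trapP κ c a b) (m : ℕ) :
    trap κ c a b (fun z => ((z - s) ^ (m + 2))⁻¹) = 0 := by
  have hne : ∀ z ∈ trapP κ c a b, z - s ≠ 0 := fun z hz h =>
    hs (by rw [← sub_eq_zero.1 h]; exact hz)
  refine trap_eq_zero_of_primitive (G := fun z => -((m : ℂ) + 1)⁻¹ * (z - s) ^ (-((m : ℤ) + 1)))
    (fun z hz => ?_) ?_
  · have h1 : HasDerivAt (fun z : ℂ => z - s) 1 z := (hasDerivAt_id z).sub_const s
    have h2 := (hasDerivAt_zpow (-((m : ℤ) + 1)) (z - s) (Or.inl (hne z hz))).comp z h1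
    have h3 := h2.const_mul (-((m : ℂ) + 1)⁻¹)
    refine h3.congr_deriv ?_
    have hm : (m : ℂ) + 1 ≠ 0 := by exact_mod_cast Nat.succ_ne_zero m
    have h4 : (z - s) ^ (-((m : ℤ) + 1) - 1) = ((z - s) ^ (m + 2))⁻¹ := by
      rw [← zpow_natCast, ← zpow_neg, show -((m : ℤ) + 1) - 1 = -((m + 2 : ℕ) : ℤ) by
        push_cast; ring]
    rw [h4]
    push_cast
    field_simp
  · exact ContinuousOn.inv₀ (by fun_prop) (fun z hz => pow_ne_zero _ (hne z hz))

lemma log_neg_of_im_neg {z : ℂ} (h : z.im < 0) : Complex.log (-z) = Complex.log z + π * I := by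
  apply Complex.ext
  · simp [Complex.log_re]
  · simp [Complex.log_im, Complex.arg_neg_eq_arg_add_pi_of_im_neg h]

lemma trap_inv (ha : 0 ≤ a) (hab : a < b) {s : ℝ}
    (h0 : -(κ + c * b) < s) (h1 : s < -(κ + c * a)) :
    trap κ c a b (fun z => (z - s)⁻¹) = 2 * π * I := by
  have hb : 0 < b := ha.trans_lt hab
  have hlog : ∀ z : ℂ, z - s ∈ slitPlane → HasDerivAt (fun z : ℂ => Complex.log (z - s))
      ((z - s)⁻¹) z := by
    intro z hz
    have h1 : HasDerivAt (fun z : ℂ => z - s) 1 z := (hasDerivAt_id z).sub_const _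
    simpa using h1.clog hz
  have hlog' : ∀ z : ℂ, -(z - s) ∈ slitPlane → HasDerivAt (fun z : ℂ => Complex.log (-(z - s)))
      ((z - s)⁻¹) z := by
    intro z hz
    have h1 : HasDerivAt (fun z : ℂ => -(z - s)) (-1) z := ((hasDerivAt_id z).sub_const _).neg
    have h2 := h1.clog hz
    convert h2 using 1
    rw [neg_div_neg_eq, one_div]
  have hc' : ∀ (p v : ℂ) (a b : ℝ), (∀ t ∈ uIcc a b, p + (t : ℂ) * v - s ≠ 0) →
      ContinuousOn (fun t : ℝ => (p + (t : ℂ) * v - s)⁻¹) (uIcc a b) := by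
    intro p v a b h
    exact ContinuousOn.inv₀ (by fun_prop) h
  have m1 : ∀ t ∈ uIcc (-a) a, ((-(κ + c * a) : ℝ) : ℂ) + t * I - s ∈ slitPlane := by
    intro t _
    left
    simp
    linarith
  have m2 : ∀ t ∈ uIcc a b, (-κ : ℂ) + t * (-c + I) - s ∈ slitPlane := by
    intro t ht
    rw [uIcc_of_le hab.le] at ht
    rcases (ha.trans ht.1).eq_or_lt with h | h
    · left
      have : a = 0 := le_antisymm (h ▸ ht.1) ha
      subst this
      rw [← h]
      simp at h1 ⊢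
      linarith
    · right
      simp [h.ne']
  have m4 : ∀ t ∈ uIcc a b, (-κ : ℂ) + t * (-c - I) - s ∈ slitPlane := by
    intro t ht
    rw [uIcc_of_le hab.le] at ht
    rcases (ha.trans ht.1).eq_or_lt with h | h
    · left
      have : a = 0 := le_antisymm (h ▸ ht.1) ha
      subst this
      rw [← h]
      simp at h1 ⊢
      linarith
    · right
      simp [h.ne']
  have m3 : ∀ t ∈ uIcc (-b) b, -(((-(κ + c * b) : ℝ) : ℂ) + t * I - s) ∈ slitPlane := by
    intro t _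
    left
    simp
    linarith
  unfold trap
  rw [sg_ftc (fun t ht => hlog _ (m1 t ht)) (hc' _ _ _ _ fun t ht => slitPlane_ne_zero (m1 t ht)),
    sg_ftc (fun t ht => hlog _ (m2 t ht)) (hc' _ _ _ _ fun t ht => slitPlane_ne_zero (m2 t ht)),
    sg_ftc (fun t ht => hlog' _ (m3 t ht)) (hc' _ _ _ _ fun t ht => neg_ne_zero.1
      (slitPlane_ne_zero (m3 t ht))),
    sg_ftc (fun t ht => hlog _ (m4 t ht)) (hc' _ _ _ _ fun t ht => slitPlane_ne_zero (m4 t ht))]
  have e1 : ((-(κ + c * a) : ℝ) : ℂ) + (a : ℝ) * I = -κ + (a : ℝ) * (-c + I) := by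
    push_cast; ring
  have e2 : ((-(κ + c * a) : ℝ) : ℂ) + ((-a : ℝ) : ℂ) * I = -κ + (a : ℝ) * (-c - I) := by
    push_cast; ring
  have e3 : ((-(κ + c * b) : ℝ) : ℂ) + (b : ℝ) * I = -κ + (b : ℝ) * (-c + I) := by
    push_cast; ring
  have e4 : ((-(κ + c * b) : ℝ) : ℂ) + ((-b : ℝ) : ℂ) * I = -κ + (b : ℝ) * (-c - I) := by
    push_cast; ring
  rw [e1, e2, e3, e4]
  have k1 := log_neg_of_im_neg (z := (-κ : ℂ) + (b : ℝ) * (-c - I) - s) (by simpa using hb)
  have k2 := log_neg_of_im_neg (z := -((-κ : ℂ) + (b : ℝ) * (-c + I) - s)) (by simpa using hb)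
  rw [neg_neg] at k2
  linear_combination k1 + k2

lemma notMem_trapP (ha : 0 ≤ a) (hab : a < b) {s : ℝ}
    (h0 : -(κ + c * b) < s) (h1 : s < -(κ + c * a)) : (s : ℂ) ∉ trapP κ c a b := by
  rintro (((⟨t, ht, h⟩ | ⟨t, ht, h⟩) | ⟨t, ht, h⟩) | ⟨t, ht, h⟩)
  · have := congrArg Complex.re h
    simp at this
    linarith
  · have h2 := congrArg Complex.im h
    have h3 := congrArg Complex.re h
    rw [uIcc_of_le hab.le] at ht
    simp at h2 h3
    subst h2
    have : a = 0 := le_antisymm ht.1 ha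
    subst this
    simp at h3 h1
    linarith
  · have := congrArg Complex.re h
    simp at this
    linarith
  · have h2 := congrArg Complex.im h
    have h3 := congrArg Complex.re h
    rw [uIcc_of_le hab.le] at ht
    simp at h2 h3
    subst h2
    have : a = 0 := le_antisymm ht.1 ha
    subst this
    simp at h3 h1
    linarith

lemma trap_residue (hc : 0 < c) (ha : 0 ≤ a) (hab : a < b) {x0 x1 s : ℝ}
    (h0 : x0 < -(κ + c * b)) (h1 : -(κ + c * a) < x1)
    (h2 : -(κ + c * b) < s) (h3 : s < -(κ + c * a)) (n : ℕ) {f : ℂ → ℂ}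
    (hf : DifferentiableOn ℂ f (strip x0 x1)) :
    trap κ c a b (fun z => f z / (z - s) ^ (n + 1)) =
      2 * π * I * ((fun f => dslope f (s : ℂ))^[n] f) s := by
  refine residue_rec (trap κ c a b) (trapP κ c a b) (strip x0 x1) s ?_ ?_ ?_ ?_ ?_ ?_ ?_ ?_ ?_ n f hf
  · exact notMem_trapP ha hab h2 h3
  · exact trapP_subset hc hab h0 h1
  · exact (isOpen_strip x0 x1).mem_nhds (by simp [strip]; constructor <;> linarith)
  · exact fun f g => trap_add
  · exact fun d f => trap_smul d f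
  · exact fun f g => trap_congr
  · exact fun g hg => trap_holo hc hab h0 h1 hg
  · exact trap_inv ha hab h2 h3
  · exact trap_pow (notMem_trapP ha hab h2 h3)


end Trap

/-! ### the wedge -/

/-- `Φ` has a pole of order at most `m+1` at `s` and is otherwise holomorphic on the strip -/
def PoleAt (Φ : ℂ → ℂ) (x0 x1 s : ℝ) (m : ℕ) : Prop :=
  ∃ H : ℂ → ℂ, DifferentiableOn ℂ H (strip x0 x1) ∧
    ∀ z ∈ strip x0 x1, z ≠ s → Φ z = H z / (z - s) ^ (m + 1)

lemma PoleAt.continuousOn {Φ : ℂ → ℂ} {x0 x1 s : ℝ} {m : ℕ} (h : PoleAt Φ x0 x1 s m) {P : Set ℂ}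
    (hP : P ⊆ strip x0 x1) (hs : (s : ℂ) ∉ P) : ContinuousOn Φ P := by
  obtain ⟨H, hH, hΦ⟩ := h
  have : ContinuousOn (fun z => H z / (z - s) ^ (m + 1)) P :=
    (hH.continuousOn.mono hP).div (by fun_prop) fun z hz => pow_ne_zero _ fun h =>
      hs (by rw [← sub_eq_zero.1 h]; exact hz)
  exact this.congr fun z hz => hΦ z (hP hz) fun h => hs (h ▸ hz)





end Crest.Agent.R006.Wedge516
end
end

-- ▼ part R006/Wedge2_516
section

/-!
Row 6 (Catalan), block P3 (helper516).  The wedge lemma of `Wedge_516` with several poles per unit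
cell (sites at the half-integers and nodes at the integers): offsets `φ ∈ Off ⊆ (0,1)`, poles at
`-(κ+l+φ)`.
-/

set_option autoImplicit false

open Complex MeasureTheory Set Filter Topology intervalIntegral Metric Function
open scoped Real Interval

noncomputable section

namespace Crest.Agent.R006.Wedge516

/-- `Φ` is holomorphic on the strip except for poles of order at most `m+1` at the points of `F` -/
def PolesAt (Φ : ℂ → ℂ) (x0 x1 : ℝ) (F : Finset ℝ) (m : ℕ) : Prop :=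
  ∃ (H0 : ℂ → ℂ) (H : ℝ → ℂ → ℂ), DifferentiableOn ℂ H0 (strip x0 x1) ∧
    (∀ s ∈ F, DifferentiableOn ℂ (H s) (strip x0 x1)) ∧
    ∀ z ∈ strip x0 x1, (∀ s ∈ F, z ≠ (s : ℝ)) →
      Φ z = H0 z + ∑ s ∈ F, H s z / (z - s) ^ (m + 1)

/-- the multiplicative form of the hypothesis -/
lemma polesAt_of_prod {Φ H : ℂ → ℂ} {x0 x1 : ℝ} {F : Finset ℝ} {m : ℕ} (hF : F.Nonempty)
    (hH : DifferentiableOn ℂ H (strip x0 x1))
    (h : ∀ z ∈ strip x0 x1, (∀ s ∈ F, z ≠ (s : ℝ)) →
      Φ z = H z / ∏ s ∈ F, (z - s) ^ (m + 1)) : PolesAt Φ x0 x1 F m := by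
  classical
  have hcop : Pairwise (IsCoprime on fun s : F =>
      ((fun s : ℝ => (Polynomial.X - Polynomial.C (s : ℂ)) ^ (m + 1)) (s : ℝ))) := by
    intro s t hst
    refine IsCoprime.pow ?_
    refine Polynomial.isCoprime_X_sub_C_of_isUnit_sub ?_
    have : ((s : ℝ) : ℂ) - ((t : ℝ) : ℂ) ≠ 0 := by
      rw [sub_ne_zero]
      exact fun h => hst (Subtype.ext (by exact_mod_cast h))
    exact this.isUnit
  obtain ⟨μ, hμ⟩ := (exists_sum_eq_one_iff_pairwise_coprime hF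
    (s := fun s : ℝ => (Polynomial.X - Polynomial.C (s : ℂ)) ^ (m + 1))).2 hcop
  refine ⟨0, fun s z => H z * (μ s).eval z, differentiableOn_const 0, ?_, ?_⟩
  · intro s hs
    exact hH.mul (Polynomial.differentiable _).differentiableOn
  · intro z hz hne
    rw [h z hz hne]
    have hne' : ∀ s ∈ F, (z - (s : ℂ)) ^ (m + 1) ≠ 0 := fun s hs =>
      pow_ne_zero _ (sub_ne_zero.2 (hne s hs))
    have e1 := congrArg (Polynomial.eval z) hμ
    rw [Polynomial.eval_finsetSum] at e1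
    simp only [Polynomial.eval_mul, Polynomial.eval_prod, Polynomial.eval_pow,
      Polynomial.eval_sub, Polynomial.eval_X, Polynomial.eval_C, Polynomial.eval_one] at e1
    have hP : ∏ s ∈ F, (z - (s : ℂ)) ^ (m + 1) ≠ 0 := Finset.prod_ne_zero_iff.2 hne'
    rw [Pi.zero_apply, zero_add, div_eq_iff hP, Finset.sum_mul]
    have e2 : ∀ s ∈ F, H z * (μ s).eval z / (z - (s : ℂ)) ^ (m + 1) *
        ∏ s ∈ F, (z - (s : ℂ)) ^ (m + 1) =
        H z * ((μ s).eval z * ∏ t ∈ F \ {s}, (z - (t : ℂ)) ^ (m + 1)) := by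
      intro s hs
      rw [← Finset.mul_prod_erase F _ hs, Finset.sdiff_singleton_eq_erase]
      have := hne' s hs
      field_simp
    rw [Finset.sum_congr rfl e2, ← Finset.mul_sum, e1, mul_one]

lemma circle_sum {s : ℂ} {r : ℝ} (hr : 0 ≤ r) {ι : Type*} (F : Finset ι) (g : ι → ℂ → ℂ)
    (hg : ∀ i ∈ F, ContinuousOn (g i) (sphere s r)) :
    (∮ z in C(s, r), ∑ i ∈ F, g i z) = ∑ i ∈ F, ∮ z in C(s, r), g i z := by
  classical
  induction F using Finset.induction_on with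
  | empty => simp [circleIntegral]
  | insert i F hi ih =>
    simp only [Finset.sum_insert hi]
    rw [circleIntegral.integral_add ((hg i (Finset.mem_insert_self _ _)).circleIntegrable hr)
      ((continuousOn_finsetSum F fun j hj => hg j (Finset.mem_insert_of_mem hj)).circleIntegrable
        hr), ih fun j hj => hg j (Finset.mem_insert_of_mem hj)]

lemma trap_sum {κ c a b : ℝ} {ι : Type*} (F : Finset ι) (g : ι → ℂ → ℂ)
    (hg : ∀ i ∈ F, ContinuousOn (g i) (trapP κ c a b)) :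
    trap κ c a b (fun z => ∑ i ∈ F, g i z) = ∑ i ∈ F, trap κ c a b (g i) := by
  classical
  induction F using Finset.induction_on with
  | empty => simp [trap, sg]
  | insert i F hi ih =>
    simp only [Finset.sum_insert hi]
    rw [trap_add (hg i (Finset.mem_insert_self _ _))
      (continuousOn_finsetSum F fun j hj => hg j (Finset.mem_insert_of_mem hj)),
      ih fun j hj => hg j (Finset.mem_insert_of_mem hj)]

lemma closedBall_subset_strip {x0 x1 s r : ℝ} (h4 : x0 < s - r) (h5 : s + r < x1) :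
    closedBall (s : ℂ) r ⊆ strip x0 x1 := by
  intro z hz
  rw [mem_closedBall, dist_eq_norm] at hz
  have := (Complex.abs_re_le_norm (z - s)).trans hz
  rw [abs_le] at this
  simp at this
  simp [strip]
  constructor <;> linarith

/-- one trapezoid with several poles -/
theorem trap_poles {κ c a b : ℝ} (hc : 0 < c) (ha : 0 ≤ a) (hab : a < b) {x0 x1 r : ℝ}
    (h0 : x0 < -(κ + c * b)) (h1 : -(κ + c * a) < x1) {F : Finset ℝ} {m : ℕ} {Φ : ℂ → ℂ}
    (hΦ : PolesAt Φ x0 x1 F m) (hr : 0 < r)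
    (hF : ∀ s ∈ F, -(κ + c * b) < s ∧ s < -(κ + c * a))
    (hFr : ∀ s ∈ F, x0 < s - r ∧ s + r < x1)
    (hsep : ∀ s ∈ F, ∀ t ∈ F, s ≠ t → r < |s - t|) :
    trap κ c a b Φ = ∑ s ∈ F, ∮ z in C(s, r), Φ z := by
  classical
  obtain ⟨H0, H, hH0, hH, hΦ⟩ := hΦ
  have hsub := trapP_subset hc hab h0 h1
  have hnot : ∀ s ∈ F, (s : ℂ) ∉ trapP κ c a b := fun s hs =>
    notMem_trapP ha hab (hF s hs).1 (hF s hs).2
  have hcontT : ∀ s ∈ F, ContinuousOn (fun z => H s z / (z - (s : ℂ)) ^ (m + 1))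
      (trapP κ c a b) := by
    intro s hs
    refine ((hH s hs).continuousOn.mono hsub).div (by fun_prop) fun z hz => pow_ne_zero _ fun h =>
      hnot s hs (by rw [← sub_eq_zero.1 h]; exact hz)
  -- the trapezoid
  have e1 : trap κ c a b Φ = ∑ s ∈ F, 2 * π * I * ((fun f => dslope f (s : ℂ))^[m] (H s)) s := by
    rw [trap_congr (g := fun z => H0 z + ∑ s ∈ F, H s z / (z - (s : ℂ)) ^ (m + 1)),
      trap_add (hH0.continuousOn.mono hsub) (continuousOn_finsetSum F hcontT),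
      trap_holo hc hab h0 h1 hH0, zero_add, trap_sum F _ hcontT]
    · exact Finset.sum_congr rfl fun s hs => trap_residue hc ha hab h0 h1 (hF s hs).1 (hF s hs).2 m
        (hH s hs)
    · intro z hz
      exact hΦ z (hsub hz) fun s hs h => hnot s hs (h ▸ hz)
  rw [e1]
  refine Finset.sum_congr rfl fun s hs => ?_
  have hball := closedBall_subset_strip (hFr s hs).1 (hFr s hs).2
  have hne : ∀ t ∈ F, t ≠ s → ∀ z ∈ closedBall (s : ℂ) r, z - (t : ℂ) ≠ 0 := by
    intro t ht hts z hz h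
    rw [sub_eq_zero] at h
    subst h
    rw [mem_closedBall, Complex.dist_eq, ← Complex.ofReal_sub, Complex.norm_real,
      Real.norm_eq_abs, abs_sub_comm] at hz
    exact absurd (hsep s hs t ht hts.symm) (not_lt.2 hz)
  have hnes : ∀ z ∈ sphere (s : ℂ) r, z - (s : ℂ) ≠ 0 := by
    intro z hz h
    rw [sub_eq_zero] at h
    subst h
    simp at hz
    exact hr.ne hz
  have hcontC : ∀ t ∈ F, ContinuousOn (fun z => H t z / (z - (t : ℂ)) ^ (m + 1))
      (sphere (s : ℂ) r) := by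
    intro t ht
    refine ((hH t ht).continuousOn.mono (sphere_subset_closedBall.trans hball)).div (by fun_prop)
      fun z hz => pow_ne_zero _ ?_
    by_cases hts : t = s
    · subst hts; exact hnes z hz
    · exact hne t ht hts z (sphere_subset_closedBall hz)
  have e2 : (∮ z in C(s, r), Φ z) =
      ∮ z in C(s, r), (H0 z + ∑ t ∈ F, H t z / (z - (t : ℂ)) ^ (m + 1)) := by
    refine circleIntegral.integral_congr hr.le fun z hz => ?_
    refine hΦ z (hball (sphere_subset_closedBall hz)) fun t ht h => ?_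
    by_cases hts : t = s
    · subst hts; exact hnes z hz (sub_eq_zero.2 h)
    · exact hne t ht hts z (sphere_subset_closedBall hz) (sub_eq_zero.2 h)
  have hzero : ∀ g : ℂ → ℂ, DifferentiableOn ℂ g (closedBall (s : ℂ) r) →
      (∮ z in C(s, r), g z) = 0 := by
    intro g hg
    refine circleIntegral_eq_zero_of_differentiable_on_off_countable hr.le countable_empty
      hg.continuousOn ?_
    intro z hz
    exact (hg z (ball_subset_closedBall hz.1)).differentiableAt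
      (closedBall_mem_nhds_of_mem hz.1)
  rw [e2, circleIntegral.integral_add
    ((hH0.continuousOn.mono (sphere_subset_closedBall.trans hball)).circleIntegrable hr.le)
    ((continuousOn_finsetSum F hcontC).circleIntegrable hr.le), hzero _ (hH0.mono hball), zero_add,
    circle_sum hr.le F _ hcontC, Finset.sum_eq_single_of_mem s hs]
  · rw [circle_residue hr (isOpen_strip x0 x1) hball m (hH s hs)]
  · intro t ht hts
    refine hzero _ ?_
    refine ((hH t ht).mono hball).div (by fun_prop) fun z hz => pow_ne_zero _ (hne t ht hts z hz)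

/-- hypotheses on the offsets: in `(0,1)`, `r`-separated -/
structure OffOK (Off : Finset ℝ) (r : ℝ) : Prop where
  pos : ∀ φ ∈ Off, 0 < φ
  lt_one : ∀ φ ∈ Off, φ < 1
  r_pos : 0 < r
  r_le : r ≤ 1 / 4
  sep : ∀ φ ∈ Off, ∀ φ' ∈ Off, φ ≠ φ' → r < |φ - φ'|

/-- the pole set of cell `l` -/
def cellF (Off : Finset ℝ) (κ : ℝ) (l : ℕ) : Finset ℝ :=
  Off.image (fun φ => -(κ + l + φ))

lemma mem_cellF {Off : Finset ℝ} {κ s : ℝ} {l : ℕ} :
    s ∈ cellF Off κ l ↔ ∃ φ ∈ Off, -(κ + l + φ) = s := by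
  simp [cellF]

lemma PolesAt.continuousOn {Φ : ℂ → ℂ} {x0 x1 : ℝ} {F : Finset ℝ} {m : ℕ}
    (h : PolesAt Φ x0 x1 F m) {P : Set ℂ}
    (hP : P ⊆ strip x0 x1) (hs : ∀ s ∈ F, (s : ℂ) ∉ P) : ContinuousOn Φ P := by
  obtain ⟨H0, H, hH0, hH, hΦ⟩ := h
  have : ContinuousOn (fun z => H0 z + ∑ s ∈ F, H s z / (z - (s : ℂ)) ^ (m + 1)) P := by
    refine (hH0.continuousOn.mono hP).add (continuousOn_finsetSum F fun s hsF => ?_)
    exact ((hH s hsF).continuousOn.mono hP).div (by fun_prop) fun z hz => pow_ne_zero _ fun h =>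
      hs s hsF (by rw [← sub_eq_zero.1 h]; exact hz)
  exact this.congr fun z hz => hΦ z (hP hz) fun s hsF h => hs s hsF (h ▸ hz)

section W2

variable {κ c r : ℝ} {Off : Finset ℝ} {m : ℕ} {Φ : ℂ → ℂ}








end W2

end Crest.Agent.R006.Wedge516
end
end

-- ▼ part R006/Wedge3_516
section

/-!
Row 6 (Catalan), block P3 (helper516).  The wedge lemma of `Wedge2_516` with an arbitrary margin `δ`
of the strips (so that poles of neighbouring cells are outside).
-/

set_option autoImplicit false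

open Complex MeasureTheory Set Filter Topology intervalIntegral Metric Function
open scoped Real Interval

noncomputable section

namespace Crest.Agent.R006.Wedge516

/-- hypotheses on the offsets: in `(0,1)`, `r`-separated; `δ` is the margin of the strips -/
structure OffM (Off : Finset ℝ) (r δ : ℝ) : Prop where
  pos : ∀ φ ∈ Off, 0 < φ
  lt_one : ∀ φ ∈ Off, φ < 1
  r_pos : 0 < r
  δ_pos : 0 < δ
  lo : ∀ φ ∈ Off, r < φ + δ
  hi : ∀ φ ∈ Off, φ + r < 1 + δ
  sep : ∀ φ ∈ Off, ∀ φ' ∈ Off, φ ≠ φ' → r < |φ - φ'|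

section W3

variable {κ c r δ : ℝ} {Off : Finset ℝ} {m : ℕ} {Φ : ℂ → ℂ}

lemma cell2_m (hc : 0 < c) (hO : OffM Off r δ) {l : ℕ}
    (h : PolesAt Φ (-(κ + l + 1) - δ) (-(κ + l) + δ) (cellF Off κ l) m) :
    trap κ c (l / c) ((l + 1 : ℕ) / c) Φ =
      ∑ φ ∈ Off, (∮ z in C((-(κ + l + φ) : ℝ), r), Φ z) := by
  have e1 : c * ((l : ℝ) / c) = l := mul_div_cancel₀ _ hc.ne'
  have e2 : c * (((l + 1 : ℕ) : ℝ) / c) = (l + 1 : ℕ) := mul_div_cancel₀ _ hc.ne'
  have ha : (0 : ℝ) ≤ l / c := by positivity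
  have hab : (l : ℝ) / c < ((l + 1 : ℕ) : ℝ) / c := by
    gcongr
    simp
  have hδ := hO.δ_pos
  have key := trap_poles (κ := κ) hc ha hab (x0 := -(κ + l + 1) - δ) (x1 := -(κ + l) + δ)
    (r := r) (by rw [e2]; push_cast; linarith) (by rw [e1]; linarith) h hO.r_pos ?_ ?_ ?_
  · rw [key, cellF, Finset.sum_image]
    intro x _ y _ hxy
    simpa using hxy
  · intro s hs
    obtain ⟨φ, hφ, rfl⟩ := mem_cellF.1 hs
    have := hO.pos φ hφ
    have := hO.lt_one φ hφ
    rw [e1, e2]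
    push_cast
    constructor <;> linarith
  · intro s hs
    obtain ⟨φ, hφ, rfl⟩ := mem_cellF.1 hs
    have := hO.lo φ hφ
    have := hO.hi φ hφ
    constructor <;> linarith
  · intro s hs t ht hst
    obtain ⟨φ, hφ, rfl⟩ := mem_cellF.1 hs
    obtain ⟨φ', hφ', rfl⟩ := mem_cellF.1 ht
    have := hO.sep φ' hφ' φ hφ (fun h => hst (by rw [h]))
    rwa [show -(κ + l + φ) - -(κ + l + φ') = φ' - φ by ring]

lemma cellF_notMem_m (hc : 0 < c) (hO : OffM Off r δ) {l : ℕ} :
    ∀ s ∈ cellF Off κ l, (s : ℂ) ∉ trapP κ c ((l : ℝ) / c) (((l + 1 : ℕ) : ℝ) / c) := by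
  have e1 : c * ((l : ℝ) / c) = l := mul_div_cancel₀ _ hc.ne'
  have e2 : c * (((l + 1 : ℕ) : ℝ) / c) = (l + 1 : ℕ) := mul_div_cancel₀ _ hc.ne'
  have ha : (0 : ℝ) ≤ l / c := by positivity
  have hab : (l : ℝ) / c < ((l + 1 : ℕ) : ℝ) / c := by
    gcongr
    simp
  intro s hs
  obtain ⟨φ, hφ, rfl⟩ := mem_cellF.1 hs
  have := hO.pos φ hφ
  have := hO.lt_one φ hφ
  refine notMem_trapP ha hab ?_ ?_
  · rw [e2]; push_cast; linarith
  · rw [e1]; linarith

lemma cell_continuousOn_m (hc : 0 < c) (hO : OffM Off r δ) {l : ℕ}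
    (h : PolesAt Φ (-(κ + l + 1) - δ) (-(κ + l) + δ) (cellF Off κ l) m) :
    ContinuousOn Φ (trapP κ c ((l : ℝ) / c) (((l + 1 : ℕ) : ℝ) / c)) := by
  have e1 : c * ((l : ℝ) / c) = l := mul_div_cancel₀ _ hc.ne'
  have e2 : c * (((l + 1 : ℕ) : ℝ) / c) = (l + 1 : ℕ) := mul_div_cancel₀ _ hc.ne'
  have hab : (l : ℝ) / c < ((l + 1 : ℕ) : ℝ) / c := by
    gcongr
    simp
  have hδ := hO.δ_pos
  refine h.continuousOn (trapP_subset hc hab ?_ ?_) (cellF_notMem_m hc hO)
  · rw [e2]; push_cast; linarith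
  · rw [e1]; linarith

/-- finite wedge, several poles per cell -/
theorem wedge_finite_m (hc : 0 < c) (hO : OffM Off r δ) (n : ℕ)
    (h : ∀ l < n, PolesAt Φ (-(κ + l + 1) - δ) (-(κ + l) + δ) (cellF Off κ l) m) :
    ∑ l ∈ Finset.range n, ∑ φ ∈ Off, (∮ z in C((-(κ + l + φ) : ℝ), r), Φ z) =
      sg (-κ) (-c + I) 0 (n / c) Φ - sg (-κ) (-c - I) 0 (n / c) Φ
        - sg ((-(κ + n) : ℝ) : ℂ) I (-(n / c)) (n / c) Φ := by
  induction n with
  | zero => simp [sg]
  | succ n ih =>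
    rw [Finset.sum_range_succ, ih fun l hl => h l (hl.trans (Nat.lt_succ_self n)),
      ← cell2_m hc hO (h n (Nat.lt_succ_self n))]
    have e1 : c * ((n : ℝ) / c) = n := mul_div_cancel₀ _ hc.ne'
    have e2 : c * (((n + 1 : ℕ) : ℝ) / c) = (n + 1 : ℕ) := mul_div_cancel₀ _ hc.ne'
    unfold trap
    rw [e1, e2]
    -- the ray integrals are additive
    have hint : ∀ v : ℂ, (v = -c + I ∨ v = -c - I) → ∀ l ≤ n,
        IntervalIntegrable (fun t : ℝ => Φ (-κ + t * v)) volume (l / c) ((l + 1 : ℕ) / c) := by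
      intro v hv l hl
      have hcont := cell_continuousOn_m hc hO (h l (Nat.lt_succ_of_le hl))
      rcases hv with rfl | rfl
      · exact (continuousOn_line hcont fun t ht => line2_mem ht).intervalIntegrable
      · exact (continuousOn_line hcont fun t ht => line4_mem ht).intervalIntegrable
    have hint' : ∀ v : ℂ, (v = -c + I ∨ v = -c - I) → ∀ l ≤ n,
        IntervalIntegrable (fun t : ℝ => Φ (-κ + t * v)) volume 0 ((l : ℕ) / c) := by
      intro v hv l
      induction l with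
      | zero => intro _; simp
      | succ l ihl =>
        intro hl
        exact (ihl (by omega)).trans (hint v hv l (by omega))
    have hadd : ∀ v : ℂ, (v = -c + I ∨ v = -c - I) →
        sg (-κ) v 0 ((n : ℝ) / c) Φ + sg (-κ) v ((n : ℝ) / c) (((n + 1 : ℕ) : ℝ) / c) Φ =
          sg (-κ) v 0 (((n + 1 : ℕ) : ℝ) / c) Φ := by
      intro v hv
      unfold sg
      rw [← mul_add, intervalIntegral.integral_add_adjacent_intervals (hint' v hv n le_rfl)
        (hint v hv n le_rfl)]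
    rw [← hadd _ (Or.inl rfl), ← hadd _ (Or.inr rfl)]
    ring

/-- infinite wedge, several poles per cell -/
theorem wedge_tendsto_m (hc : 0 < c) (hO : OffM Off r δ)
    (h : ∀ l : ℕ, PolesAt Φ (-(κ + l + 1) - δ) (-(κ + l) + δ) (cellF Off κ l) m)
    (h1 : IntegrableOn (fun t : ℝ => Φ (-κ + t * (-c + I))) (Ioi 0))
    (h2 : IntegrableOn (fun t : ℝ => Φ (-κ + t * (-c - I))) (Ioi 0))
    (h3 : Tendsto (fun n : ℕ => sg ((-(κ + n) : ℝ) : ℂ) I (-(n / c)) (n / c) Φ) atTop (𝓝 0)) :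
    Tendsto (fun n : ℕ => ∑ l ∈ Finset.range n, ∑ φ ∈ Off,
        (∮ z in C((-(κ + l + φ) : ℝ), r), Φ z))
      atTop (𝓝 ((-c + I) * (∫ t in Ioi (0 : ℝ), Φ (-κ + t * (-c + I))) -
        (-c - I) * (∫ t in Ioi (0 : ℝ), Φ (-κ + t * (-c - I))))) := by
  have hn : Tendsto (fun n : ℕ => (n : ℝ) / c) atTop atTop :=
    tendsto_natCast_atTop_atTop.atTop_div_const hc
  have t1 := (intervalIntegral_tendsto_integral_Ioi 0 h1 hn).const_mul (-c + I)
  have t2 := (intervalIntegral_tendsto_integral_Ioi 0 h2 hn).const_mul (-c - I)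
  have t3 := (t1.sub t2).sub h3
  rw [sub_zero] at t3
  refine t3.congr fun n => ?_
  rw [wedge_finite_m hc hO n fun l _ => h l]
  rfl

lemma ray_continuousOn_m (hc : 0 < c) (hO : OffM Off r δ)
    (h : ∀ l : ℕ, PolesAt Φ (-(κ + l + 1) - δ) (-(κ + l) + δ) (cellF Off κ l) m)
    {v : ℂ} (hv : v = -c + I ∨ v = -c - I) :
    ContinuousOn (fun t : ℝ => Φ (-κ + t * v)) (Ici 0) := by
  intro t ht
  have ht0 : (0 : ℝ) ≤ t := ht
  have hre : ((-κ : ℂ) + t * v).re = -κ - c * t := by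
    rcases hv with rfl | rfl <;> simp <;> ring
  set l := ⌊c * t⌋₊ with hl
  have hl1 : (l : ℝ) ≤ c * t := Nat.floor_le (by positivity)
  have hl2 : c * t < l + 1 := Nat.lt_floor_add_one _
  set S : Set ℂ := strip (-(κ + l + 1) - δ) (-(κ + l) + δ) \
    ((cellF Off κ l).image (fun s : ℝ => (s : ℂ)) : Set ℂ) with hS
  have hδ := hO.δ_pos
  have hmem : (-κ : ℂ) + t * v ∈ strip (-(κ + l + 1) - δ) (-(κ + l) + δ) := by
    constructor <;> rw [hre] <;> linarith
  have hne : (-κ : ℂ) + t * v ∉ ((cellF Off κ l).image (fun s : ℝ => (s : ℂ)) : Set ℂ) := by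
    intro he
    rw [Finset.coe_image, mem_image] at he
    obtain ⟨s, hs, he⟩ := he
    obtain ⟨φ, hφ, rfl⟩ := mem_cellF.1 (Finset.mem_coe.1 hs)
    have hp := hO.pos φ hφ
    have h2 := congrArg Complex.im he
    have h3 : t = 0 := by rcases hv with rfl | rfl <;> simpa using h2.symm
    have h4 := congrArg Complex.re he
    rw [hre, h3] at h4
    simp only [mul_zero, sub_zero, ofReal_re] at h4
    have : (0 : ℝ) ≤ l := Nat.cast_nonneg l
    linarith
  have hSo : S ∈ 𝓝 ((-κ : ℂ) + t * v) :=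
    ((isOpen_strip _ _).sdiff (Finset.finite_toSet _).isClosed).mem_nhds ⟨hmem, hne⟩
  have h5 : ContinuousOn Φ S := (h l).continuousOn sdiff_subset (fun s hs h' => h'.2 (by
    rw [Finset.coe_image]; exact mem_image_of_mem _ hs))
  have hca : ContinuousAt Φ ((-κ : ℂ) + t * v) := h5.continuousAt hSo
  exact (ContinuousAt.comp (f := fun t : ℝ => (-κ : ℂ) + t * v) hca
    (continuous_line _ _).continuousAt).continuousWithinAt

/-- wedge with exponential decay -/
theorem wedge_hasSum_m {M lam : ℝ} (hc : 0 < c) (hlam : 0 < lam) (hO : OffM Off r δ)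
    (h : ∀ l : ℕ, PolesAt Φ (-(κ + l + 1) - δ) (-(κ + l) + δ) (cellF Off κ l) m)
    (hb1 : ∀ t : ℝ, 0 ≤ t → ‖Φ (-κ + t * (-c + I))‖ ≤ M * Real.exp (-lam * t))
    (hb2 : ∀ t : ℝ, 0 ≤ t → ‖Φ (-κ + t * (-c - I))‖ ≤ M * Real.exp (-lam * t))
    (hb3 : ∀ (n : ℕ) (y : ℝ), |y| ≤ n / c → ‖Φ (((-(κ + n) : ℝ) : ℂ) + y * I)‖ ≤
      M * Real.exp (-lam * n))
    (hb4 : ∀ (l : ℕ), ∀ φ ∈ Off, ∀ (z : ℂ), ‖z - ((-(κ + l + φ) : ℝ) : ℂ)‖ = r →
      ‖Φ z‖ ≤ M * Real.exp (-lam * l)) :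
    HasSum (fun l : ℕ => ∑ φ ∈ Off, ∮ z in C((-(κ + l + φ) : ℝ), r), Φ z)
      ((-c + I) * (∫ t in Ioi (0 : ℝ), Φ (-κ + t * (-c + I))) -
        (-c - I) * (∫ t in Ioi (0 : ℝ), Φ (-κ + t * (-c - I)))) := by
  have hM : 0 ≤ M := by
    have := (norm_nonneg _).trans (hb1 0 le_rfl)
    simpa using this
  have hintv : ∀ v : ℂ, (v = -c + I ∨ v = -c - I) →
      (∀ t : ℝ, 0 ≤ t → ‖Φ (-κ + t * v)‖ ≤ M * Real.exp (-lam * t)) →
      IntegrableOn (fun t : ℝ => Φ (-κ + t * v)) (Ioi 0) := by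
    intro v hv hb
    have hg : IntegrableOn (fun t : ℝ => M * Real.exp (-lam * t)) (Ioi 0) :=
      (exp_neg_integrableOn_Ioi 0 hlam).const_mul M
    refine Integrable.mono' hg (((ray_continuousOn_m hc hO h hv).mono
      Ioi_subset_Ici_self).aestronglyMeasurable measurableSet_Ioi) ?_
    filter_upwards [ae_restrict_mem measurableSet_Ioi] with t ht
    exact hb t (le_of_lt ht)
  have htend := wedge_tendsto_m hc hO h (hintv _ (Or.inl rfl) hb1) (hintv _ (Or.inr rfl) hb2) ?_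
  · have hsum : Summable (fun l : ℕ => ∑ φ ∈ Off, ∮ z in C((-(κ + l + φ) : ℝ), r), Φ z) := by
      refine Summable.of_norm_bounded
        (g := fun l : ℕ => ∑ φ ∈ Off, 2 * π * r * (M * Real.exp (-lam * l))) ?_ fun l => ?_
      · refine summable_sum fun φ _ => ?_
        refine ((?_ : Summable fun l : ℕ => Real.exp (-lam * l)).mul_left M).mul_left _
        have := Real.summable_exp_nat_mul_iff.2 (show -lam < 0 by linarith)
        refine this.congr fun l => ?_
        rw [mul_comm]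
      · refine (norm_sum_le _ _).trans (Finset.sum_le_sum fun φ hφ => ?_)
        refine circleIntegral.norm_integral_le_of_norm_le_const hO.r_pos.le fun z hz => ?_
        rw [mem_sphere, dist_eq_norm] at hz
        exact hb4 l φ hφ z hz
    exact (hsum.hasSum_iff_tendsto_nat).2 htend
  · rw [tendsto_zero_iff_norm_tendsto_zero]
    have hlim : Tendsto (fun n : ℕ => 2 / c * M * ((n : ℝ) * Real.exp (-lam * n))) atTop
        (𝓝 0) := by
      have h5 : Tendsto (fun x : ℝ => x * Real.exp (-lam * x)) atTop (𝓝 0) := by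
        have := Real.tendsto_pow_mul_exp_neg_atTop_nhds_zero 1
        have h6 := (this.comp (tendsto_id.const_mul_atTop hlam)).const_mul (1 / lam)
        rw [mul_zero] at h6
        refine h6.congr fun x => ?_
        simp only [Function.comp, pow_one, id]
        rw [show -(lam * x) = -lam * x by ring]
        field_simp
      have := (h5.comp tendsto_natCast_atTop_atTop).const_mul (2 / c * M)
      rw [mul_zero] at this
      exact this
    refine squeeze_zero (fun _ => norm_nonneg _) (fun n => ?_) hlim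
    have hn0 : (0 : ℝ) ≤ (n : ℝ) / c := by positivity
    unfold sg
    rw [norm_mul, Complex.norm_I, one_mul]
    have h7 := intervalIntegral.norm_integral_le_of_norm_le_const
      (a := -((n : ℝ) / c)) (b := (n : ℝ) / c)
      (f := fun y : ℝ => Φ (((-(κ + n) : ℝ) : ℂ) + y * I)) (C := M * Real.exp (-lam * n))
      (fun y hy => hb3 n y ?_)
    · refine h7.trans (le_of_eq ?_)
      rw [sub_neg_eq_add, abs_of_nonneg (by linarith)]
      ring
    · rw [uIoc_of_le (by linarith)] at hy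
      exact abs_le.2 ⟨hy.1.le, hy.2⟩

end W3

end Crest.Agent.R006.Wedge516
end
end

-- ▼ part R006/Tail1_516
section

/-!
Row 6 (Catalan), block P3 (helper516).  Circle sums to the left of the apex `-(k0+1/4)` equal two
ray integrals, for densities `𝒥 z * (P z / N z)`, `N` with roots in `(1/2)ℤ`.
Part 1: polynomial bounds, distances, pole structure.
-/

set_option autoImplicit false

open Complex MeasureTheory Set Filter Topology intervalIntegral Metric Function Polynomial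
open scoped Real Interval

noncomputable section

namespace Crest.Agent.R006.Tail516

open Crest.Agent.R006.Wedge516

/-! ### polynomial bounds -/

lemma poly_upper (P : ℂ[X]) : ∃ C : ℝ, 0 < C ∧ ∀ z : ℂ,
    ‖P.eval z‖ ≤ C * (1 + ‖z‖) ^ P.natDegree := by
  refine ⟨∑ i ∈ Finset.range (P.natDegree + 1), ‖P.coeff i‖ + 1, by positivity, fun z => ?_⟩
  rw [Polynomial.eval_eq_sum_range]
  have h1 : (1 : ℝ) ≤ 1 + ‖z‖ := by linarith [norm_nonneg z]
  calc ‖∑ i ∈ Finset.range (P.natDegree + 1), P.coeff i * z ^ i‖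
      ≤ ∑ i ∈ Finset.range (P.natDegree + 1), ‖P.coeff i * z ^ i‖ := norm_sum_le _ _
    _ ≤ ∑ i ∈ Finset.range (P.natDegree + 1), ‖P.coeff i‖ * (1 + ‖z‖) ^ P.natDegree := by
        refine Finset.sum_le_sum fun i hi => ?_
        rw [norm_mul, norm_pow]
        refine mul_le_mul_of_nonneg_left ?_ (norm_nonneg _)
        calc ‖z‖ ^ i ≤ (1 + ‖z‖) ^ i := by gcongr; linarith
          _ ≤ (1 + ‖z‖) ^ P.natDegree :=
            pow_le_pow_right₀ h1 (Nat.lt_succ_iff.1 (Finset.mem_range.1 hi))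
    _ = (∑ i ∈ Finset.range (P.natDegree + 1), ‖P.coeff i‖) * (1 + ‖z‖) ^ P.natDegree := by
        rw [Finset.sum_mul]
    _ ≤ _ := by
        gcongr
        linarith

lemma multiset_lower (M : Multiset ℂ) : ∃ c : ℝ, 0 < c ∧ ∀ z : ℂ, (∀ x ∈ M, 1 / 8 ≤ ‖z - x‖) →
    c * (1 + ‖z‖) ^ (Multiset.card M) ≤ ‖(M.map fun x => z - x).prod‖ := by
  induction M using Multiset.induction_on with
  | empty => exact ⟨1, one_pos, fun z _ => by simp⟩
  | cons a M ih =>
    obtain ⟨c, hc, h⟩ := ih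
    have ha : 0 < 8 * (1 + ‖a‖) + 1 := by positivity
    refine ⟨c / (8 * (1 + ‖a‖) + 1), by positivity, fun z hz => ?_⟩
    have h1 := h z fun x hx => hz x (Multiset.mem_cons_of_mem hx)
    have h2 := hz a (Multiset.mem_cons_self _ _)
    have h3 : (1 + ‖z‖) / (8 * (1 + ‖a‖) + 1) ≤ ‖z - a‖ := by
      rw [div_le_iff₀ ha]
      have h4 : ‖z‖ ≤ ‖z - a‖ + ‖a‖ := by
        have := norm_add_le (z - a) a
        simpa using this
      nlinarith [norm_nonneg a, norm_nonneg (z - a)]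
    rw [Multiset.card_cons, Multiset.map_cons, Multiset.prod_cons, norm_mul]
    calc c / (8 * (1 + ‖a‖) + 1) * (1 + ‖z‖) ^ (Multiset.card M + 1)
        = ((1 + ‖z‖) / (8 * (1 + ‖a‖) + 1)) * (c * (1 + ‖z‖) ^ (Multiset.card M)) := by
          rw [pow_succ]; ring
      _ ≤ ‖z - a‖ * ‖(M.map fun x => z - x).prod‖ := by
          refine mul_le_mul h3 h1 (by positivity) (norm_nonneg _)

lemma poly_lower (N : ℂ[X]) (hN : N ≠ 0) : ∃ c : ℝ, 0 < c ∧ ∀ z : ℂ,
    (∀ x ∈ N.roots, 1 / 8 ≤ ‖z - x‖) → c * (1 + ‖z‖) ^ N.natDegree ≤ ‖N.eval z‖ := by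
  obtain ⟨c, hc, h⟩ := multiset_lower N.roots
  have hs : N.Splits := IsAlgClosed.splits N
  have hcard : Multiset.card N.roots = N.natDegree := hs.natDegree_eq_card_roots.symm
  refine ⟨‖N.leadingCoeff‖ * c, mul_pos (norm_pos_iff.2 (leadingCoeff_ne_zero.2 hN)) hc,
    fun z hz => ?_⟩
  have h1 := h z hz
  rw [hcard] at h1
  have h2 : N.eval z = N.leadingCoeff * (N.roots.map fun x => z - x).prod := by
    conv_lhs => rw [hs.eq_prod_roots]
    rw [eval_mul, eval_C, eval_multiset_prod, Multiset.map_map]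
    simp
  rw [h2, norm_mul, mul_assoc]
  exact mul_le_mul_of_nonneg_left h1 (norm_nonneg _)

/-- all roots of `N` lie in `(1/2)ℤ` -/
def HalfRoots (N : ℂ[X]) : Prop := ∀ z : ℂ, N.eval z = 0 → ∃ k : ℤ, z = (k : ℂ) / 2

/-- distance at least `1/8` from `(1/2)ℤ` -/
def Far (z : ℂ) : Prop := ∀ k : ℤ, 1 / 8 ≤ ‖z - (k : ℂ) / 2‖

lemma rat_bound {P N : ℂ[X]} (hN : N ≠ 0) (hr : HalfRoots N) : ∃ C : ℝ, 0 < C ∧ ∀ z : ℂ, Far z →
    ‖P.eval z / N.eval z‖ * (1 + ‖z‖) ^ N.natDegree ≤ C * (1 + ‖z‖) ^ P.natDegree := by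
  obtain ⟨C, hC, h1⟩ := poly_upper P
  obtain ⟨c, hc, h2⟩ := poly_lower N hN
  refine ⟨C / c, by positivity, fun z hz => ?_⟩
  have h3 := h2 z fun x hx => by
    obtain ⟨k, rfl⟩ := hr x (isRoot_of_mem_roots hx)
    exact hz k
  have h4 := h1 z
  have hpos : 0 < c * (1 + ‖z‖) ^ N.natDegree := by positivity
  have h5 : 0 < ‖N.eval z‖ := hpos.trans_le h3
  rw [norm_div, div_mul_eq_mul_div, div_le_iff₀ h5]
  calc ‖P.eval z‖ * (1 + ‖z‖) ^ N.natDegree
      ≤ (C * (1 + ‖z‖) ^ P.natDegree) * (1 + ‖z‖) ^ N.natDegree := by gcongr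
    _ = C / c * (1 + ‖z‖) ^ P.natDegree * (c * (1 + ‖z‖) ^ N.natDegree) := by
        field_simp
    _ ≤ C / c * (1 + ‖z‖) ^ P.natDegree * ‖N.eval z‖ := by gcongr

/-- crude upper bound -/
lemma rat_bound_up {P N : ℂ[X]} (hN : N ≠ 0) (hr : HalfRoots N) : ∃ C : ℝ, 0 < C ∧ ∀ z : ℂ,
    Far z → ‖P.eval z / N.eval z‖ ≤ C * (1 + ‖z‖) ^ P.natDegree := by
  obtain ⟨C, hC, h⟩ := rat_bound (P := P) hN hr
  refine ⟨C, hC, fun z hz => ?_⟩
  have h1 : (1 : ℝ) ≤ (1 + ‖z‖) ^ N.natDegree := one_le_pow₀ (by linarith [norm_nonneg z])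
  calc ‖P.eval z / N.eval z‖ ≤ ‖P.eval z / N.eval z‖ * (1 + ‖z‖) ^ N.natDegree :=
        le_mul_of_one_le_right (norm_nonneg _) h1
    _ ≤ _ := h z hz

/-- decay when `deg P < deg N` -/
lemma rat_bound_down {P N : ℂ[X]} (hN : N ≠ 0) (hr : HalfRoots N)
    (hd : P.natDegree < N.natDegree) : ∃ C : ℝ, 0 < C ∧ ∀ z : ℂ,
    Far z → ‖P.eval z / N.eval z‖ ≤ C / (1 + ‖z‖) := by
  obtain ⟨C, hC, h⟩ := rat_bound (P := P) hN hr
  refine ⟨C, hC, fun z hz => ?_⟩
  have h0 : (0 : ℝ) < 1 + ‖z‖ := by positivity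
  have h1 : (1 + ‖z‖) ^ P.natDegree * (1 + ‖z‖) ≤ (1 + ‖z‖) ^ N.natDegree := by
    rw [← pow_succ]
    exact pow_le_pow_right₀ (by linarith [norm_nonneg z]) hd
  rw [le_div_iff₀ h0]
  have h2 := h z hz
  have h3 : 0 < (1 + ‖z‖) ^ P.natDegree := by positivity
  have h4 : ‖P.eval z / N.eval z‖ * (1 + ‖z‖) * (1 + ‖z‖) ^ P.natDegree ≤
      C * (1 + ‖z‖) ^ P.natDegree := by
    refine le_trans ?_ h2
    rw [mul_assoc, mul_comm (1 + ‖z‖)]
    exact mul_le_mul_of_nonneg_left h1 (norm_nonneg _)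
  exact le_of_mul_le_mul_right h4 h3

/-! ### distances -/

lemma quarter_le (n : ℤ) : (1 : ℝ) / 4 ≤ |(n : ℝ) / 2 + 1 / 4| := by
  have h : (1 : ℤ) ≤ |2 * n + 1| := by
    exact Int.one_le_abs (by omega)
  have h2 : (1 : ℝ) ≤ |2 * (n : ℝ) + 1| := by exact_mod_cast h
  have h3 : (n : ℝ) / 2 + 1 / 4 = (2 * n + 1) / 4 := by ring
  rw [h3, abs_div, abs_of_pos (by norm_num : (0 : ℝ) < 4)]
  linarith

/-- points on the rays are far from `(1/2)ℤ` -/
lemma far_ray {k0 : ℕ} {c t : ℝ} (hc : c ^ 2 ≤ 3) {v : ℂ}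
    (hv : v = -c + I ∨ v = -c - I) : Far (-(((k0 : ℝ) + 1 / 4 : ℝ) : ℂ) + t * v) := by
  intro k
  have h1 : ‖-(((k0 : ℝ) + 1 / 4 : ℝ) : ℂ) + t * v - (k : ℂ) / 2‖ ^ 2 =
      (((2 * k0 + k : ℤ) : ℝ) / 2 + 1 / 4 + c * t) ^ 2 + t ^ 2 := by
    rw [← Complex.normSq_eq_norm_sq, Complex.normSq_apply]
    rcases hv with rfl | rfl
    · have e1 : (-(((k0 : ℝ) + 1 / 4 : ℝ) : ℂ) + t * (-c + I) - (k : ℂ) / 2) =
          ((-(k0 + 1 / 4) - c * t - k / 2 : ℝ) : ℂ) + ((t : ℝ) : ℂ) * I := by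
        push_cast; ring
      rw [e1]
      simp
      ring
    · have e1 : (-(((k0 : ℝ) + 1 / 4 : ℝ) : ℂ) + t * (-c - I) - (k : ℂ) / 2) =
          ((-(k0 + 1 / 4) - c * t - k / 2 : ℝ) : ℂ) + ((-t : ℝ) : ℂ) * I := by
        push_cast; ring
      rw [e1]
      simp
      ring
  set d : ℝ := ((2 * k0 + k : ℤ) : ℝ) / 2 + 1 / 4 with hd
  have h2 : 1 / 16 ≤ d ^ 2 := by
    have := quarter_le (2 * k0 + k)
    rw [← hd] at this
    rw [← sq_abs]
    nlinarith
  have h3 : d ^ 2 ≤ 4 * ((d + c * t) ^ 2 + t ^ 2) := by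
    have h4 : d ^ 2 ≤ (1 + c ^ 2) * ((d + c * t) ^ 2 + t ^ 2) := by
      nlinarith [sq_nonneg (c * d + (1 + c ^ 2) * t)]
    have h5 : (1 + c ^ 2) * ((d + c * t) ^ 2 + t ^ 2) ≤ 4 * ((d + c * t) ^ 2 + t ^ 2) := by
      apply mul_le_mul_of_nonneg_right (by linarith) (by positivity)
    linarith
  have h6 : (1 / 8 : ℝ) ^ 2 ≤ ‖-(((k0 : ℝ) + 1 / 4 : ℝ) : ℂ) + t * v - (k : ℂ) / 2‖ ^ 2 := by
    rw [h1]; linarith
  exact le_of_sq_le_sq h6 (norm_nonneg _)

lemma far_vert {k0 n : ℕ} {y : ℝ} : Far (((-(((k0 : ℝ) + 1 / 4) + n) : ℝ) : ℂ) + y * I) := by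
  intro k
  have h1 := Complex.abs_re_le_norm (((-(((k0 : ℝ) + 1 / 4) + n) : ℝ) : ℂ) + y * I - (k : ℂ) / 2)
  have h2 : (((-(((k0 : ℝ) + 1 / 4) + n) : ℝ) : ℂ) + y * I - (k : ℂ) / 2).re =
      -(((2 * k0 + 2 * n + k : ℤ) : ℝ) / 2 + 1 / 4) := by
    have e1 : (((-(((k0 : ℝ) + 1 / 4) + n) : ℝ) : ℂ) + y * I - (k : ℂ) / 2) =
      ((-(((2 * k0 + 2 * n + k : ℤ) : ℝ) / 2 + 1 / 4) : ℝ) : ℂ) + y * I := by
      push_cast; ring
    rw [e1]
    simp
  rw [h2, abs_neg] at h1
  have h3 := quarter_le (2 * k0 + 2 * n + k)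
  linarith

/-- points at distance `1/4` from a point of `(1/2)ℤ` are far -/
lemma far_circle {h : ℤ} {z : ℂ} (hz : ‖z - (h : ℂ) / 2‖ = 1 / 4) : Far z := by
  intro k
  by_cases hk : k = h
  · subst hk; rw [hz]; norm_num
  · have h1 : (1 : ℝ) / 2 ≤ ‖(h : ℂ) / 2 - (k : ℂ) / 2‖ := by
      have e1 : (h : ℂ) / 2 - (k : ℂ) / 2 = ((h - k : ℤ) : ℂ) / 2 := by push_cast; ring
      rw [e1, norm_div, Complex.norm_intCast]
      have h2 : (1 : ℝ) ≤ |((h - k : ℤ) : ℝ)| := by
        have : (1 : ℤ) ≤ |h - k| := by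
          exact Int.one_le_abs (by omega)
        exact_mod_cast this
      have h3 : ‖(2 : ℂ)‖ = 2 := by simp
      rw [h3]
      linarith
    have h2 : ‖(h : ℂ) / 2 - (k : ℂ) / 2‖ ≤ ‖z - (k : ℂ) / 2‖ + ‖z - (h : ℂ) / 2‖ := by
      have := norm_sub_le (z - (k : ℂ) / 2) (z - (h : ℂ) / 2)
      rwa [show z - (k : ℂ) / 2 - (z - (h : ℂ) / 2) = (h : ℂ) / 2 - (k : ℂ) / 2 by ring] at this
    rw [hz] at h2
    linarith

lemma far_ne_ce {z : ℂ} (hz : Far z) (l : ℕ) : 1 / 8 ≤ ‖z - PsiJ.ce l‖ := by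
  have := hz (-(2 * l + 1))
  convert this using 2
  unfold PsiJ.ce
  push_cast
  ring

end Crest.Agent.R006.Tail516
end
end

-- ▼ part R006/Tail2_516
section

/-!
Row 6 (Catalan), block P3 (helper516).  Circle sums to the left of the apex `-(k0+1/4)` equal two
ray integrals, for densities `𝒥 z * (P z / N z)`, `N` with roots in `(1/2)ℤ`.
Part 2: pole structure, the theorems for `PsiJ.J v` and `G1x186.J1`.
-/

set_option autoImplicit false

open Complex MeasureTheory Set Filter Topology intervalIntegral Metric Function Polynomial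
open scoped Real Interval

noncomputable section

namespace Crest.Agent.R006.Tail516

open Crest.Agent.R006.Wedge516

/-- `𝒥` has poles of order at most `3` at the sites and is holomorphic elsewhere on the left -/
def Jump (𝒥 : ℂ → ℂ) : Prop := ∀ L : ℕ, ∃ Jr : ℂ → ℂ,
  DifferentiableOn ℂ Jr (strip (-L - 11 / 8) (-L - 1 / 8)) ∧
  ∀ z ∈ strip (-L - 11 / 8) (-L - 1 / 8), z ≠ PsiJ.ce L → 𝒥 z = Jr z / (z - PsiJ.ce L) ^ 3

/-- the offsets: site `1/4`, integer node `3/4` -/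
def Off : Finset ℝ := {1 / 4, 3 / 4}

lemma offM : OffM Off (1 / 4) (1 / 8) where
  pos := by intro φ hφ; simp [Off] at hφ; rcases hφ with rfl | rfl <;> norm_num
  lt_one := by intro φ hφ; simp [Off] at hφ; rcases hφ with rfl | rfl <;> norm_num
  r_pos := by norm_num
  δ_pos := by norm_num
  lo := by intro φ hφ; simp [Off] at hφ; rcases hφ with rfl | rfl <;> norm_num
  hi := by intro φ hφ; simp [Off] at hφ; rcases hφ with rfl | rfl <;> norm_num
  sep := by
    intro φ hφ φ' hφ' h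
    simp [Off] at hφ hφ'
    rcases hφ with rfl | rfl <;> rcases hφ' with rfl | rfl <;>
      first
        | exact absurd rfl h
        | norm_num [abs_of_pos, abs_of_neg]

lemma site_eq (k0 l : ℕ) : ((-(((k0 : ℝ) + 1 / 4) + l + 1 / 4) : ℝ) : ℂ) = PsiJ.ce (k0 + l) := by
  unfold PsiJ.ce; push_cast; ring

lemma node_eq (k0 l : ℕ) : ((-(((k0 : ℝ) + 1 / 4) + l + 3 / 4) : ℝ) : ℂ) =
    -((k0 + l + 1 : ℕ) : ℂ) := by
  push_cast; ring

/-- the only half-integers in the strip -/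
lemma half_in_strip {k0 l : ℕ} {k : ℤ}
    (h : ((k : ℂ) / 2) ∈ strip (-((k0 + l : ℕ) : ℝ) - 11 / 8) (-((k0 + l : ℕ) : ℝ) - 1 / 8)) :
    (k : ℂ) / 2 = PsiJ.ce (k0 + l) ∨ (k : ℂ) / 2 = -((k0 + l + 1 : ℕ) : ℂ) := by
  have e1 : ((k : ℂ) / 2).re = (k : ℝ) / 2 := by
    rw [show ((k : ℂ) / 2) = (((k : ℝ) / 2 : ℝ) : ℂ) by push_cast; ring, ofReal_re]
  obtain ⟨h1, h2⟩ := h
  rw [e1] at h1 h2
  push_cast at h1 h2
  have h3 : (-2 * (k0 + l : ℤ) - 3 : ℤ) < k := by
    have : ((-2 * (k0 + l : ℤ) - 3 : ℤ) : ℝ) < k := by push_cast; linarith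
    exact_mod_cast this
  have h4 : k < -2 * (k0 + l : ℤ) := by
    have : (k : ℝ) < ((-2 * (k0 + l : ℤ) : ℤ) : ℝ) := by push_cast; linarith
    exact_mod_cast this
  have h5 : k = -2 * (k0 + l : ℤ) - 1 ∨ k = -2 * (k0 + l : ℤ) - 2 := by omega
  rcases h5 with rfl | rfl
  · left; unfold PsiJ.ce; push_cast; ring
  · right; push_cast; ring

lemma cell_poles {𝒥 : ℂ → ℂ} (hJ : Jump 𝒥) {P N : ℂ[X]} (hN : N ≠ 0) (hr : HalfRoots N)
    (k0 l : ℕ) : PolesAt (fun z => 𝒥 z * (P.eval z / N.eval z))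
      (-(((k0 : ℝ) + 1 / 4) + l + 1) - 1 / 8) (-(((k0 : ℝ) + 1 / 4) + l) + 1 / 8)
      (cellF Off ((k0 : ℝ) + 1 / 4) l) (2 + N.natDegree) := by
  classical
  have hstrip : strip (-(((k0 : ℝ) + 1 / 4) + l + 1) - 1 / 8) (-(((k0 : ℝ) + 1 / 4) + l) + 1 / 8) =
      strip (-((k0 + l : ℕ) : ℝ) - 11 / 8) (-((k0 + l : ℕ) : ℝ) - 1 / 8) := by
    congr 1 <;> push_cast <;> ring
  rw [show PolesAt (fun z => 𝒥 z * (P.eval z / N.eval z))
      (-(((k0 : ℝ) + 1 / 4) + l + 1) - 1 / 8) (-(((k0 : ℝ) + 1 / 4) + l) + 1 / 8)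
      (cellF Off ((k0 : ℝ) + 1 / 4) l) (2 + N.natDegree) = PolesAt
      (fun z => 𝒥 z * (P.eval z / N.eval z))
      (-((k0 + l : ℕ) : ℝ) - 11 / 8) (-((k0 + l : ℕ) : ℝ) - 1 / 8)
      (cellF Off ((k0 : ℝ) + 1 / 4) l) (2 + N.natDegree) by
    congr 1 <;> push_cast <;> ring]
  obtain ⟨Jr, hJr, hJe⟩ := hJ (k0 + l)
  set a : ℂ := PsiJ.ce (k0 + l) with ha
  set b : ℂ := -((k0 + l + 1 : ℕ) : ℂ) with hb
  -- factor N
  obtain ⟨N1, hN1, hN1a⟩ := exists_eq_pow_rootMultiplicity_mul_and_not_dvd N hN a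
  set i := rootMultiplicity a N with hi
  have hN10 : N1 ≠ 0 := by rintro rfl; rw [mul_zero] at hN1; exact hN hN1
  obtain ⟨N2, hN2, hN2b⟩ := exists_eq_pow_rootMultiplicity_mul_and_not_dvd N1 hN10 b
  set j := rootMultiplicity b N1 with hj
  have hdeg : ∀ (x : ℂ) (n : ℕ) (M : ℂ[X]), M ≠ 0 → (X - C x) ^ n ∣ M → n ≤ M.natDegree := by
    intro x n M hM hd
    have := natDegree_le_of_dvd hd hM
    rwa [natDegree_pow, natDegree_X_sub_C, mul_one] at this
  have hi' : i ≤ N.natDegree := hdeg a i N hN ⟨N1, hN1⟩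
  have hj' : j ≤ N.natDegree := (hdeg b j N hN (Dvd.dvd.trans ⟨N2, hN2⟩ ⟨_, by rw [mul_comm]; exact hN1⟩))
  have hev : ∀ z : ℂ, N.eval z = (z - a) ^ i * ((z - b) ^ j * N2.eval z) := by
    intro z
    conv_lhs => rw [hN1, hN2]
    simp [eval_mul, eval_pow, eval_sub]
  have hN2ne : ∀ z ∈ strip (-((k0 + l : ℕ) : ℝ) - 11 / 8) (-((k0 + l : ℕ) : ℝ) - 1 / 8),
      N2.eval z ≠ 0 := by
    intro z hz h0
    have h1 : N.eval z = 0 := by rw [hev, h0]; simp
    obtain ⟨k, rfl⟩ := hr z h1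
    rcases half_in_strip hz with h2 | h2
    · rw [h2] at h0
      refine hN1a ?_
      rw [dvd_iff_isRoot, IsRoot.def, hN2, eval_mul, h0, mul_zero]
    · rw [h2] at h0
      exact hN2b (by rwa [dvd_iff_isRoot, IsRoot.def])
  have hab : a ≠ b := by
    intro h
    have := congrArg Complex.re h
    simp [ha, hb, PsiJ.ce] at this
    linarith
  have hF : cellF Off ((k0 : ℝ) + 1 / 4) l =
      {-(((k0 : ℝ) + 1 / 4) + l + 1 / 4), -(((k0 : ℝ) + 1 / 4) + l + 3 / 4)} := by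
    ext s
    simp only [cellF, Off, Finset.mem_image, Finset.mem_insert, Finset.mem_singleton]
    constructor
    · rintro ⟨φ, hφ, rfl⟩
      rcases hφ with rfl | rfl
      · left; rfl
      · right; rfl
    · rintro (rfl | rfl)
      · exact ⟨1 / 4, Or.inl rfl, rfl⟩
      · exact ⟨3 / 4, Or.inr rfl, rfl⟩
  refine polesAt_of_prod (H := fun z => Jr z * P.eval z * ((z - a) ^ (N.natDegree - i) *
    (z - b) ^ (3 + N.natDegree - j)) / N2.eval z) (by rw [hF]; simp) ?_ ?_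
  · refine DifferentiableOn.div ?_ N2.differentiable.differentiableOn hN2ne
    exact (hJr.mul P.differentiable.differentiableOn).mul (by fun_prop)
  · intro z hz hne
    have hza : z ≠ a := by
      have := hne _ (by rw [hF]; exact Finset.mem_insert_self _ _)
      rwa [site_eq] at this
    have hzb : z ≠ b := by
      have := hne _ (by rw [hF]; exact Finset.mem_insert_of_mem (Finset.mem_singleton_self _))
      rwa [node_eq] at this
    have hza' : z - a ≠ 0 := sub_ne_zero.2 hza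
    have hzb' : z - b ≠ 0 := sub_ne_zero.2 hzb
    have hN2z := hN2ne z hz
    have hprod : ∏ s ∈ cellF Off ((k0 : ℝ) + 1 / 4) l, (z - (s : ℂ)) ^ (2 + N.natDegree + 1) =
        (z - a) ^ (3 + N.natDegree) * (z - b) ^ (3 + N.natDegree) := by
      rw [hF, Finset.prod_insert, Finset.prod_singleton, site_eq, node_eq,
        show 2 + N.natDegree + 1 = 3 + N.natDegree by ring]
      rw [Finset.mem_singleton]
      intro h
      linarith
    rw [hprod, hJe z hz hza, hev z]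
    have e1 : (z - a) ^ (3 + N.natDegree) = (z - a) ^ 3 * (z - a) ^ i *
        (z - a) ^ (N.natDegree - i) := by
      rw [← pow_add, ← pow_add]; congr 1; omega
    have e2 : (z - b) ^ (3 + N.natDegree) = (z - b) ^ j * (z - b) ^ (3 + N.natDegree - j) := by
      rw [← pow_add]; congr 1; omega
    rw [e1, e2]
    have p1 : (z - a) ^ 3 ≠ 0 := pow_ne_zero _ hza'
    have p2 : (z - a) ^ i ≠ 0 := pow_ne_zero _ hza'
    have p3 : (z - a) ^ (N.natDegree - i) ≠ 0 := pow_ne_zero _ hza'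
    have p4 : (z - b) ^ j ≠ 0 := pow_ne_zero _ hzb'
    have p5 : (z - b) ^ (3 + N.natDegree - j) ≠ 0 := pow_ne_zero _ hzb'
    field_simp

/-- the ray integral -/
def rays (k0 : ℕ) (c : ℝ) (Φ : ℂ → ℂ) : ℂ :=
  (-c + I) * (∫ t in Ioi (0 : ℝ), Φ (-(((k0 : ℝ) + 1 / 4 : ℝ) : ℂ) + t * (-c + I))) -
    (-c - I) * (∫ t in Ioi (0 : ℝ), Φ (-(((k0 : ℝ) + 1 / 4 : ℝ) : ℂ) + t * (-c - I)))

/-- the circles around the site `-1/2-(k0+l)` and around the integer `-(k0+l+1)` -/
def circs (k0 : ℕ) (Φ : ℂ → ℂ) (l : ℕ) : ℂ :=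
  (∮ z in C(PsiJ.ce (k0 + l), 1 / 4), Φ z) + ∮ z in C(-((k0 + l + 1 : ℕ) : ℂ), 1 / 4), Φ z

lemma sum_off (k0 l : ℕ) (Φ : ℂ → ℂ) :
    ∑ φ ∈ Off, (∮ z in C((-(((k0 : ℝ) + 1 / 4) + l + φ) : ℝ), 1 / 4), Φ z) = circs k0 Φ l := by
  unfold Off circs
  rw [Finset.sum_insert (by norm_num), Finset.sum_singleton, site_eq, node_eq]

end Crest.Agent.R006.Tail516
end
end

-- ▼ part R006/Tail3_516
section

/-!
Row 6 (Catalan), block P3 (helper516).  Circle sums to the left of the apex `-(k0+1/4)` equal two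
ray integrals.  Part 3: `tail_psi` for `PsiJ.J v`, `tail_g` for `G1x186.J1`.
-/

set_option autoImplicit false

open Complex MeasureTheory Set Filter Topology intervalIntegral Metric Function Polynomial
open scoped Real Interval

noncomputable section

namespace Crest.Agent.R006.Tail516

open Crest.Agent.R006.Wedge516

/-! ### the jumps -/

lemma ne_ce_of_strip {L : ℕ} {z : ℂ} (hz : z ∈ strip (-L - 11 / 8) (-L - 1 / 8))
    (h : z ≠ PsiJ.ce L) (l : ℕ) : z ≠ PsiJ.ce l := by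
  rintro rfl
  obtain ⟨h1, h2⟩ := hz
  rw [PsiJ.ce_re] at h1 h2
  have h3 : l < L + 1 := by
    have : (l : ℝ) < ((L + 1 : ℕ) : ℝ) := by push_cast; linarith
    exact_mod_cast this
  have h4 : L < l + 1 := by
    have : (L : ℝ) < ((l + 1 : ℕ) : ℝ) := by push_cast; linarith
    exact_mod_cast this
  have : l = L := by omega
  exact h (by rw [this])

lemma re_neg_of_strip {L : ℕ} {z : ℂ} (hz : z ∈ strip (-L - 11 / 8) (-L - 1 / 8)) : z.re < 0 := by
  have := hz.2
  have h : (0 : ℝ) ≤ L := Nat.cast_nonneg L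
  linarith

theorem jump_psi (v : Fin 3 → ℂ) : Jump (PsiJ.J v) := by
  intro L
  refine ⟨fun z => PsiJ.U L z * PsiJ.P v z, ?_, fun z _ h => PsiJ.J_eq v L h⟩
  intro z hz
  refine DifferentiableAt.differentiableWithinAt ?_
  by_cases h : z = PsiJ.ce L
  · subst h
    exact (PsiJ.U_differentiableAt L (by simp)).mul (PsiJ.P_differentiable v _)
  · have h1 : DifferentiableAt ℂ (fun z => (z - PsiJ.ce L) ^ 3 * PsiJ.J v z) z := by
      refine DifferentiableAt.mul (by fun_prop) ?_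
      exact PsiJ.J_differentiableAt v (re_neg_of_strip hz) (ne_ce_of_strip hz h)
    refine h1.congr_of_eventuallyEq ?_
    filter_upwards [isOpen_ne.mem_nhds h] with w hw
    have hw' : w - PsiJ.ce L ≠ 0 := sub_ne_zero.2 hw
    rw [PsiJ.J_eq v L hw]
    field_simp

lemma Dd_ne' {e : ℂ} (h : ∀ n : ℤ, n ≠ 0 → e ≠ n) : PsiJ.Dd e ≠ 0 := by
  by_cases he : e = 0
  · subst he
    rw [PsiJ.Dd_zero]
    exact_mod_cast Real.pi_ne_zero
  · rw [PsiJ.Dd_of_ne he]
    refine div_ne_zero ?_ he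
    rw [Ne, Complex.sin_eq_zero_iff]
    rintro ⟨k, hk⟩
    have hpi : (π : ℂ) ≠ 0 := by exact_mod_cast Real.pi_ne_zero
    have h1 : e = k := by
      have : (π : ℂ) * e = π * k := by rw [hk]; ring
      exact mul_left_cancel₀ hpi this
    by_cases hk0 : k = 0
    · rw [hk0] at h1; simp at h1; exact he h1
    · exact h k hk0 h1

theorem jump_g : Jump G1x186.J1 := by
  intro L
  refine ⟨fun z => (z - PsiJ.ce L) * G1x186.g1L z / PsiJ.Dd (z - PsiJ.ce L) ^ 2, ?_, ?_⟩
  · intro z hz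
    refine DifferentiableAt.differentiableWithinAt ?_
    have hre := re_neg_of_strip hz
    have hD : DifferentiableAt ℂ (fun z => PsiJ.Dd (z - PsiJ.ce L)) z := by
      have h1 : DifferentiableAt ℂ PsiJ.Dd (z - PsiJ.ce L) := PsiJ.Dd_differentiable _
      exact DifferentiableAt.comp z h1 (differentiableAt_id.sub_const _)
    refine DifferentiableAt.div ?_ (hD.pow 2) (pow_ne_zero _ (Dd_ne' ?_))
    · exact (by fun_prop : DifferentiableAt ℂ (fun z => z - PsiJ.ce L) z).mul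
        (G1x186.differentiableAt_g1L hre)
    · intro n hn h
      have h1 := congrArg Complex.re h
      simp at h1
      obtain ⟨h2, h3⟩ := hz
      have h4 : (-1 : ℝ) < n := by linarith
      have h5 : (n : ℝ) < 1 := by linarith
      have h6 : -1 < n := by exact_mod_cast h4
      have h7 : n < 1 := by exact_mod_cast h5
      exact hn (by omega)
  · intro z hz h
    have he : z - PsiJ.ce L ≠ 0 := sub_ne_zero.2 h
    show G1x186.J1 z = (z - PsiJ.ce L) * G1x186.g1L z / PsiJ.Dd (z - PsiJ.ce L) ^ 2 /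
      (z - PsiJ.ce L) ^ 3
    unfold G1x186.J1
    rw [PsiJ.cos_pi_ce L z, PsiJ.Dd_of_ne he, mul_pow, ← pow_mul, mul_comm L 2, pow_mul]
    simp only [neg_one_sq, one_pow, one_mul]
    by_cases hs : Complex.sin (π * (z - PsiJ.ce L)) = 0
    · rw [hs]; simp
    · field_simp

/-! ### exponential bounds -/

lemma eight_rpow_le {u : ℝ} (hu : 0 ≤ u) : (8 : ℝ) ^ (-u) ≤ Real.exp (-(2 * u)) := by
  rw [Real.rpow_def_of_pos (by norm_num)]
  apply Real.exp_le_exp.2
  have h8 : (2 : ℝ) ≤ Real.log 8 := by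
    rw [show (8 : ℝ) = 2 ^ 3 by norm_num, Real.log_pow]
    have := Real.log_two_gt_d9
    push_cast
    linarith
  nlinarith

lemma poly_exp {A B : ℝ} (hA : 0 ≤ A) (hB : 0 ≤ B) (d : ℕ) : ∃ M : ℝ, 0 < M ∧ ∀ u : ℝ, 0 ≤ u →
    (8 : ℝ) ^ (-u) * (A + B * u) ^ d ≤ M * Real.exp (-u) := by
  refine ⟨(A + B + 1) ^ d * d.factorial * Real.exp 1, by positivity, fun u hu => ?_⟩
  have h1 : A + B * u ≤ (A + B + 1) * (1 + u) := by nlinarith [mul_nonneg hA hu]
  have h2 : (1 + u) ^ d ≤ d.factorial * Real.exp (1 + u) := by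
    have := Real.pow_div_factorial_le_exp (1 + u) (by linarith) d
    rw [div_le_iff₀ (by positivity)] at this
    linarith
  calc (8 : ℝ) ^ (-u) * (A + B * u) ^ d
      ≤ Real.exp (-(2 * u)) * ((A + B + 1) * (1 + u)) ^ d := by
        refine mul_le_mul (eight_rpow_le hu) ?_ (by positivity) (Real.exp_pos _).le
        gcongr
    _ = (A + B + 1) ^ d * Real.exp (-(2 * u)) * (1 + u) ^ d := by rw [mul_pow]; ring
    _ ≤ (A + B + 1) ^ d * Real.exp (-(2 * u)) * (d.factorial * Real.exp (1 + u)) := by gcongr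
    _ = (A + B + 1) ^ d * d.factorial * (Real.exp (-(2 * u)) * Real.exp (1 + u)) := by ring
    _ = (A + B + 1) ^ d * d.factorial * Real.exp 1 * Real.exp (-u) := by
        rw [← Real.exp_add, mul_assoc _ (Real.exp 1), ← Real.exp_add]
        congr 2
        ring

lemma norm_le_re_im {z : ℂ} : ‖z‖ ≤ |z.re| + |z.im| := Complex.norm_le_abs_re_add_abs_im z

lemma bound_psi (v : Fin 3 → ℂ) {P N : ℂ[X]} (hN : N ≠ 0) (hr : HalfRoots N) (k0 : ℕ) {a : ℝ}
    (ha : 0 ≤ a) : ∃ M : ℝ, 0 < M ∧ ∀ z : ℂ, Far z → z.re ≤ -((k0 : ℝ) + 1 / 4) →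
      |z.im| ≤ a * (-z.re - ((k0 : ℝ) + 1 / 4)) + 1 →
      ‖PsiJ.J v z * (P.eval z / N.eval z)‖ ≤ M * Real.exp (-(-z.re - ((k0 : ℝ) + 1 / 4))) := by
  obtain ⟨K, hK, hJ⟩ := PsiJ.J_bound v
  obtain ⟨C, hC, hf⟩ := rat_bound_up (P := P) hN hr
  obtain ⟨M, hM, hM'⟩ := poly_exp (A := 2 + ((k0 : ℝ) + 1 / 4)) (B := 1 + a) (by positivity)
    (by positivity) P.natDegree
  refine ⟨K * C * M, by positivity, fun z hz h1 h2 => ?_⟩
  set κ : ℝ := (k0 : ℝ) + 1 / 4 with hκ
  have hκ0 : 1 / 4 ≤ κ := by rw [hκ]; have : (0 : ℝ) ≤ k0 := Nat.cast_nonneg _; linarith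
  set u : ℝ := -z.re - κ with hu
  have hu0 : 0 ≤ u := by rw [hu]; linarith
  have h3 := hJ z (by linarith) (far_ne_ce hz)
  have h4 := hf z hz
  have h5 : ‖z‖ ≤ κ + u + (a * u + 1) := by
    refine norm_le_re_im.trans ?_
    have : |z.re| = κ + u := by rw [abs_of_neg (by linarith), hu]; ring
    rw [this]
    linarith
  have h6 : (8 : ℝ) ^ z.re ≤ (8 : ℝ) ^ (-u) := by
    apply Real.rpow_le_rpow_of_exponent_le (by norm_num)
    rw [hu]; linarith
  have h7 : Real.exp (-(π * |z.im|)) ≤ 1 := by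
    rw [Real.exp_le_one_iff]
    have := Real.pi_pos
    have := abs_nonneg z.im
    nlinarith
  have h8 : (0 : ℝ) < (8 : ℝ) ^ z.re := Real.rpow_pos_of_pos (by norm_num) _
  have h9 : 1 + ‖z‖ ≤ 2 + κ + (1 + a) * u := by linarith
  have h10 : (1 + ‖z‖) ^ P.natDegree ≤ (2 + κ + (1 + a) * u) ^ P.natDegree :=
    pow_le_pow_left₀ (by positivity) h9 _
  rw [norm_mul]
  calc ‖PsiJ.J v z‖ * ‖P.eval z / N.eval z‖
      ≤ (K * (8 : ℝ) ^ z.re * Real.exp (-(π * |z.im|))) * (C * (1 + ‖z‖) ^ P.natDegree) := by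
        refine mul_le_mul h3 h4 (norm_nonneg _) (by positivity)
    _ ≤ (K * (8 : ℝ) ^ (-u) * 1) * (C * (2 + κ + (1 + a) * u) ^ P.natDegree) := by
        refine mul_le_mul ?_ (mul_le_mul_of_nonneg_left h10 hC.le) (by positivity) (by positivity)
        exact mul_le_mul (mul_le_mul_of_nonneg_left h6 hK.le) h7 (Real.exp_pos _).le (by positivity)
    _ = K * C * ((8 : ℝ) ^ (-u) * (2 + κ + (1 + a) * u) ^ P.natDegree) := by ring
    _ ≤ K * C * (M * Real.exp (-u)) := mul_le_mul_of_nonneg_left (hM' u hu0) (by positivity)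
    _ = _ := by ring

/-- geometry of the four families of points -/
lemma geo_ray {k0 : ℕ} {c t : ℝ} (_hc : 0 < c) (ht : 0 ≤ t) {v : ℂ} (hv : v = -c + I ∨ v = -c - I) :
    (-(((k0 : ℝ) + 1 / 4 : ℝ) : ℂ) + t * v).re = -((k0 : ℝ) + 1 / 4) - c * t ∧
    |(-(((k0 : ℝ) + 1 / 4 : ℝ) : ℂ) + t * v).im| = t := by
  rcases hv with rfl | rfl
  · constructor
    · simp; ring
    · simp [abs_of_nonneg ht]
  · constructor
    · simp; ring
    · simp [abs_of_nonneg ht]

lemma geo_circ {k0 l : ℕ} {φ : ℝ} (hφ : φ ∈ Off) {z : ℂ}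
    (hz : ‖z - ((-(((k0 : ℝ) + 1 / 4) + l + φ) : ℝ) : ℂ)‖ = 1 / 4) :
    Far z ∧ z.re ≤ -((k0 : ℝ) + 1 / 4) - l ∧ |z.im| ≤ 1 := by
  have h1 := (Complex.abs_re_le_norm (z - ((-(((k0 : ℝ) + 1 / 4) + l + φ) : ℝ) : ℂ))).trans hz.le
  have h2 := (Complex.abs_im_le_norm (z - ((-(((k0 : ℝ) + 1 / 4) + l + φ) : ℝ) : ℂ))).trans hz.le
  simp only [sub_re, ofReal_re, sub_im, ofReal_im, sub_zero] at h1 h2
  have h3 := (abs_le.1 h1).2
  simp only [Off, Finset.mem_insert, Finset.mem_singleton] at hφ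
  refine ⟨?_, ?_, by linarith⟩
  · rcases hφ with rfl | rfl
    · refine far_circle (h := -(2 * (k0 + l) + 1)) ?_
      rw [← hz]
      congr 2
      push_cast
      ring
    · refine far_circle (h := -(2 * (k0 + l) + 2)) ?_
      rw [← hz]
      congr 2
      push_cast
      ring
  · rcases hφ with rfl | rfl <;> linarith

/-- **Tail theorem for `ψ`.** -/
theorem tail_psi (v : Fin 3 → ℂ) {P N : ℂ[X]} (hN : N ≠ 0) (hr : HalfRoots N) (k0 : ℕ) {c : ℝ}
    (hc : 0 < c) (hc3 : c ^ 2 ≤ 3) :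
    HasSum (circs k0 (fun z => PsiJ.J v z * (P.eval z / N.eval z)))
      (rays k0 c (fun z => PsiJ.J v z * (P.eval z / N.eval z))) := by
  obtain ⟨M, hM, hb⟩ := bound_psi v (P := P) hN hr k0 (a := 1 / c) (by positivity)
  set Φ : ℂ → ℂ := fun z => PsiJ.J v z * (P.eval z / N.eval z) with hΦ
  have hray : ∀ w : ℂ, (w = -c + I ∨ w = -c - I) → ∀ t : ℝ, 0 ≤ t →
      ‖Φ (-(((k0 : ℝ) + 1 / 4 : ℝ) : ℂ) + t * w)‖ ≤ M * Real.exp (-(min c 1) * t) := by
    intro w hw t ht
    obtain ⟨g1, g2⟩ := geo_ray (k0 := k0) hc ht hw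
    have h := hb _ (far_ray (t := t) hc3 hw) (by rw [g1]; nlinarith) (by
      rw [g1, g2]
      have : 1 / c * (-(-((k0 : ℝ) + 1 / 4) - c * t) - ((k0 : ℝ) + 1 / 4)) = t := by
        field_simp; ring
      rw [this]; linarith)
    refine h.trans ?_
    rw [g1]
    gcongr
    have : min c 1 * t ≤ c * t := mul_le_mul_of_nonneg_right (min_le_left _ _) ht
    linarith
  have key := wedge_hasSum_m (κ := (k0 : ℝ) + 1 / 4) (c := c) (r := 1 / 4) (δ := 1 / 8) (Off := Off)
    (m := 2 + N.natDegree) (Φ := Φ) (M := M) (lam := min c 1) hc (lt_min hc one_pos) offM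
    (fun l => cell_poles (jump_psi v) hN hr k0 l) (hray _ (Or.inl rfl)) (hray _ (Or.inr rfl)) ?_ ?_
  · have e : circs k0 Φ = fun l : ℕ => ∑ φ ∈ Off,
        (∮ z in C((-(((k0 : ℝ) + 1 / 4) + l + φ) : ℝ), 1 / 4), Φ z) := by
      funext l
      exact (sum_off k0 l Φ).symm
    rw [e]
    exact key
  · intro n y hy
    have hn0 : (0 : ℝ) ≤ n := Nat.cast_nonneg n
    have h := hb _ (far_vert (k0 := k0) (n := n) (y := y)) (by
      simp only [add_re, ofReal_re, mul_re, I_re, mul_zero, ofReal_im, I_im, mul_one, sub_self,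
        add_zero]
      linarith) (by
      simp only [add_re, ofReal_re, mul_re, I_re, mul_zero, ofReal_im, I_im, mul_one, sub_self,
        add_zero, add_im, mul_im, zero_add]
      have : 1 / c * (-(-((k0 : ℝ) + 1 / 4 + n)) - ((k0 : ℝ) + 1 / 4)) = n / c := by
        field_simp; ring
      rw [this]; linarith)
    refine h.trans ?_
    gcongr
    simp only [add_re, ofReal_re, mul_re, I_re, mul_zero, ofReal_im, I_im, mul_one, sub_self,
        add_zero]
    have : min c 1 * (n : ℝ) ≤ 1 * n := mul_le_mul_of_nonneg_right (min_le_right _ _)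
      (Nat.cast_nonneg n)
    linarith
  · intro l φ hφ z hz
    obtain ⟨g1, g2, g3⟩ := geo_circ hφ hz
    have hl : (0 : ℝ) ≤ l := Nat.cast_nonneg l
    have h := hb z g1 (by linarith) (by
      have : 0 ≤ 1 / c * (-z.re - ((k0 : ℝ) + 1 / 4)) := mul_nonneg (by positivity) (by linarith)
      linarith)
    refine h.trans ?_
    gcongr
    have : min c 1 * (l : ℝ) ≤ 1 * l := mul_le_mul_of_nonneg_right (min_le_right _ _) hl
    linarith

end Crest.Agent.R006.Tail516
end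
end

-- ▼ part R006/Tail4_516

/-!
Row 6 (Catalan), block P3 (helper516).  Circle sums to the left of the apex `-(k0+1/4)` equal two
ray integrals.  Part 4: `tail_g` for `G1x186.J1`, and the corollaries with finitely many integer
circles.
-/

set_option autoImplicit false

open Complex MeasureTheory Set Filter Topology intervalIntegral Metric Function Polynomial
open scoped Real Interval

noncomputable section

namespace Crest.Agent.R006.Tail516

open Crest.Agent.R006.Wedge516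

lemma bound_g {P N : ℂ[X]} (hN : N ≠ 0) (hr : HalfRoots N) (hd : P.natDegree < N.natDegree) :
    ∃ C : ℝ, 0 < C ∧ ∀ z : ℂ, Far z → z.re ≤ -1 / 4 →
      ‖G1x186.J1 z * (P.eval z / N.eval z)‖ ≤
        C / ((-z.re) * (1 + -z.re)) * Real.exp (-(2 * π * |z.im|)) := by
  obtain ⟨C, hC, hb⟩ := rat_bound_down (P := P) hN hr hd
  refine ⟨36 * C, by positivity, fun z hz h1 => ?_⟩
  have hx : 0 < -z.re := by linarith
  have h2 := G1x186.norm_J1_le h1 (fun l => by
    have := far_ne_ce hz l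
    rwa [show PsiJ.ce l = -1 / 2 - (l : ℂ) by unfold PsiJ.ce; ring] at this)
  have h3 := hb z hz
  have h4 : -z.re ≤ ‖z‖ := (neg_le_abs _).trans (Complex.abs_re_le_norm z)
  have h5 : C / (1 + ‖z‖) ≤ C / (1 + -z.re) := by gcongr
  rw [norm_mul]
  calc ‖G1x186.J1 z‖ * ‖P.eval z / N.eval z‖
      ≤ (36 / (-z.re) * Real.exp (-(2 * π * |z.im|))) * (C / (1 + -z.re)) := by
        refine mul_le_mul h2 (h3.trans h5) (norm_nonneg _) ?_
        exact mul_nonneg (div_nonneg (by norm_num) hx.le) (Real.exp_pos _).le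
    _ = _ := by
        field_simp



/-- **Tail theorem for `g`.** -/
theorem tail_g {P N : ℂ[X]} (hN : N ≠ 0) (hr : HalfRoots N) (hd : P.natDegree < N.natDegree)
    (k0 : ℕ) {c : ℝ} (hc : 0 < c) (hc3 : c ^ 2 ≤ 3) :
    HasSum (circs k0 (fun z => G1x186.J1 z * (P.eval z / N.eval z)))
      (rays k0 c (fun z => G1x186.J1 z * (P.eval z / N.eval z))) := by
  obtain ⟨C, hC, hb⟩ := bound_g (P := P) hN hr hd
  set Φ : ℂ → ℂ := fun z => G1x186.J1 z * (P.eval z / N.eval z) with hΦ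
  have hk0 : (0 : ℝ) ≤ k0 := Nat.cast_nonneg k0
  have hexp1 : ∀ y : ℝ, Real.exp (-(2 * π * |y|)) ≤ 1 := by
    intro y
    rw [Real.exp_le_one_iff]
    have := Real.pi_pos
    have := abs_nonneg y
    nlinarith
  have hcell := fun l => cell_poles (P := P) jump_g hN hr k0 l
  have hray : ∀ w : ℂ, (w = -c + I ∨ w = -c - I) → ∀ t : ℝ, 0 ≤ t →
      ‖Φ (-(((k0 : ℝ) + 1 / 4 : ℝ) : ℂ) + t * w)‖ ≤ 16 * C * Real.exp (-(2 * π) * t) := by
    intro w hw t ht
    obtain ⟨g1, g2⟩ := geo_ray (k0 := k0) hc ht hw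
    have hct : 0 ≤ c * t := by positivity
    have h := hb _ (far_ray (t := t) hc3 hw) (by rw [g1]; linarith)
    refine h.trans ?_
    rw [g1, g2]
    have h1 : C / (-(-((k0 : ℝ) + 1 / 4) - c * t) * (1 + -(-((k0 : ℝ) + 1 / 4) - c * t))) ≤
        16 * C := by
      rw [div_le_iff₀ (by nlinarith)]
      have : 1 / 4 * 1 ≤ -(-((k0 : ℝ) + 1 / 4) - c * t) * (1 + -(-((k0 : ℝ) + 1 / 4) - c * t)) :=
        mul_le_mul (by linarith) (by linarith) (by norm_num) (by linarith)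
      nlinarith
    rw [show -(2 * π * t) = -(2 * π) * t by ring]
    exact mul_le_mul_of_nonneg_right h1 (Real.exp_pos _).le
  have hintv : ∀ w : ℂ, (w = -c + I ∨ w = -c - I) →
      IntegrableOn (fun t : ℝ => Φ (-(((k0 : ℝ) + 1 / 4 : ℝ) : ℂ) + t * w)) (Ioi 0) := by
    intro w hw
    have hg : IntegrableOn (fun t : ℝ => 16 * C * Real.exp (-(2 * π) * t)) (Ioi 0) :=
      (exp_neg_integrableOn_Ioi 0 (by positivity)).const_mul _
    refine Integrable.mono' hg (((ray_continuousOn_m hc offM hcell hw).mono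
      Ioi_subset_Ici_self).aestronglyMeasurable measurableSet_Ioi) ?_
    filter_upwards [ae_restrict_mem measurableSet_Ioi] with t ht
    exact hray w hw t (le_of_lt ht)
  have htend := wedge_tendsto_m (κ := (k0 : ℝ) + 1 / 4) hc offM hcell (hintv _ (Or.inl rfl))
    (hintv _ (Or.inr rfl)) ?_
  · have e : circs k0 Φ = fun l : ℕ => ∑ φ ∈ Off,
        (∮ z in C((-(((k0 : ℝ) + 1 / 4) + l + φ) : ℝ), 1 / 4), Φ z) := by
      funext l
      exact (sum_off k0 l Φ).symm
    have hsum : Summable (circs k0 Φ) := by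
      rw [e]
      refine Summable.of_norm_bounded
        (g := fun l : ℕ => ∑ φ ∈ Off, 2 * π * (1 / 4) * (4 * C * (1 / ((l : ℝ) + 1) ^ 2)))
        ?_ fun l => ?_
      · refine summable_sum fun φ _ => ?_
        refine (Summable.mul_left _ ?_).mul_left _
        have := (summable_nat_add_iff 1).2 (Real.summable_one_div_nat_pow.2 (one_lt_two))
        refine this.congr fun l => ?_
        push_cast
        rfl
      · refine (norm_sum_le _ _).trans (Finset.sum_le_sum fun φ hφ => ?_)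
        refine circleIntegral.norm_integral_le_of_norm_le_const (by norm_num) fun z hz => ?_
        rw [mem_sphere, dist_eq_norm] at hz
        obtain ⟨g1, g2, g3⟩ := geo_circ hφ hz
        have hl : (0 : ℝ) ≤ l := Nat.cast_nonneg l
        have h := hb z g1 (by linarith)
        refine h.trans ?_
        have hp : ((l : ℝ) + 1) ^ 2 / 4 ≤ (-z.re) * (1 + -z.re) := by
          have h1 : ((l : ℝ) + 1) / 4 ≤ -z.re := by linarith
          have h2 : (l : ℝ) + 1 ≤ 1 + -z.re := by linarith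
          have := mul_le_mul h1 h2 (by linarith) (by linarith)
          calc _ = ((l : ℝ) + 1) / 4 * (l + 1) := by ring
            _ ≤ _ := this
        calc C / ((-z.re) * (1 + -z.re)) * Real.exp (-(2 * π * |z.im|))
            ≤ C / (((l : ℝ) + 1) ^ 2 / 4) * 1 := by
              refine mul_le_mul ?_ (hexp1 _) (Real.exp_pos _).le (by positivity)
              exact div_le_div_of_nonneg_left hC.le (by positivity) hp
          _ = _ := by
              field_simp
    rw [e] at hsum ⊢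
    exact (hsum.hasSum_iff_tendsto_nat).2 htend
  · rw [tendsto_zero_iff_norm_tendsto_zero]
    have hlim : Tendsto (fun n : ℕ => 8 / c * C * (1 / ((n : ℝ) + 1))) atTop (𝓝 0) := by
      have := (tendsto_one_div_add_atTop_nhds_zero_nat (𝕜 := ℝ)).const_mul (8 / c * C)
      rwa [mul_zero] at this
    refine squeeze_zero (fun _ => norm_nonneg _) (fun n => ?_) hlim
    have hn : (0 : ℝ) ≤ n := Nat.cast_nonneg n
    have hn0 : (0 : ℝ) ≤ (n : ℝ) / c := by positivity
    unfold sg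
    rw [norm_mul, Complex.norm_I, one_mul]
    have h7 := intervalIntegral.norm_integral_le_of_norm_le_const
      (a := -((n : ℝ) / c)) (b := (n : ℝ) / c)
      (f := fun y : ℝ => Φ (((-(((k0 : ℝ) + 1 / 4) + n) : ℝ) : ℂ) + y * I))
      (C := 4 * C * (1 / ((n : ℝ) + 1) ^ 2)) (fun y hy => ?_)
    · refine h7.trans ?_
      rw [sub_neg_eq_add, abs_of_nonneg (by linarith)]
      have h8 : (n : ℝ) / (n + 1) ≤ 1 := by
        rw [div_le_one (by positivity)]; linarith
      calc 4 * C * (1 / ((n : ℝ) + 1) ^ 2) * ((n : ℝ) / c + n / c)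
          = 8 / c * C * (1 / ((n : ℝ) + 1)) * (n / (n + 1)) := by
            field_simp; ring
        _ ≤ 8 / c * C * (1 / ((n : ℝ) + 1)) * 1 := by
            exact mul_le_mul_of_nonneg_left h8 (by positivity)
        _ = _ := by ring
    · have g1 : (((-(((k0 : ℝ) + 1 / 4) + n) : ℝ) : ℂ) + y * I).re =
          -((k0 : ℝ) + 1 / 4 + n) := by simp
      have h := hb _ (far_vert (k0 := k0) (n := n) (y := y)) (by rw [g1]; linarith)
      refine h.trans ?_
      rw [g1, neg_neg]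
      have hp : ((n : ℝ) + 1) ^ 2 / 4 ≤ ((k0 : ℝ) + 1 / 4 + n) * (1 + ((k0 : ℝ) + 1 / 4 + n)) := by
        have h1 : ((n : ℝ) + 1) / 4 ≤ (k0 : ℝ) + 1 / 4 + n := by linarith
        have h2 : (n : ℝ) + 1 ≤ 1 + ((k0 : ℝ) + 1 / 4 + n) := by linarith
        have := mul_le_mul h1 h2 (by linarith) (by linarith)
        calc _ = ((n : ℝ) + 1) / 4 * (n + 1) := by ring
          _ ≤ _ := this
      calc C / (((k0 : ℝ) + 1 / 4 + n) * (1 + ((k0 : ℝ) + 1 / 4 + n))) *
            Real.exp (-(2 * π * |(((-(((k0 : ℝ) + 1 / 4) + n) : ℝ) : ℂ) + y * I).im|))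
          ≤ C / (((n : ℝ) + 1) ^ 2 / 4) * 1 := by
            refine mul_le_mul ?_ (hexp1 _) (Real.exp_pos _).le (by positivity)
            exact div_le_div_of_nonneg_left hC.le (by positivity) hp
        _ = _ := by
            field_simp

/-! ### finitely many integer circles -/

lemma Jump.differentiableAt {𝒥 : ℂ → ℂ} (hJ : Jump 𝒥) {z : ℂ} (L : ℕ)
    (hz : z ∈ strip (-L - 11 / 8) (-L - 1 / 8)) (h : z ≠ PsiJ.ce L) : DifferentiableAt ℂ 𝒥 z := by
  obtain ⟨Jr, h1, h2⟩ := hJ L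
  have hn : strip (-(L : ℝ) - 11 / 8) (-L - 1 / 8) ∈ 𝓝 z := (isOpen_strip _ _).mem_nhds hz
  have h3 : DifferentiableAt ℂ (fun z => Jr z / (z - PsiJ.ce L) ^ 3) z := by
    refine ((h1 z hz).differentiableAt hn).div (by fun_prop) (pow_ne_zero _ (sub_ne_zero.2 h))
  refine h3.congr_of_eventuallyEq ?_
  filter_upwards [hn, isOpen_ne.mem_nhds h] with w hw hw'
  exact h2 w hw hw'

/-- the circle around an integer which is not a root of `N` contributes nothing -/
lemma circ_int_zero {𝒥 : ℂ → ℂ} (hJ : Jump 𝒥) {P N : ℂ[X]} (hr : HalfRoots N) (L : ℕ)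
    (h0 : N.eval (-((L + 1 : ℕ) : ℂ)) ≠ 0) :
    (∮ z in C(-((L + 1 : ℕ) : ℂ), 1 / 4), 𝒥 z * (P.eval z / N.eval z)) = 0 := by
  have hd : ∀ z ∈ closedBall (-((L + 1 : ℕ) : ℂ)) (1 / 4),
      DifferentiableAt ℂ (fun z => 𝒥 z * (P.eval z / N.eval z)) z := by
    intro z hz
    rw [mem_closedBall, dist_eq_norm] at hz
    have h1 := (Complex.abs_re_le_norm _).trans hz
    simp only [sub_re, neg_re, natCast_re] at h1
    rw [abs_le] at h1
    push_cast at h1
    obtain ⟨h1, h2⟩ := h1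
    have hs : z ∈ strip (-(L : ℝ) - 11 / 8) (-L - 1 / 8) := by
      constructor <;> linarith
    have hne : z ≠ PsiJ.ce L := by
      rintro rfl
      rw [PsiJ.ce_re] at h2
      linarith
    have hNz : N.eval z ≠ 0 := by
      intro h
      obtain ⟨k, rfl⟩ := hr z h
      have h3 := half_in_strip (k0 := L) (l := 0) (k := k) (by simpa using hs)
      rcases h3 with h3 | h3
      · exact hne (by simpa using h3)
      · rw [h3] at h
        exact h0 (by simpa using h)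
    exact (hJ.differentiableAt L hs hne).mul (P.differentiableAt.div N.differentiableAt hNz)
  exact Complex.circleIntegral_eq_zero_of_differentiable_on_off_countable (by norm_num)
    Set.countable_empty (fun z hz => (hd z hz).continuousAt.continuousWithinAt)
    (fun z hz => hd z (ball_subset_closedBall hz.1))

lemma split_ints {𝒥 : ℂ → ℂ} (hJ : Jump 𝒥) {P N : ℂ[X]} (hr : HalfRoots N) (k0 M : ℕ)
    (hM : ∀ m : ℕ, M < m → N.eval (-(m : ℂ)) ≠ 0) {S : ℂ}
    (h : HasSum (circs k0 (fun z => 𝒥 z * (P.eval z / N.eval z))) S) :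
    HasSum (fun l : ℕ => ∮ z in C(PsiJ.ce (k0 + l), 1 / 4), 𝒥 z * (P.eval z / N.eval z))
      (S - ∑ m ∈ Finset.Ioc k0 M, ∮ z in C(-(m : ℂ), 1 / 4), 𝒥 z * (P.eval z / N.eval z)) := by
  set B : ℕ → ℂ := fun l => ∮ z in C(-((k0 + l + 1 : ℕ) : ℂ), 1 / 4),
    𝒥 z * (P.eval z / N.eval z) with hB
  have h1 : HasSum B (∑ l ∈ Finset.range (M - k0), B l) := by
    refine hasSum_sum_of_ne_finset_zero fun l hl => ?_
    rw [Finset.mem_range, not_lt] at hl
    exact circ_int_zero hJ hr (k0 + l) (hM _ (by omega))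
  have h2 := h.sub h1
  have h3 : ∑ m ∈ Finset.Ioc k0 M, (∮ z in C(-(m : ℂ), 1 / 4), 𝒥 z * (P.eval z / N.eval z)) =
      ∑ l ∈ Finset.range (M - k0), B l := by
    have h4 : Finset.Ioc k0 M = Finset.Ico (k0 + 1) (M + 1) := by
      ext x; simp
    rw [h4, Finset.sum_Ico_eq_sum_range, show M + 1 - (k0 + 1) = M - k0 by omega]
    refine Finset.sum_congr rfl fun l _ => ?_
    rw [hB, show k0 + 1 + l = k0 + l + 1 by ring]
  rw [h3]
  refine h2.congr_fun ?_
  intro l
  simp [circs, hB]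

/-- **Tail theorem for `ψ`**: the site circles to the left of `-(k0+1/4)`, the integer circles
`-m`, `k0 < m ≤ M` (all others are empty) and the two rays. -/
theorem tail_psi_sites (v : Fin 3 → ℂ) {P N : ℂ[X]} (hN : N ≠ 0) (hr : HalfRoots N) (k0 M : ℕ)
    (hM : ∀ m : ℕ, M < m → N.eval (-(m : ℂ)) ≠ 0) {c : ℝ} (hc : 0 < c) (hc3 : c ^ 2 ≤ 3) :
    HasSum (fun l : ℕ => ∮ z in C(PsiJ.ce (k0 + l), 1 / 4),
        PsiJ.J v z * (P.eval z / N.eval z))
      (rays k0 c (fun z => PsiJ.J v z * (P.eval z / N.eval z)) -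
        ∑ m ∈ Finset.Ioc k0 M, ∮ z in C(-(m : ℂ), 1 / 4), PsiJ.J v z * (P.eval z / N.eval z)) :=
  split_ints (jump_psi v) hr k0 M hM (tail_psi v hN hr k0 hc hc3)

/-- **Tail theorem for `g`**, same form. -/
theorem tail_g_sites {P N : ℂ[X]} (hN : N ≠ 0) (hr : HalfRoots N)
    (hd : P.natDegree < N.natDegree) (k0 M : ℕ)
    (hM : ∀ m : ℕ, M < m → N.eval (-(m : ℂ)) ≠ 0) {c : ℝ} (hc : 0 < c) (hc3 : c ^ 2 ≤ 3) :
    HasSum (fun l : ℕ => ∮ z in C(PsiJ.ce (k0 + l), 1 / 4),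
        G1x186.J1 z * (P.eval z / N.eval z))
      (rays k0 c (fun z => G1x186.J1 z * (P.eval z / N.eval z)) -
        ∑ m ∈ Finset.Ioc k0 M, ∮ z in C(-(m : ℂ), 1 / 4), G1x186.J1 z * (P.eval z / N.eval z)) :=
  split_ints jump_g hr k0 M hM (tail_g hN hr hd k0 hc hc3)

end Crest.Agent.R006.Tail516
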