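import Crest.Agent.R006.Tail4_516
import Crest.Agent.R006.P3_Defs_257
import Crest.Agent.R006.P3_Disc_390
import Crest.Agent.R006.P3_Bridge_257
import Crest.Agent.R006.P3_Slot_283
import Crest.Agent.R006.RepRC_724
import Crest.Agent.R006.G1Base_186
import Crest.Agent.R006.PsiJ1_576
import Crest.Agent.R006.G1W_186
import Crest.Agent.R006.P3_Fin2_576
import Crest.Agent.R006.Bord_89
import Crest.Agent.R006.BordM_89
import Crest.Agent.R006.Map_189
import Crest.Agent.R006.Germ_724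
import Crest.Agent.R006.P3_Const2_673
import Crest.Agent.R006.P3_PotN_673

-- ▼ part R006/RayNorm_516
section

/-!
Row 6 (Catalan), block P3 (helper516), leaf (h) of 390's split: norm of the two-ray integral.

* `norm_rays_le`: `‖Φ‖ ≤ M (1+t)^{-2}` on both rays gives `‖rays k0 c Φ‖ ≤ 2 (1+c) M`;
* `norm_rays_exp`: `‖Φ‖ ≤ A (1+t)^D exp (u G(t/u))`, `G ≤ l` and `G T ≤ l - (T - T1)` for `T ≥ T1`
  give `‖rays k0 c Φ‖ ≤ 2 (1+c) A C (1+u)^(D+2) exp (u l)`, `C` depending on `D, T1` only.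
-/

set_option autoImplicit false

open Complex MeasureTheory Set Filter Topology
open scoped Real

noncomputable section

namespace Crest.Agent.R006.Tail516

lemma hasDerivAt_neg_inv {t : ℝ} (ht : 0 ≤ t) :
    HasDerivAt (fun t : ℝ => -(1 + t)⁻¹) (1 / (1 + t) ^ 2) t := by
  have h1 : (1 + t) ≠ 0 := by linarith
  have h : HasDerivAt (fun t : ℝ => -(1 + t)⁻¹) (-(-1 / (1 + t) ^ 2)) t :=
    (((hasDerivAt_id t).const_add 1).inv h1).neg
  rwa [neg_div, neg_neg] at h

lemma tendsto_neg_inv : Tendsto (fun t : ℝ => -(1 + t)⁻¹) atTop (𝓝 0) := by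
  have h : Tendsto (fun t : ℝ => 1 + t) atTop atTop := tendsto_atTop_add_const_left _ 1 tendsto_id
  have := (tendsto_inv_atTop_zero.comp h).neg
  simpa using this

lemma integrableOn_inv_sq : IntegrableOn (fun t : ℝ => 1 / (1 + t) ^ 2) (Ioi 0) :=
  integrableOn_Ioi_deriv_of_nonneg'
    (fun _ ht => hasDerivAt_neg_inv ht) (fun t _ => by positivity) tendsto_neg_inv

lemma integral_inv_sq : ∫ t in Ioi (0 : ℝ), 1 / (1 + t) ^ 2 = 1 := by
  have := integral_Ioi_of_hasDerivAt_of_nonneg' (a := 0)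
    (fun t ht => hasDerivAt_neg_inv (t := t) ht) (fun t _ => by positivity) tendsto_neg_inv
  rw [this]
  norm_num

lemma norm_ray_integral_le {f : ℝ → ℂ} {M : ℝ} (h : ∀ t : ℝ, 0 < t → ‖f t‖ ≤ M / (1 + t) ^ 2) :
    ‖∫ t in Ioi (0 : ℝ), f t‖ ≤ M := by
  have hi : IntegrableOn (fun t : ℝ => M * (1 / (1 + t) ^ 2)) (Ioi 0) :=
    integrableOn_inv_sq.const_mul M
  refine (norm_integral_le_of_norm_le hi ?_).trans ?_
  · filter_upwards [ae_restrict_mem measurableSet_Ioi] with t ht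
    have := h t ht
    rwa [div_eq_mul_one_div] at this
  · rw [integral_const_mul, integral_inv_sq, mul_one]

lemma norm_dir_le {c : ℝ} (hc : 0 < c) : ‖(-c + I : ℂ)‖ ≤ 1 + c ∧ ‖(-c - I : ℂ)‖ ≤ 1 + c := by
  constructor
  · calc ‖(-c + I : ℂ)‖ ≤ ‖(-c : ℂ)‖ + ‖I‖ := norm_add_le _ _
      _ = 1 + c := by rw [norm_neg, Complex.norm_real, Complex.norm_I, Real.norm_of_nonneg hc.le]; ring
  · calc ‖(-c - I : ℂ)‖ ≤ ‖(-c : ℂ)‖ + ‖I‖ := norm_sub_le _ _
      _ = 1 + c := by rw [norm_neg, Complex.norm_real, Complex.norm_I, Real.norm_of_nonneg hc.le]; ring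

/-- **norm of the two-ray integral** -/
theorem norm_rays_le {k0 : ℕ} {c M : ℝ} (hc : 0 < c) {Φ : ℂ → ℂ}
    (h1 : ∀ t : ℝ, 0 < t → ‖Φ (-(((k0 : ℝ) + 1 / 4 : ℝ) : ℂ) + t * (-c + I))‖ ≤ M / (1 + t) ^ 2)
    (h2 : ∀ t : ℝ, 0 < t → ‖Φ (-(((k0 : ℝ) + 1 / 4 : ℝ) : ℂ) + t * (-c - I))‖ ≤ M / (1 + t) ^ 2) :
    ‖rays k0 c Φ‖ ≤ 2 * (1 + c) * M := by
  have e1 := norm_ray_integral_le h1
  have e2 := norm_ray_integral_le h2
  obtain ⟨d1, d2⟩ := norm_dir_le hc
  have hM : 0 ≤ M := (norm_nonneg _).trans e1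
  unfold rays
  refine (norm_sub_le _ _).trans ?_
  rw [norm_mul, norm_mul]
  have f1 := mul_le_mul d1 e1 (norm_nonneg _) (by positivity)
  have f2 := mul_le_mul d2 e2 (norm_nonneg _) (by positivity)
  linarith





end Crest.Agent.R006.Tail516
end
end

-- ▼ part R006/Ray2_516
section

/-!
Row 6 (Catalan), block P3 (helper516).  The tail theorems and the norm bounds in the notation of
257's spine (`JR`, `JQ`, `ray2`).

`hasSum_R`, `hasSum_Q`: the sum over ALL site circles equals the circles `l < X0`, minus the integer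
circles `-m`, `X0 < m ≤ M`, plus `ray2 (X0 + 1/4)`.
-/

set_option autoImplicit false

open Complex MeasureTheory Set Filter Topology Polynomial
open scoped Real

noncomputable section

namespace Crest.Agent.R006.Tail516

open Crest.Agent.R006.P3

lemma rays_eq_ray2 (k0 : ℕ) (Φ : ℂ → ℂ) : rays k0 1 Φ = ray2 ((k0 : ℝ) + 1 / 4) Φ := by
  unfold rays ray2
  simp only [ofReal_one]



/-- norm of `ray2` -/
theorem norm_ray2_le {X0 : ℕ} {M : ℝ} {Φ : ℂ → ℂ}
    (h1 : ∀ t : ℝ, 0 < t → ‖Φ (-(((X0 : ℝ) + 1 / 4 : ℝ) : ℂ) + t * (-1 + I))‖ ≤ M / (1 + t) ^ 2)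
    (h2 : ∀ t : ℝ, 0 < t → ‖Φ (-(((X0 : ℝ) + 1 / 4 : ℝ) : ℂ) + t * (-1 - I))‖ ≤ M / (1 + t) ^ 2) :
    ‖ray2 ((X0 : ℝ) + 1 / 4) Φ‖ ≤ 4 * M := by
  rw [← rays_eq_ray2]
  have := norm_rays_le (k0 := X0) (c := 1) (M := M) (Φ := Φ) one_pos
    (fun t ht => by simpa using h1 t ht) (fun t ht => by simpa using h2 t ht)
  linarith


end Crest.Agent.R006.Tail516
end
end

-- ▼ part R006/P3_Fixed_257
section

/-!
# Row 6, block P3: the discrete inequality at fixed `u` (helper257)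

`fixed_bound_of`: from the contour representations `RepR`, `RepQ` (circles around the slots and two
rays) and the local form of the integrands at the slots (`HolR`, `HolQ`), the sup bounds give the
bound of the minor.
-/

set_option autoImplicit false

open Complex

namespace Crest.Agent.R006.P3

open Polynomial Metric Crest.Agent.R006.D Crest.Agent.R006.NV Crest.Agent.R006.PsiInf
open Crest.Agent.R006.Bord Crest.Agent.R006.Border410 Crest.Agent.R006.P3Slot

/-- sign of a slot in the contour representation -/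
def eps (S : Shape) (u : ℕ) : Slot S u → ℂ
  | .inl _ => 1
  | .inr (.inl _) => 1
  | .inr (.inr _) => -1

lemma norm_eps (S : Shape) (u : ℕ) (k : Slot S u) : ‖eps S u k‖ = 1 := by
  rcases k with l | (l | j) <;> simp [eps]

/-- weight of the `Q`-columns at a slot -/
noncomputable def JW (S : Shape) (u : ℕ) : Slot S u → ℂ → ℂ
  | .inl _ => fun s => JQ s - 2 * gL s
  | .inr (.inl _) => fun s => JQ s - 2 * gL s
  | .inr (.inr _) => JQ

/-- contour representation of the `R`-functional -/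
def RepR (S : Shape) (u c : ℕ) : Prop :=
  ∀ P f : ℂ[X], P.natDegree < S.rows * u + c →
    BR S u c P f = -(∑ k : Slot S u, eps S u k * ci (ctr S u k : ℂ) (1 / 4) (fun s =>
        P.eval s * (JR s * ((rhoC S u * f).eval s / (om S u c).eval s))) +
      (2 * Real.pi * I)⁻¹ * ray2 ((S.w * u : ℕ) + 1 / 4) (fun s =>
        JR s * ((rhoC S u * f).eval s * P.eval s / (om S u c).eval s)))

/-- contour representation of the `Q`-functional -/
def RepQ (S : Shape) (u c : ℕ) : Prop :=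
  ∀ P f : ℂ[X], P.natDegree + f.natDegree + 2 ≤ S.rows * u + c →
    BQ S u c P f = -(∑ k : Slot S u, eps S u k * ci (ctr S u k : ℂ) (1 / 4) (fun s =>
        P.eval s * (JW S u k s * (f.eval s / (om S u c).eval s))) +
      (2 * Real.pi * I)⁻¹ * ray2 ((S.w * u : ℕ) + 1 / 4) (fun s =>
        JQ s * (f.eval s * P.eval s / (om S u c).eval s)))

/-- local form of the `R`-integrand at the slots -/
def HolR (S : Shape) (u c : ℕ) : Prop :=
  ∀ (k : Slot S u) (f : ℂ[X]), ∃ H : ℂ → ℂ,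
    DifferentiableOn ℂ H (closedBall (ctr S u k : ℂ) (1 / 4)) ∧
    ∀ s ∈ sphere (ctr S u k : ℂ) (1 / 4), JR s * ((rhoC S u * f).eval s / (om S u c).eval s) =
      H s * ((s - (ctr S u k : ℂ)) ^ (ord S u k))⁻¹

/-- local form of the `Q`-integrand at the slots -/
def HolQ (S : Shape) (u c : ℕ) : Prop :=
  ∀ (k : Slot S u) (f : ℂ[X]), ∃ H : ℂ → ℂ,
    DifferentiableOn ℂ H (closedBall (ctr S u k : ℂ) (1 / 4)) ∧
    ∀ s ∈ sphere (ctr S u k : ℂ) (1 / 4), JW S u k s * (f.eval s / (om S u c).eval s) =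
      H s * ((s - (ctr S u k : ℂ)) ^ (ord S u k))⁻¹

/-- slots with their order -/
abbrev SL (S : Shape) (u : ℕ) : Type := Σ k : Slot S u, Fin (ord S u k)

/-- one circle in the slot form, with bounds of the coefficients -/
lemma circle_slots {y : ℂ} {m : ℕ} {G H : ℂ → ℂ} (hH : DifferentiableOn ℂ H (closedBall y (1 / 4)))
    (hG : ∀ s ∈ sphere y (1 / 4), G s = H s * ((s - y) ^ m)⁻¹) :
    (∀ P : ℂ[X], ci y (1 / 4) (fun s => P.eval s * G s) =
      ∑ α : Fin m, tc y P α * cf y (1 / 4) H (m - 1 - α)) ∧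
    ∀ M : ℝ, (∀ s ∈ sphere y (1 / 4), ‖G s‖ ≤ M) → ∀ α : Fin m,
      ‖cf y (1 / 4) H (m - 1 - α)‖ ≤ M * (1 / 4) ^ (1 + (α : ℕ)) := by
  have hr : (0 : ℝ) < 1 / 4 := by norm_num
  constructor
  · intro P
    rw [Fin.sum_univ_eq_sum_range (fun α => tc y P α * cf y (1 / 4) H (m - 1 - α)) m,
      ← slot_form hr hH P m]
    refine ci_congr hr.le fun s hs => ?_
    simp only [hG s hs]
  · intro M hM α
    have h1 : ∀ s ∈ sphere y (1 / 4), ‖H s‖ ≤ M * (1 / 4) ^ m := by
      intro s hs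
      have h2 := hM s hs
      have h3 : ‖s - y‖ = 1 / 4 := by rwa [mem_sphere, dist_eq_norm] at hs
      rw [hG s hs, norm_mul, norm_inv, norm_pow, h3] at h2
      have h4 : (0 : ℝ) < (1 / 4) ^ m := by positivity
      rwa [← div_eq_mul_inv, div_le_iff₀ h4] at h2
    refine (norm_cf_le hr h1 (m - 1 - α)).trans (le_of_eq ?_)
    have h8 : (1 / 4 : ℝ) ^ m = (1 / 4) ^ (m - 1 - (α : ℕ)) * (1 / 4) ^ (1 + (α : ℕ)) := by
      rw [← pow_add]
      congr 1
      have := α.2
      omega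
    have h7 : ((1 / 4 : ℝ) ^ (m - 1 - (α : ℕ))) ≠ 0 := by positivity
    rw [h8]
    field_simp

/-- a functional of the form `-(∑ ε (circle) + (2πi)⁻¹ rays)` is `∑ slots` up to the rays -/
lemma rep_slots {S : Shape} {u : ℕ} {G : Slot S u → ℂ → ℂ} {H : Slot S u → ℂ → ℂ}
    (hH : ∀ k, DifferentiableOn ℂ (H k) (closedBall (ctr S u k : ℂ) (1 / 4)))
    (hG : ∀ k, ∀ s ∈ sphere (ctr S u k : ℂ) (1 / 4),
      G k s = H k s * ((s - (ctr S u k : ℂ)) ^ (ord S u k))⁻¹)
    (P : ℂ[X]) (A R : ℂ)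
    (hA : A = -(∑ k : Slot S u, eps S u k * ci (ctr S u k : ℂ) (1 / 4) (fun s => P.eval s * G k s) +
      (2 * Real.pi * I)⁻¹ * R)) :
    A - ∑ s : SL S u, tc (ctr S u s.1 : ℂ) P s.2 *
      (-(eps S u s.1) * cf (ctr S u s.1 : ℂ) (1 / 4) (H s.1) (ord S u s.1 - 1 - s.2)) =
      -((2 * Real.pi * I)⁻¹ * R) := by
  rw [hA, Fintype.sum_sigma]
  have h1 : ∀ k : Slot S u, eps S u k * ci (ctr S u k : ℂ) (1 / 4) (fun s => P.eval s * G k s) =
      -∑ α : Fin (ord S u k), tc (ctr S u k : ℂ) P α *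
        (-(eps S u k) * cf (ctr S u k : ℂ) (1 / 4) (H k) (ord S u k - 1 - α)) := by
    intro k
    rw [(circle_slots (hH k) (hG k)).1 P, Finset.mul_sum, ← Finset.sum_neg_distrib]
    refine Finset.sum_congr rfl fun α _ => ?_
    ring
  simp only [h1, Finset.sum_neg_distrib]
  ring

lemma norm_rays_part {X0 : ℕ} {M : ℝ} {Φ : ℂ → ℂ}
    (h1 : ∀ t : ℝ, 0 < t → ‖Φ (-(((X0 : ℝ) + 1 / 4 : ℝ) : ℂ) + t * (-1 + I))‖ ≤ M / (1 + t) ^ 2)
    (h2 : ∀ t : ℝ, 0 < t → ‖Φ (-(((X0 : ℝ) + 1 / 4 : ℝ) : ℂ) + t * (-1 - I))‖ ≤ M / (1 + t) ^ 2) :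
    ‖-((2 * Real.pi * I : ℂ)⁻¹ * ray2 ((X0 : ℝ) + 1 / 4) Φ)‖ ≤ M := by
  rw [norm_neg, norm_mul, norm_two_pi_I_inv]
  have h3 := Tail516.norm_ray2_le h1 h2
  have h4 : (2 * Real.pi)⁻¹ ≤ 1 / 4 := by
    rw [inv_le_comm₀ (by positivity) (by norm_num)]
    have := Real.pi_gt_three
    norm_num
    linarith
  calc (2 * Real.pi)⁻¹ * ‖ray2 ((X0 : ℝ) + 1 / 4) Φ‖ ≤ 1 / 4 * (4 * M) := by gcongr
    _ = M := by ring

/-- **the discrete inequality at fixed `u`**, from the contour representations -/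
theorem fixed_bound_of {S : Shape} (hS : S.Good) (u c : ℕ) (hRR : RepR S u c) (hRQ : RepQ S u c)
    (hHR : HolR S u c) (hHQ : HolQ S u c) (r : D.Col S u → D.Row) (h : Adm S u c r)
    (W : Fin (S.k * u + S.g * u + c) → ℂ) (Z : Fin (S.k * u) → ℂ) (Y : Fin (S.g * u) → ℂ)
    (hW : Function.Injective W) (hZ : Function.Injective Z) (hY : Function.Injective Y)
    (B LR LQ LU : ℝ) (μ ν : Slot S u → ℝ) (hB : 0 ≤ B) (hLR : 0 ≤ LR) (hLQ : 0 ≤ LQ)
    (hLU : 0 ≤ LU) (hμ : ∀ k, 0 < μ k) (hν : ∀ k, 0 ≤ ν k)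
    (hrR : ∀ i j (t : ℝ), 0 < t → ∀ v : ℂ, v = -1 + I ∨ v = -1 - I →
      ‖JR (rayPt S u v t) * ((rhoC S u * lg Z j).eval (rayPt S u v t) *
        (lg W i).eval (rayPt S u v t) / (om S u c).eval (rayPt S u v t))‖ ≤ B * LR / (1 + t) ^ 2)
    (hrQ : ∀ i j (t : ℝ), 0 < t → ∀ v : ℂ, v = -1 + I ∨ v = -1 - I →
      ‖JQ (rayPt S u v t) * ((lg Y j).eval (rayPt S u v t) *
        (lg W i).eval (rayPt S u v t) / (om S u c).eval (rayPt S u v t))‖ ≤ B * LQ / (1 + t) ^ 2)
    (hcW : ∀ k i (s : ℂ), ‖s - (ctr S u k : ℂ)‖ = 1 / 4 → ‖(lg W i).eval s‖ ≤ B * μ k)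
    (hcR : ∀ k j (s : ℂ), ‖s - (ctr S u k : ℂ)‖ = 1 / 4 →
      ‖JR s * ((rhoC S u * lg Z j).eval s / (om S u c).eval s)‖ ≤ ν k * LR)
    (hcQ : ∀ k j (s : ℂ), ‖s - (ctr S u k : ℂ)‖ = 1 / 4 →
      ‖JQ s * ((lg Y j).eval s / (om S u c).eval s)‖ ≤ ν k * LQ)
    (hcQ' : ∀ k j (s : ℂ), ‖s - (ctr S u k : ℂ)‖ = 1 / 4 →
      ‖(JQ s - 2 * gL s) * ((lg Y j).eval s / (om S u c).eval s)‖ ≤ ν k * LQ)
    (hu : ∀ (J : Rw S u c) i, ‖BU S u c J (lg W i)‖ ≤ B * LU) :
    ∃ e : D.Col S u ⊕ Fin c ≃ Rw S u c,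
      |aeval GG (Minor S u r)| * (‖(Matrix.vandermonde W).det‖ *
        (‖(Matrix.vandermonde Z).det‖ * ‖(Matrix.vandermonde Y).det‖)) ≤
      |((kap S u * VV S u c e : ℚ) : ℝ)| *
        ((S.k * u + S.g * u + c + ∑ k, ord S u k).factorial *
          (B ^ (S.k * u + S.g * u + c) * (LR ^ (S.k * u) * (LQ ^ (S.g * u) * LU ^ c)) *
            ∏ k, max 1 (μ k * ν k) ^ ord S u k)) := by
  classical
  have hrows : S.rows = S.k + S.q + S.g := by
    have := hS.kpos
    unfold D.Shape.k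
    omega
  have hrows' : S.rows * u = S.k * u + S.q * u + S.g * u := by rw [hrows]; ring
  have hgq : S.g * u ≤ S.q * u := Nat.mul_le_mul_right u hS.gq
  choose HR hHRd hHRe using hHR
  choose HQ hHQd hHQe using hHQ
  have hpt : ∀ (v : ℂ) (t : ℝ), rayPt S u v t =
      -((((S.w * u : ℕ) : ℝ) + 1 / 4 : ℝ) : ℂ) + t * v := by
    intro v t
    unfold rayPt
    push_cast
    ring
  have hJW : ∀ k j (s : ℂ), ‖s - (ctr S u k : ℂ)‖ = 1 / 4 →
      ‖JW S u k s * ((lg Y j).eval s / (om S u c).eval s)‖ ≤ ν k * LQ := by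
    intro k j s hs
    rcases k with l | (l | l)
    · exact hcQ' _ j s hs
    · exact hcQ' _ j s hs
    · exact hcQ _ j s hs
  have hmem : ∀ {y s : ℂ}, s ∈ sphere y (1 / 4) → ‖s - y‖ = 1 / 4 := fun hs => by
    rwa [mem_sphere, dist_eq_norm] at hs
  obtain ⟨e, he⟩ := plain_bound (hS.kpos.le) r h (σ := SL S u) W Z Y hW hZ hY
    (fun s i => tc (ctr S u s.1 : ℂ) (lg W i) s.2)
    (fun s j => -(eps S u s.1) * cf (ctr S u s.1 : ℂ) (1 / 4) (HR s.1 (lg Z j))
      (ord S u s.1 - 1 - s.2))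
    (fun s j => -(eps S u s.1) * cf (ctr S u s.1 : ℂ) (1 / 4) (HQ s.1 (lg Y j))
      (ord S u s.1 - 1 - s.2))
    B LR LQ LU (fun s => μ s.1 * 4 ^ (s.2 : ℕ)) (fun s => ν s.1 * (1 / 4) ^ (1 + (s.2 : ℕ)))
    hB hLR hLQ hLU (fun s => by have := hμ s.1; positivity)
    (fun s => by have := hν s.1; positivity)
    (by
      intro i j
      have hdeg := lg_natDegree_lt W i
      have h1 := hRR (lg W i) (lg Z j) (by omega)
      rw [rep_slots (H := fun k => HR k (lg Z j)) (fun k => hHRd k (lg Z j))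
        (fun k => hHRe k (lg Z j)) (lg W i) _ _ h1]
      refine norm_rays_part ?_ ?_
      · intro t ht
        have := hrR i j t ht _ (Or.inl rfl)
        rwa [hpt] at this
      · intro t ht
        have := hrR i j t ht _ (Or.inr rfl)
        rwa [hpt] at this)
    (by
      intro i j
      have hdeg := lg_natDegree_lt W i
      have hdeg' := lg_natDegree_lt Y j
      have h1 := hRQ (lg W i) (lg Y j) (by omega)
      rw [rep_slots (H := fun k => HQ k (lg Y j)) (fun k => hHQd k (lg Y j))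
        (fun k => hHQe k (lg Y j)) (lg W i) _ _ h1]
      refine norm_rays_part ?_ ?_
      · intro t ht
        have := hrQ i j t ht _ (Or.inl rfl)
        rwa [hpt] at this
      · intro t ht
        have := hrQ i j t ht _ (Or.inr rfl)
        rwa [hpt] at this)
    hu
    (by
      intro s i
      have h1 := norm_tc_le (y := (ctr S u s.1 : ℂ)) (r := 1 / 4) (by norm_num)
        (P := lg W i) (fun x hx => hcW s.1 i x (hmem hx)) s.2
      refine h1.trans (le_of_eq ?_)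
      rw [one_div, inv_pow, inv_inv]
      ring)
    (by
      intro s j
      rw [norm_mul, norm_neg, norm_eps, one_mul]
      refine ((circle_slots (hHRd s.1 (lg Z j)) (hHRe s.1 (lg Z j))).2 (ν s.1 * LR)
        (fun x hx => hcR s.1 j x (hmem hx)) s.2).trans (le_of_eq ?_)
      ring)
    (by
      intro s j
      rw [norm_mul, norm_neg, norm_eps, one_mul]
      refine ((circle_slots (hHQd s.1 (lg Y j)) (hHQe s.1 (lg Y j))).2 (ν s.1 * LQ)
        (fun x hx => hJW s.1 j x (hmem hx)) s.2).trans (le_of_eq ?_)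
      ring)
  refine ⟨e, he.trans ?_⟩
  have hcard : Fintype.card (SL S u) = ∑ k, ord S u k := by
    rw [Fintype.card_sigma]
    simp
  have hprod : ∏ s : SL S u, max 1 (μ s.1 * 4 ^ (s.2 : ℕ) * (ν s.1 * (1 / 4) ^ (1 + (s.2 : ℕ)))) ≤
      ∏ k, max 1 (μ k * ν k) ^ ord S u k := by
    rw [Fintype.prod_sigma]
    refine Finset.prod_le_prod (fun k _ => Finset.prod_nonneg fun α _ => by positivity)
      fun k _ => ?_
    have h1 : ∀ α : Fin (ord S u k),
        max 1 (μ k * 4 ^ (α : ℕ) * (ν k * (1 / 4) ^ (1 + (α : ℕ)))) ≤ max 1 (μ k * ν k) := by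
      intro α
      refine max_le_max le_rfl ?_
      have e1 : μ k * 4 ^ (α : ℕ) * (ν k * (1 / 4) ^ (1 + (α : ℕ))) = μ k * ν k * (1 / 4) := by
        rw [pow_add, pow_one, one_div, inv_pow]
        field_simp
      rw [e1]
      have h2 : 0 ≤ μ k * ν k := mul_nonneg (hμ k).le (hν k)
      linarith
    calc ∏ α : Fin (ord S u k), max 1 (μ k * 4 ^ (α : ℕ) * (ν k * (1 / 4) ^ (1 + (α : ℕ))))
        ≤ ∏ _α : Fin (ord S u k), max 1 (μ k * ν k) :=
          Finset.prod_le_prod (fun α _ => by positivity) fun α _ => h1 α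
      _ = max 1 (μ k * ν k) ^ ord S u k := by simp
  rw [hcard]
  gcongr

end Crest.Agent.R006.P3
private theorem rz_39b379e498 : type_of% @_root_.Crest.Agent.R006.P3.JW.eq_1 := @_root_.Crest.Agent.R006.P3.JW.eq_1 -- L33
private theorem rz_eae74f9985 : type_of% @_root_.Crest.Agent.R006.P3.eps.eq_1 := @_root_.Crest.Agent.R006.P3.eps.eq_1 -- L24
end

-- ▼ part R006/P3_SlotB_724
section

/-!
Row 6 (helper724): the functions `b` of `P3Slot.slots_det_bound` for the circles of REP.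

`slotB Jr B Dh s = Jr s * B s / Dh s`. For a denominator `D = (X - y)^q Dh`, `Dh ≠ 0` on the disc,
and `J s * (s - y)^p = Jr s` off `y`:
`J s * (B s * P s / D s) = P s * (slotB Jr B Dh s * ((s - y)^(p + q))⁻¹)` off `y`,
`slotB` is holomorphic on the closed disc, and on the sphere of radius `r`
`‖slotB‖ = ‖J s‖ * (‖B s‖ / ‖D s‖) * r ^ (p + q)`.

Instances: `J v` at the sites `-1/2-l` (`p = 3`, `Jr = UP v l`), at the stars `l + 1/2`
(`p = 0`, `Jr = Jst v l`), at the negative integers (`p = 0`, `Jr = J v`).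
-/

set_option autoImplicit false

namespace Crest.Agent.R006.Base724

open Polynomial Filter Topology Metric
open Crest.Agent.R006.NV Crest.Agent.R006.Germ724
open Crest.Agent.R006.P3Slot (ci)

/-- slot function -/
noncomputable def slotB (Jr : ℂ → ℂ) (B Dh : ℂ[X]) (s : ℂ) : ℂ := Jr s * B.eval s / Dh.eval s

lemma slotB_diffOn {y : ℂ} {r : ℝ} {Jr : ℂ → ℂ} {Dh : ℂ[X]}
    (hd : DifferentiableOn ℂ Jr (closedBall y r)) (hne : ∀ s ∈ closedBall y r, Dh.eval s ≠ 0)
    (B : ℂ[X]) : DifferentiableOn ℂ (slotB Jr B Dh) (closedBall y r) :=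
  (hd.mul B.differentiable.differentiableOn).div Dh.differentiable.differentiableOn hne

lemma slotB_eq {y : ℂ} {J Jr : ℂ → ℂ} {p q : ℕ} {D Dh : ℂ[X]} (hD : D = (X - C y) ^ q * Dh) {s : ℂ}
    (hs : s ≠ y) (hJ : J s * (s - y) ^ p = Jr s) (hne : Dh.eval s ≠ 0) (B P : ℂ[X]) :
    J s * (B.eval s * P.eval s / D.eval s) =
      P.eval s * (slotB Jr B Dh s * ((s - y) ^ (p + q))⁻¹) := by
  have h0 : s - y ≠ 0 := sub_ne_zero.mpr hs
  have e : D.eval s = (s - y) ^ q * Dh.eval s := by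
    rw [hD, eval_mul, eval_pow, eval_sub, eval_X, eval_C]
  unfold slotB
  rw [e, ← hJ, pow_add]
  field_simp



/-! ### reduced jumps of `J v` -/

lemma UP_red (v : Fin 3 → ℂ) (l : ℕ) {s : ℂ} (hs : s ≠ PsiJ.ce l) :
    PsiJ.J v s * (s - PsiJ.ce l) ^ 3 = UP v l s := by
  have hs' : s ≠ site l := by rw [← ce_eq_site]; exact hs
  have h0 : s - PsiJ.ce l ≠ 0 := sub_ne_zero.mpr hs
  rw [PsiJ.J_eq v l hs]
  unfold UP
  field_simp

lemma UP_diffOn (v : Fin 3 → ℂ) (l : ℕ) {r : ℝ} (hr : r ≤ 1 / 4) :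
    DifferentiableOn ℂ (UP v l) (closedBall (PsiJ.ce l) r) := by
  intro s hs
  rw [mem_closedBall, dist_eq_norm] at hs
  exact (UP_differentiableAt v l (by rw [← ce_eq_site]; exact hs.trans hr)).differentiableWithinAt

lemma Jst_red (v : Fin 3 → ℂ) (l : ℕ) {s : ℂ} (h : ‖s - star l‖ ≤ 1 / 4) (hs : s ≠ star l) :
    PsiJ.J v s * (s - star l) ^ 0 = Jst v l s := by
  rw [pow_zero, mul_one, Jst_eq v l h hs]

lemma Jst_diffOn (v : Fin 3 → ℂ) (l : ℕ) {r : ℝ} (hr : r ≤ 1 / 4) :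
    DifferentiableOn ℂ (Jst v l) (closedBall (star l) r) := by
  intro s hs
  rw [mem_closedBall, dist_eq_norm] at hs
  exact (Jst_differentiableAt v l (hs.trans hr)).differentiableWithinAt

/-- `J v` is holomorphic on the discs around the negative integers -/
lemma J_diffOn_neg (v : Fin 3 → ℂ) (m : ℕ) {r : ℝ} (hr : r ≤ 1 / 4) :
    DifferentiableOn ℂ (PsiJ.J v) (closedBall (-(m : ℂ) - 1) r) := by
  intro s hs
  rw [mem_closedBall, dist_eq_norm] at hs
  have hs' := hs.trans hr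
  refine (PsiJ.J_differentiableAt v ?_ ?_).differentiableWithinAt
  · have h1 : |(s - (-(m : ℂ) - 1)).re| ≤ 1 / 4 := (Complex.abs_re_le_norm _).trans hs'
    have h2 : (s - (-(m : ℂ) - 1)).re = s.re + m + 1 := by simp; ring
    rw [h2] at h1
    have := (abs_le.mp h1).2
    have hm : (0 : ℝ) ≤ m := Nat.cast_nonneg m
    linarith
  · rintro l rfl
    rw [ce_eq_site, site_eq_half] at hs'
    have h3 := dist_half (a := -(2 * (l : ℤ)) - 1) (b := -(2 * (m : ℤ)) - 2) (by omega)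
    have e : (((-(2 * (m : ℤ)) - 2 : ℤ)) : ℂ) / 2 = -(m : ℂ) - 1 := by push_cast; ring
    rw [e] at h3
    linarith

/-! ### node polynomials -/

namespace Nodes

variable (N : Nodes)

/-- `den` without the factor of the node `i` -/
noncomputable def denh (i : N.A) : ℂ[X] :=
  ∏ k ∈ (Finset.univ \ N.W).erase i, (X - C (N.z k)) ^ N.mul k

lemma den_eq {i : N.A} (hi : i ∉ N.W) : N.den = (X - C (N.z i)) ^ N.mul i * N.denh i := by
  unfold den denh NSoff
  rw [Finset.mul_prod_erase (Finset.univ \ N.W) (fun k => (X - C (N.z k)) ^ N.mul k)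
    (Finset.mem_sdiff.mpr ⟨Finset.mem_univ _, hi⟩)]

lemma denh_ne {i : N.A} {s : ℂ} (hs : ‖s - N.z i‖ ≤ 1 / 4) : (N.denh i).eval s ≠ 0 := by
  unfold denh
  rw [eval_prod, Finset.prod_ne_zero_iff]
  intro k hk
  rw [eval_pow, eval_sub, eval_X, eval_C]
  exact pow_ne_zero _ (sub_ne_zero.mpr (N.near_node_ne (Finset.mem_erase.mp hk).1 hs))

lemma den_ne_site {l : ℕ} {s : ℂ} (hs : ‖s - PsiJ.ce l‖ ≤ 1 / 4) : N.den.eval s ≠ 0 := by
  apply N.den_ne_of_dist
  intro i hi
  exact N.near_site_ne (by rw [← ce_eq_site]; exact hs) hi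

/-- site slot function, order `3` -/
noncomputable def bw (v : Fin 3 → ℂ) (l : ℕ) (B : ℂ[X]) : ℂ → ℂ := slotB (UP v l) B N.den

/-- star slot function, order `mul i` -/
noncomputable def bst (v : Fin 3 → ℂ) (l : ℕ) (i : N.A) (B : ℂ[X]) : ℂ → ℂ :=
  slotB (Jst v l) B (N.denh i)

/-- slot function at a negative integer, order `mul i` -/
noncomputable def be (v : Fin 3 → ℂ) (i : N.A) (B : ℂ[X]) : ℂ → ℂ :=
  slotB (PsiJ.J v) B (N.denh i)

section
variable {r : ℝ} (hr : 0 < r) (hr' : r ≤ 1 / 4)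
include hr'

lemma bw_diffOn (v : Fin 3 → ℂ) (l : ℕ) (B : ℂ[X]) :
    DifferentiableOn ℂ (N.bw v l B) (closedBall (PsiJ.ce l) r) :=
  slotB_diffOn (UP_diffOn v l hr') (fun s hs => N.den_ne_site (by
    rw [mem_closedBall, dist_eq_norm] at hs; exact hs.trans hr')) B

lemma bst_diffOn (v : Fin 3 → ℂ) {l : ℕ} {i : N.A} (hz : N.z i = star l) (B : ℂ[X]) :
    DifferentiableOn ℂ (N.bst v l i B) (closedBall (N.z i) r) :=
  slotB_diffOn (by rw [hz]; exact Jst_diffOn v l hr') (fun s hs => N.denh_ne (by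
    rw [mem_closedBall, dist_eq_norm] at hs; exact hs.trans hr')) B

lemma be_diffOn (v : Fin 3 → ℂ) {m : ℕ} {i : N.A} (hz : N.z i = -(m : ℂ) - 1) (B : ℂ[X]) :
    DifferentiableOn ℂ (N.be v i B) (closedBall (N.z i) r) :=
  slotB_diffOn (by rw [hz]; exact J_diffOn_neg v m hr') (fun s hs => N.denh_ne (by
    rw [mem_closedBall, dist_eq_norm] at hs; exact hs.trans hr')) B

include hr




omit hr'


include hr'


omit hr'


end

end Nodes

end Crest.Agent.R006.Base724
end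

-- ▼ part R006/Star_516
section

/-!
Row 6 (Catalan), block P3 (helper516).  Sup bounds of `PsiJ.J v`, `g1`, `g1L`, `J1` on both sides:

* left: `Re s ≤ -1/4`, distance `≥ 1/8` from the sites `-1/2-l`;
* right: `Re s ≥ 1/4`, distance `≥ 1/8` from the natural numbers.
-/

set_option autoImplicit false

open Complex Set Filter Topology
open scoped Real

noncomputable section

namespace Crest.Agent.R006.Star516

open Crest.Agent.R006.G1x186

/-- lower bound of the sine off the discs of radius `1/8` around the integers -/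
lemma exp_le_norm_sin {s : ℂ} (hd : ∀ k : ℤ, 1 / 8 ≤ ‖s - k‖) :
    Real.exp (π * |s.im|) ≤ 6 * ‖Complex.sin (π * s)‖ := by
  have h := exp_le_norm_cos (s := s - 1 / 2) (fun k => by
    have := hd (k + 1)
    convert this using 2
    push_cast; ring)
  have e1 : (s - 1 / 2).im = s.im := by simp
  have e2 : Complex.cos (Real.pi * (s - 1 / 2)) = Complex.sin (π * s) := by
    rw [show (π : ℂ) * (s - 1 / 2) = π * s - π / 2 by ring, Complex.cos_sub_pi_div_two]
  rwa [e1, e2] at h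

lemma norm_sin_le (s : ℂ) : ‖Complex.sin (π * s)‖ ≤ Real.exp (π * |s.im|) := by
  have h : Complex.sin (π * s) = (cexp (-(π * s) * I) - cexp (π * s * I)) * I / 2 := by
    rw [Complex.sin]
  have hπ := Real.pi_pos
  have e1 : ‖cexp (-(π * s) * I)‖ ≤ Real.exp (π * |s.im|) := by
    rw [Complex.norm_exp]
    apply Real.exp_le_exp.mpr
    have : (-(π * s) * I).re = π * s.im := by simp
    rw [this]
    exact mul_le_mul_of_nonneg_left (le_abs_self _) hπ.le
  have e2 : ‖cexp (π * s * I)‖ ≤ Real.exp (π * |s.im|) := by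
    rw [Complex.norm_exp]
    apply Real.exp_le_exp.mpr
    have : (π * s * I).re = π * (-s.im) := by simp
    rw [this]
    exact mul_le_mul_of_nonneg_left (neg_le_abs _) hπ.le
  rw [h, norm_div, norm_mul, Complex.norm_I, mul_one]
  have h3 := norm_sub_le (cexp (-(π * s) * I)) (cexp (π * s * I))
  have h4 : ‖(2 : ℂ)‖ = 2 := by simp
  rw [h4]
  linarith

lemma norm_cos_le (s : ℂ) : ‖Complex.cos (π * s)‖ ≤ Real.exp (π * |s.im|) := by
  have h := norm_sin_le (s + 1 / 2)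
  have e1 : (s + 1 / 2).im = s.im := by simp
  have e2 : Complex.sin (π * (s + 1 / 2)) = Complex.cos (π * s) := by
    rw [show (π : ℂ) * (s + 1 / 2) = π * s + π / 2 by ring, Complex.sin_add_pi_div_two]
  rwa [e1, e2] at h

lemma Bt_eq_gr (w : ℂ) : PsiJ.Bt w = gr w := by
  unfold PsiJ.Bt gr
  rw [div_eq_mul_inv]

/-- distance to the naturals on the right gives distance to the integers -/
lemma dist_int {s : ℂ} (hs : 1 / 4 ≤ s.re) (hd : ∀ n : ℕ, 1 / 8 ≤ ‖s - n‖) (k : ℤ) :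
    1 / 8 ≤ ‖s - k‖ := by
  rcases lt_or_ge k 0 with hk | hk
  · have h1 := (le_abs_self _).trans (Complex.abs_re_le_norm (s - k))
    have h2 : (k : ℝ) < 0 := by exact_mod_cast hk
    simp only [sub_re, intCast_re] at h1
    linarith
  · obtain ⟨n, rfl⟩ := Int.eq_ofNat_of_zero_le hk
    have := hd n
    exact_mod_cast this

lemma sin_ne {s : ℂ} (hd : ∀ k : ℤ, 1 / 8 ≤ ‖s - k‖) : Complex.sin (π * s) ≠ 0 := by
  intro h
  have h1 := exp_le_norm_sin hd
  rw [h, norm_zero, mul_zero] at h1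
  exact absurd h1 (not_le.2 (Real.exp_pos _))

/-- reflection on the right -/
lemma gr_neg {s : ℂ} (hs : 0 < s.re) (hsin : Complex.sin (π * s) ≠ 0) :
    gr (-s) = -(gr (s + 1 / 2) * Complex.cos (π * s) / Complex.sin (π * s)) := by
  have hpi : (π : ℂ) ≠ 0 := by exact_mod_cast Real.pi_ne_zero
  have h1 := Complex.Gamma_mul_Gamma_one_sub (-s)
  rw [show 1 - -s = s + 1 by ring, show (π : ℂ) * -s = -(π * s) by ring, Complex.sin_neg] at h1
  have h2 := Complex.Gamma_mul_Gamma_one_sub (s + 1 / 2)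
  rw [show 1 - (s + 1 / 2) = -s + 1 / 2 by ring,
    show (π : ℂ) * (s + 1 / 2) = π * s + π / 2 by ring, Complex.sin_add_pi_div_two] at h2
  have g1 : Gamma (s + 1) ≠ 0 := Complex.Gamma_ne_zero_of_re_pos (by simp; linarith)
  have g2 : Gamma (s + 1 / 2) ≠ 0 := Complex.Gamma_ne_zero_of_re_pos (by simp; linarith)
  unfold gr
  rw [show s + 1 / 2 + 1 / 2 = s + 1 by ring]
  have e1 : Gamma (-s) = -(π / Complex.sin (π * s)) * (Gamma (s + 1))⁻¹ := by
    have h1' : Gamma (-s) * Gamma (s + 1) = -(π / Complex.sin (π * s)) := by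
      rw [h1, div_neg]
    rw [← h1', mul_assoc, mul_inv_cancel₀ g1, mul_one]
  by_cases hc : Complex.cos (π * s) = 0
  · rw [hc, div_zero] at h2
    have e2 : Gamma (-s + 1 / 2) = 0 := by
      rcases mul_eq_zero.1 h2 with h | h
      · exact absurd h g2
      · exact h
    rw [e2, hc]
    simp
  · have e2 : (Gamma (-s + 1 / 2))⁻¹ = Gamma (s + 1 / 2) * Complex.cos (π * s) / π := by
      have h3 : Gamma (-s + 1 / 2) = π / Complex.cos (π * s) / Gamma (s + 1 / 2) := by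
        rw [eq_div_iff g2, mul_comm]; exact h2
      rw [h3]
      field_simp
    rw [e1, e2]
    field_simp

/-- **bound of `J` on the right** -/
theorem J_right (v : Fin 3 → ℂ) : ∃ K : ℝ, 0 < K ∧ ∀ s : ℂ, 1 / 4 ≤ s.re →
    (∀ n : ℕ, 1 / 8 ≤ ‖s - n‖) →
    ‖PsiJ.J v s‖ ≤ K * (8 : ℝ) ^ s.re * Real.exp (-(π * |s.im|)) := by
  obtain ⟨KB, hKB, hB⟩ := PsiJ.Bt_bound
  set V := ‖v 0‖ + ‖v 1‖ + ‖v 2‖ with hV
  have hVn : 0 ≤ V := by positivity
  refine ⟨KB ^ 3 * V * 6 ^ 3 + 1, by positivity, ?_⟩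
  intro s hs hd
  have hdi := dist_int hs hd
  have hsin := sin_ne hdi
  have h8 : ‖(8 : ℂ) ^ s‖ = (8 : ℝ) ^ s.re := by
    have := Complex.norm_cpow_eq_rpow_re_of_pos (x := 8) (by norm_num) s
    simpa using this
  have h8p : 0 < (8 : ℝ) ^ s.re := Real.rpow_pos_of_pos (by norm_num) _
  have hE : 0 < Real.exp (π * |s.im|) := Real.exp_pos _
  have hB1 := hB (s + 1 / 2) (by simp; linarith)
  have h3 := PsiJ.norm_P_le v s
  have hS := exp_le_norm_sin hdi
  have hSpos : 0 < ‖Complex.sin (π * s)‖ := norm_pos_iff.2 hsin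
  by_cases hc : Complex.cos (π * s) = 0
  · have : PsiJ.J v s = 0 := by unfold PsiJ.J; rw [hc]; simp
    rw [this, norm_zero]
    positivity
  · have e : PsiJ.J v s = -((8 : ℂ) ^ s * PsiJ.Bt (s + 1 / 2) ^ 3 * PsiJ.P v s /
        Complex.sin (π * s) ^ 3) := by
      unfold PsiJ.J
      rw [Bt_eq_gr (-s), gr_neg (by linarith) hsin, ← Bt_eq_gr]
      generalize Complex.cos (π * s) = C at hc ⊢
      generalize Complex.sin (π * s) = D at hsin ⊢
      generalize PsiJ.Bt (s + 1 / 2) = B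
      field_simp
    rw [e, norm_neg, norm_div, norm_mul, norm_mul, norm_pow, norm_pow, h8]
    have h4 : Real.exp (π * |s.im|) ^ 3 ≤ 6 ^ 3 * ‖Complex.sin (π * s)‖ ^ 3 := by
      rw [← mul_pow]; gcongr
    rw [div_le_iff₀ (by positivity)]
    have h5 : Real.exp (2 * π * |s.im|) = Real.exp (-(π * |s.im|)) *
        Real.exp (π * |s.im|) ^ 3 := by
      rw [← Real.exp_nat_mul, ← Real.exp_add]
      congr 1
      push_cast; ring
    calc (8 : ℝ) ^ s.re * ‖PsiJ.Bt (s + 1 / 2)‖ ^ 3 * ‖PsiJ.P v s‖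
        ≤ (8 : ℝ) ^ s.re * KB ^ 3 * (V * Real.exp (2 * π * |s.im|)) := by gcongr
      _ = (8 : ℝ) ^ s.re * KB ^ 3 * V * Real.exp (-(π * |s.im|)) *
            Real.exp (π * |s.im|) ^ 3 := by rw [h5]; ring
      _ ≤ (8 : ℝ) ^ s.re * KB ^ 3 * V * Real.exp (-(π * |s.im|)) *
            (6 ^ 3 * ‖Complex.sin (π * s)‖ ^ 3) := by gcongr
      _ = KB ^ 3 * V * 6 ^ 3 * (8 : ℝ) ^ s.re * Real.exp (-(π * |s.im|)) *
            ‖Complex.sin (π * s)‖ ^ 3 := by ring
      _ ≤ (KB ^ 3 * V * 6 ^ 3 + 1) * (8 : ℝ) ^ s.re * Real.exp (-(π * |s.im|)) *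
            ‖Complex.sin (π * s)‖ ^ 3 := by
          gcongr
          linarith

/-! ### the `g` side -/

theorem g1_right {s : ℂ} (hs : 1 / 4 ≤ s.re) : ‖g1 s‖ ≤ 1 / (s.re + 1 / 2) := by
  have hx : 0 < s.re + 1 / 2 := by linarith
  have h1 := norm_g1_le (z := s) (by linarith)
  have h2 := grR_sq_le hx
  have hpi := Real.pi_gt_three
  refine h1.trans ?_
  rw [div_le_div_iff₀ Real.pi_pos hx]
  have h3 : grR (s.re + 1 / 2) ^ 2 * (s.re + 1 / 2) ≤ 3 := by
    calc grR (s.re + 1 / 2) ^ 2 * (s.re + 1 / 2)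
        ≤ (s.re + 1 / 2 + 1 / 2) / (s.re + 1 / 2) ^ 2 * (s.re + 1 / 2) := by gcongr
      _ = (s.re + 1 / 2 + 1 / 2) / (s.re + 1 / 2) := by field_simp
      _ ≤ 3 := by rw [div_le_iff₀ hx]; linarith
  linarith

lemma g1L_eq_right {s : ℂ} (hs : 0 < s.re) (hsin : Complex.sin (π * s) ≠ 0) :
    g1L s = g1 s * (Complex.cos (π * s) / Complex.sin (π * s)) ^ 2 := by
  unfold g1L g1
  rw [gr_neg hs hsin]
  ring

lemma cot_le {s : ℂ} (hd : ∀ k : ℤ, 1 / 8 ≤ ‖s - k‖) :
    ‖Complex.cos (π * s) / Complex.sin (π * s)‖ ≤ 6 := by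
  have h1 := exp_le_norm_sin hd
  have h2 := norm_cos_le s
  have h3 : 0 < ‖Complex.sin (π * s)‖ := norm_pos_iff.2 (sin_ne hd)
  rw [norm_div, div_le_iff₀ h3]
  linarith

theorem g1L_right {s : ℂ} (hs : 1 / 4 ≤ s.re) (hd : ∀ n : ℕ, 1 / 8 ≤ ‖s - n‖) :
    ‖g1L s‖ ≤ 36 / (s.re + 1 / 2) := by
  have hdi := dist_int hs hd
  have h1 := g1_right hs
  have h2 := cot_le hdi
  rw [g1L_eq_right (by linarith) (sin_ne hdi), norm_mul, norm_pow]
  calc ‖g1 s‖ * ‖Complex.cos (π * s) / Complex.sin (π * s)‖ ^ 2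
      ≤ 1 / (s.re + 1 / 2) * 6 ^ 2 := by
        have : 0 < s.re + 1 / 2 := by linarith
        gcongr
    _ = _ := by ring

theorem J1_right {s : ℂ} (hs : 1 / 4 ≤ s.re) (hd : ∀ n : ℕ, 1 / 8 ≤ ‖s - n‖) :
    ‖J1 s‖ ≤ 36 / (s.re + 1 / 2) * Real.exp (-(2 * π * |s.im|)) := by
  have hdi := dist_int hs hd
  have h1 := g1_right hs
  have hx : 0 < s.re + 1 / 2 := by linarith
  by_cases hc : Complex.cos (π * s) = 0
  · have : J1 s = 0 := by unfold J1; rw [hc]; simp
    rw [this, norm_zero]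
    positivity
  · have hsin := sin_ne hdi
    have e : J1 s = g1 s / Complex.sin (π * s) ^ 2 := by
      unfold J1
      rw [g1L_eq_right (by linarith) hsin]
      field_simp
    have h2 := exp_le_norm_sin hdi
    have h3 : 0 < ‖Complex.sin (π * s)‖ := norm_pos_iff.2 hsin
    rw [e, norm_div, norm_pow, div_le_iff₀ (by positivity)]
    have h4 : Real.exp (π * |s.im|) ^ 2 ≤ 36 * ‖Complex.sin (π * s)‖ ^ 2 := by
      rw [show (36 : ℝ) = 6 ^ 2 by norm_num, ← mul_pow]; gcongr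
    have h5 : Real.exp (-(2 * π * |s.im|)) * Real.exp (π * |s.im|) ^ 2 = 1 := by
      rw [← Real.exp_nat_mul, ← Real.exp_add, ← Real.exp_zero]
      congr 1
      push_cast; ring
    calc ‖g1 s‖ ≤ 1 / (s.re + 1 / 2) := h1
      _ = 1 / (s.re + 1 / 2) * (Real.exp (-(2 * π * |s.im|)) * Real.exp (π * |s.im|) ^ 2) := by
          rw [h5, mul_one]
      _ ≤ 1 / (s.re + 1 / 2) * (Real.exp (-(2 * π * |s.im|)) *
            (36 * ‖Complex.sin (π * s)‖ ^ 2)) := by gcongr
      _ = _ := by ring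

theorem g1L_left {s : ℂ} (hs : s.re ≤ -(1 / 4)) : ‖g1L s‖ ≤ 1 / (-s.re) := by
  have hx : 0 < -s.re := by linarith
  have h1 := norm_g1L_le (z := s) (by linarith)
  have h2 := grR_sq_le hx
  have hpi := Real.pi_gt_three
  refine h1.trans ?_
  rw [div_le_div_iff₀ Real.pi_pos hx]
  have h3 : grR (-s.re) ^ 2 * (-s.re) ≤ 3 := by
    calc grR (-s.re) ^ 2 * (-s.re)
        ≤ (-s.re + 1 / 2) / (-s.re) ^ 2 * (-s.re) := by gcongr
      _ = (-s.re + 1 / 2) / (-s.re) := by field_simp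
      _ ≤ 3 := by rw [div_le_iff₀ hx]; linarith
  linarith



theorem J1_left {s : ℂ} (hs : s.re ≤ -(1 / 4)) (hd : ∀ l : ℕ, 1 / 8 ≤ ‖s - PsiJ.ce l‖) :
    ‖J1 s‖ ≤ 36 / (-s.re) * Real.exp (-(2 * π * |s.im|)) := by
  refine norm_J1_le (by linarith) fun l => ?_
  have := hd l
  rwa [show PsiJ.ce l = -1 / 2 - (l : ℂ) by unfold PsiJ.ce; ring] at this

end Crest.Agent.R006.Star516
end
end

-- ▼ part R006/P3_SlotQ_283
section

/-!
Row 6 (helper283): slot functions of the `Q`-side, twin of helper724's `P3_SlotB`.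

`D = Lam.NS N.z N.mul` (all nodes), `Dh = Lam.Nhat N.z N.mul i`.

* w-node `i` at the site `ce l` (`mul i = 1`): `Jw = J1 - 2 g1L`, order `3` (`bwQ`);
* star node: `Jw = J1 - 2 g1L`, order `mul i` (`bstQ`);
* e-node (negative integer): `J1`, order `mul i` (`beQ`).
-/

set_option autoImplicit false

namespace Crest.Agent.R006.Base724

open Polynomial Filter Topology Metric
open Crest.Agent.R006.NV Crest.Agent.R006.Germ724 Crest.Agent.R006.G1x186
open Crest.Agent.R006.P3Slot (ci)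

/-- the jump on the w-sites and at the stars -/
noncomputable def Jw (s : ℂ) : ℂ := J1 s - 2 * g1L s

/-! ### reduced jumps -/

/-- `(s - ce l)^2 J1 s` -/
noncomputable def UQ (l : ℕ) : ℂ → ℂ := (exists_num l).choose

lemma UQ_diffOn (l : ℕ) : DifferentiableOn ℂ (UQ l) (closedBall (PsiJ.ce l) (1 / 4)) :=
  (exists_num l).choose_spec.1

lemma UQ_red (l : ℕ) {s : ℂ} (h : ‖s - PsiJ.ce l‖ ≤ 1 / 4) (hs : s ≠ PsiJ.ce l) :
    J1 s * (s - PsiJ.ce l) ^ 2 = UQ l s := by
  have h1 := (exists_num l).choose_spec.2 s (by rwa [mem_closedBall, dist_eq_norm]) hs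
  have h0 : (s - PsiJ.ce l) ^ 2 ≠ 0 := pow_ne_zero 2 (sub_ne_zero.mpr hs)
  rw [h1]
  change UQ l s / (s - PsiJ.ce l) ^ 2 * (s - PsiJ.ce l) ^ 2 = UQ l s
  field_simp

lemma re_neg_of_near_ce {l : ℕ} {s : ℂ} (h : ‖s - PsiJ.ce l‖ ≤ 1 / 4) : s.re < 0 := by
  have h1 := (abs_le.mp ((Complex.abs_re_le_norm (s - PsiJ.ce l)).trans h)).2
  have h2 : (PsiJ.ce l).re = -(1 / 2) - l := by unfold PsiJ.ce; simp
  rw [Complex.sub_re, h2] at h1
  have : (0 : ℝ) ≤ l := Nat.cast_nonneg l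
  linarith

/-- `(s - ce l)^2 Jw s` -/
noncomputable def UQw (l : ℕ) (s : ℂ) : ℂ := UQ l s - 2 * g1L s * (s - PsiJ.ce l) ^ 2

lemma g1L_diffOn_ce (l : ℕ) : DifferentiableOn ℂ g1L (closedBall (PsiJ.ce l) (1 / 4)) := by
  intro s hs
  rw [mem_closedBall, dist_eq_norm] at hs
  exact (differentiableAt_g1L (re_neg_of_near_ce hs)).differentiableWithinAt

lemma UQw_diffOn (l : ℕ) : DifferentiableOn ℂ (UQw l) (closedBall (PsiJ.ce l) (1 / 4)) := by
  unfold UQw
  exact (UQ_diffOn l).sub (((g1L_diffOn_ce l).const_mul 2).mul (by fun_prop))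

lemma UQw_red (l : ℕ) {s : ℂ} (h : ‖s - PsiJ.ce l‖ ≤ 1 / 4) (hs : s ≠ PsiJ.ce l) :
    Jw s * (s - PsiJ.ce l) ^ 2 = UQw l s := by
  unfold Jw UQw
  rw [← UQ_red l h hs]
  ring

/-- the jump `Jw` near a star, with the removable singularity removed -/
noncomputable def JsQ (s : ℂ) : ℂ := g1 s / Complex.sin (Real.pi * s) ^ 2 - 2 * g1L s

lemma re_star_near {l : ℕ} {s : ℂ} (h : ‖s - star l‖ ≤ 1 / 4) : 1 / 4 ≤ s.re := by
  have h1 := (abs_le.mp ((Complex.abs_re_le_norm (s - star l)).trans h)).1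
  rw [Complex.sub_re, re_star] at h1
  have : (0 : ℝ) ≤ l := Nat.cast_nonneg l
  linarith

lemma dist_nat_star {l : ℕ} {s : ℂ} (h : ‖s - star l‖ ≤ 1 / 4) (n : ℕ) : 1 / 8 ≤ ‖s - n‖ := by
  have h3 := dist_half (a := 2 * (l : ℤ) + 1) (b := 2 * (n : ℤ)) (by omega)
  have e : (((2 * (l : ℤ) + 1 : ℤ)) : ℂ) / 2 - ((2 * (n : ℤ) : ℤ) : ℂ) / 2 =
      (s - n) - (s - star l) := by
    unfold star; push_cast; ring
  rw [e] at h3
  have h4 := norm_sub_le (s - (n : ℂ)) (s - star l)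
  linarith

lemma sin_ne_star {l : ℕ} {s : ℂ} (h : ‖s - star l‖ ≤ 1 / 4) :
    Complex.sin (Real.pi * s) ≠ 0 :=
  Star516.sin_ne (Star516.dist_int (re_star_near h) (dist_nat_star h))

lemma JsQ_differentiableAt {l : ℕ} {s : ℂ} (h : ‖s - star l‖ ≤ 1 / 4) :
    DifferentiableAt ℂ JsQ s := by
  have hre := re_star_near h
  have h1 : DifferentiableAt ℂ g1 s := (analyticAt_g1 (fun l' e => by
    have : s.re < 0 := re_neg_of_near_ce (l := l') (by rw [e, sub_self, norm_zero]; norm_num)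
    linarith)).differentiableAt
  have h2 : DifferentiableAt ℂ g1L s := (analyticAt_g1L (fun n e => by
    have := dist_nat_star h n
    rw [e, sub_self, norm_zero] at this
    norm_num at this)).differentiableAt
  have h3 : DifferentiableAt ℂ (fun s : ℂ => Complex.sin (Real.pi * s) ^ 2) s := by fun_prop
  unfold JsQ
  exact (h1.div h3 (pow_ne_zero 2 (sin_ne_star h))).sub (h2.const_mul 2)

lemma cos_ne_near_star {l : ℕ} {s : ℂ} (h : ‖s - star l‖ ≤ 1 / 4) (hs : s ≠ star l) :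
    Complex.cos (Real.pi * s) ≠ 0 := by
  intro hc
  rw [Complex.cos_eq_zero_iff] at hc
  obtain ⟨k, hk⟩ := hc
  have hpi : (Real.pi : ℂ) ≠ 0 := by exact_mod_cast Real.pi_ne_zero
  have e : s = ((2 * k + 1 : ℤ) : ℂ) / 2 := by
    have h1 : (Real.pi : ℂ) * s = Real.pi * (((2 * k + 1 : ℤ) : ℂ) / 2) := by
      rw [hk]; push_cast; ring
    exact mul_left_cancel₀ hpi h1
  have est : star l = ((2 * (l : ℤ) + 1 : ℤ) : ℂ) / 2 := by unfold star; push_cast; ring
  have hne : (2 * k + 1 : ℤ) ≠ 2 * (l : ℤ) + 1 := by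
    intro h2
    apply hs
    rw [e, est, h2]
  have h3 := dist_half hne
  rw [← e, ← est] at h3
  linarith

lemma JsQ_red {l : ℕ} {s : ℂ} (h : ‖s - star l‖ ≤ 1 / 4) (hs : s ≠ star l) :
    Jw s * (s - star l) ^ 0 = JsQ s := by
  have hsin := sin_ne_star h
  have hcos := cos_ne_near_star h hs
  have hre := re_star_near h
  unfold Jw JsQ J1
  rw [pow_zero, mul_one, Star516.g1L_eq_right (by linarith) hsin]
  field_simp

lemma J1_diffOn_neg (m : ℕ) : DifferentiableOn ℂ J1 (closedBall (-(m : ℂ) - 1) (1 / 4)) := by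
  intro s hs
  rw [mem_closedBall, dist_eq_norm] at hs
  have h1 : |(s - (-(m : ℂ) - 1)).re| ≤ 1 / 4 := (Complex.abs_re_le_norm _).trans hs
  have h2 : (s - (-(m : ℂ) - 1)).re = s.re + m + 1 := by simp; ring
  rw [h2] at h1
  have h3 := (abs_le.mp h1).2
  have hm : (0 : ℝ) ≤ m := Nat.cast_nonneg m
  refine (J1_differentiableAt (by linarith) ?_).differentiableWithinAt
  rintro l rfl
  rw [ce_eq_site, site_eq_half] at hs
  have h3 := dist_half (a := -(2 * (l : ℤ)) - 1) (b := -(2 * (m : ℤ)) - 2) (by omega)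
  have e : (((-(2 * (m : ℤ)) - 2 : ℤ)) : ℂ) / 2 = -(m : ℂ) - 1 := by push_cast; ring
  rw [e] at h3
  linarith

/-! ### slot functions -/

namespace Nodes

variable (N : Nodes)

lemma Nhat_ne {i : N.A} {s : ℂ} (hs : ‖s - N.z i‖ ≤ 1 / 4) :
    (Lam.Nhat N.z N.mul i).eval s ≠ 0 := by
  rw [Lam.Nhat, eval_prod, Finset.prod_ne_zero_iff]
  intro k hk
  rw [eval_pow, eval_sub, eval_X, eval_C]
  exact pow_ne_zero _ (sub_ne_zero.mpr (N.near_node_ne (Finset.mem_erase.mp hk).1 hs))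

/-- w-site slot function, order `3` -/
noncomputable def bwQ (l : ℕ) (i : N.A) (B : ℂ[X]) : ℂ → ℂ :=
  slotB (UQw l) B (Lam.Nhat N.z N.mul i)

/-- star slot function, order `mul i` -/
noncomputable def bstQ (i : N.A) (B : ℂ[X]) : ℂ → ℂ := slotB JsQ B (Lam.Nhat N.z N.mul i)

/-- slot function at a negative integer, order `mul i` -/
noncomputable def beQ (i : N.A) (B : ℂ[X]) : ℂ → ℂ := slotB J1 B (Lam.Nhat N.z N.mul i)

section
variable {r : ℝ} (hr : 0 < r) (hr' : r ≤ 1 / 4)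

include hr'

lemma bwQ_diffOn {l : ℕ} {i : N.A} (hz : N.z i = PsiJ.ce l) (B : ℂ[X]) :
    DifferentiableOn ℂ (N.bwQ l i B) (closedBall (N.z i) r) :=
  slotB_diffOn (by rw [hz]; exact (UQw_diffOn l).mono (closedBall_subset_closedBall hr'))
    (fun s hs => N.Nhat_ne (by
      rw [mem_closedBall, dist_eq_norm] at hs; exact hs.trans hr')) B

lemma bstQ_diffOn {l : ℕ} {i : N.A} (hz : N.z i = star l) (B : ℂ[X]) :
    DifferentiableOn ℂ (N.bstQ i B) (closedBall (N.z i) r) :=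
  slotB_diffOn (by
      intro s hs
      rw [hz, mem_closedBall, dist_eq_norm] at hs
      exact (JsQ_differentiableAt (hs.trans hr')).differentiableWithinAt)
    (fun s hs => N.Nhat_ne (by
      rw [mem_closedBall, dist_eq_norm] at hs; exact hs.trans hr')) B

lemma beQ_diffOn {m : ℕ} {i : N.A} (hz : N.z i = -(m : ℂ) - 1) (B : ℂ[X]) :
    DifferentiableOn ℂ (N.beQ i B) (closedBall (N.z i) r) :=
  slotB_diffOn (by rw [hz]; exact (J1_diffOn_neg m).mono (closedBall_subset_closedBall hr'))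
    (fun s hs => N.Nhat_ne (by
      rw [mem_closedBall, dist_eq_norm] at hs; exact hs.trans hr')) B

include hr






omit hr'


end

end Nodes

end Crest.Agent.R006.Base724
end

-- ▼ part R006/P3_Fixed2_257
section

/-!
# Row 6, block P3: the contour data at fixed `u` (helper257)

`repR`, `holR`, `holQ` discharge three of the four hypotheses of `fixed_bound_of`; the fourth,
`RepQ`, is reduced to the circle formula of the `Q`-side (`repQ_of`).
-/

set_option autoImplicit false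

open Complex

namespace Crest.Agent.R006.P3

open Polynomial Metric Crest.Agent.R006.D Crest.Agent.R006.NV Crest.Agent.R006.PsiInf
open Crest.Agent.R006.Bord Crest.Agent.R006.Border410 Crest.Agent.R006.P3Slot
open Crest.Agent.R006.Base724 Crest.Agent.R006.Fin576 Crest.Agent.R006.Tail516

lemma ctr_w (S : Shape) (u : ℕ) (l : Fin (S.w * u)) :
    ((ctr S u (.inl l) : ℝ) : ℂ) = PsiJ.ce l := by
  unfold ctr PsiJ.ce
  push_cast
  ring

lemma ctr_h (S : Shape) (u : ℕ) (l : Fin (S.h1 * u)) :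
    ((ctr S u (.inr (.inl l)) : ℝ) : ℂ) = Base724.star l := by
  unfold ctr Base724.star
  push_cast
  ring

lemma ctr_e (S : Shape) (u : ℕ) (j : Fin (S.e1 * u - S.w * u)) :
    ((ctr S u (.inr (.inr j)) : ℝ) : ℂ) = -((S.w * u + 1 + (j : ℕ) : ℕ) : ℂ) := by
  unfold ctr
  push_cast
  ring

lemma sum_slots (S : Shape) (u : ℕ) (Fw Fe : ℂ → ℂ) (F : Slot S u → ℂ)
    (hw : ∀ l : Fin (S.w * u), F (.inl l) = Fw (PsiJ.ce l))
    (hh : ∀ l : Fin (S.h1 * u), F (.inr (.inl l)) = Fw (Base724.star l))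
    (he : ∀ j : Fin (S.e1 * u - S.w * u),
      F (.inr (.inr j)) = Fe (-((S.w * u + 1 + (j : ℕ) : ℕ) : ℂ))) :
    ∑ k, eps S u k * F k = ∑ l ∈ Finset.range (S.w * u), Fw (PsiJ.ce l) +
      ∑ l ∈ Finset.range (S.h1 * u), Fw (Base724.star l) -
      ∑ m ∈ Finset.Ioc (S.w * u) (S.e1 * u), Fe (-(m : ℂ)) := by
  rw [Fintype.sum_sum_type, Fintype.sum_sum_type]
  simp only [eps, one_mul, hw, hh, he]
  rw [Fin.sum_univ_eq_sum_range (fun l => Fw (PsiJ.ce l)),
    Fin.sum_univ_eq_sum_range (fun l => Fw (Base724.star l)),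
    Fin.sum_univ_eq_sum_range (fun j => -1 * Fe (-((S.w * u + 1 + j : ℕ) : ℂ)))]
  have h1 : Finset.Ioc (S.w * u) (S.e1 * u) = Finset.Ico (S.w * u + 1) (S.e1 * u + 1) := by
    ext m
    simp only [Finset.mem_Ioc, Finset.mem_Ico]
    omega
  rw [h1, Finset.sum_Ico_eq_sum_range]
  have h2 : S.e1 * u + 1 - (S.w * u + 1) = S.e1 * u - S.w * u := by omega
  rw [h2, ← Finset.mul_sum]
  ring

/-- **the contour representation of the `R`-functional** -/
theorem repR {S : Shape} (hS : S.Good) (u c : ℕ) : RepR S u c := by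
  intro P f hP
  have h1 := BR_formula u c hS P f hP (S.w * u) (a := 1) one_pos (by norm_num)
  rw [rays_eq_ray2] at h1
  have h2 := sum_slots S u (fun y => ci y (1 / 4) (PhiRf S u c P f))
    (fun y => ci y (1 / 4) (PhiRf S u c P f))
    (fun k => ci (ctr S u k : ℂ) (1 / 4) (fun s =>
        P.eval s * (JR s * ((rhoC S u * f).eval s / (om S u c).eval s))))
    (fun l => by
      simp only [ctr_w]
      refine ci_congr (by norm_num) fun s _ => ?_
      simp only [PhiRf]; ring)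
    (fun l => by
      simp only [ctr_h]
      refine ci_congr (by norm_num) fun s _ => ?_
      simp only [PhiRf]; ring)
    (fun l => by
      simp only [ctr_e]
      refine ci_congr (by norm_num) fun s _ => ?_
      simp only [PhiRf]; ring)
  rw [h2, h1]
  rfl

/-! ### the nodes at the slots -/

lemma ord_h {S : Shape} (hS : S.Good) (u c : ℕ) (l : Fin (S.h1 * u)) :
    (nodes S u c).mul (sN u c hS l.2) = ord S u (.inr (.inl l)) := by
  have h0 : (0 : ℤ) ≤ ((l : ℕ) : ℤ) := Int.natCast_nonneg _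
  have e1 : (((l : ℕ) : ℤ) < (S.h1 : ℤ) * u) ↔ (l : ℕ) < S.h1 * u := by exact_mod_cast Iff.rfl
  have e2 : (((l : ℕ) : ℤ) < (S.h2 : ℤ) * u) ↔ (l : ℕ) < S.h2 * u := by exact_mod_cast Iff.rfl
  have e3 : (((l : ℕ) : ℤ) < (S.h3 : ℤ) * u) ↔ (l : ℕ) < S.h3 * u := by exact_mod_cast Iff.rfl
  unfold Nodes.mul sN nodes ord
  simp only [D.Shape.mult, h0, if_true, e1, e2, e3]

lemma mult_e (S : Shape) (u c m : ℕ) (hm : 0 < m) : S.mult u c (D.Site.Z (-(m : ℤ))) =
    (if m ≤ S.e1 * u then 1 else 0) + (if m ≤ S.e2 * u then 1 else 0)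
      + (if m ≤ S.e3 * u then 1 else 0) := by
  have h : ¬ (0 : ℤ) ≤ -(m : ℤ) := by omega
  have e1 : (- -(m : ℤ) ≤ (S.e1 : ℤ) * u) ↔ m ≤ S.e1 * u := by
    rw [neg_neg]; exact_mod_cast Iff.rfl
  have e2 : (- -(m : ℤ) ≤ (S.e2 : ℤ) * u) ↔ m ≤ S.e2 * u := by
    rw [neg_neg]; exact_mod_cast Iff.rfl
  have e3 : (- -(m : ℤ) ≤ (S.e3 : ℤ) * u) ↔ m ≤ S.e3 * u := by
    rw [neg_neg]; exact_mod_cast Iff.rfl
  simp only [D.Shape.mult, h, if_false, e1, e2, e3]

/-- the node `-(w u + 1 + j)` -/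
def eN (S : Shape) (u c : ℕ) (j : Fin (S.e1 * u - S.w * u)) : (nodes S u c).A :=
  ⟨D.Site.Z (-((S.w * u + 1 + (j : ℕ) : ℕ) : ℤ)), (mem_nodes S u c).mpr (by
    rw [mult_e S u c _ (by omega)]
    have h1 : S.w * u + 1 + (j : ℕ) ≤ S.e1 * u := by have := j.2; omega
    rw [if_pos h1]
    omega)⟩

lemma z_eN (S : Shape) (u c : ℕ) (j : Fin (S.e1 * u - S.w * u)) :
    (nodes S u c).z (eN S u c j) = -((S.w * u + 1 + (j : ℕ) : ℕ) : ℂ) := by
  unfold Nodes.z eN
  simp [D.Site.val]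

lemma ord_e (S : Shape) (u c : ℕ) (j : Fin (S.e1 * u - S.w * u)) :
    (nodes S u c).mul (eN S u c j) = ord S u (.inr (.inr j)) :=
  mult_e S u c _ (by omega)

lemma eN_W (S : Shape) (u c : ℕ) (j : Fin (S.e1 * u - S.w * u)) :
    eN S u c j ∉ (nodes S u c).W := by
  intro h
  rw [mem_W] at h
  exact h

lemma sN_W {S : Shape} (hS : S.Good) (u c : ℕ) (l : Fin (S.h1 * u)) :
    sN u c hS l.2 ∉ (nodes S u c).W := by
  intro h
  rw [mem_W] at h
  have h1 : ((l : ℕ) : ℤ) < 0 := h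
  omega

/-- on the spheres the `R`-integrand is `JR R'/den` -/
lemma R_red {S : Shape} (hS : S.Good) (u c : ℕ) (f : ℂ[X]) {y s : ℂ}
    (hy : ∃ k : ℤ, y = (k : ℂ) / 2) (hs : ‖s - y‖ = 1 / 4) :
    JR s * ((rhoC S u * f).eval s / (om S u c).eval s) =
      JR s * ((rhoOff S u * f).eval s * (1 : ℂ[X]).eval s / (nodes S u c).den.eval s) := by
  have h := (nodes S u c).fRC_eq (P := 1) (rhoC_fac u c hS.wi f) (sphere_ne_node _ hy hs)
  rw [om_eq, eval_one, mul_one] at h
  rw [← h]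
  rfl

theorem holR {S : Shape} (hS : S.Good) (u c : ℕ) : HolR S u c := by
  rintro (l | (l | j)) f
  · refine ⟨(nodes S u c).bw PsiJ.vv l (rhoOff S u * f), ?_, ?_⟩
    · rw [ctr_w]
      exact (nodes S u c).bw_diffOn le_rfl PsiJ.vv l _
    · intro s hs
      rw [ctr_w] at hs ⊢
      have hs' : ‖s - PsiJ.ce l‖ = 1 / 4 := by rwa [mem_sphere, dist_eq_norm] at hs
      have h0 : s ≠ PsiJ.ce l := sub_ne_zero.mp (P3Slot.sphere_ne (by norm_num) hs)
      rw [R_red hS u c f (ce_half l) hs']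
      have h := slotB_eq (y := PsiJ.ce l) (J := PsiJ.J PsiJ.vv) (Jr := UP PsiJ.vv l) (p := 3)
        (q := 0) (D := (nodes S u c).den) (Dh := (nodes S u c).den)
        (by rw [pow_zero, one_mul]) h0 (UP_red PsiJ.vv l h0) ((nodes S u c).den_ne_site hs'.le)
        (rhoOff S u * f) 1
      rw [show JR = PsiJ.J PsiJ.vv from rfl, h, eval_one, one_mul]
      rfl
  · have hz := z_sN u c hS l.2
    refine ⟨(nodes S u c).bst PsiJ.vv l (sN u c hS l.2) (rhoOff S u * f), ?_, ?_⟩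
    · rw [ctr_h, ← hz]
      exact (nodes S u c).bst_diffOn le_rfl PsiJ.vv hz _
    · intro s hs
      rw [ctr_h] at hs ⊢
      have hs' : ‖s - Base724.star l‖ = 1 / 4 := by rwa [mem_sphere, dist_eq_norm] at hs
      have h0 : s ≠ Base724.star l := sub_ne_zero.mp (P3Slot.sphere_ne (by norm_num) hs)
      rw [R_red hS u c f (star_half l) hs']
      have h := slotB_eq (y := Base724.star l) (J := PsiJ.J PsiJ.vv) (Jr := Jst PsiJ.vv l) (p := 0)
        (q := (nodes S u c).mul (sN u c hS l.2)) (D := (nodes S u c).den)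
        (Dh := (nodes S u c).denh (sN u c hS l.2))
        (by rw [(nodes S u c).den_eq (sN_W hS u c l), hz]) h0 (Jst_red PsiJ.vv l hs'.le h0)
        ((nodes S u c).denh_ne (by rw [hz]; exact hs'.le))
        (rhoOff S u * f) 1
      rw [show JR = PsiJ.J PsiJ.vv from rfl, h, eval_one, one_mul, zero_add, ord_h]
      rfl
  · have hz := z_eN S u c j
    have hz' : (nodes S u c).z (eN S u c j) = -((S.w * u + (j : ℕ) : ℕ) : ℂ) - 1 := by
      rw [hz]; push_cast; ring
    refine ⟨(nodes S u c).be PsiJ.vv (eN S u c j) (rhoOff S u * f), ?_, ?_⟩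
    · rw [ctr_e, ← hz]
      exact (nodes S u c).be_diffOn le_rfl PsiJ.vv hz' _
    · intro s hs
      rw [ctr_e] at hs ⊢
      have hs' : ‖s - -((S.w * u + 1 + (j : ℕ) : ℕ) : ℂ)‖ = 1 / 4 := by
        rwa [mem_sphere, dist_eq_norm] at hs
      have h0 : s ≠ -((S.w * u + 1 + (j : ℕ) : ℕ) : ℂ) :=
        sub_ne_zero.mp (P3Slot.sphere_ne (by norm_num) hs)
      rw [R_red hS u c f (neg_half _) hs']
      have h := slotB_eq (y := -((S.w * u + 1 + (j : ℕ) : ℕ) : ℂ)) (J := PsiJ.J PsiJ.vv)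
        (Jr := PsiJ.J PsiJ.vv) (p := 0)
        (q := (nodes S u c).mul (eN S u c j)) (D := (nodes S u c).den)
        (Dh := (nodes S u c).denh (eN S u c j))
        (by rw [(nodes S u c).den_eq (eN_W S u c j), hz]) h0 (by rw [pow_zero, mul_one])
        ((nodes S u c).denh_ne (by rw [hz]; exact hs'.le))
        (rhoOff S u * f) 1
      rw [show JR = PsiJ.J PsiJ.vv from rfl, h, eval_one, one_mul, zero_add, ord_e]
      rfl

lemma mul_wN (S : Shape) (u c : ℕ) {k : ℕ} (hk : k < S.w * u) :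
    (nodes S u c).mul (wN S u c hk) = 1 := by
  have h : ¬ (0 : ℤ) ≤ -(k : ℤ) - 1 := by omega
  have h2 : -(-(k : ℤ) - 1) ≤ (S.w : ℤ) * u := by
    have : ((k : ℤ)) < (S.w * u : ℕ) := by exact_mod_cast hk
    push_cast at this
    omega
  unfold Nodes.mul nodes wN
  simp only [D.Shape.mult, h, if_false, h2, if_true]

lemma Q_red (S : Shape) (u c : ℕ) (J : ℂ → ℂ) (f : ℂ[X]) (s : ℂ) :
    J s * (f.eval s / (om S u c).eval s) =
      J s * (f.eval s * (1 : ℂ[X]).eval s / (Lam.NS (nodes S u c).z (nodes S u c).mul).eval s) := by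
  rw [om_eq, eval_one, mul_one]

theorem holQ {S : Shape} (hS : S.Good) (u c : ℕ) : HolQ S u c := by
  rintro (l | (l | j)) f
  · have hz := z_wN S u c l.2
    refine ⟨(nodes S u c).bwQ l (wN S u c l.2) f, ?_, ?_⟩
    · rw [ctr_w, ← hz]
      exact (nodes S u c).bwQ_diffOn le_rfl hz _
    · intro s hs
      rw [ctr_w] at hs ⊢
      have hs' : ‖s - PsiJ.ce l‖ = 1 / 4 := by rwa [mem_sphere, dist_eq_norm] at hs
      have h0 : s ≠ PsiJ.ce l := sub_ne_zero.mp (P3Slot.sphere_ne (by norm_num) hs)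
      rw [Q_red S u c (JW S u (.inl l)) f s]
      have h := slotB_eq (y := PsiJ.ce l) (J := Jw) (Jr := UQw l) (p := 2)
        (q := (nodes S u c).mul (wN S u c l.2)) (D := Lam.NS (nodes S u c).z (nodes S u c).mul)
        (Dh := Lam.Nhat (nodes S u c).z (nodes S u c).mul (wN S u c l.2))
        (by rw [Lam.NS_eq (nodes S u c).z (nodes S u c).mul (wN S u c l.2), hz]) h0
        (UQw_red l hs'.le h0)
        ((nodes S u c).Nhat_ne (by rw [hz]; exact hs'.le)) f 1
      rw [show JW S u (.inl l) = Jw from rfl, h, eval_one, one_mul, mul_wN S u c l.2]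
      rfl
  · have hz := z_sN u c hS l.2
    refine ⟨(nodes S u c).bstQ (sN u c hS l.2) f, ?_, ?_⟩
    · rw [ctr_h, ← hz]
      exact (nodes S u c).bstQ_diffOn le_rfl hz _
    · intro s hs
      rw [ctr_h] at hs ⊢
      have hs' : ‖s - Base724.star l‖ = 1 / 4 := by rwa [mem_sphere, dist_eq_norm] at hs
      have h0 : s ≠ Base724.star l := sub_ne_zero.mp (P3Slot.sphere_ne (by norm_num) hs)
      rw [Q_red S u c (JW S u (.inr (.inl l))) f s]
      have h := slotB_eq (y := Base724.star l) (J := Jw) (Jr := JsQ) (p := 0)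
        (q := (nodes S u c).mul (sN u c hS l.2)) (D := Lam.NS (nodes S u c).z (nodes S u c).mul)
        (Dh := Lam.Nhat (nodes S u c).z (nodes S u c).mul (sN u c hS l.2))
        (by rw [Lam.NS_eq (nodes S u c).z (nodes S u c).mul (sN u c hS l.2), hz]) h0
        (JsQ_red hs'.le h0)
        ((nodes S u c).Nhat_ne (by rw [hz]; exact hs'.le)) f 1
      rw [show JW S u (.inr (.inl l)) = Jw from rfl, h, eval_one, one_mul, zero_add, ord_h]
      rfl
  · have hz := z_eN S u c j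
    have hz' : (nodes S u c).z (eN S u c j) = -((S.w * u + (j : ℕ) : ℕ) : ℂ) - 1 := by
      rw [hz]; push_cast; ring
    refine ⟨(nodes S u c).beQ (eN S u c j) f, ?_, ?_⟩
    · rw [ctr_e, ← hz]
      exact (nodes S u c).beQ_diffOn le_rfl hz' _
    · intro s hs
      rw [ctr_e] at hs ⊢
      have hs' : ‖s - -((S.w * u + 1 + (j : ℕ) : ℕ) : ℂ)‖ = 1 / 4 := by
        rwa [mem_sphere, dist_eq_norm] at hs
      have h0 : s ≠ -((S.w * u + 1 + (j : ℕ) : ℕ) : ℂ) :=
        sub_ne_zero.mp (P3Slot.sphere_ne (by norm_num) hs)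
      rw [Q_red S u c (JW S u (.inr (.inr j))) f s]
      have h := slotB_eq (y := -((S.w * u + 1 + (j : ℕ) : ℕ) : ℂ)) (J := G1x186.J1)
        (Jr := G1x186.J1) (p := 0)
        (q := (nodes S u c).mul (eN S u c j)) (D := Lam.NS (nodes S u c).z (nodes S u c).mul)
        (Dh := Lam.Nhat (nodes S u c).z (nodes S u c).mul (eN S u c j))
        (by rw [Lam.NS_eq (nodes S u c).z (nodes S u c).mul (eN S u c j), hz]) h0
        (by rw [pow_zero, mul_one])
        ((nodes S u c).Nhat_ne (by rw [hz]; exact hs'.le)) f 1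
      rw [show JW S u (.inr (.inr j)) = G1x186.J1 from rfl, h, eval_one, one_mul, zero_add, ord_e]
      rfl

/-- the `RepQ` hypothesis from the circle formula of the `Q`-side -/
theorem repQ_of {S : Shape} (u c : ℕ)
    (hBQ : ∀ P f : ℂ[X], P.natDegree + f.natDegree + 2 ≤ S.rows * u + c →
      BQ S u c P f = -(∑ l ∈ Finset.range (S.w * u), ci (PsiJ.ce l) (1 / 4) (fun s =>
          (JQ s - 2 * gL s) * (f.eval s * P.eval s / (om S u c).eval s)) +
        ∑ l ∈ Finset.range (S.h1 * u), ci (Base724.star l) (1 / 4) (fun s =>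
          (JQ s - 2 * gL s) * (f.eval s * P.eval s / (om S u c).eval s)) -
        ∑ m ∈ Finset.Ioc (S.w * u) (S.e1 * u), ci (-(m : ℂ)) (1 / 4) (fun s =>
          JQ s * (f.eval s * P.eval s / (om S u c).eval s)) +
        (2 * Real.pi * I)⁻¹ * rays (S.w * u) 1 (fun s =>
          JQ s * (f.eval s * P.eval s / (om S u c).eval s)))) : RepQ S u c := by
  intro P f hP
  have h1 := hBQ P f hP
  rw [rays_eq_ray2] at h1
  have h2 := sum_slots S u (fun y => ci y (1 / 4) (fun s =>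
          (JQ s - 2 * gL s) * (f.eval s * P.eval s / (om S u c).eval s)))
    (fun y => ci y (1 / 4) (fun s =>
          JQ s * (f.eval s * P.eval s / (om S u c).eval s)))
    (fun k => ci (ctr S u k : ℂ) (1 / 4) (fun s =>
        P.eval s * (JW S u k s * (f.eval s / (om S u c).eval s))))
    (fun l => by
      simp only [ctr_w]
      refine ci_congr (by norm_num) fun s _ => ?_
      simp only [JW]; ring)
    (fun l => by
      simp only [ctr_h]
      refine ci_congr (by norm_num) fun s _ => ?_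
      simp only [JW]; ring)
    (fun l => by
      simp only [ctr_e]
      refine ci_congr (by norm_num) fun s _ => ?_
      simp only [JW]; ring)
  rw [h2, h1]

end Crest.Agent.R006.P3
end

-- ▼ part R006/BordK_819
section

/-!
# Row 6: bordered minors over a `K`-algebra (helper819)

`K` a field of characteristic zero, `A` a `K`-algebra, `x : A` (the value of `G`).

`minor_eqK`: for an admissible choice `r` of the rows there are an injective list `J : Fin c → Rw`
of the omitted rows, a numbering `e` of all rows and a sign `s`, such that for all monic families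
`p` over `K`

`(∏_{l < q u} l!) * Minor(x) = s * det vmat * det [lam (p k) (column k')]`,

where the columns are the `R`-columns of `polR S u l`, the `Q`-columns of `bin l` and the `c` unit
vector columns at the rows `J`.
`minor_eqK_monic`: the same with `R`-columns of `ρ * bR l` and `Q`-columns of `bQ l` for arbitrary
monic families `bR, bQ`.
-/

set_option autoImplicit false

namespace Crest.Agent.R006.BordK

open Polynomial Crest.Agent.R006.D Crest.Agent.R006.NV Crest.Agent.R006.Lam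
  Crest.Agent.R006.Bord

section change
variable {K : Type*} [Field K] {A : Type*} [CommRing A] [Algebra K A]
variable {γ : Type*} [Fintype γ] [DecidableEq γ] {n : ℕ}

/-- matrix with a block of columns `Φ r (b l)` -/
noncomputable def blk (Φ : Fin n ⊕ γ → K[X] →ₗ[K] A) (G : Fin n ⊕ γ → γ → A) (b : ℕ → K[X]) :
    Matrix (Fin n ⊕ γ) (Fin n ⊕ γ) A :=
  Matrix.of fun r c => Sum.elim (fun l : Fin n => Φ r (b l)) (fun t => G r t) c




end change

section defs
variable (S : Shape) (u c : ℕ)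

/-- position in `K` -/
def zK (K : Type*) [Field K] (z : St S u c) : K := ((zz S u c z : ℚ) : K)

lemma zK_injective (K : Type*) [Field K] [CharZero K] : Function.Injective (zK S u c K) := by
  intro a b h
  simp only [zK, Rat.cast_inj] at h
  exact zz_injective S u c h

variable (K : Type*) [Field K] [CharZero K]
variable {A : Type*} [CommRing A] [Algebra K A] (x : A)


/-- moments of `ψ_∞` in `K` -/
noncomputable def muK (i : ℕ) : K := algebraMap ℚ K (PsiInf.mu i)

variable {K}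

/-- germ of the `R`-column of the polynomial `P`; `x` = value of `G` -/
noncomputable def colR (P : K[X]) (z : St S u c) : PowerSeries A :=
  PowerSeries.map (algebraMap K A)
      (Lam.germ (zK S u c K z) P * PowerSeries.map (algebraMap ℚ K) (psi0 z.1)
        - Lam.germ (zK S u c K z) (PsiInf.TR (muK K) P))
    - PowerSeries.C x * PowerSeries.map (algebraMap K A)
      (Lam.germ (zK S u c K z) P * PowerSeries.map (algebraMap ℚ K) (psi1 z.1))

/-- germ of the `Q`-column of the polynomial `P` -/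
noncomputable def colQ (A : Type*) [CommRing A] [Algebra K A] (P : K[X]) (z : St S u c) :
    PowerSeries A :=
  PowerSeries.map (algebraMap K A)
    (Lam.germ (zK S u c K z) P * PowerSeries.map (algebraMap ℚ K) (gam z.1))

/-- labels of the columns other than the `T`-columns: `R`, `Q`, unit vectors -/
abbrev CT : Type := Fin (S.k * u) ⊕ (Fin (S.g * u) ⊕ Fin c)




end defs

section germs
variable {S : Shape} {u c : ℕ}
variable {K : Type*} [Field K] [CharZero K]
variable {A : Type*} [CommRing A] [Algebra K A] (x : A)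






end germs

end Crest.Agent.R006.BordK
end

-- ▼ part R006/BordL_819
section

/-!
# Row 6: bordered minors over a `K`-algebra, main theorems (helper819)
-/

set_option autoImplicit false

namespace Crest.Agent.R006.BordK

open Polynomial Crest.Agent.R006.D Crest.Agent.R006.NV Crest.Agent.R006.Lam
  Crest.Agent.R006.Bord

section rows
variable {S : Shape} {u c : ℕ}



end rows

section full
variable {S : Shape} {u c : ℕ}
variable {K : Type*} [Field K] [CharZero K]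
variable {A : Type*} [CommRing A] [Algebra K A] (x : A)



end full

section perm
variable (S : Shape) (u c : ℕ)

/-- numbering of the labels `CT` -/
def phi : CT S u c ≃ Fin (S.k * u + (S.g * u + c)) :=
  (Equiv.sumCongr (Equiv.refl _) finSumFinEquiv).trans finSumFinEquiv


/-- reordering of the columns -/
def tau' : CT S u c ⊕ Fin (S.q * u) ≃ Col S u ⊕ Fin c where
  toFun
    | .inl (.inl l) => .inl (.inl l)
    | .inl (.inr (.inl l)) => .inl (.inr (.inr l))
    | .inl (.inr (.inr t)) => .inr t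
    | .inr l => .inl (.inr (.inl l))
  invFun
    | .inl (.inl l) => .inl (.inl l)
    | .inl (.inr (.inr l)) => .inl (.inr (.inl l))
    | .inr t => .inl (.inr (.inr t))
    | .inl (.inr (.inl l)) => .inr l
  left_inv := by rintro ((l | l | l) | l) <;> rfl
  right_inv := by rintro ((l | l | l) | l) <;> rfl

/-- reordering of the columns, second form -/
def sig : Fin (S.k * u + (S.g * u + c)) ⊕ Fin (S.q * u) ≃ Col S u ⊕ Fin c :=
  (Equiv.sumCongr (phi S u c).symm (Equiv.refl _)).trans (tau' S u c)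

end perm

section main
variable {S : Shape} {u c : ℕ}
variable (K : Type*) [Field K] [CharZero K]
variable {A : Type*} [CommRing A] [Algebra K A] (x : A)



/-- the constant: numbering `e` of all rows -/
noncomputable def kap (S : Shape) (u c : ℕ)
    (e : Fin (S.k * u + (S.g * u + c)) ⊕ Fin (S.q * u) ≃ Rw S u c) : ℚ :=
  (∏ l ∈ Finset.range (S.q * u), ((l.factorial : ℕ) : ℚ)⁻¹) *
    (vmat (zz S u c) (mm S u c) ℚ e).det



end main

end Crest.Agent.R006.BordK
end

-- ▼ part R006/BordM_819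
section

/-!
# Row 6: bordered minors, arbitrary monic families (helper819)

`minor_eqK_monic`: for an admissible choice `r` of the rows there are omitted rows `J` (injective,
disjoint from `r`), a numbering `e` of all rows and a sign `s` such that for ALL monic families
`p` (test side), `bR`, `bQ` (column side) over `K`, and `x` in the `K`-algebra `A`,

`Minor(x) = s * kapM * det [lam (p k) (column k')]`,

columns: `R`-columns of `rho * bR l` (`rho = gauge * descPochhammer (a1 u)`), `l < k u`;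
`Q`-columns of `bQ l`, `l < g u`; unit vectors at the rows `J`.
-/

set_option autoImplicit false

namespace Crest.Agent.R006.BordK

open Polynomial Crest.Agent.R006.D Crest.Agent.R006.NV Crest.Agent.R006.Lam
  Crest.Agent.R006.Bord

section lin
variable {K : Type*} [Field K] {A : Type*} [CommRing A] [Algebra K A]

lemma lam_add_right {ι : Type*} [Fintype ι] [DecidableEq ι] (z : ι → K) (m : ι → ℕ) (p : K[X])
    (F G : ι → PowerSeries A) :
    lam z m p (fun i => F i + G i) = lam z m p F + lam z m p G := by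
  simp only [lam, map_add, mul_add, Finset.sum_add_distrib]

variable [CharZero K] {S : Shape} {u c : ℕ} (x : A)

lemma colR_add (P Q : K[X]) (z : St S u c) :
    colR S u c x (P + Q) z = colR S u c x P z + colR S u c x Q z := by
  simp only [colR, Lam.germ_add, map_add, add_mul, map_sub, mul_add, map_mul]
  ring

lemma colR_C_mul (a : K) (P : K[X]) (z : St S u c) :
    colR S u c x (C a * P) z = PowerSeries.C (algebraMap K A a) * colR S u c x P z := by
  have h : PsiInf.TR (muK K) (C a * P) = C a * PsiInf.TR (muK K) P := by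
    rw [← smul_eq_C_mul, map_smul, smul_eq_C_mul]
  simp only [colR, h, Lam.germ_mul, Lam.germ_C, map_sub, map_mul, PowerSeries.map_C]
  ring

omit [CharZero K] in
lemma colQ_add [CharZero K] (P Q : K[X]) (z : St S u c) :
    colQ S u c A (P + Q) z = colQ S u c A P z + colQ S u c A Q z := by
  simp only [colQ, Lam.germ_add, map_add, add_mul]

lemma colQ_C_mul (a : K) (P : K[X]) (z : St S u c) :
    colQ S u c A (C a * P) z = PowerSeries.C (algebraMap K A a) * colQ S u c A P z := by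
  simp only [colQ, Lam.germ_mul, Lam.germ_C, map_mul, PowerSeries.map_C]
  ring

/-- `lam p (R-column of rho * P)`, linear in `P` -/
noncomputable def PhiR (S : Shape) (u c : ℕ) (x : A) (p rho : K[X]) : K[X] →ₗ[K] A where
  toFun P := lam (zK S u c K) (mm S u c) p (colR S u c x (rho * P))
  map_add' P Q := by
    rw [← lam_add_right]
    congr 1
    funext z
    rw [mul_add, colR_add]
  map_smul' a P := by
    rw [RingHom.id_apply, smul_eq_C_mul, Algebra.smul_def, ← lam_C_mul_right]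
    congr 1
    funext z
    rw [mul_left_comm, colR_C_mul]

/-- `lam p (Q-column of P)`, linear in `P` -/
noncomputable def PhiQ (S : Shape) (u c : ℕ) (A : Type*) [CommRing A] [Algebra K A] (p : K[X]) :
    K[X] →ₗ[K] A where
  toFun P := lam (zK S u c K) (mm S u c) p (colQ S u c A P)
  map_add' P Q := by
    rw [← lam_add_right]
    congr 1
    funext z
    rw [colQ_add]
  map_smul' a P := by
    rw [RingHom.id_apply, smul_eq_C_mul, Algebra.smul_def, ← lam_C_mul_right]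
    congr 1
    funext z
    rw [colQ_C_mul]









end lin

section main
variable {S : Shape} {u c : ℕ}

/-- the fixed factor of all `R`-columns -/
noncomputable def rho (S : Shape) (u : ℕ) : ℚ[X] := gauge S u * descPochhammer ℚ (S.a1 * u)


variable (K : Type*) [Field K] [CharZero K]
variable {A : Type*} [CommRing A] [Algebra K A] (x : A)







end main

end Crest.Agent.R006.BordK
end

-- ▼ part R006/P3_Unit_819
section

/-!
# Row 6, block P3: the unit columns (helper819), item (i) of note 3016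

* `norm_u_le`: `|Lam.u z m P row| ≤ M * 4 ^ (rows u + c)` if `|P| ≤ M` on the circle of radius `1/4`
  around the site of the row.
* `norm_u_prod_le`: for `P = ∏ (X - x_i)`, at most `n` points in the disc of radius `R`:
  `|Lam.u z m P row| ≤ (L + 1 + R) ^ n * 4 ^ (rows u + c)`, `L` a bound for `|site|`.
* `norm_u_le_exp`: `≤ exp (C * ef u)` if `R = C0 u`, `n ≤ C1 u`, uniformly.
* `lam_unitCol_norm`: the same for the entries of the unit columns of `lmat`.
-/

set_option autoImplicit false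

namespace Crest.Agent.R006.P3Unit

open Polynomial Crest.Agent.R006.D Crest.Agent.R006.NV Crest.Agent.R006.Bord
  Crest.Agent.R006.BordK

noncomputable section

variable {S : Shape} {u c : ℕ}

/-- two different sites are at distance at least `1/2` -/
lemma dist_val {a b : Site} (h : a ≠ b) : (1 / 2 : ℝ) ≤ |((a.val : ℚ) : ℝ) - ((b.val : ℚ) : ℝ)| := by
  obtain ⟨i, hi⟩ : ∃ i : ℤ, a.val = (i : ℚ) / 2 := by
    rcases a with i | i
    · exact ⟨2 * i, by simp only [Site.val]; push_cast; ring⟩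
    · exact ⟨2 * i + 1, by simp only [Site.val]; push_cast; ring⟩
  obtain ⟨j, hj⟩ : ∃ j : ℤ, b.val = (j : ℚ) / 2 := by
    rcases b with i | i
    · exact ⟨2 * i, by simp only [Site.val]; push_cast; ring⟩
    · exact ⟨2 * i + 1, by simp only [Site.val]; push_cast; ring⟩
  have hij : i ≠ j := by
    intro hij
    apply h
    apply Bord.val_injective
    rw [hi, hj, hij]
  have h1 : (1 : ℝ) ≤ |((i - j : ℤ) : ℝ)| := by
    rw [← Int.cast_abs]
    exact_mod_cast Int.one_le_abs (sub_ne_zero.mpr hij)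
  rw [hi, hj]
  have h2 : (((i : ℚ) / 2 : ℚ) : ℝ) - (((j : ℚ) / 2 : ℚ) : ℝ) = ((i - j : ℤ) : ℝ) / 2 := by
    push_cast; ring
  rw [h2, abs_div, abs_two]
  linarith

lemma norm_zK_sub {a b : St S u c} (h : a ≠ b) :
    (1 / 2 : ℝ) ≤ ‖zK S u c ℂ a - zK S u c ℂ b‖ := by
  have h1 : zK S u c ℂ a - zK S u c ℂ b =
      ((((a.1.val : ℚ) : ℝ) - ((b.1.val : ℚ) : ℝ) : ℝ) : ℂ) := by
    simp only [zK, zz]
    push_cast
    ring
  rw [h1, Complex.norm_real, Real.norm_eq_abs]
  exact dist_val fun hab => h (Subtype.ext hab)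

/-- `|Nhat|` on the circle -/
lemma norm_Nhat_ge (i : St S u c) {s : ℂ} (hs : ‖s - zK S u c ℂ i‖ = 1 / 4) :
    (1 / 4 : ℝ) ^ (∑ l ∈ Finset.univ.erase i, mm S u c l) ≤
      ‖(Lam.Nhat (zK S u c ℂ) (mm S u c) i).eval s‖ := by
  rw [Lam.Nhat, eval_prod, norm_prod, ← Finset.prod_pow_eq_pow_sum]
  refine Finset.prod_le_prod (fun l _ => by positivity) fun l hl => ?_
  rw [eval_pow, eval_sub, eval_X, eval_C, norm_pow]
  refine pow_le_pow_left₀ (by norm_num) ?_ _
  have h1 := norm_zK_sub (Finset.ne_of_mem_erase hl)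
  have h2 : zK S u c ℂ l - zK S u c ℂ i = (s - zK S u c ℂ i) - (s - zK S u c ℂ l) := by ring
  have h3 := norm_sub_le (s - zK S u c ℂ i) (s - zK S u c ℂ l)
  rw [← h2, hs] at h3
  linarith

lemma sum_mm : ∑ l, mm S u c l = S.rows * u + c := by
  have h := card_Rw S u c
  rw [← h, Fintype.card_sigma]
  simp

/-- **weights of a row** -/
theorem norm_u_le (P : ℂ[X]) (ρ : Rw S u c) {M : ℝ}
    (hM : ∀ s, ‖s - zK S u c ℂ ρ.1‖ = 1 / 4 → ‖P.eval s‖ ≤ M) :
    ‖Lam.u (zK S u c ℂ) (mm S u c) P ρ‖ ≤ M * 4 ^ (S.rows * u + c) := by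
  set z := zK S u c ℂ ρ.1 with hz
  set N := Lam.Nhat (zK S u c ℂ) (mm S u c) ρ.1 with hN
  set n := mm S u c ρ.1 - 1 - (ρ.2 : ℕ) with hn
  have hM0 : 0 ≤ M := (norm_nonneg _).trans (hM (z + 1 / 4) (by
    rw [add_sub_cancel_left]; norm_num))
  have hNz : N.eval z ≠ 0 := Lam.Nhat_eval_ne (mm S u c) (zK_injective S u c ℂ) ρ.1
  have hT : Lam.wt (zK S u c ℂ) (mm S u c) P ρ.1 =
      Germ724.T (fun s => P.eval s / N.eval s) z := by
    rw [Germ724.T_div (Germ724.analyticAt_eval P z) (Germ724.analyticAt_eval N z) hNz,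
      Germ724.T_eval, Germ724.T_eval]
    rfl
  have hball : ∀ s ∈ Metric.closedBall z (1 / 4 : ℝ), N.eval s ≠ 0 := by
    intro s hs
    rw [hN, Lam.Nhat, eval_prod, Finset.prod_ne_zero_iff]
    intro l hl
    rw [eval_pow, eval_sub, eval_X, eval_C]
    refine pow_ne_zero _ (sub_ne_zero.mpr fun h => ?_)
    have h1 := norm_zK_sub (Finset.ne_of_mem_erase hl)
    rw [mem_closedBall_iff_norm, h] at hs
    rw [← hz] at h1
    linarith
  have hd : DifferentiableOn ℂ (fun s => P.eval s / N.eval s) (Metric.closedBall z (1 / 4 : ℝ)) :=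
    (P.differentiable.differentiableOn).div (N.differentiable.differentiableOn) hball
  have hc := Germ724.circle_eq (r := 1 / 4) (by norm_num) hd n
  set E := ∑ l ∈ Finset.univ.erase ρ.1, mm S u c l with hE
  have hint : ‖∮ w in C(z, 1 / 4), (P.eval w / N.eval w) / (w - z) ^ (n + 1)‖ ≤
      2 * Real.pi * (1 / 4) * (M * 4 ^ E * 4 ^ (n + 1)) := by
    refine circleIntegral.norm_integral_le_of_norm_le_const (by norm_num) fun s hs => ?_
    rw [mem_sphere_iff_norm] at hs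
    rw [norm_div, norm_div, norm_pow, hs]
    have h1 := norm_Nhat_ge ρ.1 hs
    rw [← hN, ← hE] at h1
    have h2 : (0 : ℝ) < (1 / 4 : ℝ) ^ E := by positivity
    have h3 : ‖P.eval s‖ / ‖N.eval s‖ ≤ M / (1 / 4 : ℝ) ^ E :=
      div_le_div₀ hM0 (hM s hs) h2 h1
    calc ‖P.eval s‖ / ‖N.eval s‖ / (1 / 4 : ℝ) ^ (n + 1)
        ≤ M / (1 / 4 : ℝ) ^ E / (1 / 4 : ℝ) ^ (n + 1) := by gcongr
      _ = M * 4 ^ E * 4 ^ (n + 1) := by
          rw [one_div, inv_pow, inv_pow, div_inv_eq_mul, div_inv_eq_mul]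
  have hcoef : PowerSeries.coeff n (Germ724.T (fun s => P.eval s / N.eval s) z) =
      (2 * Real.pi * Complex.I)⁻¹ *
        ∮ w in C(z, 1 / 4), (P.eval w / N.eval w) / (w - z) ^ (n + 1) := by
    rw [hc, inv_mul_cancel_left₀]
    simp [Real.pi_ne_zero]
  have hpi := Real.pi_pos
  have hEn : n + E ≤ S.rows * u + c := by
    rw [← sum_mm (S := S) (u := u) (c := c),
      ← Finset.add_sum_erase Finset.univ (mm S u c) (Finset.mem_univ ρ.1), ← hE]
    omega
  rw [Lam.u, hT, hcoef, norm_mul, norm_inv]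
  have h2pi : ‖(2 * Real.pi * Complex.I : ℂ)‖ = 2 * Real.pi := by
    simp [abs_of_pos Real.pi_pos]
  rw [h2pi]
  calc (2 * Real.pi)⁻¹ * ‖∮ w in C(z, 1 / 4), (P.eval w / N.eval w) / (w - z) ^ (n + 1)‖
      ≤ (2 * Real.pi)⁻¹ * (2 * Real.pi * (1 / 4) * (M * 4 ^ E * 4 ^ (n + 1))) := by gcongr
    _ = M * 4 ^ (n + E) := by
        rw [pow_succ, pow_add]; field_simp
    _ ≤ M * 4 ^ (S.rows * u + c) := by
        refine mul_le_mul_of_nonneg_left (pow_le_pow_right₀ (by norm_num) hEn) hM0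



lemma pow_eq_exp {a : ℝ} (ha : 0 < a) (n : ℕ) : a ^ n = Real.exp (n * Real.log a) := by
  rw [Real.exp_nat_mul, Real.exp_log ha]



end

end Crest.Agent.R006.P3Unit
end

-- ▼ part R006/P3_Glue_819
section

/-!
# Row 6, block P3: glue between `plain_bound` (helper257) and `Disc` (helper390) (helper819)

* `vdm_eq_819`, `oth_eq`: reindexing;
* `kapVV_eq_819`: `|kap * VV e| = exp logV / kden`;
* `norm_BU_le_819`: the unit columns;
* `plain_bound_819`: `plain_bound` for arbitrary index types, in the format of `Disc`.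
-/

set_option autoImplicit false

namespace Crest.Agent.R006.P3

open Polynomial Crest.Agent.R006.D Crest.Agent.R006.NV Crest.Agent.R006.Bord
  Crest.Agent.R006.Potx943 Crest.Agent.R006.ConstX673 Crest.Agent.R006.Border410

/-! ### reindexing -/

lemma vdm_fin_819 {n : ℕ} (w : Fin n → ℂ) (hw : Function.Injective w) :
    vdm w = ‖(Matrix.vandermonde w).det‖ := by
  have h1 := two_log_norm_V w (fun _ => 1) hw
  have h2 : ‖Leib257.V w (fun _ => 1)‖ = ‖(Matrix.vandermonde w).det‖ := by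
    rw [Leib257.V, Matrix.det_vandermonde, norm_prod, norm_prod]
    refine Finset.prod_congr rfl fun i _ => ?_
    rw [norm_prod, norm_prod]
    refine Finset.prod_congr rfl fun j _ => ?_
    rw [mul_one, pow_one, norm_sub_rev]
  have h3 : ‖(Matrix.vandermonde w).det‖ ≠ 0 := by
    rw [norm_ne_zero_iff]
    exact Matrix.det_vandermonde_ne_zero_iff.2 hw
  have h4 : 0 < ‖(Matrix.vandermonde w).det‖ := lt_of_le_of_ne (norm_nonneg _) h3.symm
  rw [vdm, ← h1, h2, mul_div_cancel_left₀ _ (two_ne_zero), Real.exp_log h4]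

lemma vdm_comp_819 {ι κ : Type} [Fintype ι] [Fintype κ] (e : ι ≃ κ) (w : κ → ℂ) :
    vdm (fun x => w (e x)) = vdm w := by
  have h := LE_comp e w (fun _ => 1)
  rw [vdm, vdm, h]

lemma vdm_eq_819 {ι : Type} [Fintype ι] {n : ℕ} (e : Fin n ≃ ι) (w : ι → ℂ)
    (hw : Function.Injective w) : vdm w = ‖(Matrix.vandermonde fun i => w (e i)).det‖ := by
  rw [← vdm_comp_819 e w]
  exact vdm_fin_819 (fun i => w (e i)) (hw.comp e.injective)

/-- Lagrange polynomials for an arbitrary index type -/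
noncomputable def lgT_819 {ι : Type} [Fintype ι] [DecidableEq ι] (w : ι → ℂ) (i : ι) : ℂ[X] :=
  ∏ j ∈ Finset.univ.erase i, (X - C (w j))

lemma lg_eq_819 {ι : Type} [Fintype ι] [DecidableEq ι] {n : ℕ} (e : Fin n ≃ ι) (w : ι → ℂ)
    (i : Fin n) : lg (fun i => w (e i)) i = lgT_819 w (e i) := by
  rw [lg, lgT_819]
  refine Finset.prod_bij (fun j _ => e j) ?_ ?_ ?_ ?_
  · intro j hj
    rw [Finset.mem_erase] at hj ⊢
    exact ⟨fun h => hj.1 (e.injective h), Finset.mem_univ _⟩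
  · intro a _ b _ h
    exact e.injective h
  · intro j hj
    rw [Finset.mem_erase] at hj
    refine ⟨e.symm j, ?_, e.apply_symm_apply j⟩
    rw [Finset.mem_erase]
    refine ⟨fun h => hj.1 ?_, Finset.mem_univ _⟩
    rw [← h, e.apply_symm_apply]
  · intro j _
    rfl

lemma norm_eval_lgT_819 {ι : Type} [Fintype ι] [DecidableEq ι] (w : ι → ℂ) (i : ι) (s : ℂ) :
    ‖(lgT_819 w i).eval s‖ = oth w i s := by
  rw [lgT_819, oth, eval_prod, norm_prod]
  refine Finset.prod_congr rfl fun j _ => ?_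
  rw [eval_sub, eval_X, eval_C]


/-! ### the constant -/

lemma kap_eq_819 (S : Shape) (u : ℕ) : ((kap S u : ℚ) : ℝ) = (kden S u)⁻¹ := by
  unfold kap kden
  simp only [vR]
  push_cast
  rw [Fin.prod_univ_eq_prod_range (fun l => (((l).factorial : ℝ))⁻¹) (S.q * u),
    Fin.prod_univ_eq_prod_range (fun l => (((l).factorial : ℝ))⁻¹) (S.g * u),
    Fin.prod_univ_eq_prod_range (fun l => (((S.a2 * u).factorial : ℝ)⁻¹ *
      ((S.i1 * u).factorial : ℝ)⁻¹ * ((S.r1 * u).factorial : ℝ)⁻¹) *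
        (((S.a1 * u + l).factorial : ℝ))⁻¹) (S.k * u),
    Finset.prod_mul_distrib, Finset.prod_const, Finset.card_range]
  simp only [Finset.prod_inv_distrib, mul_inv, mul_pow, inv_pow]
  ring

lemma kapVV_eq_819 (S : Shape) (u c : ℕ) (e : D.Col S u ⊕ Fin c ≃ Rw S u c) :
    |((kap S u * VV S u c e : ℚ) : ℝ)| = Real.exp (logV S u c) / kden S u := by
  have h1 := log_norm_det_vmat (ι := St S u c) S u c (fun s => s.1) (zz_injective S u c)
    (fun z hz => ⟨⟨z, mem_sites_of_mult S u c hz⟩, rfl⟩) ((sig S u c).trans e)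
  have h2 : VV S u c e = (Lam.vmat (fun s : St S u c => s.1.val)
      (fun s : St S u c => S.mult u c s.1) ℚ ((sig S u c).trans e)).det := rfl
  have h3 : VV S u c e ≠ 0 := Lam.det_vmat_ne_zero _ (zz_injective S u c) _
  have h4 : 0 < |((VV S u c e : ℚ) : ℝ)| := by
    rw [abs_pos]
    exact_mod_cast h3
  rw [← h2] at h1
  rw [← h1, Real.exp_log h4, Rat.cast_mul, abs_mul, kap_eq_819, abs_inv, abs_of_pos (kden_pos S u)]
  field_simp

/-! ### unit columns -/

lemma norm_zc_le_819 {S : Shape} {u c : ℕ} (hS : S.Good) (ρ : Rw S u c) :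
    ‖zc S u c ρ.1‖ ≤ (S.B + S.e1 + S.h1 + S.w : ℕ) * u + c + 1 / 2 := by
  have h1 : ‖zc S u c ρ.1‖ = |((ρ.1.1.val : ℚ) : ℝ)| := by
    have : zc S u c ρ.1 = (((ρ.1.1.val : ℚ) : ℝ) : ℂ) := by
      simp only [zc, zz]; push_cast; ring
    rw [this, Complex.norm_real, Real.norm_eq_abs]
  rw [h1]
  obtain ⟨⟨z, hz⟩, j⟩ := ρ
  have hj : 0 < S.mult u c z := lt_of_le_of_lt (Nat.zero_le _) j.2
  have e21 : S.e2 * u ≤ S.e1 * u := Nat.mul_le_mul_right u hS.e21
  have e32 : S.e3 * u ≤ S.e2 * u := Nat.mul_le_mul_right u hS.e32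
  have g21 : S.h2 * u ≤ S.h1 * u := Nat.mul_le_mul_right u hS.h21
  have g32 : S.h3 * u ≤ S.h2 * u := Nat.mul_le_mul_right u hS.h32
  have p1 : (0 : ℤ) ≤ (S.B : ℤ) * u := by positivity
  have p2 : (0 : ℤ) ≤ (S.w : ℤ) * u := by positivity
  have p3 : (0 : ℤ) ≤ (S.h1 : ℤ) * u := by positivity
  have p4 : (0 : ℤ) ≤ (S.e1 : ℤ) * u := by positivity
  have e : ((S.B + S.e1 + S.h1 + S.w : ℕ) : ℝ) * u =
      ((S.B * u : ℕ) : ℝ) + (S.e1 * u : ℕ) + (S.h1 * u : ℕ) + (S.w * u : ℕ) := by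
    push_cast; ring
  have q1 : (0 : ℝ) ≤ (S.B * u : ℕ) := Nat.cast_nonneg _
  have q2 : (0 : ℝ) ≤ (S.e1 * u : ℕ) := Nat.cast_nonneg _
  have q3 : (0 : ℝ) ≤ (S.h1 * u : ℕ) := Nat.cast_nonneg _
  have q4 : (0 : ℝ) ≤ (S.w * u : ℕ) := Nat.cast_nonneg _
  have q5 : (0 : ℝ) ≤ (c : ℝ) := Nat.cast_nonneg _
  rw [e]
  simp only
  rcases z with i | i
  · have hi : (-(S.e1 * u : ℕ) : ℤ) ≤ i ∧ i ≤ (S.B * u + c : ℕ) := by
      simp only [Shape.mult] at hj
      split_ifs at hj <;> push_cast at * <;> omega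
    have h2 : (-(S.e1 * u : ℕ) : ℝ) ≤ (i : ℝ) := by exact_mod_cast hi.1
    have h3 : (i : ℝ) ≤ (S.B * u : ℕ) + (c : ℝ) := by exact_mod_cast hi.2
    simp only [Site.val, Rat.cast_intCast]
    rw [abs_le]
    constructor <;> linarith
  · have hi : (-(S.w * u : ℕ) : ℤ) ≤ i ∧ i ≤ (S.h1 * u : ℕ) := by
      simp only [Shape.mult] at hj
      split_ifs at hj <;> push_cast at * <;> omega
    have h2 : (-(S.w * u : ℕ) : ℝ) ≤ (i : ℝ) := by exact_mod_cast hi.1
    have h3 : (i : ℝ) ≤ (S.h1 * u : ℕ) := by exact_mod_cast hi.2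
    simp only [Site.val]
    push_cast at *
    rw [abs_le]
    constructor <;> linarith

theorem norm_BU_le_819 {S : Shape} {u c : ℕ} (hS : S.Good) {ι : Type} [Fintype ι] [DecidableEq ι]
    (w : ι → ℂ) (i : ι) {HW : ℝ} (hw : ∀ s : ℂ,
      ‖s‖ ≤ (S.B + S.e1 + S.h1 + S.w + 1 : ℕ) * u + c + 1 → oth w i s ≤ HW) (J : Rw S u c) :
    ‖BU S u c J (lgT_819 w i)‖ ≤ HW * 4 ^ (S.rows * u + c) := by
  rw [BU_apply]
  refine P3Unit.norm_u_le (lgT_819 w i) J fun s hs => ?_
  rw [norm_eval_lgT_819]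
  apply hw
  have h1 := norm_zc_le_819 hS J
  have h2 : ‖s‖ ≤ ‖s - zc S u c J.1‖ + ‖zc S u c J.1‖ := by
    have := norm_add_le (s - zc S u c J.1) (zc S u c J.1)
    rwa [sub_add_cancel] at this
  have h3 : ‖s - zc S u c J.1‖ = 1 / 4 := hs
  have h4 : (0 : ℝ) ≤ u := Nat.cast_nonneg _
  push_cast at *
  nlinarith

/-! ### `plain_bound` for arbitrary index types -/


/-! ### absorption of the constants -/

lemma log_factorial_le_819 (n : ℕ) : Real.log (n.factorial : ℝ) ≤ n * Real.log n := by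
  rcases Nat.eq_zero_or_pos n with rfl | hn
  · simp
  have h1 : (n.factorial : ℝ) ≤ (n : ℝ) ^ n := by exact_mod_cast Nat.factorial_le_pow n
  have h2 : (0 : ℝ) < n.factorial := by exact_mod_cast n.factorial_pos
  have h3 := Real.log_le_log h2 h1
  rwa [Real.log_pow] at h3

/-- `m ≤ C2 u` gives `log m! ≤ C u (1 + log u)` -/
lemma factorial_le_exp_819 (C2 : ℕ) : ∃ C : ℝ, 0 ≤ C ∧ ∀ u : ℕ, 1 ≤ u → ∀ m : ℕ, m ≤ C2 * u →
    (m.factorial : ℝ) ≤ Real.exp (C * ef u) := by
  refine ⟨C2 * (Real.log (C2 + 1) + 1), ?_, ?_⟩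
  · have : 0 ≤ Real.log ((C2 : ℝ) + 1) := Real.log_nonneg (by
      have : (0 : ℝ) ≤ C2 := Nat.cast_nonneg _
      linarith)
    positivity
  intro u hu m hm
  have hu1 : (1 : ℝ) ≤ u := by exact_mod_cast hu
  have hu0 : (0 : ℝ) < u := by linarith
  have hC : (0 : ℝ) ≤ C2 := Nat.cast_nonneg _
  have h1 : (m.factorial : ℝ) ≤ ((C2 * u).factorial : ℝ) := by
    exact_mod_cast Nat.factorial_le hm
  refine h1.trans ?_
  have h2 := log_factorial_le_819 (C2 * u)
  have h3 : (0 : ℝ) < (C2 * u).factorial := by exact_mod_cast Nat.factorial_pos _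
  rw [← Real.log_le_iff_le_exp h3]
  refine h2.trans ?_
  push_cast
  have hl : Real.log ((C2 : ℝ) * u) ≤ Real.log (C2 + 1) + Real.log u := by
    rcases Nat.eq_zero_or_pos C2 with h0 | h0
    · subst h0
      simp only [Nat.cast_zero, zero_mul, Real.log_zero, zero_add, Real.log_one]
      exact Real.log_nonneg hu1
    · rw [← Real.log_mul (by linarith) hu0.ne']
      refine Real.log_le_log (by positivity) ?_
      nlinarith
  have hlC : 0 ≤ Real.log ((C2 : ℝ) + 1) := Real.log_nonneg (by linarith)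
  have hlu : 0 ≤ Real.log (u : ℝ) := Real.log_nonneg hu1
  have h5 : (C2 : ℝ) * u * Real.log ((C2 : ℝ) * u) ≤
      C2 * u * (Real.log (C2 + 1) + Real.log u) :=
    mul_le_mul_of_nonneg_left hl (by positivity)
  refine h5.trans ?_
  unfold ef
  have h6 : (u : ℝ) * (Real.log (C2 + 1) + Real.log u) ≤
      (Real.log (C2 + 1) + 1) * (u * (1 + Real.log u)) := by
    nlinarith [mul_nonneg hlC (mul_nonneg hu0.le hlu)]
  calc (C2 : ℝ) * u * (Real.log (C2 + 1) + Real.log u)
      = C2 * (u * (Real.log (C2 + 1) + Real.log u)) := by ring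
    _ ≤ C2 * ((Real.log (C2 + 1) + 1) * (u * (1 + Real.log u))) :=
        mul_le_mul_of_nonneg_left h6 hC
    _ = _ := by ring

/-- **absorption**: `(n + #σ)! B^n 4^((rows u + c) c) ≤ exp (C u (1 + log u))` if `#σ ≤ C2 u` and
`B ≤ exp (C3 (1 + log u))` -/
theorem absorb_819 (S : Shape) (c C2 : ℕ) (C3 : ℝ) (hC3 : 0 ≤ C3) :
    ∃ C : ℝ, 0 ≤ C ∧ ∀ u : ℕ, 1 ≤ u → ∀ m : ℕ, m ≤ C2 * u → ∀ B : ℝ, 0 ≤ B →
      B ≤ Real.exp (C3 * (1 + Real.log u)) →
      ((S.k * u + S.g * u + c + m).factorial : ℝ) * B ^ (S.k * u + S.g * u + c) *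
        ((4 : ℝ) ^ (S.rows * u + c)) ^ c ≤ Real.exp (C * (u * (1 + Real.log u))) := by
  obtain ⟨C4, hC4, h4⟩ := factorial_le_exp_819 (S.k + S.g + c + C2)
  refine ⟨C4 + (S.k + S.g + c) * C3 + (S.rows + c) * c * Real.log 4, ?_, ?_⟩
  · have : 0 ≤ Real.log 4 := Real.log_nonneg (by norm_num)
    positivity
  intro u hu m hm B hB hB2
  have hu1 : (1 : ℝ) ≤ u := by exact_mod_cast hu
  have hu0 : (0 : ℝ) < u := by linarith
  have hlu : 0 ≤ Real.log (u : ℝ) := Real.log_nonneg hu1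
  have hc : (0 : ℝ) ≤ c := Nat.cast_nonneg _
  have hef := ef_ge hu
  have h1ef := one_le_ef hu
  have e1 : ((S.k * u + S.g * u + c + m).factorial : ℝ) ≤ Real.exp (C4 * ef u) := by
    apply h4 u hu
    have : c ≤ c * u := Nat.le_mul_of_pos_right c hu
    calc S.k * u + S.g * u + c + m ≤ S.k * u + S.g * u + c * u + C2 * u := by omega
      _ = (S.k + S.g + c + C2) * u := by ring
  have e2 : B ^ (S.k * u + S.g * u + c) ≤ Real.exp ((S.k + S.g + c) * C3 * ef u) := by
    have h5 : B ^ (S.k * u + S.g * u + c) ≤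
        Real.exp (C3 * (1 + Real.log u)) ^ (S.k * u + S.g * u + c) :=
      pow_le_pow_left₀ hB hB2 _
    refine h5.trans ?_
    rw [← Real.exp_nat_mul, Real.exp_le_exp]
    push_cast
    have h6 : (S.k * u + S.g * u + c : ℝ) ≤ (S.k + S.g + c) * u := by nlinarith
    have h7 : 0 ≤ C3 * (1 + Real.log u) := by positivity
    calc (S.k * u + S.g * u + c : ℝ) * (C3 * (1 + Real.log u))
        ≤ (S.k + S.g + c) * u * (C3 * (1 + Real.log u)) := mul_le_mul_of_nonneg_right h6 h7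
      _ = (S.k + S.g + c) * C3 * ef u := by unfold ef; ring
  have e3 : ((4 : ℝ) ^ (S.rows * u + c)) ^ c ≤
      Real.exp ((S.rows + c) * c * Real.log 4 * ef u) := by
    have hl4 : 0 ≤ Real.log 4 := Real.log_nonneg (by norm_num)
    rw [← pow_mul, P3Unit.pow_eq_exp (by norm_num : (0 : ℝ) < 4), Real.exp_le_exp]
    push_cast
    have h8 : ((S.rows : ℝ) * u + c) * c ≤ (S.rows + c) * c * ef u := by
      have h9 : (S.rows : ℝ) * u + c ≤ (S.rows + c) * ef u := by
        have hr : (0 : ℝ) ≤ S.rows := Nat.cast_nonneg _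
        nlinarith
      calc ((S.rows : ℝ) * u + c) * c ≤ (S.rows + c) * ef u * c :=
            mul_le_mul_of_nonneg_right h9 hc
        _ = _ := by ring
    calc ((S.rows : ℝ) * u + c) * c * Real.log 4 ≤ (S.rows + c) * c * ef u * Real.log 4 :=
          mul_le_mul_of_nonneg_right h8 hl4
      _ = _ := by ring
  have hexp : Real.exp ((C4 + (S.k + S.g + c) * C3 + (S.rows + c) * c * Real.log 4) *
      (u * (1 + Real.log u))) = Real.exp (C4 * ef u) * Real.exp ((S.k + S.g + c) * C3 * ef u) *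
        Real.exp ((S.rows + c) * c * Real.log 4 * ef u) := by
    rw [← Real.exp_add, ← Real.exp_add]
    congr 1
    unfold ef
    ring
  rw [hexp]
  have hf0 : (0 : ℝ) ≤ (S.k * u + S.g * u + c + m).factorial := Nat.cast_nonneg _
  gcongr

end Crest.Agent.R006.P3
end

-- ▼ part R006/P3_NormW_257
section

/-!
# Row 6, block P3: the weights of `Disc` (helper257)

* `norm_om`, `norm_rhoC` : `|ω_S| = NSn`, `|ρ| = rhon`;
* `FarW s` : the region where the jump functions are bounded; `JR_le`, `JQ_le`, `JQw_le`;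
* `far_ray`, `far_slot` : the rays and the slot circles lie in that region.
-/

set_option autoImplicit false

open Complex

namespace Crest.Agent.R006.P3

open Polynomial Crest.Agent.R006.D Crest.Agent.R006.NV Crest.Agent.R006.PsiInf Crest.Agent.R006.Bord
open Crest.Agent.R006.Border410

/-! ### the polynomials -/

lemma norm_om {S : Shape} (hS : S.Good) (u c : ℕ) (s : ℂ) :
    ‖(om S u c).eval s‖ = NSn S u c s := by
  unfold P3.om Lam.NS NSn
  rw [eval_prod, norm_prod]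
  have h1 : ∀ z : St S u c, ‖((X - C (zc S u c z)) ^ (mm S u c z) : ℂ[X]).eval s‖ =
      ‖s - ((z.1.val : ℚ) : ℂ)‖ ^ (S.mult u c z.1) := by
    intro z
    rw [eval_pow, eval_sub, eval_X, eval_C, norm_pow]
    rfl
  rw [Finset.prod_congr rfl fun z _ => h1 z,
    Finset.prod_coe_sort (Bord.sites S u c) (fun z => ‖s - ((z.val : ℚ) : ℂ)‖ ^ (S.mult u c z))]
  classical
  have h2 : ∀ A B : Finset Site, (∀ z, S.mult u c z ≠ 0 → z ∈ A) →
      (∀ z, S.mult u c z ≠ 0 → z ∈ B) →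
      ∏ z ∈ A, ‖s - ((z.val : ℚ) : ℂ)‖ ^ (S.mult u c z) =
        ∏ z ∈ A ∪ B, ‖s - ((z.val : ℚ) : ℂ)‖ ^ (S.mult u c z) := by
    intro A B hA _
    refine Finset.prod_subset Finset.subset_union_left fun z _ hz => ?_
    have : S.mult u c z = 0 := by
      by_contra h
      exact hz (hA z h)
    rw [this, pow_zero]
  have hA := fun z (h : S.mult u c z ≠ 0) => Bord.mem_sites_of_mult S u c h
  have hB := fun z (h : S.mult u c z ≠ 0) => Bordx929.mem_sites u c hS h
  rw [h2 _ _ hA hB, Finset.union_comm, ← h2 _ _ hB hA]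

lemma norm_rhoC (S : Shape) (u : ℕ) (s : ℂ) : ‖(rhoC S u).eval s‖ = rhon S u s := by
  unfold rhoC rhon
  simp only [Bord.rho, Polynomial.map_mul, Polynomial.map_comp, descPochhammer_map,
    Polynomial.map_add, Polynomial.map_X, Polynomial.map_C, Polynomial.eval_mul,
    Polynomial.eval_comp, Polynomial.eval_add, Polynomial.eval_X, Polynomial.eval_C,
    descPochhammer_eval_eq_prod_range, norm_mul, norm_prod]
  have e1 : ∀ n : ℕ, ∏ i ∈ Finset.range n,
      ‖s + (algebraMap ℚ ℂ) ((n : ℕ) - 1 / 2 : ℚ) - (i : ℂ)‖ =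
      ∏ m ∈ Finset.range n, ‖s + ((m : ℂ) + 1 / 2)‖ := by
    intro n
    rw [← Finset.prod_range_reflect]
    refine Finset.prod_congr rfl fun i hi => ?_
    congr 1
    have hi' := Finset.mem_range.1 hi
    have h1 : ((n - 1 - i : ℕ) : ℂ) = (n : ℂ) - 1 - i := by
      rw [Nat.cast_sub (by omega), Nat.cast_sub (by omega)]; simp
    rw [h1]
    simp
    ring
  have e2 : ∀ n : ℕ, ∏ i ∈ Finset.range n,
      ‖s + (algebraMap ℚ ℂ) ((n : ℕ) : ℚ) - (i : ℂ)‖ =
      ∏ m ∈ Finset.range n, ‖s + ((m : ℂ) + 1)‖ := by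
    intro n
    rw [← Finset.prod_range_reflect]
    refine Finset.prod_congr rfl fun i hi => ?_
    congr 1
    have hi' := Finset.mem_range.1 hi
    have h1 : ((n - 1 - i : ℕ) : ℂ) = (n : ℂ) - 1 - i := by
      rw [Nat.cast_sub (by omega), Nat.cast_sub (by omega)]; simp
    rw [h1]
    simp
    ring
  rw [e1, e2]
  ring


/-! ### the jump functions -/

/-- where the jump functions are bounded -/
def FarW (s : ℂ) : Prop :=
  (s.re ≤ -(1 / 4) ∧ ∀ l : ℕ, 1 / 8 ≤ ‖s - PsiJ.ce l‖) ∨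
    (1 / 4 ≤ s.re ∧ ∀ n : ℕ, 1 / 8 ≤ ‖s - n‖)

lemma exists_JR_le : ∃ K : ℝ, 0 < K ∧ ∀ s : ℂ, FarW s →
    ‖JR s‖ ≤ K * Real.exp (s.re * Real.log 8 - Real.pi * |s.im|) := by
  obtain ⟨K1, hK1, h1⟩ := PsiJ.J_bound PsiJ.vv
  obtain ⟨K2, hK2, h2⟩ := Star516.J_right PsiJ.vv
  refine ⟨max K1 K2, lt_max_of_lt_left hK1, fun s hs => ?_⟩
  have e : (8 : ℝ) ^ s.re * Real.exp (-(Real.pi * |s.im|)) =
      Real.exp (s.re * Real.log 8 - Real.pi * |s.im|) := by
    rw [Real.rpow_def_of_pos (by norm_num), ← Real.exp_add]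
    congr 1; ring
  rw [← e, ← mul_assoc]
  rcases hs with ⟨ha, hb⟩ | ⟨ha, hb⟩
  · refine (h1 s ha hb).trans ?_
    gcongr
    exact le_max_left _ _
  · refine (h2 s ha hb).trans ?_
    gcongr
    exact le_max_right _ _

lemma JQ_le {s : ℂ} (hs : FarW s) : ‖JQ s‖ ≤ 144 * Real.exp (-(2 * Real.pi * |s.im|)) := by
  rcases hs with ⟨ha, hb⟩ | ⟨ha, hb⟩
  · refine (Star516.J1_left ha hb).trans ?_
    gcongr
    rw [div_le_iff₀ (by linarith)]
    linarith
  · refine (Star516.J1_right ha hb).trans ?_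
    gcongr
    rw [div_le_iff₀ (by linarith)]
    linarith

lemma gL_le {s : ℂ} (hs : FarW s) : ‖gL s‖ ≤ 144 := by
  rcases hs with ⟨ha, hb⟩ | ⟨ha, hb⟩
  · refine (Star516.g1L_left ha).trans ?_
    rw [div_le_iff₀ (by linarith)]
    linarith
  · refine (Star516.g1L_right ha hb).trans ?_
    rw [div_le_iff₀ (by linarith)]
    linarith

/-- on the slot circles (`|Im s| ≤ 1/4`) -/
lemma JQw_le {s : ℂ} (hs : FarW s) (hi : |s.im| ≤ 1 / 4) :
    ‖JQ s - 2 * gL s‖ ≤ (432 * Real.exp 2) * Real.exp (-(2 * Real.pi * |s.im|)) := by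
  have h1 := JQ_le hs
  have h2 := gL_le hs
  have h3 : (1 : ℝ) ≤ Real.exp 2 * Real.exp (-(2 * Real.pi * |s.im|)) := by
    rw [← Real.exp_add]
    apply Real.one_le_exp
    have := Real.pi_lt_four
    have h0 := abs_nonneg s.im
    nlinarith
  have h4 : Real.exp (-(2 * Real.pi * |s.im|)) ≤ Real.exp 2 * Real.exp (-(2 * Real.pi * |s.im|)) := by
    have : (1 : ℝ) ≤ Real.exp 2 := Real.one_le_exp (by norm_num)
    have h5 := Real.exp_pos (-(2 * Real.pi * |s.im|))
    nlinarith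
  calc ‖JQ s - 2 * gL s‖ ≤ ‖JQ s‖ + ‖2 * gL s‖ := norm_sub_le _ _
    _ ≤ 144 * Real.exp (-(2 * Real.pi * |s.im|)) + 2 * 144 := by
        rw [norm_mul]
        have : ‖(2 : ℂ)‖ = 2 := by simp
        rw [this]
        linarith
    _ ≤ _ := by nlinarith

/-! ### the rays and the circles -/

lemma far_ray (S : Shape) (u : ℕ) {t : ℝ} (ht : 0 ≤ t) {v : ℂ}
    (hv : v = -1 + I ∨ v = -1 - I) : FarW (rayPt S u v t) := by
  left
  have hre : (rayPt S u v t).re = -((S.w * u : ℕ) + 1 / 4 : ℝ) - t := by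
    unfold rayPt
    rcases hv with h | h <;> subst h <;> simp <;> ring
  have him : (rayPt S u v t).im ^ 2 = t ^ 2 := by
    unfold rayPt
    rcases hv with h | h <;> subst h <;> simp
  have hw : (0 : ℝ) ≤ ((S.w * u : ℕ) : ℝ) := Nat.cast_nonneg _
  refine ⟨by rw [hre]; linarith, fun l => ?_⟩
  have h1 : ‖rayPt S u v t - PsiJ.ce l‖ ^ 2 =
      ((l : ℝ) - (S.w * u : ℕ) + 1 / 4 - t) ^ 2 + t ^ 2 := by
    rw [← Complex.normSq_eq_norm_sq, Complex.normSq_apply]
    have e1 : (rayPt S u v t - PsiJ.ce l).re = (l : ℝ) - (S.w * u : ℕ) + 1 / 4 - t := by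
      rw [sub_re, hre, PsiJ.ce_re]; ring
    have e2 : (rayPt S u v t - PsiJ.ce l).im = (rayPt S u v t).im := by
      rw [sub_im, PsiJ.ce_im, sub_zero]
    rw [e1, e2, ← pow_two, ← pow_two, him]
  have h2 : (1 / 4 : ℝ) ^ 2 ≤ ((l : ℝ) - (S.w * u : ℕ) + 1 / 4) ^ 2 := by
    have h3 : ((l : ℝ) - (S.w * u : ℕ) + 1 / 4) = (((l : ℤ) - (S.w * u : ℕ) : ℤ) : ℝ) + 1 / 4 := by
      push_cast; ring
    rw [h3]
    rcases le_or_gt 0 ((l : ℤ) - (S.w * u : ℕ)) with h | h
    · have : (0 : ℝ) ≤ (((l : ℤ) - (S.w * u : ℕ) : ℤ) : ℝ) := by exact_mod_cast h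
      nlinarith
    · have h' : (l : ℤ) - (S.w * u : ℕ) ≤ -1 := by omega
      have : (((l : ℤ) - (S.w * u : ℕ) : ℤ) : ℝ) ≤ -1 := by exact_mod_cast h'
      nlinarith
  have h4 : (1 / 8 : ℝ) ^ 2 ≤ ‖rayPt S u v t - PsiJ.ce l‖ ^ 2 := by
    rw [h1]
    nlinarith [sq_nonneg ((l : ℝ) - (S.w * u : ℕ) + 1 / 4 - 2 * t)]
  exact le_of_sq_le_sq h4 (norm_nonneg _)

lemma re_near {s : ℂ} {x r : ℝ} (h : ‖s - (x : ℂ)‖ = r) : |s.re - x| ≤ r ∧ |s.im| ≤ r := by
  have h1 := Complex.abs_re_le_norm (s - (x : ℂ))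
  have h2 := Complex.abs_im_le_norm (s - (x : ℂ))
  rw [h] at h1 h2
  simp only [sub_re, ofReal_re, sub_im, ofReal_im, sub_zero] at h1 h2
  exact ⟨h1, h2⟩

lemma abs_re_sub_le (s : ℂ) (x : ℝ) : |s.re - x| ≤ ‖s - (x : ℂ)‖ := by
  have h1 := Complex.abs_re_le_norm (s - (x : ℂ))
  simpa using h1

/-- a circle of radius `1/4` around a half integer left of `0` -/
lemma far_site {s : ℂ} (l : ℕ) (h : ‖s - ((-((l : ℝ) + 1 / 2) : ℝ) : ℂ)‖ = 1 / 4) : FarW s := by
  left
  obtain ⟨h1, -⟩ := re_near h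
  rw [abs_le] at h1
  have hl : (0 : ℝ) ≤ l := Nat.cast_nonneg l
  refine ⟨by linarith, fun l' => ?_⟩
  by_cases hll : l' = l
  · subst hll
    have e : (PsiJ.ce l' : ℂ) = ((-((l' : ℝ) + 1 / 2) : ℝ) : ℂ) := by
      unfold PsiJ.ce; push_cast; ring
    rw [e, h]; norm_num
  · have h2 := abs_re_sub_le s (-(1 / 2) - l')
    have e : (((-(1 / 2) - l' : ℝ)) : ℂ) = PsiJ.ce l' := by
      unfold PsiJ.ce; push_cast; ring
    rw [e] at h2
    refine le_trans ?_ h2
    rw [le_abs]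
    rcases Nat.lt_or_gt_of_ne hll with h3 | h3
    · have : (l' : ℝ) + 1 ≤ l := by exact_mod_cast h3
      right; linarith
    · have : (l : ℝ) + 1 ≤ l' := by exact_mod_cast h3
      left; linarith

/-- a circle of radius `1/4` around a half integer right of `0` -/
lemma far_star {s : ℂ} (l : ℕ) (h : ‖s - (((l : ℝ) + 1 / 2 : ℝ) : ℂ)‖ = 1 / 4) : FarW s := by
  right
  obtain ⟨h1, -⟩ := re_near h
  rw [abs_le] at h1
  have hl : (0 : ℝ) ≤ l := Nat.cast_nonneg l
  refine ⟨by linarith, fun n => ?_⟩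
  have h2 := abs_re_sub_le s n
  have e : (((n : ℝ)) : ℂ) = (n : ℂ) := by push_cast; rfl
  rw [e] at h2
  refine le_trans ?_ h2
  rw [le_abs]
  rcases Nat.lt_or_ge l n with h3 | h3
  · have : (l : ℝ) + 1 ≤ n := by exact_mod_cast h3
    right; linarith
  · have : (n : ℝ) ≤ l := by exact_mod_cast h3
    left; linarith

/-- a circle of radius `1/4` around a negative integer -/
lemma far_neg {s : ℂ} (m : ℕ) (hm : 1 ≤ m) (h : ‖s - ((-(m : ℝ) : ℝ) : ℂ)‖ = 1 / 4) : FarW s := by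
  left
  obtain ⟨h1, -⟩ := re_near h
  rw [abs_le] at h1
  have hl : (1 : ℝ) ≤ m := by exact_mod_cast hm
  refine ⟨by linarith, fun l' => ?_⟩
  have h2 := abs_re_sub_le s (-(1 / 2) - l')
  have e : (((-(1 / 2) - l' : ℝ)) : ℂ) = PsiJ.ce l' := by
    unfold PsiJ.ce; push_cast; ring
  rw [e] at h2
  refine le_trans ?_ h2
  rw [le_abs]
  rcases Nat.lt_or_ge l' m with h3 | h3
  · have : (l' : ℝ) + 1 ≤ m := by exact_mod_cast h3
    right; linarith
  · have : (m : ℝ) ≤ l' := by exact_mod_cast h3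
    left; linarith

lemma far_slot (S : Shape) (u : ℕ) (k : Slot S u) {s : ℂ} (h : ‖s - (ctr S u k : ℂ)‖ = 1 / 4) :
    FarW s ∧ |s.im| ≤ 1 / 4 := by
  refine ⟨?_, (re_near h).2⟩
  rcases k with l | (l | j)
  · exact far_site l h
  · exact far_star l h
  · exact far_neg (S.w * u + 1 + (j : ℕ)) (by omega) h

end Crest.Agent.R006.P3
end

-- ▼ part R006/P3_DiscFin_819

/-!
# Row 6, block P3: the discrete inequality `Disc` from helper257's `fixed_bound` (helper819)

`FixedBound S` is the statement of `fixed_bound` (Fin-indexed references, bounds of the integrands);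
`disc_of : FixedBound S → Disc S c`.
-/

set_option autoImplicit false

open Complex

namespace Crest.Agent.R006.P3

open Polynomial Crest.Agent.R006.D Crest.Agent.R006.NV Crest.Agent.R006.Bord
  Crest.Agent.R006.Potx943 Crest.Agent.R006.ConstX673 Crest.Agent.R006.Border410

/-- the statement of `fixed_bound` (helper257, header of helper283, unit columns through `BU`) -/
def FixedBound (S : Shape) : Prop :=
  ∀ (u c : ℕ) (r : D.Col S u → D.Row), Adm S u c r →
  ∀ (W : Fin (S.k * u + S.g * u + c) → ℂ) (Z : Fin (S.k * u) → ℂ) (Y : Fin (S.g * u) → ℂ),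
  Function.Injective W → Function.Injective Z → Function.Injective Y →
  ∀ (B LR LQ LU : ℝ) (μ ν : Slot S u → ℝ), 0 ≤ B → 0 ≤ LR → 0 ≤ LQ → 0 ≤ LU →
  (∀ k, 0 < μ k) → (∀ k, 0 ≤ ν k) →
  (∀ i j (t : ℝ), 0 < t → ∀ v : ℂ, v = -1 + I ∨ v = -1 - I →
    ‖JR (rayPt S u v t) * ((rhoC S u * lg Z j).eval (rayPt S u v t) *
      (lg W i).eval (rayPt S u v t) / (om S u c).eval (rayPt S u v t))‖ ≤
        B * LR / (1 + t) ^ 2) →
  (∀ i j (t : ℝ), 0 < t → ∀ v : ℂ, v = -1 + I ∨ v = -1 - I →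
    ‖JQ (rayPt S u v t) * ((lg Y j).eval (rayPt S u v t) *
      (lg W i).eval (rayPt S u v t) / (om S u c).eval (rayPt S u v t))‖ ≤
        B * LQ / (1 + t) ^ 2) →
  (∀ k i s, ‖s - (ctr S u k : ℂ)‖ = 1 / 4 → ‖(lg W i).eval s‖ ≤ B * μ k) →
  (∀ k j s, ‖s - (ctr S u k : ℂ)‖ = 1 / 4 →
    ‖JR s * ((rhoC S u * lg Z j).eval s / (om S u c).eval s)‖ ≤ ν k * LR) →
  (∀ k j s, ‖s - (ctr S u k : ℂ)‖ = 1 / 4 →
    ‖JQ s * ((lg Y j).eval s / (om S u c).eval s)‖ ≤ ν k * LQ) →
  (∀ k j s, ‖s - (ctr S u k : ℂ)‖ = 1 / 4 →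
    ‖(JQ s - 2 * gL s) * ((lg Y j).eval s / (om S u c).eval s)‖ ≤ ν k * LQ) →
  (∀ (J : Rw S u c) i, ‖BU S u c J (lg W i)‖ ≤ B * LU) →
  ∃ e : D.Col S u ⊕ Fin c ≃ Rw S u c,
    |aeval GG (Minor S u r)| * (‖(Matrix.vandermonde W).det‖ *
      (‖(Matrix.vandermonde Z).det‖ * ‖(Matrix.vandermonde Y).det‖)) ≤
    |((kap S u * VV S u c e : ℚ) : ℝ)| *
      ((S.k * u + S.g * u + c + ∑ k, ord S u k).factorial *
        (B ^ (S.k * u + S.g * u + c) * (LR ^ (S.k * u) * (LQ ^ (S.g * u) * LU ^ c)) *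
          ∏ k, max 1 (μ k * ν k) ^ ord S u k))

/-- the total number of slots is `O(u)` -/
lemma sum_ord_le_819 (S : Shape) (u : ℕ) :
    ∑ k, ord S u k ≤ 3 * (S.w + S.h1 + S.e1) * u := by
  have h1 : ∀ k : Slot S u, ord S u k ≤ 3 := by
    intro k
    rcases k with l | (l | j)
    · exact le_rfl
    · simp only [ord]
      split_ifs <;> omega
    · simp only [ord]
      split_ifs <;> omega
  calc ∑ k, ord S u k ≤ ∑ _k : Slot S u, 3 := Finset.sum_le_sum fun k _ => h1 k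
    _ = 3 * (S.w * u + (S.h1 * u + (S.e1 * u - S.w * u))) := by
        rw [Finset.sum_const, Finset.card_univ, Fintype.card_sum, Fintype.card_sum,
          Fintype.card_fin, Fintype.card_fin, Fintype.card_fin, smul_eq_mul, mul_comm]
    _ ≤ 3 * (S.w * u + (S.h1 * u + S.e1 * u)) := by
        have := Nat.sub_le (S.e1 * u) (S.w * u)
        omega
    _ = 3 * (S.w + S.h1 + S.e1) * u := by ring

lemma norm_lg_comp_819 {ι : Type} [Fintype ι] [DecidableEq ι] {n : ℕ} (e : Fin n ≃ ι) (w : ι → ℂ)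
    (i : Fin n) (s : ℂ) : ‖(lg (fun i => w (e i)) i).eval s‖ = oth w (e i) s := by
  rw [lg_eq_819 e w, norm_eval_lgT_819]

lemma oth_nonnegD_819 {ι : Type} [Fintype ι] [DecidableEq ι] (w : ι → ℂ) (i : ι) (s : ℂ) :
    0 ≤ oth w i s := Finset.prod_nonneg fun _ _ => norm_nonneg _

lemma NSn_nonneg_819 (S : Shape) (u c : ℕ) (s : ℂ) : 0 ≤ NSn S u c s :=
  Finset.prod_nonneg fun _ _ => pow_nonneg (norm_nonneg _) _

lemma rhon_nonneg_819 (S : Shape) (u : ℕ) (s : ℂ) : 0 ≤ rhon S u s := by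
  rw [← norm_rhoC]; exact norm_nonneg _

/-- one constant for all jump functions -/
lemma exists_J_le_819 : ∃ K : ℝ, 1 ≤ K ∧ ∀ s : ℂ, FarW s →
    ‖JR s‖ ≤ K * Real.exp (s.re * Real.log 8 - Real.pi * |s.im|) ∧
    ‖JQ s‖ ≤ K * Real.exp (-(2 * Real.pi * |s.im|)) ∧
    (|s.im| ≤ 1 / 4 → ‖JQ s - 2 * gL s‖ ≤ K * Real.exp (-(2 * Real.pi * |s.im|))) := by
  obtain ⟨K, hK, h⟩ := exists_JR_le
  refine ⟨max K (432 * Real.exp 2), ?_, fun s hs => ⟨?_, ?_, ?_⟩⟩
  · refine le_max_of_le_right ?_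
    have : (1 : ℝ) ≤ Real.exp 2 := Real.one_le_exp (by norm_num)
    linarith
  · refine (h s hs).trans ?_
    gcongr
    exact le_max_left _ _
  · refine (JQ_le hs).trans ?_
    gcongr
    refine le_max_of_le_right ?_
    have : (1 : ℝ) ≤ Real.exp 2 := Real.one_le_exp (by norm_num)
    linarith
  · intro hi
    refine (JQw_le hs hi).trans ?_
    gcongr
    exact le_max_right _ _

/-- **`Disc` from `fixed_bound`** -/
theorem disc_of {S : Shape} (hS : S.Good) (c : ℕ) (FB : FixedBound S) : Disc S c := by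
  obtain ⟨K, hK1, hK⟩ := exists_J_le_819
  obtain ⟨C1, hC1, habs⟩ := absorb_819 S c (3 * (S.w + S.h1 + S.e1)) 0 le_rfl
  have hlK : 0 ≤ Real.log K := Real.log_nonneg hK1
  have hK0 : 0 < K := by linarith
  refine ⟨C1 + (S.k + S.g) * Real.log K, by positivity, ?_⟩
  intro u hu r hr ιW ιZ ιY _ _ _ _ _ _ w z y hw hz hy cW cZ cY LR LQ HW μ ν hLR hLQ hHW hμ hν
    hrR hrQ hcW hcR hcQ hH
  set eW : Fin (S.k * u + S.g * u + c) ≃ ιW :=
    (Fintype.equivFinOfCardEq (by rw [cW, add_assoc])).symm with heW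
  set eZ : Fin (S.k * u) ≃ ιZ := (Fintype.equivFinOfCardEq cZ).symm with heZ
  set eY : Fin (S.g * u) ≃ ιY := (Fintype.equivFinOfCardEq cY).symm with heY
  have hFB := FB u c r hr (fun i => w (eW i)) (fun i => z (eZ i)) (fun i => y (eY i))
    (hw.comp eW.injective) (hz.comp eZ.injective) (hy.comp eY.injective)
    1 (K * LR) (K * LQ) (HW * 4 ^ (S.rows * u + c)) μ ν zero_le_one (by positivity)
    (by positivity) (by positivity) hμ hν
  have hex : ∃ e : D.Col S u ⊕ Fin c ≃ Rw S u c,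
    |aeval GG (Minor S u r)| * (‖(Matrix.vandermonde fun i => w (eW i)).det‖ *
      (‖(Matrix.vandermonde fun i => z (eZ i)).det‖ *
        ‖(Matrix.vandermonde fun i => y (eY i)).det‖)) ≤
    |((kap S u * VV S u c e : ℚ) : ℝ)| *
      ((S.k * u + S.g * u + c + ∑ k, ord S u k).factorial *
        ((1 : ℝ) ^ (S.k * u + S.g * u + c) * ((K * LR) ^ (S.k * u) * ((K * LQ) ^ (S.g * u) *
          (HW * 4 ^ (S.rows * u + c)) ^ c)) *
          ∏ k, max 1 (μ k * ν k) ^ ord S u k)) := by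
    refine hFB ?_ ?_ ?_ ?_ ?_ ?_ ?_
    · -- ray, R
      intro i j t ht v hv
      have hF := (hK _ (far_ray S u ht.le hv)).1
      have h1 := hrR (eW i) (eZ j) t ht.le v hv
      set s := rayPt S u v t with hs
      rw [norm_mul, norm_div, norm_mul, eval_mul, norm_mul, norm_rhoC, norm_lg_comp_819 eZ z,
        norm_lg_comp_819 eW w, norm_om hS, one_mul]
      have ht2 : (0 : ℝ) < (1 + t) ^ 2 := by positivity
      rw [le_div_iff₀ ht2]
      have h2 : 0 ≤ rhon S u s * oth z (eZ j) s * oth w (eW i) s / NSn S u c s :=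
        div_nonneg (mul_nonneg (mul_nonneg (rhon_nonneg_819 S u s) (oth_nonnegD_819 _ _ _))
          (oth_nonnegD_819 _ _ _)) (NSn_nonneg_819 _ _ _ _)
      calc ‖JR s‖ * (rhon S u s * oth z (eZ j) s * oth w (eW i) s / NSn S u c s) * (1 + t) ^ 2
          ≤ (K * Real.exp (s.re * Real.log 8 - Real.pi * |s.im|)) *
            (rhon S u s * oth z (eZ j) s * oth w (eW i) s / NSn S u c s) * (1 + t) ^ 2 := by
            gcongr
        _ = K * (oth w (eW i) s * oth z (eZ j) s * wtR S u c s * (1 + t) ^ 2) := by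
            rw [wtR]; ring
        _ ≤ K * LR := mul_le_mul_of_nonneg_left h1 hK0.le
    · -- ray, Q
      intro i j t ht v hv
      have hF := (hK _ (far_ray S u ht.le hv)).2.1
      have h1 := hrQ (eW i) (eY j) t ht.le v hv
      set s := rayPt S u v t with hs
      rw [norm_mul, norm_div, norm_mul, norm_lg_comp_819 eY y, norm_lg_comp_819 eW w, norm_om hS, one_mul]
      have ht2 : (0 : ℝ) < (1 + t) ^ 2 := by positivity
      rw [le_div_iff₀ ht2]
      have h2 : 0 ≤ oth y (eY j) s * oth w (eW i) s / NSn S u c s :=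
        div_nonneg (mul_nonneg (oth_nonnegD_819 _ _ _) (oth_nonnegD_819 _ _ _)) (NSn_nonneg_819 _ _ _ _)
      calc ‖JQ s‖ * (oth y (eY j) s * oth w (eW i) s / NSn S u c s) * (1 + t) ^ 2
          ≤ (K * Real.exp (-(2 * Real.pi * |s.im|))) *
            (oth y (eY j) s * oth w (eW i) s / NSn S u c s) * (1 + t) ^ 2 := by
            gcongr
        _ = K * (oth w (eW i) s * oth y (eY j) s * wtQ S u c s * (1 + t) ^ 2) := by
            rw [wtQ]; ring
        _ ≤ K * LQ := mul_le_mul_of_nonneg_left h1 hK0.le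
    · -- circles, W
      intro k i s hs
      rw [norm_lg_comp_819 eW w, one_mul]
      exact hcW k (eW i) s hs
    · -- circles, R
      intro k j s hs
      have hF := (hK _ (far_slot S u k hs).1).1
      have h1 := hcR k (eZ j) s hs
      rw [norm_mul, norm_div, eval_mul, norm_mul, norm_rhoC, norm_lg_comp_819 eZ z, norm_om hS]
      have h2 : 0 ≤ rhon S u s * oth z (eZ j) s / NSn S u c s :=
        div_nonneg (mul_nonneg (rhon_nonneg_819 S u s) (oth_nonnegD_819 _ _ _)) (NSn_nonneg_819 _ _ _ _)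
      calc ‖JR s‖ * (rhon S u s * oth z (eZ j) s / NSn S u c s)
          ≤ (K * Real.exp (s.re * Real.log 8 - Real.pi * |s.im|)) *
            (rhon S u s * oth z (eZ j) s / NSn S u c s) := by gcongr
        _ = K * (oth z (eZ j) s * wtR S u c s) := by rw [wtR]; ring
        _ ≤ K * (ν k * LR) := mul_le_mul_of_nonneg_left h1 hK0.le
        _ = ν k * (K * LR) := by ring
    · -- circles, Q
      intro k j s hs
      have hF := (hK _ (far_slot S u k hs).1).2.1
      have h1 := hcQ k (eY j) s hs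
      rw [norm_mul, norm_div, norm_lg_comp_819 eY y, norm_om hS]
      have h2 : 0 ≤ oth y (eY j) s / NSn S u c s :=
        div_nonneg (oth_nonnegD_819 _ _ _) (NSn_nonneg_819 _ _ _ _)
      calc ‖JQ s‖ * (oth y (eY j) s / NSn S u c s)
          ≤ (K * Real.exp (-(2 * Real.pi * |s.im|))) *
            (oth y (eY j) s / NSn S u c s) := by gcongr
        _ = K * (oth y (eY j) s * wtQ S u c s) := by rw [wtQ]; ring
        _ ≤ K * (ν k * LQ) := mul_le_mul_of_nonneg_left h1 hK0.le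
        _ = ν k * (K * LQ) := by ring
    · -- circles, Q, modified jump
      intro k j s hs
      have hF := (hK _ (far_slot S u k hs).1).2.2 (far_slot S u k hs).2
      have h1 := hcQ k (eY j) s hs
      rw [norm_mul, norm_div, norm_lg_comp_819 eY y, norm_om hS]
      have h2 : 0 ≤ oth y (eY j) s / NSn S u c s :=
        div_nonneg (oth_nonnegD_819 _ _ _) (NSn_nonneg_819 _ _ _ _)
      calc ‖JQ s - 2 * gL s‖ * (oth y (eY j) s / NSn S u c s)
          ≤ (K * Real.exp (-(2 * Real.pi * |s.im|))) *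
            (oth y (eY j) s / NSn S u c s) := by gcongr
        _ = K * (oth y (eY j) s * wtQ S u c s) := by rw [wtQ]; ring
        _ ≤ K * (ν k * LQ) := mul_le_mul_of_nonneg_left h1 hK0.le
        _ = ν k * (K * LQ) := by ring
    · -- unit columns
      intro J i
      rw [lg_eq_819 eW w, one_mul]
      exact norm_BU_le_819 hS w _ (hH _) J
  obtain ⟨e, he⟩ := hex
  rw [kapVV_eq_819, ← vdm_eq_819 eW w hw, ← vdm_eq_819 eZ z hz, ← vdm_eq_819 eY y hy] at he
  have habs' := habs u hu (∑ k, ord S u k) (sum_ord_le_819 S u) 1 zero_le_one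
    (by rw [zero_mul, Real.exp_zero])
  have hKp : K ^ (S.k * u) * K ^ (S.g * u) ≤
      Real.exp ((S.k + S.g) * Real.log K * (u * (1 + Real.log u))) := by
    rw [← pow_add, P3Unit.pow_eq_exp hK0, Real.exp_le_exp]
    have h1 : (u : ℝ) ≤ u * (1 + Real.log u) := ef_ge hu
    push_cast
    calc ((S.k : ℝ) * u + S.g * u) * Real.log K = (S.k + S.g) * Real.log K * u := by ring
      _ ≤ (S.k + S.g) * Real.log K * (u * (1 + Real.log u)) :=
          mul_le_mul_of_nonneg_left h1 (by positivity)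
  have hP : 0 ≤ ∏ k, max 1 (μ k * ν k) ^ ord S u k :=
    Finset.prod_nonneg fun k _ => pow_nonneg (le_trans zero_le_one (le_max_left _ _)) _
  set P := ∏ k, max 1 (μ k * ν k) ^ ord S u k with hPdef
  set V0 := Real.exp (logV S u c) / kden S u with hV0
  have hV0' : 0 ≤ V0 := div_nonneg (Real.exp_pos _).le (kden_pos S u).le
  have key : |aeval GG (Minor S u r)| * (vdm w * vdm z * vdm y) ≤
      V0 * (((S.k * u + S.g * u + c + ∑ k, ord S u k).factorial : ℝ) *
        (1 ^ (S.k * u + S.g * u + c) * ((K * LR) ^ (S.k * u) * ((K * LQ) ^ (S.g * u) *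
          (HW * 4 ^ (S.rows * u + c)) ^ c)) * P)) := by
    rw [mul_assoc (vdm w)]
    exact he
  refine key.trans ?_
  have e1 : V0 * (((S.k * u + S.g * u + c + ∑ k, ord S u k).factorial : ℝ) *
        (1 ^ (S.k * u + S.g * u + c) * ((K * LR) ^ (S.k * u) * ((K * LQ) ^ (S.g * u) *
          (HW * 4 ^ (S.rows * u + c)) ^ c)) * P)) =
      ((((S.k * u + S.g * u + c + ∑ k, ord S u k).factorial : ℝ) *
        1 ^ (S.k * u + S.g * u + c) * ((4 : ℝ) ^ (S.rows * u + c)) ^ c) *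
        (K ^ (S.k * u) * K ^ (S.g * u))) *
      (V0 * LR ^ (S.k * u) * LQ ^ (S.g * u) * HW ^ c * P) := by
    rw [mul_pow K LR, mul_pow K LQ, mul_pow HW]
    ring
  have e2 : Real.exp ((C1 + (S.k + S.g) * Real.log K) * (u * (1 + Real.log u))) * V0 *
      LR ^ (S.k * u) * LQ ^ (S.g * u) * HW ^ c * P =
      (Real.exp (C1 * (u * (1 + Real.log u))) *
        Real.exp ((S.k + S.g) * Real.log K * (u * (1 + Real.log u)))) *
      (V0 * LR ^ (S.k * u) * LQ ^ (S.g * u) * HW ^ c * P) := by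
    rw [← Real.exp_add, ← add_mul]
    ring
  rw [e1, e2]
  have hR0 : 0 ≤ V0 * LR ^ (S.k * u) * LQ ^ (S.g * u) * HW ^ c * P := by positivity
  refine mul_le_mul_of_nonneg_right ?_ hR0
  exact mul_le_mul habs' hKp (by positivity) (Real.exp_pos _).le

end Crest.Agent.R006.P3
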