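import Crest.Agent.R006.P3_Leaf_390

-- ▼ part R006/P3_Gen_390
section

/-!
# Row 6, block P3: generic ray and circle bounds (helper390)
-/

set_option autoImplicit false

namespace Crest.Agent.R006.P3

open Crest.Agent.R006.D Crest.Agent.R006.Cert Crest.Agent.R006.NumSegx464
  Crest.Agent.R006.ConstX673 Complex

/-! ### the error scale -/

lemma er_ge_one {v : ℕ} (hv : 1 ≤ v) (s : ℂ) : 1 ≤ er v s := by
  have hv' : (1 : ℝ) ≤ v := by exact_mod_cast hv
  have : 0 ≤ Real.log (v + ‖s‖) := Real.log_nonneg (by linarith [norm_nonneg s])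
  unfold er; linarith

lemma log_nonneg' {v : ℕ} (hv : 1 ≤ v) : 0 ≤ Real.log (v : ℝ) :=
  Real.log_nonneg (by exact_mod_cast hv)

lemma er_le {v : ℕ} (hv : 1 ≤ v) {s : ℂ} {R : ℝ} (hR : 0 ≤ R) (hs : ‖s‖ ≤ R * v) :
    er v s ≤ (1 + Real.log (1 + R)) * (1 + Real.log v) := by
  have hv' : (1 : ℝ) ≤ v := by exact_mod_cast hv
  have h1 : Real.log (v + ‖s‖) ≤ Real.log (1 + R) + Real.log v := by
    rw [← Real.log_mul (by linarith) (by linarith)]
    apply Real.log_le_log (by linarith [norm_nonneg s])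
    nlinarith
  have h2 : 0 ≤ Real.log (1 + R) := Real.log_nonneg (by linarith)
  have h3 := log_nonneg' hv
  unfold er
  nlinarith


/-- far from the half integers -/
def Far (s : ℂ) : Prop := ∀ k : ℤ, 1 / 8 ≤ ‖s - (k : ℂ) / 2‖

/-! ### generic potential -/

/-- the generic weight function -/
noncomputable def Phi (P1 P2 G N : List WSeg) (lam om : ℝ) (s : ℂ) : ℝ :=
  potL P1 s + potL P2 s + potL G s - potL N s + lam * s.re - om * |s.im|

/-- bound of a weight -/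
structure Wt (G N : List WSeg) (mG mN lam om : ℝ) (wt : ℕ → ℂ → ℝ) : Prop where
  nonneg : ∀ v s, 0 ≤ wt v s
  le : ∃ C : ℝ, 0 ≤ C ∧ ∀ v : ℕ, 1 ≤ v → ∀ s : ℂ, Far s →
    wt v s ≤ Real.exp (v * ((mG - mN) * Real.log v + potL G (s / v) - potL N (s / v))
      + (lam * s.re - om * |s.im|) + C * er v s)

/-- bound of the products over the other reference points -/
def OthLe {n : ℕ} (P : List WSeg) (m C : ℝ) (v : ℕ) (w : Fin n → ℂ) : Prop :=
  ∀ i s, oth w i s ≤ Real.exp (v * (m * Real.log v + potL P (s / v)) + C * er v s)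

lemma oth_nonneg {ι : Type} [Fintype ι] [DecidableEq ι] (w : ι → ℂ) (i : ι) (s : ℂ) :
    0 ≤ oth w i s := Finset.prod_nonneg fun _ _ => norm_nonneg _

lemma re_div_nat (s : ℂ) (v : ℕ) : (s / (v : ℂ)).re = s.re / v := by
  simp

lemma im_div_nat (s : ℂ) (v : ℕ) : (s / (v : ℂ)).im = s.im / v := by
  simp

lemma mul_phi {v : ℕ} (hv : 1 ≤ v) (P1 P2 G N : List WSeg) (lam om : ℝ) (s : ℂ) :
    v * Phi P1 P2 G N lam om (s / v) =
      v * potL P1 (s / v) + v * potL P2 (s / v) + v * potL G (s / v) - v * potL N (s / v)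
        + (lam * s.re - om * |s.im|) := by
  have hv' : (0 : ℝ) < v := by exact_mod_cast hv
  unfold Phi
  rw [re_div_nat, im_div_nat, abs_div, abs_of_pos hv']
  field_simp
  ring

/-- modulus of continuity of the generic weight function -/
lemma phi_mod (P1 P2 G N : List WSeg) (lam om : ℝ) (m1 : ModPot P1) (m2 : ModPot P2)
    (mG : ModPot G) (mN : ModPot N) :
    ∃ C : ℝ, 0 ≤ C ∧ ∀ v : ℕ, 1 ≤ v → ∀ s s' : ℂ, ‖s - s'‖ ≤ 1 →
      v * Phi P1 P2 G N lam om (s / v) ≤ v * Phi P1 P2 G N lam om (s' / v) + C * er v s := by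
  obtain ⟨C1, h1, H1⟩ := m1
  obtain ⟨C2, h2, H2⟩ := m2
  obtain ⟨C3, h3, H3⟩ := mG
  obtain ⟨C4, h4, H4⟩ := mN
  refine ⟨C1 + C2 + C3 + C4 + (|lam| + |om|), by positivity, fun v hv s s' hs => ?_⟩
  have e1 := (abs_le.mp (H1 v hv s s' hs)).2
  have e2 := (abs_le.mp (H2 v hv s s' hs)).2
  have e3 := (abs_le.mp (H3 v hv s s' hs)).2
  have e4 := (abs_le.mp (H4 v hv s s' hs)).1
  have her := er_ge_one hv s
  rw [mul_phi hv, mul_phi hv]
  have hre : |s.re - s'.re| ≤ 1 := by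
    have := Complex.abs_re_le_norm (s - s')
    rw [Complex.sub_re] at this; linarith
  have him : |(|s.im| - |s'.im|)| ≤ 1 := by
    have := Complex.abs_im_le_norm (s - s')
    rw [Complex.sub_im] at this
    have h5 := abs_abs_sub_abs_le_abs_sub s.im s'.im
    linarith
  have f1 : lam * (s.re - s'.re) ≤ |lam| := by
    calc lam * (s.re - s'.re) ≤ |lam * (s.re - s'.re)| := le_abs_self _
      _ = |lam| * |s.re - s'.re| := abs_mul _ _
      _ ≤ |lam| * 1 := mul_le_mul_of_nonneg_left hre (abs_nonneg _)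
      _ = |lam| := mul_one _
  have f2 : -(om * (|s.im| - |s'.im|)) ≤ |om| := by
    calc -(om * (|s.im| - |s'.im|)) ≤ |om * (|s.im| - |s'.im|)| := neg_le_abs _
      _ = |om| * |(|s.im| - |s'.im|)| := abs_mul _ _
      _ ≤ |om| * 1 := mul_le_mul_of_nonneg_left him (abs_nonneg _)
      _ = |om| := mul_one _
  have g : (|lam| + |om|) * 1 ≤ (|lam| + |om|) * er v s :=
    mul_le_mul_of_nonneg_left her (by positivity)
  nlinarith

/-- pointwise bound of the full product -/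
lemma full_le (P1 P2 G N : List WSeg) (m1 m2 mG mN lam om : ℝ) (wt : ℕ → ℂ → ℝ)
    (hwt : Wt G N mG mN lam om wt) (Cw Cz : ℝ) (hCw : 0 ≤ Cw) (hCz : 0 ≤ Cz) :
    ∃ C : ℝ, 0 ≤ C ∧ ∀ v : ℕ, 1 ≤ v → ∀ {n n' : ℕ} (w : Fin n → ℂ) (z : Fin n' → ℂ),
      OthLe P1 m1 Cw v w → OthLe P2 m2 Cz v z → ∀ i j s, Far s →
      oth w i s * oth z j s * wt v s ≤
        Real.exp (v * Phi P1 P2 G N lam om (s / v) + (m1 + m2 + mG - mN) * (v * Real.log v)
          + C * er v s) := by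
  obtain ⟨C1, h1, H1⟩ := hwt.le
  refine ⟨C1 + Cw + Cz, by positivity, fun v hv n n' w z hw hz i j s hs => ?_⟩
  have e := mul_le_mul (mul_le_mul (hw i s) (hz j s) (oth_nonneg _ _ _) (Real.exp_pos _).le)
    (H1 v hv s hs) (hwt.nonneg _ _) (by positivity)
  refine e.trans (le_of_eq ?_)
  rw [← Real.exp_add, ← Real.exp_add, mul_phi hv]
  congr 1
  ring

/-- pointwise bound of the product without the test polynomial -/
lemma part_le (P1 P2 G N : List WSeg) (m2 mG mN lam om : ℝ) (wt : ℕ → ℂ → ℝ)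
    (hwt : Wt G N mG mN lam om wt) (Cz : ℝ) (hCz : 0 ≤ Cz) :
    ∃ C : ℝ, 0 ≤ C ∧ ∀ v : ℕ, 1 ≤ v → ∀ {n' : ℕ} (z : Fin n' → ℂ),
      OthLe P2 m2 Cz v z → ∀ j s, Far s →
      oth z j s * wt v s ≤
        Real.exp (v * Phi P1 P2 G N lam om (s / v) - v * potL P1 (s / v)
          + (m2 + mG - mN) * (v * Real.log v) + C * er v s) := by
  obtain ⟨C1, h1, H1⟩ := hwt.le
  refine ⟨C1 + Cz, by positivity, fun v hv n' z hz j s hs => ?_⟩
  have e := mul_le_mul (hz j s) (H1 v hv s hs) (hwt.nonneg _ _) (by positivity)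
  refine e.trans (le_of_eq ?_)
  rw [← Real.exp_add, mul_phi hv]
  congr 1
  ring

/-! ### geometry of the rays and circles -/

lemma quarter (n k : ℤ) : (1 : ℝ) / 4 ≤ |(n : ℝ) - 1 / 4 - (k : ℝ) / 2| := by
  have h : ((4 * n - 1 - 2 * k : ℤ) : ℝ) = 4 * ((n : ℝ) - 1 / 4 - (k : ℝ) / 2) := by
    push_cast; ring
  have h2 : (4 * n - 1 - 2 * k : ℤ) ≠ 0 := by omega
  have h3 : (1 : ℝ) ≤ |((4 * n - 1 - 2 * k : ℤ) : ℝ)| := by
    rw [← Int.cast_abs]
    exact_mod_cast Int.one_le_abs h2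
  rw [h, abs_mul, abs_of_pos (by norm_num : (0 : ℝ) < 4)] at h3
  linarith

lemma rayPt_re (S : Shape) (u : ℕ) {e : ℂ} (he : e = -1 + I ∨ e = -1 - I) (t : ℝ) :
    (rayPt S u e t).re = -((S.w * u : ℕ) : ℝ) - 1 / 4 - t := by
  unfold rayPt
  rcases he with rfl | rfl <;> simp <;> ring

lemma rayPt_im (S : Shape) (u : ℕ) {e : ℂ} (he : e = -1 + I ∨ e = -1 - I) (t : ℝ) :
    |(rayPt S u e t).im| = |t| := by
  unfold rayPt
  rcases he with rfl | rfl <;> simp

lemma far_rayPt (S : Shape) (u : ℕ) {e : ℂ} (he : e = -1 + I ∨ e = -1 - I) {t : ℝ}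
    (ht : 0 ≤ t) : Far (rayPt S u e t) := by
  intro k
  have hk : ((k : ℂ) / 2).re = (k : ℝ) / 2 := by
    have : ((k : ℂ) / 2) = (((k : ℝ) / 2 : ℝ) : ℂ) := by push_cast; ring
    rw [this, Complex.ofReal_re]
  have hk' : ((k : ℂ) / 2).im = 0 := by
    have : ((k : ℂ) / 2) = (((k : ℝ) / 2 : ℝ) : ℂ) := by push_cast; ring
    rw [this, Complex.ofReal_im]
  rcases le_or_gt (1 / 8) t with h | h
  · refine le_trans ?_ (Complex.abs_im_le_norm _)
    rw [Complex.sub_im, hk', sub_zero, rayPt_im S u he, abs_of_nonneg ht]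
    exact h
  · refine le_trans ?_ (Complex.abs_re_le_norm _)
    rw [Complex.sub_re, hk, rayPt_re S u he]
    have h1 := quarter (-((S.w * u : ℕ) : ℤ)) k
    push_cast at h1 ⊢
    have h2 : |(-((S.w : ℝ) * u) - 1 / 4 - (k : ℝ) / 2)| ≤
        |(-((S.w : ℝ) * u) - 1 / 4 - t - (k : ℝ) / 2)| + |t| := by
      calc _ = |(-((S.w : ℝ) * u) - 1 / 4 - t - (k : ℝ) / 2) + t| := by congr 1; ring
        _ ≤ _ := abs_add_le _ _
    rw [abs_of_nonneg ht] at h2
    linarith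

lemma far_circle {y : ℝ} (hy : ∃ n : ℤ, y = (n : ℝ) / 2) {s : ℂ} (hs : ‖s - (y : ℂ)‖ = 1 / 4) :
    Far s := by
  intro k
  obtain ⟨n, rfl⟩ := hy
  rcases eq_or_ne n k with h | h
  · subst h
    have : (((n : ℝ) / 2 : ℝ) : ℂ) = (n : ℂ) / 2 := by push_cast; ring
    rw [this] at hs
    rw [hs]; norm_num
  · have h1 : (1 : ℝ) / 2 ≤ ‖((((n : ℝ) / 2 : ℝ) : ℂ)) - (k : ℂ) / 2‖ := by
      have : ((((n : ℝ) / 2 : ℝ) : ℂ)) - (k : ℂ) / 2 = ((((n - k : ℤ) : ℝ) / 2 : ℝ) : ℂ) := by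
        push_cast; ring
      rw [this, Complex.norm_real, Real.norm_eq_abs, abs_div, abs_of_pos (by norm_num : (0:ℝ) < 2)]
      have h2 : (1 : ℝ) ≤ |((n - k : ℤ) : ℝ)| := by
        rw [← Int.cast_abs]
        exact_mod_cast Int.one_le_abs (sub_ne_zero.mpr h)
      linarith
    have h2 : ‖((((n : ℝ) / 2 : ℝ) : ℂ)) - (k : ℂ) / 2‖ ≤
        ‖s - (k : ℂ) / 2‖ + ‖s - ((((n : ℝ) / 2 : ℝ) : ℂ))‖ := by
      calc _ = ‖(s - (k : ℂ) / 2) - (s - ((((n : ℝ) / 2 : ℝ) : ℂ)))‖ := by congr 1; ring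
        _ ≤ _ := norm_sub_le _ _
    rw [hs] at h2
    linarith

end Crest.Agent.R006.P3
end

-- ▼ part R006/P3_Gen2_390
section

/-!
# Row 6, block P3: generic ray and circle bounds, part 2 (helper390)
-/

set_option autoImplicit false

namespace Crest.Agent.R006.P3

open Crest.Agent.R006.D Crest.Agent.R006.Cert Crest.Agent.R006.NumSegx464
  Crest.Agent.R006.ConstX673 Complex

/-- `A log (1+τ) ≤ τ + B` -/
lemma log_le_lin {A : ℝ} (hA : 0 ≤ A) : ∃ B : ℝ, 0 ≤ B ∧ ∀ τ : ℝ, 0 ≤ τ →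
    A * Real.log (1 + τ) ≤ τ + B := by
  rcases eq_or_lt_of_le hA with h | h
  · refine ⟨0, le_refl _, fun τ hτ => ?_⟩
    rw [← h]; linarith
  · refine ⟨1 + A * |Real.log A|, by positivity, fun τ hτ => ?_⟩
    have h1 : Real.log (1 + τ) ≤ (1 + τ) / A - 1 + Real.log A := by
      have e : Real.log (1 + τ) = Real.log ((1 + τ) / A) + Real.log A := by
        rw [Real.log_div (by linarith) h.ne']; ring
      rw [e]
      have := Real.log_le_sub_one_of_pos (x := (1 + τ) / A) (by positivity)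
      linarith
    have h2 : A * Real.log (1 + τ) ≤ A * ((1 + τ) / A - 1 + Real.log A) :=
      mul_le_mul_of_nonneg_left h1 hA
    have h3 : A * ((1 + τ) / A - 1 + Real.log A) = 1 + τ - A + A * Real.log A := by
      field_simp
    have h4 : A * Real.log A ≤ A * |Real.log A| :=
      mul_le_mul_of_nonneg_left (le_abs_self _) hA
    linarith

/-- the ray point against the scaled ray -/
lemma rayPt_close (S : Shape) (d : Data) {v : ℕ} (hv : 1 ≤ v) {e : ℂ}
    (he : e = -1 + I ∨ e = -1 - I) (t : ℝ) :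
    ∃ s' : ℂ, ‖rayPt S (d.K * v) e t - s'‖ ≤ 1 ∧
      (s' / v = ray S d (t / v) ∨ s' / v = (starRingEnd ℂ) (ray S d (t / v))) := by
  have hv' : (v : ℝ) ≠ 0 := by positivity
  have hvc : (v : ℂ) ≠ 0 := by exact_mod_cast hv'
  rcases he with rfl | rfl
  · refine ⟨v * ray S d (t / v), ?_, Or.inl (by field_simp)⟩
    have : rayPt S (d.K * v) (-1 + I) t - v * ray S d (t / v) = ((-(1 / 4) : ℝ) : ℂ) := by
      unfold rayPt ray
      apply Complex.ext
      · simp; field_simp; ring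
      · simp; field_simp; ring
    rw [this, Complex.norm_real]; norm_num
  · refine ⟨v * (starRingEnd ℂ) (ray S d (t / v)), ?_, Or.inr (by field_simp)⟩
    have : rayPt S (d.K * v) (-1 - I) t - v * (starRingEnd ℂ) (ray S d (t / v)) =
        ((-(1 / 4) : ℝ) : ℂ) := by
      unfold rayPt ray
      apply Complex.ext
      · simp; field_simp; ring
      · simp; field_simp; ring
    rw [this, Complex.norm_real]; norm_num

/-- error scale on the ray -/
lemma er_ray (S : Shape) (K : ℕ) {v : ℕ} (hv : 1 ≤ v) {e : ℂ}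
    (he : e = -1 + I ∨ e = -1 - I) {t : ℝ} (ht : 0 ≤ t) :
    er v (rayPt S (K * v) e t) ≤
      (1 + Real.log (4 + S.w * K)) + Real.log v + Real.log (1 + t) := by
  have hv' : (1 : ℝ) ≤ v := by exact_mod_cast hv
  have h1 : ‖rayPt S (K * v) e t‖ ≤ S.w * K * v + 1 / 4 + 2 * t := by
    refine (Complex.norm_le_abs_re_add_abs_im _).trans ?_
    rw [rayPt_re S _ he, rayPt_im S _ he, abs_of_nonneg ht]
    have h2 : (0 : ℝ) ≤ ((S.w * (K * v) : ℕ) : ℝ) := Nat.cast_nonneg _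
    have h3 : |(-((S.w * (K * v) : ℕ) : ℝ) - 1 / 4 - t)| = ((S.w * (K * v) : ℕ) : ℝ) + 1 / 4 + t := by
      rw [abs_of_nonpos (by linarith)]; ring
    rw [h3]
    push_cast
    nlinarith
  have hK : (0 : ℝ) ≤ (S.w : ℝ) * K := by positivity
  have h4 : (v : ℝ) + ‖rayPt S (K * v) e t‖ ≤ (4 + S.w * K) * v * (1 + t) := by
    have h5 : (S.w : ℝ) * K * v ≤ S.w * K * v * (1 + t) := by
      have : (0 : ℝ) ≤ (S.w : ℝ) * K * v * t := by positivity
      linarith
    have h6 : (0 : ℝ) ≤ (v - 1) * t := mul_nonneg (by linarith) ht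
    nlinarith
  unfold er
  have h7 : Real.log (v + ‖rayPt S (K * v) e t‖) ≤
      Real.log (4 + S.w * K) + Real.log v + Real.log (1 + t) := by
    rw [← Real.log_mul (by linarith) (by linarith), ← Real.log_mul (by positivity) (by linarith)]
    exact Real.log_le_log (by linarith [norm_nonneg (rayPt S (K * v) e t)]) h4
  linarith

/-- **rays** -/
theorem ray_gen (S : Shape) (d : Data) (P1 P2 G N : List WSeg)
    (m1 m2 mG mN lam om l Cw Cz : ℝ) (hCw : 0 ≤ Cw) (hCz : 0 ≤ Cz) (wt : ℕ → ℂ → ℝ)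
    (hwt : Wt G N mG mN lam om wt)
    (mo1 : ModPot P1) (mo2 : ModPot P2) (moG : ModPot G) (moN : ModPot N)
    (hsup : ∀ T : ℝ, 0 ≤ T → Phi P1 P2 G N lam om (ray S d T) ≤ l)
    (htail : Tail (fun T => Phi P1 P2 G N lam om (ray S d T)) l)
    (hsym : ∀ s, Phi P1 P2 G N lam om ((starRingEnd ℂ) s) = Phi P1 P2 G N lam om s) :
    ∃ C : ℝ, 0 ≤ C ∧ ∀ v : ℕ, 1 ≤ v → ∀ {n n' : ℕ} (w : Fin n → ℂ) (z : Fin n' → ℂ),
      OthLe P1 m1 Cw v w → OthLe P2 m2 Cz v z → ∀ i j (t : ℝ), 0 ≤ t →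
      ∀ e : ℂ, e = -1 + I ∨ e = -1 - I →
      oth w i (rayPt S (d.K * v) e t) * oth z j (rayPt S (d.K * v) e t)
          * wt v (rayPt S (d.K * v) e t) * (1 + t) ^ 2 ≤
        Real.exp (v * l + (m1 + m2 + mG - mN) * (v * Real.log v) + C * (1 + Real.log v)) := by
  obtain ⟨C1, hC1, H1⟩ := full_le P1 P2 G N m1 m2 mG mN lam om wt hwt Cw Cz hCw hCz
  obtain ⟨C2, hC2, H2⟩ := phi_mod P1 P2 G N lam om mo1 mo2 moG moN
  obtain ⟨T1, hT1, HT⟩ := htail
  obtain ⟨B, hB, HB⟩ := log_le_lin (A := C1 + C2 + 2) (by positivity)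
  set c0 : ℝ := 1 + Real.log (4 + S.w * d.K) with hc0
  have hc0' : 1 ≤ c0 := by
    have : 0 ≤ Real.log (4 + (S.w : ℝ) * d.K) := Real.log_nonneg (by
      have : (0 : ℝ) ≤ (S.w : ℝ) * d.K := by positivity
      linarith)
    linarith
  have hL1 : 0 ≤ Real.log (1 + T1) := Real.log_nonneg (by linarith)
  refine ⟨(C1 + C2) * c0 + (C1 + C2) + (C1 + C2 + 2) * (Real.log (1 + T1) + 1) + B,
    by positivity, fun v hv n n' w z hw hz i j t ht e he => ?_⟩
  have hv' : (1 : ℝ) ≤ v := by exact_mod_cast hv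
  have hv0 : (0 : ℝ) < v := by linarith
  set s := rayPt S (d.K * v) e t with hs
  have hlogv := log_nonneg' hv
  -- the potential at the ray point
  obtain ⟨s', hs', hs''⟩ := rayPt_close S d hv he t
  have hphi : v * Phi P1 P2 G N lam om (s / v) ≤
      v * Phi P1 P2 G N lam om (ray S d (t / v)) + C2 * er v s := by
    have h1 := H2 v hv s s' hs'
    rcases hs'' with h | h
    · rw [h] at h1; exact h1
    · rw [h, hsym] at h1; exact h1
  -- sup and tail in one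
  have htv : (v : ℝ) * Phi P1 P2 G N lam om (ray S d (t / v)) ≤ v * l - max 0 (t - T1 * v) := by
    rcases le_or_gt (t - T1 * v) 0 with h | h
    · rw [max_eq_left h, sub_zero]
      exact mul_le_mul_of_nonneg_left (hsup _ (by positivity)) hv0.le
    · rw [max_eq_right h.le]
      have h1 : T1 ≤ t / v := by
        rw [le_div_iff₀ hv0]; linarith
      have h2 := mul_le_mul_of_nonneg_left (HT (t / v) h1) hv0.le
      have h3 : (v : ℝ) * (l - (t / v - T1)) = v * l - (t - T1 * v) := by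
        field_simp
      simp only at h2
      rw [h3] at h2
      exact h2
  set τ := max 0 (t - T1 * v) with hτ
  have hτ0 : 0 ≤ τ := le_max_left _ _
  -- log (1+t)
  have hlt : Real.log (1 + t) ≤ Real.log (1 + T1) + Real.log v + Real.log (1 + τ) := by
    rw [← Real.log_mul (by linarith) (by linarith), ← Real.log_mul (by positivity) (by linarith)]
    apply Real.log_le_log (by linarith)
    have h1 : t - T1 * v ≤ τ := le_max_right _ _
    have h2 : (0 : ℝ) ≤ ((1 + T1) * v - 1) * τ := mul_nonneg (by nlinarith) hτ0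
    nlinarith
  have hl0 : 0 ≤ Real.log (1 + t) := Real.log_nonneg (by linarith)
  have her := er_ray S d.K hv he ht
  rw [← hs] at her
  have hBτ := HB τ hτ0
  have hfull := H1 v hv w z hw hz i j s (by rw [hs]; exact far_rayPt S _ he ht)
  have hsq : (1 + t) ^ 2 = Real.exp (2 * Real.log (1 + t)) := by
    rw [two_mul, Real.exp_add, Real.exp_log (by linarith)]; ring
  calc oth w i s * oth z j s * wt v s * (1 + t) ^ 2
      ≤ Real.exp (v * Phi P1 P2 G N lam om (s / v) + (m1 + m2 + mG - mN) * (v * Real.log v)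
          + C1 * er v s) * Real.exp (2 * Real.log (1 + t)) := by
        rw [hsq]
        exact mul_le_mul_of_nonneg_right hfull (Real.exp_pos _).le
    _ ≤ _ := by
        rw [← Real.exp_add]
        apply Real.exp_le_exp.mpr
        have k1 : (C1 + C2) * er v s ≤ (C1 + C2) * (c0 + Real.log v + Real.log (1 + t)) :=
          mul_le_mul_of_nonneg_left her (by positivity)
        have k2 : (C1 + C2 + 2) * Real.log (1 + t) ≤
            (C1 + C2 + 2) * (Real.log (1 + T1) + Real.log v + Real.log (1 + τ)) :=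
          mul_le_mul_of_nonneg_left hlt (by positivity)
        have k3 : (0 : ℝ) ≤ ((C1 + C2) * c0 + (C1 + C2 + 2) * Real.log (1 + T1) + B) * Real.log v :=
          by positivity
        nlinarith

/-- **circles**: the test polynomials -/
theorem circW_gen (P1 : List WSeg) (m1 Cw R : ℝ) (hCw : 0 ≤ Cw) (hR : 0 ≤ R) (mo1 : ModPot P1) :
    ∃ C : ℝ, 0 ≤ C ∧ ∀ v : ℕ, 1 ≤ v → ∀ {n : ℕ} (w : Fin n → ℂ),
      OthLe P1 m1 Cw v w → ∀ i (y : ℝ), |y| ≤ R * v → ∀ s : ℂ, ‖s - (y : ℂ)‖ = 1 / 4 →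
      oth w i s ≤ Real.exp (v * (m1 * Real.log v + potL P1 ((y / v : ℝ) : ℂ))
        + C * (1 + Real.log v)) := by
  obtain ⟨C1, hC1, H1⟩ := mo1
  have hL : 0 ≤ Real.log (1 + (R + 1)) := Real.log_nonneg (by linarith)
  refine ⟨(C1 + Cw) * (1 + Real.log (1 + (R + 1))), by positivity,
    fun v hv n w hw i y hy s hs => ?_⟩
  have hv' : (1 : ℝ) ≤ v := by exact_mod_cast hv
  have hsn : ‖s‖ ≤ (R + 1) * v := by
    calc ‖s‖ = ‖(s - y) + y‖ := by congr 1; ring
      _ ≤ ‖s - y‖ + ‖(y : ℂ)‖ := norm_add_le _ _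
      _ ≤ 1 / 4 + R * v := by
          rw [hs, Complex.norm_real, Real.norm_eq_abs]; linarith
      _ ≤ _ := by nlinarith
  have her := er_le hv (by linarith : (0 : ℝ) ≤ R + 1) hsn
  have h1 := (abs_le.mp (H1 v hv s (y : ℂ) (by rw [hs]; norm_num))).2
  have e : ((y : ℂ) / v) = ((y / v : ℝ) : ℂ) := by push_cast; ring
  rw [e] at h1
  refine (hw i s).trans (Real.exp_le_exp.mpr ?_)
  have k1 : (C1 + Cw) * er v s ≤ (C1 + Cw) * ((1 + Real.log (1 + (R + 1))) * (1 + Real.log v)) :=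
    mul_le_mul_of_nonneg_left her (by positivity)
  nlinarith

/-- **circles**: the columns -/
theorem circZ_gen (P1 P2 G N : List WSeg) (m2 mG mN lam om Cz R : ℝ)
    (hCz : 0 ≤ Cz) (hR : 0 ≤ R) (wt : ℕ → ℂ → ℝ) (hwt : Wt G N mG mN lam om wt)
    (mo1 : ModPot P1) (mo2 : ModPot P2) (moG : ModPot G) (moN : ModPot N) :
    ∃ C : ℝ, 0 ≤ C ∧ ∀ v : ℕ, 1 ≤ v → ∀ {n' : ℕ} (z : Fin n' → ℂ),
      OthLe P2 m2 Cz v z → ∀ j (y : ℝ), |y| ≤ R * v → (∃ k : ℤ, y = (k : ℝ) / 2) →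
      ∀ s : ℂ, ‖s - (y : ℂ)‖ = 1 / 4 →
      oth z j s * wt v s ≤
        Real.exp (v * Phi P1 P2 G N lam om ((y / v : ℝ) : ℂ) - v * potL P1 ((y / v : ℝ) : ℂ)
          + (m2 + mG - mN) * (v * Real.log v) + C * (1 + Real.log v)) := by
  obtain ⟨C1, hC1, H1⟩ := part_le P1 P2 G N m2 mG mN lam om wt hwt Cz hCz
  obtain ⟨C2, hC2, H2⟩ := phi_mod P1 P2 G N lam om mo1 mo2 moG moN
  obtain ⟨C3, hC3, H3⟩ := mo1
  have hL : 0 ≤ Real.log (1 + (R + 1)) := Real.log_nonneg (by linarith)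
  refine ⟨(C1 + C2 + C3) * (1 + Real.log (1 + (R + 1))), by positivity,
    fun v hv n' z hz j y hy hk s hs => ?_⟩
  have hv' : (1 : ℝ) ≤ v := by exact_mod_cast hv
  have hsn : ‖s‖ ≤ (R + 1) * v := by
    calc ‖s‖ = ‖(s - y) + y‖ := by congr 1; ring
      _ ≤ ‖s - y‖ + ‖(y : ℂ)‖ := norm_add_le _ _
      _ ≤ 1 / 4 + R * v := by
          rw [hs, Complex.norm_real, Real.norm_eq_abs]; linarith
      _ ≤ _ := by nlinarith
  have her := er_le hv (by linarith : (0 : ℝ) ≤ R + 1) hsn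
  have hd : ‖s - (y : ℂ)‖ ≤ 1 := by rw [hs]; norm_num
  have h2 := H2 v hv s (y : ℂ) hd
  have h3 := (abs_le.mp (H3 v hv s (y : ℂ) hd)).1
  have e : ((y : ℂ) / v) = ((y / v : ℝ) : ℂ) := by push_cast; ring
  rw [e] at h2 h3
  refine (H1 v hv z hz j s (far_circle hk hs)).trans (Real.exp_le_exp.mpr ?_)
  have k1 : (C1 + C2 + C3) * er v s ≤
      (C1 + C2 + C3) * ((1 + Real.log (1 + (R + 1))) * (1 + Real.log v)) :=
    mul_le_mul_of_nonneg_left her (by positivity)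
  nlinarith

end Crest.Agent.R006.P3
end

-- ▼ part R006/P3_Fin_390
section

/-!
# Row 6, block P3: `Disc` + the leaves imply the bound at every level `v` (helper390)
-/

set_option autoImplicit false

namespace Crest.Agent.R006.P3

open Crest.Agent.R006.D Crest.Agent.R006.Cert Crest.Agent.R006.NumSegx464
  Crest.Agent.R006.ConstX673 Complex

/-! ### the two weights -/

lemma NSn_nonneg (S : Shape) (u c : ℕ) (s : ℂ) : 0 ≤ NSn S u c s :=
  Finset.prod_nonneg fun _ _ => pow_nonneg (norm_nonneg _) _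

lemma rhon_nonneg (S : Shape) (u : ℕ) (s : ℂ) : 0 ≤ rhon S u s := by
  unfold rhon
  have h : ∀ (n : ℕ) (f : ℕ → ℂ), 0 ≤ ∏ m ∈ Finset.range n, ‖f m‖ :=
    fun n f => Finset.prod_nonneg fun _ _ => norm_nonneg _
  have := h (S.a1 * u) (fun n => s - n)
  have := h (S.a2 * u) (fun n => s - n)
  have := h (S.i1 * u) (fun m => s + ((m : ℂ) + 1 / 2))
  have := h (S.r1 * u) (fun m => s + ((m : ℂ) + 1))
  positivity

lemma wtR_nonneg (S : Shape) (u c : ℕ) (s : ℂ) : 0 ≤ wtR S u c s :=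
  div_nonneg (mul_nonneg (rhon_nonneg _ _ _) (Real.exp_pos _).le) (NSn_nonneg _ _ _ _)

lemma wtQ_nonneg (S : Shape) (u c : ℕ) (s : ℂ) : 0 ≤ wtQ S u c s :=
  div_nonneg (Real.exp_pos _).le (NSn_nonneg _ _ _ _)

/-- total mass of the gauge per unit `v` -/
def mG (S : Shape) (K : ℕ) : ℕ := K * (S.a1 + S.a2 + S.i1 + S.r1)

theorem wtR_Wt (S : Shape) (K c : ℕ) (hN : NodesGe S K c) (hρ : RhoLe S K) :
    Wt (LG S K) (LS S K) (mG S K) ((K * S.rows : ℕ) : ℝ) (Real.log 8) Real.pi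
      (fun v s => wtR S (K * v) c s) := by
  refine ⟨fun v s => wtR_nonneg _ _ _ _, ?_⟩
  obtain ⟨C1, h1, H1⟩ := hN
  obtain ⟨C2, h2, H2⟩ := hρ
  refine ⟨C1 + C2, by positivity, fun v hv s hs => ?_⟩
  have e1 := H1 v hv s hs
  have e2 := H2 v hv s
  have hpos : 0 < NSn S (K * v) c s := lt_of_lt_of_le (Real.exp_pos _) e1
  simp only [wtR]
  rw [div_le_iff₀ hpos]
  calc rhon S (K * v) s * Real.exp (s.re * Real.log 8 - Real.pi * |s.im|)
      ≤ Real.exp (v * ((K * (S.a1 + S.a2 + S.i1 + S.r1) : ℕ) * Real.log v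
          + potL (LG S K) (s / v)) + C2 * er v s)
          * Real.exp (s.re * Real.log 8 - Real.pi * |s.im|) :=
        mul_le_mul_of_nonneg_right e2 (Real.exp_pos _).le
    _ = Real.exp (v * (((mG S K : ℕ) - ((K * S.rows : ℕ) : ℝ)) * Real.log v
          + potL (LG S K) (s / v) - potL (LS S K) (s / v))
          + (Real.log 8 * s.re - Real.pi * |s.im|) + (C1 + C2) * er v s)
        * Real.exp (v * ((K * S.rows : ℕ) * Real.log v + potL (LS S K) (s / v)) - C1 * er v s) := by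
        rw [← Real.exp_add, ← Real.exp_add]
        congr 1
        unfold mG
        ring
    _ ≤ _ := mul_le_mul_of_nonneg_left e1 (Real.exp_pos _).le

theorem wtQ_Wt (S : Shape) (K c : ℕ) (hN : NodesGe S K c) :
    Wt [] (LS S K) 0 ((K * S.rows : ℕ) : ℝ) 0 (2 * Real.pi)
      (fun v s => wtQ S (K * v) c s) := by
  refine ⟨fun v s => wtQ_nonneg _ _ _ _, ?_⟩
  obtain ⟨C1, h1, H1⟩ := hN
  refine ⟨C1, by positivity, fun v hv s hs => ?_⟩
  have e1 := H1 v hv s hs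
  have hpos : 0 < NSn S (K * v) c s := lt_of_lt_of_le (Real.exp_pos _) e1
  simp only [wtQ, potL]
  rw [div_le_iff₀ hpos]
  calc Real.exp (-(2 * Real.pi * |s.im|))
      = Real.exp (v * ((0 - ((K * S.rows : ℕ) : ℝ)) * Real.log v
          + 0 - potL (LS S K) (s / v))
          + (0 * s.re - 2 * Real.pi * |s.im|) + C1 * er v s)
        * Real.exp (v * ((K * S.rows : ℕ) * Real.log v + potL (LS S K) (s / v)) - C1 * er v s) := by
        rw [← Real.exp_add]
        congr 1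
        ring
    _ ≤ _ := mul_le_mul_of_nonneg_left e1 (Real.exp_pos _).le

theorem modPot_nil : ModPot [] := ⟨0, le_refl _, fun v _ s s' _ => by simp [potL]⟩

/-- `PhiR` in the generic form -/
lemma PhiR_eq' (S : Shape) (d : Data) (s : ℂ) :
    PhiR S d s = Phi (segs (d.K * S.w) d.W) (segs (d.K * S.w) d.Z) (LG S d.K) (LS S d.K)
      (Real.log 8) Real.pi s := rfl

/-- `PhiQ` in the generic form -/
lemma PhiQ_eq' (S : Shape) (d : Data) (s : ℂ) :
    PhiQ S d s = Phi (segs (d.K * S.w) d.W) (segs (d.K * S.w) d.Y) [] (LS S d.K)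
      0 (2 * Real.pi) s := by
  simp [PhiQ, Phi, potL]

/-! ### slots -/

lemma ctr_abs (S : Shape) (u : ℕ) (k : Slot S u) :
    |ctr S u k| ≤ ((S.w + S.h1 + S.e1 : ℕ) : ℝ) * u := by
  rcases k with l | l | j
  · have h : ((l : ℕ) : ℝ) + 1 ≤ (S.w * u : ℕ) := by exact_mod_cast l.2
    have h0 : (0 : ℝ) ≤ ((l : ℕ) : ℝ) := Nat.cast_nonneg _
    simp only [ctr]
    rw [abs_neg, abs_of_nonneg (by linarith)]
    push_cast at h ⊢
    have : (0 : ℝ) ≤ ((S.h1 : ℝ) + S.e1) * u := by positivity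
    nlinarith
  · have h : ((l : ℕ) : ℝ) + 1 ≤ (S.h1 * u : ℕ) := by exact_mod_cast l.2
    have h0 : (0 : ℝ) ≤ ((l : ℕ) : ℝ) := Nat.cast_nonneg _
    simp only [ctr]
    rw [abs_of_nonneg (by linarith)]
    push_cast at h ⊢
    have : (0 : ℝ) ≤ ((S.w : ℝ) + S.e1) * u := by positivity
    nlinarith
  · have h : S.w * u + 1 + (j : ℕ) ≤ S.e1 * u := by
      have := j.2
      omega
    have h' : ((S.w * u + 1 + (j : ℕ) : ℕ) : ℝ) ≤ ((S.e1 * u : ℕ) : ℝ) := by exact_mod_cast h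
    simp only [ctr]
    rw [abs_neg, abs_of_nonneg (Nat.cast_nonneg _)]
    refine h'.trans ?_
    push_cast
    have : (0 : ℝ) ≤ ((S.w : ℝ) + S.h1) * u := by positivity
    nlinarith

lemma ctr_half (S : Shape) (u : ℕ) (k : Slot S u) : ∃ n : ℤ, ctr S u k = (n : ℝ) / 2 := by
  rcases k with l | l | j
  · exact ⟨-(2 * (l : ℕ) + 1), by simp only [ctr]; push_cast; ring⟩
  · exact ⟨2 * (l : ℕ) + 1, by simp only [ctr]; push_cast; ring⟩
  · exact ⟨-(2 * (S.w * u + 1 + (j : ℕ) : ℕ)), by simp only [ctr]; push_cast; ring⟩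

lemma ord_le (S : Shape) (u : ℕ) (k : Slot S u) : ord S u k ≤ 3 := by
  rcases k with l | l | j
  · exact le_refl _
  · simp only [ord]; split_ifs <;> omega
  · simp only [ord]; split_ifs <;> omega

lemma card_slot (S : Shape) (u : ℕ) :
    (Fintype.card (Slot S u) : ℝ) ≤ ((S.w + S.h1 + S.e1 : ℕ) : ℝ) * u := by
  have : Fintype.card (Slot S u) = S.w * u + (S.h1 * u + (S.e1 * u - S.w * u)) := by
    simp [Slot]
  rw [this]
  have h : S.w * u + (S.h1 * u + (S.e1 * u - S.w * u)) ≤ (S.w + S.h1 + S.e1) * u := by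
    have : (S.w + S.h1 + S.e1) * u = S.w * u + S.h1 * u + S.e1 * u := by ring
    omega
  exact_mod_cast h

/-- the product over the slots -/
lemma prod_slots_le (S : Shape) (u : ℕ) (a : Slot S u → ℝ) (b A : ℝ) (hb : 0 ≤ b)
    (hA : ∑ k, (ord S u k : ℝ) * max 0 (a k) ≤ A) (φ : Slot S u → ℝ)
    (hφ : ∀ k, φ k ≤ Real.exp (a k + b)) :
    ∏ k, (max 1 (φ k)) ^ ord S u k ≤
      Real.exp (A + 3 * b * (((S.w + S.h1 + S.e1 : ℕ) : ℝ) * u)) := by
  have h1 : ∀ k, (max 1 (φ k)) ^ ord S u k ≤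
      Real.exp ((ord S u k : ℝ) * max 0 (a k) + 3 * b) := by
    intro k
    have h2 : max 1 (φ k) ≤ Real.exp (max 0 (a k) + b) := by
      apply max_le
      · rw [← Real.exp_zero]
        exact Real.exp_le_exp.mpr (add_nonneg (le_max_left _ _) hb)
      · refine (hφ k).trans (Real.exp_le_exp.mpr ?_)
        linarith [le_max_right 0 (a k)]
    calc (max 1 (φ k)) ^ ord S u k ≤ (Real.exp (max 0 (a k) + b)) ^ ord S u k :=
          pow_le_pow_left₀ (by positivity) h2 _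
      _ = Real.exp ((ord S u k : ℝ) * (max 0 (a k) + b)) := by rw [← Real.exp_nat_mul]
      _ ≤ _ := by
          apply Real.exp_le_exp.mpr
          have h3 : (ord S u k : ℝ) ≤ 3 := by exact_mod_cast ord_le S u k
          nlinarith
  calc ∏ k, (max 1 (φ k)) ^ ord S u k
      ≤ ∏ k, Real.exp ((ord S u k : ℝ) * max 0 (a k) + 3 * b) :=
        Finset.prod_le_prod (fun k _ => by positivity) (fun k _ => h1 k)
    _ = Real.exp (∑ k, ((ord S u k : ℝ) * max 0 (a k) + 3 * b)) := (Real.exp_sum _ _).symm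
    _ ≤ _ := by
        apply Real.exp_le_exp.mpr
        rw [Finset.sum_add_distrib, Finset.sum_const, Finset.card_univ, nsmul_eq_mul]
        have := card_slot S u
        nlinarith

/-! ### crude bound of the test polynomials -/

lemma oth_crude {n : ℕ} (w : Fin n → ℂ) {M R : ℝ} {v : ℕ} (hv : 1 ≤ v) (hM : 0 ≤ M) (hR : 0 ≤ R)
    (hw : ∀ i, ‖w i‖ ≤ M * v) (i : Fin n) {s : ℂ} (hs : ‖s‖ ≤ R * v) {A : ℝ}
    (hn : (n : ℝ) ≤ A * v) :
    oth w i s ≤ Real.exp (A * (1 + Real.log (1 + R + M)) * (v * (1 + Real.log v))) := by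
  have hv' : (1 : ℝ) ≤ v := by exact_mod_cast hv
  have hlv := log_nonneg' hv
  have hL : 0 ≤ Real.log (1 + R + M) := Real.log_nonneg (by linarith)
  have h1 : oth w i s ≤ ∏ _j ∈ Finset.univ.erase i, Real.exp (Real.log (1 + R + M) + Real.log v) := by
    unfold oth
    apply Finset.prod_le_prod (fun _ _ => norm_nonneg _)
    intro j _
    rw [Real.exp_add, Real.exp_log (by linarith), Real.exp_log (by linarith)]
    calc ‖s - w j‖ ≤ ‖s‖ + ‖w j‖ := norm_sub_le _ _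
      _ ≤ R * v + M * v := add_le_add hs (hw j)
      _ ≤ _ := by nlinarith
  refine h1.trans ?_
  rw [Finset.prod_const, ← Real.exp_nat_mul]
  apply Real.exp_le_exp.mpr
  have h2 : (((Finset.univ.erase i).card : ℕ) : ℝ) ≤ n := by
    have : (Finset.univ.erase i).card ≤ n := by
      refine (Finset.card_erase_le).trans ?_
      simp
    exact_mod_cast this
  have h3 : Real.log (1 + R + M) + Real.log v ≤ (1 + Real.log (1 + R + M)) * (1 + Real.log v) := by
    nlinarith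
  have h4 : (0 : ℝ) ≤ (1 + Real.log (1 + R + M)) * (1 + Real.log v) := by positivity
  calc (((Finset.univ.erase i).card : ℕ) : ℝ) * (Real.log (1 + R + M) + Real.log v)
      ≤ (A * v) * ((1 + Real.log (1 + R + M)) * (1 + Real.log v)) := by
        apply mul_le_mul (h2.trans hn) h3 (by positivity)
        exact le_trans (Nat.cast_nonneg _) hn
    _ = _ := by ring

end Crest.Agent.R006.P3
end

-- ▼ part R006/P3_Final_390

/-!
# Row 6, block P3: `Disc` + the leaves imply `Claim` (helper390)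
-/

set_option autoImplicit false



namespace Crest.Agent.R006.P3

open Crest.Agent.R006.D Crest.Agent.R006.Cert Crest.Agent.R006.NumSegx464
  Crest.Agent.R006.ConstX673 Complex

/-- everything `P3_Final` needs, for one shape, one certificate, one `c` -/
structure Leaves (S : Shape) (d : Data) (c : ℕ) : Prop where
  K_pos : 0 < d.K
  rows : S.q + S.g ≤ S.rows
  disc : Disc S c
  W : RefPack ((d.K : ℤ) * S.w) d.W (d.K * (S.k + S.g)) c
  Z : RefPack ((d.K : ℤ) * S.w) d.Z (d.K * S.k) 0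
  Y : RefPack ((d.K : ℤ) * S.w) d.Y (d.K * S.g) 0
  mW : ModPot (segs ((d.K : ℤ) * S.w) d.W)
  mZ : ModPot (segs ((d.K : ℤ) * S.w) d.Z)
  mY : ModPot (segs ((d.K : ℤ) * S.w) d.Y)
  mS : ModPot (LS S d.K)
  mG : ModPot (LG S d.K)
  nodes : NodesGe S d.K c
  rho : RhoLe S d.K
  sR : ∀ T : ℝ, 0 ≤ T → PhiR S d (ray S d T) ≤ (d.lR : ℝ) / d.D
  sQ : ∀ T : ℝ, 0 ≤ T → PhiQ S d (ray S d T) ≤ (d.lQ : ℝ) / d.D
  tR : Tail (fun T => PhiR S d (ray S d T)) ((d.lR : ℝ) / d.D)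
  tQ : Tail (fun T => PhiQ S d (ray S d T)) ((d.lQ : ℝ) / d.D)
  kap : KapLe S d.K c
  sym : SymPhi S d
  cells : Cells S d

lemma coef_zero (S : Shape) (K : ℕ) (h : S.q + S.g ≤ S.rows) :
    (K : ℝ) ^ 2 * kapA S
      + (K : ℝ) * S.k * (((K * (S.k + S.g) : ℕ) : ℝ) + ((K * S.k : ℕ) : ℝ) + (mG S K : ℝ)
          - ((K * S.rows : ℕ) : ℝ))
      + (K : ℝ) * S.g * (((K * (S.k + S.g) : ℕ) : ℝ) + ((K * S.g : ℕ) : ℝ) + 0
          - ((K * S.rows : ℕ) : ℝ))
      - ((((K * (S.k + S.g) : ℕ) : ℝ)) ^ 2 / 2 + (((K * S.k : ℕ) : ℝ)) ^ 2 / 2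
          + (((K * S.g : ℕ) : ℝ)) ^ 2 / 2) = 0 := by
  have hr : (S.rows : ℝ) = S.k + S.q + S.g := by
    have : S.rows = S.k + S.q + S.g := by
      unfold Shape.k; omega
    exact_mod_cast this
  unfold kapA mG
  push_cast
  rw [hr]
  ring

theorem level_bound {S : Shape} {d : Data} {c : ℕ} (H : Leaves S d c) :
    ∃ C : ℝ, 0 ≤ C ∧ ∀ v : ℕ, 1 ≤ v → ∀ r : Col S (d.K * v) → D.Row, Adm S (d.K * v) c r →
      |Polynomial.aeval GG (Minor S (d.K * v) r)| ≤
        Real.exp ((v : ℝ) ^ 2 * alphaV S d + C * (v * (1 + Real.log v))) := by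
  obtain ⟨CD, hCD, HD⟩ := H.disc
  obtain ⟨CW, MW, hCW, hMW, HW⟩ := H.W
  obtain ⟨CZ, MZ, hCZ, hMZ, HZ⟩ := H.Z
  obtain ⟨CY, MY, hCY, hMY, HY⟩ := H.Y
  obtain ⟨Ck, hCk, Hk⟩ := H.kap
  obtain ⟨Cc, hCc, Hc⟩ := H.cells
  have hWtR := wtR_Wt S d.K c H.nodes H.rho
  have hWtQ := wtQ_Wt S d.K c H.nodes
  set P1 := segs ((d.K : ℤ) * S.w) d.W with hP1
  set P2 := segs ((d.K : ℤ) * S.w) d.Z with hP2
  set P3 := segs ((d.K : ℤ) * S.w) d.Y with hP3
  set m1 : ℝ := ((d.K * (S.k + S.g) : ℕ) : ℝ) with hm1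
  set m2 : ℝ := ((d.K * S.k : ℕ) : ℝ) with hm2
  set m3 : ℝ := ((d.K * S.g : ℕ) : ℝ) with hm3
  set mN : ℝ := ((d.K * S.rows : ℕ) : ℝ) with hmN
  set lR : ℝ := (d.lR : ℝ) / d.D with hlR
  set lQ : ℝ := (d.lQ : ℝ) / d.D with hlQ
  obtain ⟨CR, hCR, HR⟩ := ray_gen S d P1 P2 (LG S d.K) (LS S d.K) m1 m2 (mG S d.K) mN
    (Real.log 8) Real.pi lR CW CZ hCW hCZ _ hWtR H.mW H.mZ H.mG H.mS H.sR H.tR
    (fun s => (H.sym s).1)
  obtain ⟨CQ, hCQ, HQ⟩ := ray_gen S d P1 P3 [] (LS S d.K) m1 m3 0 mN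
    0 (2 * Real.pi) lQ CW CY hCW hCY _ hWtQ H.mW H.mY modPot_nil H.mS
    (fun T hT => by rw [← PhiQ_eq']; exact H.sQ T hT)
    (by have := H.tQ; simpa only [PhiQ_eq'] using this)
    (fun s => by rw [← PhiQ_eq', ← PhiQ_eq']; exact (H.sym s).2)
  -- the circles
  set Rs : ℝ := ((S.w + S.h1 + S.e1 : ℕ) : ℝ) * d.K with hRs
  have hRs0 : 0 ≤ Rs := by positivity
  obtain ⟨Cm, hCm, Hm⟩ := circW_gen P1 m1 CW Rs hCW hRs0 H.mW
  obtain ⟨Cr, hCr, Hr⟩ := circZ_gen P1 P2 (LG S d.K) (LS S d.K) m2 (mG S d.K) mN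
    (Real.log 8) Real.pi CZ Rs hCZ hRs0 _ hWtR H.mW H.mZ H.mG H.mS
  obtain ⟨Cq, hCq, Hq⟩ := circZ_gen P1 P3 [] (LS S d.K) m3 0 mN
    0 (2 * Real.pi) CY Rs hCY hRs0 _ hWtQ H.mW H.mY modPot_nil H.mS
  -- units
  set Ru : ℝ := ((S.B + S.e1 + S.h1 + S.w + 1 : ℕ) : ℝ) * d.K + c + 1 with hRu
  have hRu0 : 0 ≤ Ru := by positivity
  set A : ℝ := ((d.K * (S.k + S.g) + c : ℕ) : ℝ) with hA
  have hA0 : 0 ≤ A := by positivity
  set CH : ℝ := A * (1 + Real.log (1 + Ru + MW)) with hCH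
  have hCH0 : 0 ≤ CH := by
    have : 0 ≤ Real.log (1 + Ru + MW) := Real.log_nonneg (by linarith)
    positivity
  have hKr : (1 : ℝ) ≤ d.K := by exact_mod_cast H.K_pos
  have hlogK : 0 ≤ Real.log (d.K : ℝ) := Real.log_nonneg hKr
  set Ct : ℝ := CD * (d.K * (1 + Real.log d.K)) + Ck + d.K * S.k * CR + d.K * S.g * CQ + c * CH
    + (Cc + 3 * (Cm + (Cr + Cq)) * (((S.w + S.h1 + S.e1 : ℕ) : ℝ) * d.K)) + (CW + CZ + CY) with hCt
  refine ⟨Ct, by positivity, fun v hv r hr => ?_⟩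
  have hv' : (1 : ℝ) ≤ v := by exact_mod_cast hv
  have hv0 : (0 : ℝ) < v := by linarith
  have hLv := log_nonneg' hv
  set L := Real.log (v : ℝ) with hL
  obtain ⟨w, hwi, hwM, hwV, hwO⟩ := HW v hv
  obtain ⟨z, hzi, hzM, hzV, hzO⟩ := HZ v hv
  obtain ⟨y, hyi, hyM, hyV, hyO⟩ := HY v hv
  have hu : 1 ≤ d.K * v := Nat.mul_pos H.K_pos hv
  -- the levels
  set aR : ℝ := m1 + m2 + (mG S d.K : ℝ) - mN with haR
  set aQ : ℝ := m1 + m3 + 0 - mN with haQ
  set LR : ℝ := Real.exp (v * lR + aR * (v * L) + CR * (1 + L)) with hLR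
  set LQ : ℝ := Real.exp (v * lQ + aQ * (v * L) + CQ * (1 + L)) with hLQ
  set HH : ℝ := Real.exp (CH * (v * (1 + L))) with hHH
  set xk : Slot S (d.K * v) → ℝ := fun k => ctr S (d.K * v) k / v with hxk
  set μ : Slot S (d.K * v) → ℝ := fun k =>
    Real.exp (v * (m1 * L + potL P1 ((xk k : ℝ) : ℂ)) + Cm * (1 + L)) with hμ
  set ν : Slot S (d.K * v) → ℝ := fun k =>
    Real.exp (-(v * (m1 * L + potL P1 ((xk k : ℝ) : ℂ))) + v * slotG S d (xk k)
      + (Cr + Cq) * (1 + L)) with hν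
  have hctr : ∀ k : Slot S (d.K * v), |ctr S (d.K * v) k| ≤ Rs * v := by
    intro k
    have := ctr_abs S (d.K * v) k
    push_cast at this ⊢
    rw [hRs]; push_cast
    linarith
  have key := HD (d.K * v) hu r hr (Fin _) (Fin _) (Fin _) w z y hwi hzi hyi
    (by rw [Fintype.card_fin]; ring) (by rw [Fintype.card_fin]; ring)
    (by rw [Fintype.card_fin]; ring) LR LQ HH μ ν (Real.exp_pos _) (Real.exp_pos _)
    (Real.exp_pos _) (fun k => Real.exp_pos _) (fun k => (Real.exp_pos _).le)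
    (fun i j t ht e he => HR v hv w z hwO hzO i j t ht e he)
    (fun i j t ht e he => HQ v hv w y hwO hyO i j t ht e he)
    (fun k i s hs => Hm v hv w hwO i _ (hctr k) s hs)
    (fun k j s hs => by
      refine (Hr v hv z hzO j _ (hctr k) (ctr_half _ _ k) s hs).trans ?_
      simp only [hν, hLR]
      rw [← Real.exp_add]
      apply Real.exp_le_exp.mpr
      have h1 : PhiR S d ((xk k : ℝ) : ℂ) ≤ slotG S d (xk k) + lR := by
        have := le_max_left (PhiR S d ((xk k : ℝ) : ℂ) - lR) (PhiQ S d ((xk k : ℝ) : ℂ) - lQ)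
        unfold slotG
        linarith
      have h2 := mul_le_mul_of_nonneg_left h1 hv0.le
      rw [PhiR_eq'] at h2
      have h3 : (0 : ℝ) ≤ (Cq + CR) * (1 + L) := by positivity
      simp only [hxk] at h2 ⊢
      simp only [haR]
      linarith only [h2, h3])
    (fun k j s hs => by
      refine (Hq v hv y hyO j _ (hctr k) (ctr_half _ _ k) s hs).trans ?_
      simp only [hν, hLQ]
      rw [← Real.exp_add]
      apply Real.exp_le_exp.mpr
      have h1 : PhiQ S d ((xk k : ℝ) : ℂ) ≤ slotG S d (xk k) + lQ := by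
        have := le_max_right (PhiR S d ((xk k : ℝ) : ℂ) - lR) (PhiQ S d ((xk k : ℝ) : ℂ) - lQ)
        unfold slotG
        linarith
      have h2 := mul_le_mul_of_nonneg_left h1 hv0.le
      rw [PhiQ_eq'] at h2
      have h3 : (0 : ℝ) ≤ (Cr + CQ) * (1 + L) := by positivity
      simp only [hxk] at h2 ⊢
      simp only [haQ]
      linarith only [h2, h3])
    (fun i s hs => by
      have hsR : ‖s‖ ≤ Ru * v := by
        refine hs.trans ?_
        rw [hRu]
        push_cast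
        have : (0 : ℝ) ≤ ((c : ℝ) + 1) * (v - 1) :=
          mul_nonneg (by positivity) (by linarith only [hv'])
        linarith only [this]
      have hn : (((d.K * (S.k + S.g) * v + c : ℕ) : ℕ) : ℝ) ≤ A * v := by
        rw [hA]
        push_cast
        have : (0 : ℝ) ≤ (c : ℝ) * (v - 1) :=
          mul_nonneg (by positivity) (by linarith only [hv'])
        linarith only [this]
      exact oth_crude w hv hMW hRu0 hwM i hsR hn)
  -- the slots
  have hslots : ∏ k, (max 1 (μ k * ν k)) ^ ord S (d.K * v) k ≤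
      Real.exp (((v : ℝ) ^ 2 * ((slot2 S d : ℝ) / (2 * d.D)) + Cc * v)
        + 3 * ((Cm + (Cr + Cq)) * (1 + L)) * (((S.w + S.h1 + S.e1 : ℕ) : ℝ) * ((d.K * v : ℕ) : ℝ))) := by
    apply prod_slots_le S (d.K * v) (fun k => v * slotG S d (xk k)) _ _ (by positivity)
      (Hc v hv)
    intro k
    simp only [hμ, hν]
    rw [← Real.exp_add]
    apply Real.exp_le_exp.mpr
    apply le_of_eq; ring
  -- kappa
  have hkap : Real.exp (logV S (d.K * v) c) / kden S (d.K * v) ≤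
      Real.exp ((v : ℝ) ^ 2 * ((d.K : ℝ) ^ 2 * kapA S * L
        + (selfE (LS S d.K) - (d.K : ℝ) ^ 2 * (NL S + NC S * Real.log d.K)))
        + Ck * (v * (1 + L))) := by
    have hk := kden_pos S (d.K * v)
    have e : Real.exp (logV S (d.K * v) c) / kden S (d.K * v) =
        Real.exp (logV S (d.K * v) c - Real.log (kden S (d.K * v))) := by
      rw [Real.exp_sub, Real.exp_log hk]
    rw [e]
    exact Real.exp_le_exp.mpr (Hk v hv)
  -- the right side
  have hLRp : LR ^ (S.k * (d.K * v)) =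
      Real.exp ((d.K * S.k : ℝ) * (v * (v * lR + aR * (v * L) + CR * (1 + L)))) := by
    rw [hLR, ← Real.exp_nat_mul]
    congr 1; push_cast; ring
  have hLQp : LQ ^ (S.g * (d.K * v)) =
      Real.exp ((d.K * S.g : ℝ) * (v * (v * lQ + aQ * (v * L) + CQ * (1 + L)))) := by
    rw [hLQ, ← Real.exp_nat_mul]
    congr 1; push_cast; ring
  have hHp : HH ^ c = Real.exp ((c : ℝ) * (CH * (v * (1 + L)))) := by
    rw [hHH, ← Real.exp_nat_mul]
  have hDp : Real.exp (CD * (((d.K * v : ℕ) : ℝ) * (1 + Real.log ((d.K * v : ℕ) : ℝ)))) ≤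
      Real.exp (CD * (d.K * (1 + Real.log d.K)) * (v * (1 + L))) := by
    apply Real.exp_le_exp.mpr
    have e : Real.log ((d.K * v : ℕ) : ℝ) = Real.log d.K + L := by
      push_cast
      rw [Real.log_mul (by linarith) (by linarith)]
    rw [e]
    have h1 : 1 + (Real.log (d.K : ℝ) + L) ≤ (1 + Real.log d.K) * (1 + L) := by
      have := mul_nonneg hlogK hLv
      linarith only [this]
    have h2 : (((d.K * v : ℕ) : ℝ) * (1 + (Real.log (d.K : ℝ) + L))) ≤
        (d.K * v) * ((1 + Real.log d.K) * (1 + L)) := by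
      push_cast
      exact mul_le_mul_of_nonneg_left h1 (by positivity)
    calc _ ≤ CD * ((d.K * v) * ((1 + Real.log d.K) * (1 + L))) :=
          mul_le_mul_of_nonneg_left h2 hCD
      _ = _ := by ring
  set X : ℝ := |Polynomial.aeval GG (Minor S (d.K * v) r)| with hX
  have hX0 : 0 ≤ X := abs_nonneg _
  have hVV : Real.exp (((v : ℝ) ^ 2 * (m1 ^ 2 / 2 * L + selfE P1) - CW * (v * (1 + L)))
        + ((v : ℝ) ^ 2 * (m2 ^ 2 / 2 * L + selfE P2) - CZ * (v * (1 + L)))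
        + ((v : ℝ) ^ 2 * (m3 ^ 2 / 2 * L + selfE P3) - CY * (v * (1 + L))))
      ≤ vdm w * vdm z * vdm y := by
    rw [Real.exp_add, Real.exp_add]
    exact mul_le_mul (mul_le_mul hwV hzV (Real.exp_pos _).le (Real.exp_pos _).le) hyV
      (Real.exp_pos _).le (mul_nonneg (Real.exp_pos _).le (Real.exp_pos _).le)
  have hmain : X * Real.exp (((v : ℝ) ^ 2 * (m1 ^ 2 / 2 * L + selfE P1) - CW * (v * (1 + L)))
        + ((v : ℝ) ^ 2 * (m2 ^ 2 / 2 * L + selfE P2) - CZ * (v * (1 + L)))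
        + ((v : ℝ) ^ 2 * (m3 ^ 2 / 2 * L + selfE P3) - CY * (v * (1 + L)))) ≤
      Real.exp (CD * (d.K * (1 + Real.log d.K)) * (v * (1 + L))) *
        Real.exp ((v : ℝ) ^ 2 * ((d.K : ℝ) ^ 2 * kapA S * L
          + (selfE (LS S d.K) - (d.K : ℝ) ^ 2 * (NL S + NC S * Real.log d.K)))
          + Ck * (v * (1 + L))) *
        Real.exp ((d.K * S.k : ℝ) * (v * (v * lR + aR * (v * L) + CR * (1 + L)))) *
        Real.exp ((d.K * S.g : ℝ) * (v * (v * lQ + aQ * (v * L) + CQ * (1 + L)))) *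
        Real.exp ((c : ℝ) * (CH * (v * (1 + L)))) *
        Real.exp (((v : ℝ) ^ 2 * ((slot2 S d : ℝ) / (2 * d.D)) + Cc * v)
          + 3 * ((Cm + (Cr + Cq)) * (1 + L)) * (((S.w + S.h1 + S.e1 : ℕ) : ℝ) * ((d.K * v : ℕ) : ℝ))) := by
    refine (mul_le_mul_of_nonneg_left hVV hX0).trans (key.trans ?_)
    rw [hLRp, hLQp, hHp]
    have h0 : 0 ≤ Real.exp (logV S (d.K * v) c) / kden S (d.K * v) :=
      div_nonneg (Real.exp_pos _).le (kden_pos _ _).le
    have hprod0 : 0 ≤ ∏ k, (max 1 (μ k * ν k)) ^ ord S (d.K * v) k :=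
      Finset.prod_nonneg fun k _ => by positivity
    gcongr
  have hfin : X ≤ Real.exp ((CD * (d.K * (1 + Real.log d.K)) * (v * (1 + L))) +
        ((v : ℝ) ^ 2 * ((d.K : ℝ) ^ 2 * kapA S * L
          + (selfE (LS S d.K) - (d.K : ℝ) ^ 2 * (NL S + NC S * Real.log d.K)))
          + Ck * (v * (1 + L))) +
        ((d.K * S.k : ℝ) * (v * (v * lR + aR * (v * L) + CR * (1 + L)))) +
        ((d.K * S.g : ℝ) * (v * (v * lQ + aQ * (v * L) + CQ * (1 + L)))) +
        ((c : ℝ) * (CH * (v * (1 + L)))) +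
        (((v : ℝ) ^ 2 * ((slot2 S d : ℝ) / (2 * d.D)) + Cc * v)
          + 3 * ((Cm + (Cr + Cq)) * (1 + L)) * (((S.w + S.h1 + S.e1 : ℕ) : ℝ) * ((d.K * v : ℕ) : ℝ)))
        - (((v : ℝ) ^ 2 * (m1 ^ 2 / 2 * L + selfE P1) - CW * (v * (1 + L)))
        + ((v : ℝ) ^ 2 * (m2 ^ 2 / 2 * L + selfE P2) - CZ * (v * (1 + L)))
        + ((v : ℝ) ^ 2 * (m3 ^ 2 / 2 * L + selfE P3) - CY * (v * (1 + L))))) := by
    rw [Real.exp_sub, le_div_iff₀ (Real.exp_pos _)]
    refine hmain.trans (le_of_eq ?_)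
    rw [← Real.exp_add, ← Real.exp_add, ← Real.exp_add, ← Real.exp_add, ← Real.exp_add]
  refine hfin.trans (Real.exp_le_exp.mpr ?_)
  have hcoef := coef_zero S d.K H.rows
  rw [← hm1, ← hm2, ← hm3, ← hmN] at hcoef
  have hcoef' : (v : ℝ) ^ 2 * L * ((d.K : ℝ) ^ 2 * kapA S + (d.K : ℝ) * S.k * aR
      + (d.K : ℝ) * S.g * aQ - (m1 ^ 2 / 2 + m2 ^ 2 / 2 + m3 ^ 2 / 2)) = 0 := by
    rw [haR, haQ, hcoef, mul_zero]
  have halpha : alphaV S d = selfE (LS S d.K) - ((d.K : ℝ) ^ 2 * (NL S + NC S * Real.log d.K))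
      + (d.K * S.k : ℝ) * lR + (d.K * S.g : ℝ) * lQ + (slot2 S d : ℝ) / (2 * d.D)
      - selfE P1 - selfE P2 - selfE P3 := by
    rw [hlR, hlQ, hP1, hP2, hP3]
    unfold alphaV
    push_cast
    ring
  rw [halpha, hCt]
  have hcv : Cc * v ≤ Cc * (v * (1 + L)) := by
    apply mul_le_mul_of_nonneg_left _ hCc
    have := mul_nonneg hv0.le hLv
    linarith only [this]
  push_cast at hcv hcoef' ⊢
  linarith only [hcv, hcoef']

/-- **the interface** -/
theorem archK_of_leaves {S : Shape} {d : Data} {c : ℕ} (H : Leaves S d c) :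
    ArchK S c d.K (alphaV S d / (d.K : ℝ) ^ 2) := by
  obtain ⟨C, hC, HC⟩ := level_bound H
  intro δ hδ
  have hKr : (0 : ℝ) < d.K := by exact_mod_cast H.K_pos
  have h1 : ∀ᶠ v : ℕ in Filter.atTop, ef v ≤ (δ * (d.K : ℝ) ^ 2 / (C + 1)) * (v : ℝ) ^ 2 :=
    ef_le (by positivity)
  filter_upwards [h1, Filter.eventually_ge_atTop 1] with v hv hv1 r hr
  refine (HC v hv1 r hr).trans (Real.exp_le_exp.mpr ?_)
  have hv' : (1 : ℝ) ≤ v := by exact_mod_cast hv1
  have hef : ef v = (v : ℝ) * (1 + Real.log v) := rfl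
  rw [hef] at hv
  have h2 : 0 ≤ (v : ℝ) * (1 + Real.log v) := by
    have := log_nonneg' hv1
    positivity
  have h3 : C * (v * (1 + Real.log v)) ≤ δ * (d.K : ℝ) ^ 2 * (v : ℝ) ^ 2 := by
    calc C * (v * (1 + Real.log v)) ≤ (C + 1) * (v * (1 + Real.log v)) := by nlinarith
      _ ≤ (C + 1) * ((δ * (d.K : ℝ) ^ 2 / (C + 1)) * (v : ℝ) ^ 2) :=
          mul_le_mul_of_nonneg_left hv (by positivity)
      _ = _ := by field_simp
  push_cast
  have e : (alphaV S d / (d.K : ℝ) ^ 2 + δ) * ((d.K : ℝ) * v) ^ 2 =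
      (v : ℝ) ^ 2 * alphaV S d + δ * (d.K : ℝ) ^ 2 * (v : ℝ) ^ 2 := by
    field_simp
  rw [e]
  linarith

end Crest.Agent.R006.P3
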