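import Crest.Agent.R006.P3_Fin2_576
import Crest.Agent.R006.RepQ_186
import Crest.Agent.R006.P3_DiscFin_819_Mg
import Crest.Agent.R006.P3_RefW_943
import Crest.Agent.R006.P3_Leaf_390
import Crest.Agent.R006.NumBr_464
import Crest.Agent.R006.P3_PotW_943
import Crest.Agent.R006.P3_Const2_673
import Crest.Agent.R006.Cert_112
import Crest.Agent.R006.P3_PotN_673
import Crest.Agent.R006.Bord_929
import Crest.Agent.R006.VmatVal_340
import Mathlib
import Crest.Agent.R006.P9_SF_481
import Crest.Agent.R006.P3_Pot2_943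
import Crest.Agent.R006.P3_PotV_943
import Crest.Agent.R006.OKRay_464
import Crest.Agent.R006.OKReal_464
import Crest.Agent.R006.P3_AlphaN_103
import Crest.Agent.R006.P3_Final_390

-- ▼ part R006/P3_Fin3_186
section

/-!
# Row 6, P3: the `Q`-side formula on 257's functional (helper186)

`BQ P f = -( ∑_{l<X0} ∮_{ce l} Φ_Qw + ∑_{l<h1 u} ∮_{l+1/2} Φ_Qw - ∑_{X0<m≤e1 u} ∮_{-m} Φ_Q + rays Φ_Q )`,
`Φ_Q = JQ f P/ω_S`, `Φ_Qw = (JQ - 2 gL) f P/ω_S`.
-/

set_option autoImplicit false

open Complex MeasureTheory Set Filter Topology Polynomial Metric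
open scoped Real

noncomputable section

namespace Crest.Agent.R006.Fin576

open Crest.Agent.R006.Base724 Crest.Agent.R006.Tail516 Crest.Agent.R006.P3Slot
open Crest.Agent.R006

variable (S : D.Shape) (u c : ℕ)

/-- `Φ_Q = JQ · f · P / ω_S` -/
def PhiQf (P f : ℂ[X]) (s : ℂ) : ℂ :=
  P3.JQ s * (f.eval s * P.eval s / (P3.om S u c).eval s)

/-- `Φ_Qw = (JQ - 2 gL) · f · P / ω_S` -/
def PhiQwf (P f : ℂ[X]) (s : ℂ) : ℂ :=
  (P3.JQ s - 2 * P3.gL s) * (f.eval s * P.eval s / (P3.om S u c).eval s)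

lemma sum_W (g : ℂ → ℂ) :
    ∑ i ∈ (nodes S u c).W, g ((nodes S u c).z i) = ∑ k ∈ Finset.range (S.w * u), g (PsiJ.ce k) := by
  symm
  refine Finset.sum_bij (fun k hk => wN S u c (Finset.mem_range.mp hk)) ?_ ?_ ?_ ?_
  · intro k hk
    rw [mem_W]
    show -(k : ℤ) - 1 < 0
    omega
  · intro a _ b _ h
    have h1 := congrArg (fun x : (nodes S u c).A => x.1) h
    simp only [wN, D.Site.H.injEq] at h1
    omega
  · intro i hi
    obtain ⟨k, hk, rfl⟩ := exists_wN S u c hi
    exact ⟨k, Finset.mem_range.mpr hk, rfl⟩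
  · intro k hk
    rw [z_wN]

lemma om_root {s : ℂ} (h : (P3.om S u c).eval s = 0) : ∃ i, s = (nodes S u c).z i := by
  by_contra hcon
  push Not at hcon
  rw [← om_eq] at h
  exact G1x186.NS_eval_ne hcon h

lemma om_halfRoots : HalfRoots (P3.om S u c) := by
  intro z hz
  obtain ⟨i, rfl⟩ := om_root S u c hz
  exact ⟨dbl i.1, z_eq _ i⟩

lemma om_monic : (P3.om S u c).Monic := Lam.NS_monic _ _

lemma natDegree_om : (P3.om S u c).natDegree = S.rows * u + c := by
  rw [← om_eq, Lam.natDegree_NS, sum_mul_nodes]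

variable {S} in
lemma om_neg_ne (hS : S.Good) {m : ℕ} (hm : S.e1 * u < m) : (P3.om S u c).eval (-(m : ℂ)) ≠ 0 := by
  intro h
  obtain ⟨i, hi⟩ := om_root S u c h
  have h1 : i.1 = D.Site.Z (-(m : ℤ)) := by
    by_contra hne
    have := val_dist hne
    have h2 : ((((D.Site.Z (-(m : ℤ))).val : ℚ)) : ℂ) = -(m : ℂ) := by
      simp [D.Site.val]
    rw [h2, hi] at this
    unfold Nodes.z at this
    rw [sub_self, norm_zero] at this
    linarith
  exact freeLeft u c hS m hm (h1 ▸ i.2)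

/-- no node near `ce l` for `l ≥ w u` -/
lemma far_ce {l : ℕ} (hl : S.w * u ≤ l) (i : (nodes S u c).A) :
    1 / 4 < ‖PsiJ.ce l - (nodes S u c).z i‖ := by
  have hne : D.Site.H (-(l : ℤ) - 1) ≠ i.1 := by
    intro h
    have hm := (mem_nodes S u c).mp i.2
    rw [← h] at hm
    have h' : ¬ (0 : ℤ) ≤ -(l : ℤ) - 1 := by omega
    simp only [D.Shape.mult, h', if_false] at hm
    have h2 : ¬ (-(-(l : ℤ) - 1) ≤ (S.w : ℤ) * u) := by
      have : ((S.w * u : ℕ) : ℤ) ≤ l := by exact_mod_cast hl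
      push_cast at this
      omega
    rw [if_neg h2] at hm
    exact hm rfl
  have h1 := val_dist hne
  have h3 : ((((D.Site.H (-(l : ℤ) - 1)).val : ℚ)) : ℂ) = PsiJ.ce l := by
    unfold PsiJ.ce
    simp [D.Site.val]
    ring
  rw [h3] at h1
  unfold Nodes.z
  linarith

lemma gL_diffOn (l : ℕ) : DifferentiableOn ℂ (fun s => 2 * G1x186.g1L s)
    (closedBall (PsiJ.ce l) (1 / 4)) := by
  intro s hs
  rw [mem_closedBall, dist_eq_norm] at hs
  have := PsiJ.re_le_of_mem (l := l) (s := s) hs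
  exact ((G1x186.differentiableAt_g1L (by linarith)).const_mul 2).differentiableWithinAt

/-- continuity of the rational function on the slot circles -/
lemma contOn_frac (P f : ℂ[X]) {y : ℂ} (hy : ∃ k : ℤ, y = (k : ℂ) / 2) :
    ContinuousOn (fun s => f.eval s * P.eval s / (P3.om S u c).eval s) (sphere y (1 / 4)) := by
  intro s hs
  rw [mem_sphere_iff_norm] at hs
  have h0 : (P3.om S u c).eval s ≠ 0 := by
    intro h
    obtain ⟨i, hi⟩ := om_root S u c h
    exact sphere_ne_node _ hy hs i hi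
  exact ((f.continuousAt.mul P.continuousAt).div (P3.om S u c).continuousAt h0).continuousWithinAt

variable {S} in
/-- **REP, `Q`-side, on 257's functional.** -/
theorem BQ_formula (hS : S.Good) (P f : ℂ[X]) (hP : P.natDegree + f.natDegree < S.rows * u + c)
    (X0 : ℕ) (hX : S.w * u ≤ X0) {a : ℝ} (ha : 0 < a) (ha3 : a ^ 2 ≤ 3) :
    P3.BQ S u c P f = -(∑ l ∈ Finset.range X0, ci (PsiJ.ce l) (1 / 4) (PhiQwf S u c P f) +
      ∑ l ∈ Finset.range (S.h1 * u), ci (Base724.star l) (1 / 4) (PhiQwf S u c P f) -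
      ∑ m ∈ Finset.Ioc X0 (S.e1 * u), ci (-(m : ℂ)) (1 / 4) (PhiQf S u c P f) +
      (2 * π * I)⁻¹ * rays X0 a (PhiQf S u c P f)) := by
  have hnat : (f * P).natDegree < S.rows * u + c := by
    refine lt_of_le_of_lt natDegree_mul_le ?_
    omega
  have hdeg : (f * P).degree < (∑ i, (nodes S u c).mul i : ℕ) := by
    rw [sum_mul_nodes]
    refine lt_of_le_of_lt degree_le_natDegree ?_
    exact_mod_cast hnat
  have h1 := G1x186.repQ (nodes S u c) hdeg (mul_St_ne u c)
  have h2 := tail_g_sites (P := f * P) (om_monic S u c).ne_zero (om_halfRoots S u c)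
    (by rw [natDegree_om]; exact hnat) X0 (S.e1 * u) (fun m hm => om_neg_ne u c hS hm) ha ha3
  have h3 := h2.mul_left ((2 * π * I : ℂ)⁻¹)
  rw [om_eq] at h1
  have h4 := split_off (f := fun l => (2 * (Real.pi : ℂ) * Complex.I)⁻¹ * ∮ s in C(PsiJ.ce l, 1 / 4),
      G1x186.J1 s * (f.eval s * P.eval s / (P3.om S u c).eval s)) X0 h1 (B := _) (by
    refine h3.congr_fun ?_
    intro l
    simp only [eval_mul])
  have h5 : P3.BQ S u c P f = P3.lamQ S u c P f := rfl
  rw [h5, lamQ_eq]
  -- w-nodes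
  have hW : (∑ i ∈ (nodes S u c).W, (2 * (Real.pi : ℂ) * Complex.I)⁻¹ *
      ∮ s in C((nodes S u c).z i, 1 / 4), 2 * G1x186.g1L s *
        (f.eval s * P.eval s / (P3.om S u c).eval s)) =
      ∑ l ∈ Finset.range X0, (2 * (Real.pi : ℂ) * Complex.I)⁻¹ *
      ∮ s in C(PsiJ.ce l, 1 / 4), 2 * G1x186.g1L s *
        (f.eval s * P.eval s / (P3.om S u c).eval s) := by
    rw [sum_W S u c (fun y => (2 * (Real.pi : ℂ) * Complex.I)⁻¹ * ∮ s in C(y, 1 / 4),
      2 * G1x186.g1L s * (f.eval s * P.eval s / (P3.om S u c).eval s))]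
    apply Finset.sum_subset
    · intro l hl
      rw [Finset.mem_range] at hl ⊢
      omega
    · intro l _ hl
      rw [Finset.mem_range, not_lt] at hl
      have h6 := G1x186.circle_zero (z := (nodes S u c).z) (m := (nodes S u c).mul)
        (far_ce S u c hl) (gL_diffOn l) (f * P)
      have h7 : (∮ s in C(PsiJ.ce l, 1 / 4), 2 * G1x186.g1L s *
          (f.eval s * P.eval s / (P3.om S u c).eval s)) = 0 := by
        rw [← h6]
        refine circleIntegral.integral_congr (by norm_num) fun s _ => ?_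
        simp only [G1x186.dens, om_eq, eval_mul]
      rw [h7, mul_zero]
  -- stars
  have hSt : (∑ i ∈ (nodes S u c).St, (2 * (Real.pi : ℂ) * Complex.I)⁻¹ *
      ∮ s in C((nodes S u c).z i, 1 / 4), (G1x186.J1 s - 2 * G1x186.g1L s) *
        (f.eval s * P.eval s / (P3.om S u c).eval s)) =
      ∑ l ∈ Finset.range (S.h1 * u), ci (Base724.star l) (1 / 4) (PhiQwf S u c P f) := by
    rw [sum_St u c hS (fun y => (2 * (Real.pi : ℂ) * Complex.I)⁻¹ * ∮ s in C(y, 1 / 4),
      (G1x186.J1 s - 2 * G1x186.g1L s) * (f.eval s * P.eval s / (P3.om S u c).eval s))]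
    rfl
  -- the circles at the sites
  have hS2 : ∑ l ∈ Finset.range X0, ci (PsiJ.ce l) (1 / 4) (PhiQwf S u c P f) =
      (∑ l ∈ Finset.range X0, (2 * (Real.pi : ℂ) * Complex.I)⁻¹ * ∮ s in C(PsiJ.ce l, 1 / 4),
        G1x186.J1 s * (f.eval s * P.eval s / (P3.om S u c).eval s)) -
      ∑ l ∈ Finset.range X0, (2 * (Real.pi : ℂ) * Complex.I)⁻¹ *
      ∮ s in C(PsiJ.ce l, 1 / 4), 2 * G1x186.g1L s *
        (f.eval s * P.eval s / (P3.om S u c).eval s) := by
    rw [← Finset.sum_sub_distrib]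
    refine Finset.sum_congr rfl fun l _ => ?_
    have hc := contOn_frac S u c P f (ce_half l)
    have i1 : CircleIntegrable (fun s => G1x186.J1 s *
        (f.eval s * P.eval s / (P3.om S u c).eval s)) (PsiJ.ce l) (1 / 4) := by
      have := (G1x186.J1_cont_sphere l).mul hc
      exact ContinuousOn.circleIntegrable (by norm_num) this
    have i2 : CircleIntegrable (fun s => 2 * G1x186.g1L s *
        (f.eval s * P.eval s / (P3.om S u c).eval s)) (PsiJ.ce l) (1 / 4) := by
      have := ((gL_diffOn l).continuousOn.mono sphere_subset_closedBall).mul hc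
      exact ContinuousOn.circleIntegrable (by norm_num) this
    unfold ci
    rw [← mul_sub, ← circleIntegral.integral_sub i1 i2]
    congr 1
    refine circleIntegral.integral_congr (by norm_num) fun s _ => ?_
    simp only [PhiQwf, P3.JQ, P3.gL]
    ring
  rw [hW, hSt] at h4
  have h8 : (2 * π * I : ℂ)⁻¹ * (rays X0 a (fun z => G1x186.J1 z * ((f * P).eval z /
      (P3.om S u c).eval z)) - ∑ m ∈ Finset.Ioc X0 (S.e1 * u), ∮ z in C(-(m : ℂ), 1 / 4),
        G1x186.J1 z * ((f * P).eval z / (P3.om S u c).eval z)) =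
      (2 * π * I)⁻¹ * rays X0 a (PhiQf S u c P f) -
        ∑ m ∈ Finset.Ioc X0 (S.e1 * u), ci (-(m : ℂ)) (1 / 4) (PhiQf S u c P f) := by
    rw [mul_sub, Finset.mul_sum]
    have e1 : (fun z => G1x186.J1 z * ((f * P).eval z / (P3.om S u c).eval z)) =
        PhiQf S u c P f := by
      funext z
      rw [eval_mul]
      rfl
    rw [e1]
    rfl
  rw [h8] at h4
  rw [hS2]
  linear_combination -h4

end Crest.Agent.R006.Fin576
end
end

-- ▼ part R006/P3_DiscPf_257
section

/-!
# Row 6, block P3: the discrete inequality (helper257)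

`Disc_holds : S.Good → Disc S c`.
-/

set_option autoImplicit false

open Complex

namespace Crest.Agent.R006.P3

open Polynomial Metric Crest.Agent.R006.D Crest.Agent.R006.Bord

/-- **the contour representation of the `Q`-functional** -/
theorem repQ {S : Shape} (hS : S.Good) (u c : ℕ) : RepQ S u c := by
  refine repQ_of u c fun P f hP => ?_
  exact Fin576.BQ_formula u c hS P f (by omega) (S.w * u) le_rfl (a := 1) one_pos (by norm_num)

/-- **the inequality at fixed `u`** -/
theorem fixed_bound {S : Shape} (hS : S.Good) : FixedBound S := by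
  intro u c r h W Z Y hW hZ hY B LR LQ LU μ ν hB hLR hLQ hLU hμ hν hrR hrQ hcW hcR hcQ hcQ' hu
  exact fixed_bound_of hS u c (repR hS u c) (repQ hS u c) (holR hS u c) (holQ hS u c) r h W Z Y
    hW hZ hY B LR LQ LU μ ν hB hLR hLQ hLU hμ hν hrR hrQ hcW hcR hcQ hcQ' hu

/-- **the discrete inequality** -/
theorem Disc_holds {S : Shape} (hS : S.Good) (c : ℕ) : Disc S c := disc_of hS c (fixed_bound hS)

end Crest.Agent.R006.P3
end

-- ▼ part R006/P3_RefPackA_943
section

/-! Row 6, block P3, LEAF REF, abstract part (helper943): `RefPack` from a family `F` with the right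
potential and energy. -/

set_option autoImplicit false

namespace Crest.Agent.R006.P3

open Crest.Agent.R006.D Crest.Agent.R006.Cert Crest.Agent.R006.NumSegx464
  Crest.Agent.R006.Potx943

theorem oth_comp943 {ι κ : Type} [Fintype ι] [DecidableEq ι] [Fintype κ] [DecidableEq κ] (e : κ ≃ ι)
    (w : ι → ℂ) (i : κ) (s : ℂ) : oth (w ∘ e) i s = oth w (e i) s := by
  unfold oth
  apply Finset.prod_bij (fun j _ => e j)
  · intro j hj
    rw [Finset.mem_erase] at hj ⊢
    exact ⟨fun h => hj.1 (e.injective h), Finset.mem_univ _⟩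
  · intro a _ b _ h
    exact e.injective h
  · intro b hb
    refine ⟨e.symm b, ?_, by simp⟩
    rw [Finset.mem_erase] at hb ⊢
    refine ⟨fun h => hb.1 ?_, Finset.mem_univ _⟩
    rw [← h]; simp
  · intro j _
    rfl

theorem vdm_comp943 {ι κ : Type} [Fintype ι] [Fintype κ] (e : κ ≃ ι) (w : ι → ℂ) :
    vdm (w ∘ e) = vdm w := by
  unfold vdm
  congr 2
  unfold Potx943.LE
  rw [← Equiv.sum_comp e]
  apply Finset.sum_congr rfl
  intro x _
  rw [← Equiv.sum_comp e]
  rfl

theorem refPack_of {r : ℕ} (F : Fin r → Fam) (hd : ∀ f, (F f).d ≠ 0) (hmu : ∀ f, (F f).mu = 1)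
    {ρ : ℝ} (hρ : 0 < ρ) (hsep : Sep F ρ) {W0 : ℤ} {L : List Piece} {m : ℕ} (hm : mass F = m)
    (hU : ∀ s, U F s = potL (segs W0 L) s) (hE : En F = 2 * selfE (segs W0 L)) (c : ℕ) :
    RefPack W0 L m c := by
  obtain ⟨C1, hC1, h1⟩ := vdm_ptsX_ge F hd hmu hρ hsep
  obtain ⟨C2, hC2, h2⟩ := oth_ptsX_le F hd hmu c
  have hr := rad_nonneg F
  refine ⟨C1 + C2, rad F + 1 + c, by positivity, by positivity, fun v hv => ?_⟩
  have hv0 : 0 < v := hv
  have hv1 : (1 : ℝ) ≤ v := by exact_mod_cast hv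
  have hcard : Fintype.card (Fin (m * v + c)) = Fintype.card (Idx F v ⊕ Fin c) := by
    rw [Fintype.card_fin, card_IdxX F hmu, hm]
  set e : Fin (m * v + c) ≃ (Idx F v ⊕ Fin c) := Fintype.equivOfCardEq hcard with he
  refine ⟨ptsX F v c ∘ e, (ptsX_injective F hd hρ hsep hv0 c).comp e.injective, ?_, ?_, ?_⟩
  · intro i
    simp only [Function.comp_apply]
    have hb : ∀ x : Idx F v ⊕ Fin c, ‖ptsX F v c x‖ ≤ (rad F + 1 + c) * v := by
      have e3 : (rad F + 1 + c) * v = v * rad F + v + c * v := by ring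
      have hc0 : (0 : ℝ) ≤ c := by positivity
      have h5 : (c : ℝ) * 1 ≤ c * v := mul_le_mul_of_nonneg_left hv1 hc0
      rintro (x | t)
      · simp only [ptsX, Sum.elim_inl]
        have h4 := norm_pts_le F v x
        rw [e3]
        linarith
      · simp only [ptsX, Sum.elim_inr]
        have h4 : ‖extra F v t‖ = v * rad F + 1 + (t : ℕ) := by
          unfold extra
          rw [Complex.norm_real, Real.norm_eq_abs, abs_of_nonneg (by positivity)]
        have ht : ((t : ℕ) : ℝ) ≤ c := by exact_mod_cast t.2.le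
        rw [h4, e3]
        linarith
    exact hb _
  · rw [vdm_comp943]
    refine le_trans (Real.exp_le_exp.mpr ?_) (h1 v hv0 c)
    rw [hm, hE]
    have hl : 0 ≤ Real.log (v : ℝ) := Real.log_nonneg hv1
    have h3 : 0 ≤ C2 * (v * (1 + Real.log v)) := by positivity
    have e3 : (v : ℝ) ^ 2 * ((m : ℝ) ^ 2 / 2 * Real.log v + selfE (segs W0 L))
        = (v : ℝ) ^ 2 / 2 * ((m : ℝ) ^ 2 * Real.log v + 2 * selfE (segs W0 L)) := by ring
    rw [e3]
    linarith
  · intro i s
    rw [oth_comp943]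
    refine (h2 v hv0 (e i) s).trans (Real.exp_le_exp.mpr ?_)
    rw [hm, hU]
    have hs := norm_nonneg s
    have hl : 0 ≤ Real.log (v + ‖s‖) := Real.log_nonneg (by linarith)
    unfold er
    have h3 : 0 ≤ C1 * (1 + Real.log (v + ‖s‖)) := by positivity
    linarith

end Crest.Agent.R006.P3
end

-- ▼ part R006/SegSymm_884
section

/-!
# Row 6: symmetry of the mutual energy of two segments (helper884)

* `segE_symm` : `segE A B C D = segE C D A B` (Fubini);
* `segE_self` : `segE A B A B = log ‖B - A‖ - 3/2`;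
* `pairE_comm`, `rowE_append`, `selfE_append`, `selfE_perm` : the energy of a list of weighted
  segments does not depend on the order;
* `potL_append`, `potL_perm`.
-/

set_option autoImplicit false

namespace Crest.Agent.R006.NumSegx464

open Real MeasureTheory Set Crest.Agent.R006.Potx943

theorem segE_symm {A B C D : ℂ} (hAB : B - A ≠ 0) : segE A B C D = segE C D A B := by
  set f : ℝ → ℝ → ℝ := fun τ κ => Real.log ‖(C + τ * (D - C)) - (A + κ * (B - A))‖ with hf
  set M : ℝ := ‖C‖ + ‖D - C‖ + ‖A‖ + ‖B - A‖ with hM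
  have hfM : ∀ τ ∈ Ioc (0 : ℝ) 1, ∀ κ ∈ Ioc (0 : ℝ) 1, f τ κ ≤ M := by
    intro τ hτ κ hκ
    refine (Real.log_le_self (norm_nonneg _)).trans ?_
    have h1 : ‖(τ : ℂ) * (D - C)‖ ≤ ‖D - C‖ := by
      rw [norm_mul, Complex.norm_of_nonneg hτ.1.le]
      exact mul_le_of_le_one_left (norm_nonneg _) hτ.2
    have h2 : ‖(κ : ℂ) * (B - A)‖ ≤ ‖B - A‖ := by
      rw [norm_mul, Complex.norm_of_nonneg hκ.1.le]
      exact mul_le_of_le_one_left (norm_nonneg _) hκ.2
    calc ‖(C + τ * (D - C)) - (A + κ * (B - A))‖ ≤ ‖C + τ * (D - C)‖ + ‖A + κ * (B - A)‖ :=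
          norm_sub_le _ _
      _ ≤ (‖C‖ + ‖(τ : ℂ) * (D - C)‖) + (‖A‖ + ‖(κ : ℂ) * (B - A)‖) :=
          add_le_add (norm_add_le _ _) (norm_add_le _ _)
      _ ≤ M := by rw [hM]; linarith
  have hM0 : 0 ≤ M := by positivity
  have hmeas : AEStronglyMeasurable (Function.uncurry f)
      ((volume.restrict (Ioc (0 : ℝ) 1)).prod (volume.restrict (Ioc (0 : ℝ) 1))) := by
    apply Measurable.aestronglyMeasurable
    apply Real.measurable_log.comp
    apply Measurable.norm
    fun_prop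
  have hint1 : ∀ τ : ℝ, Integrable (fun κ => f τ κ) (volume.restrict (Ioc (0 : ℝ) 1)) := by
    intro τ
    have := intervalIntegrable_Iseg (a := A) (d := B - A) (s := C + τ * (D - C)) 0 1
    rw [intervalIntegrable_iff_integrableOn_Ioc_of_le zero_le_one] at this
    exact this
  have hint : Integrable (Function.uncurry f)
      ((volume.restrict (Ioc (0 : ℝ) 1)).prod (volume.restrict (Ioc (0 : ℝ) 1))) := by
    rw [integrable_prod_iff hmeas]
    refine ⟨Filter.Eventually.of_forall fun τ => hint1 τ, ?_⟩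
    have hc : Continuous fun τ : ℝ => 2 * M - ∫ κ in (0:ℝ)..1, f τ κ :=
      continuous_const.sub ((continuous_inner hAB).comp (by fun_prop))
    have hg : Integrable (fun τ : ℝ => 2 * M - ∫ κ in (0:ℝ)..1, f τ κ)
        (volume.restrict (Ioc (0 : ℝ) 1)) := by
      have := hc.intervalIntegrable (μ := volume) 0 1
      rw [intervalIntegrable_iff_integrableOn_Ioc_of_le zero_le_one] at this
      exact this
    refine hg.mono' hmeas.norm.integral_prod_right' ?_
    rw [ae_restrict_iff' measurableSet_Ioc]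
    refine Filter.Eventually.of_forall fun τ hτ => ?_
    rw [Real.norm_of_nonneg (integral_nonneg fun _ => norm_nonneg _),
      intervalIntegral.integral_of_le zero_le_one]
    have e : (2 * M - ∫ κ in Ioc (0:ℝ) 1, f τ κ) = ∫ κ in Ioc (0:ℝ) 1, (2 * M - f τ κ) := by
      rw [integral_sub (integrable_const _) (hint1 τ)]
      simp
    rw [e]
    refine setIntegral_mono_on (hint1 τ).norm ((integrable_const _).sub (hint1 τ))
      measurableSet_Ioc fun κ hκ => ?_
    have h := hfM τ hτ κ hκ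
    simp only [Function.uncurry_apply_pair, Real.norm_eq_abs]
    rcases abs_cases (f τ κ) with h' | h' <;> linarith [h'.1]
  have hswap := integral_integral_swap hint
  unfold segE
  rw [intervalIntegral.integral_of_le zero_le_one, intervalIntegral.integral_of_le zero_le_one]
  simp only [intervalIntegral.integral_of_le zero_le_one]
  simp only [hf] at hswap
  rw [hswap]
  congr 1; funext κ
  congr 1; funext τ
  rw [norm_sub_rev]

theorem segE_self {A B : ℂ} (h : B - A ≠ 0) : segE A B A B = Real.log ‖B - A‖ - 3 / 2 := by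
  have h1 := mutE_eq_segE A (B - A) 1 A (B - A) 1
  have e : A + ((1 : ℝ) : ℂ) * (B - A) = B := by push_cast; ring
  rw [e] at h1
  have h2 := mut_closed_real (a := A) (d := B - A) (a' := A) (d' := B - A) (x0 := 0) (ρ := 1)
    one_ne_zero h (m := 1) (m' := 1) (by simp) (by rw [div_self h]; simp)
  rw [h2] at h1
  have e0 : G2r 0 = 0 := by simp [G2r]
  have e1 : G2r 1 = -(1 / 4) := by simp [G2r]
  have e2 : G2r (-1) = -(1 / 4) := by simp [G2r]
  norm_num at h1
  rw [e0, e1, e2] at h1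
  linarith

/-- nondegenerate segment -/
def nd (p : WSeg) : Prop := gc p.2.1 - gc p.1 ≠ 0

theorem pairE_comm {p q : WSeg} (hp : nd p) : pairE p q = pairE q p := by
  unfold pairE
  rw [segE_symm hp, mul_comm p.2.2]


theorem rowE_eq_sum (p : WSeg) : ∀ L : List WSeg, rowE p L = (L.map (pairE p)).sum
  | [] => rfl
  | q :: L => by simp only [rowE, List.map_cons, List.sum_cons, rowE_eq_sum p L]

theorem potL_eq_sum (s : ℂ) : ∀ L : List WSeg,
    potL L s = (L.map fun p => (p.2.2 : ℝ) * pot (gc p.1) (gc p.2.1) s).sum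
  | [] => rfl
  | q :: L => by simp only [potL, List.map_cons, List.sum_cons, potL_eq_sum s L]


theorem potL_perm (s : ℂ) {L L' : List WSeg} (h : L.Perm L') : potL L s = potL L' s := by
  rw [potL_eq_sum, potL_eq_sum]
  exact (h.map _).sum_eq

theorem rowE_perm (p : WSeg) {L L' : List WSeg} (h : L.Perm L') : rowE p L = rowE p L' := by
  rw [rowE_eq_sum, rowE_eq_sum]
  exact (h.map _).sum_eq

theorem selfE_perm {L L' : List WSeg} (h : L.Perm L') (hL : ∀ p ∈ L, nd p) :
    selfE L = selfE L' := by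
  induction h with
  | nil => rfl
  | cons p h ih =>
    simp only [selfE]
    rw [rowE_perm p h, ih fun q hq => hL q (List.mem_cons_of_mem _ hq)]
  | swap p q L =>
    simp only [selfE, rowE]
    have h1 : pairE q p = pairE p q := pairE_comm (hL q (by simp))
    rw [h1]; ring
  | trans h1 h2 ih1 ih2 =>
    rw [ih1 hL, ih2 fun p hp => hL p (h1.mem_iff.2 hp)]

end Crest.Agent.R006.NumSegx464
end

-- ▼ part R006/P3_Mod_170
section

/-!
# Row 6, block P3, leaf MOD of `P3_Leaf_390` (helper170)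

`modPot` : modulus of continuity of the potential of any list of nondegenerate segments, and the
three instances `LS S K`, `LG S K`, `segs W0 L`.
-/

set_option autoImplicit false

namespace Crest.Agent.R006.P3

open Crest.Agent.R006.D Crest.Agent.R006.Cert Crest.Agent.R006.NumSegx464
  Crest.Agent.R006.Potx943

theorem gc_sub_ne {a b : ℤ × ℤ} (h : a ≠ b) : gc b - gc a ≠ 0 := by
  intro h0
  apply h
  rw [sub_eq_zero] at h0
  have h1 := congrArg Complex.re h0
  have h2 := congrArg Complex.im h0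
  simp only [gc_re, gc_im, Int.cast_inj] at h1 h2
  exact Prod.ext h1.symm h2.symm

theorem pot_eq_Iseg (A B s : ℂ) : pot A B s = Iseg A (B - A) 1 s := by
  rw [Iseg_eq_pot]
  simp


/-- one segment -/
theorem modPot_seg {A B : ℂ} (h : B - A ≠ 0) :
    ∃ C : ℝ, 0 ≤ C ∧ ∀ v : ℕ, 1 ≤ v → ∀ s s' : ℂ, ‖s - s'‖ ≤ 1 →
      |v * pot A B (s / v) - v * pot A B (s' / v)| ≤ C * er v s := by
  obtain ⟨C, hC, H⟩ := abs_Iseg_scaled_sub_le (a := A) h (m := 1) zero_le_one (D := 1) zero_le_one
  refine ⟨C, hC, fun v hv s s' hs => ?_⟩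
  rw [pot_eq_Iseg, pot_eq_Iseg]
  exact H v hv s s' hs

/-- **LEAF MOD** -/
theorem modPot : ∀ (L : List WSeg), (∀ p ∈ L, p.1 ≠ p.2.1) → ModPot L
  | [], _ => ⟨0, le_rfl, fun v _ s s' _ => by simp [potL]⟩
  | p :: L, h => by
    obtain ⟨C1, hC1, H1⟩ := modPot_seg (gc_sub_ne (h p (by simp)))
    obtain ⟨C2, hC2, H2⟩ := modPot L fun q hq => h q (by simp [hq])
    refine ⟨|(p.2.2 : ℝ)| * C1 + C2, by positivity, fun v hv s s' hs => ?_⟩
    have h1 := H1 v hv s s' hs
    have h2 := H2 v hv s s' hs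
    have e : (v : ℝ) * potL (p :: L) (s / v) - v * potL (p :: L) (s' / v)
        = (p.2.2 : ℝ) * (v * pot (gc p.1) (gc p.2.1) (s / v) - v * pot (gc p.1) (gc p.2.1) (s' / v))
          + (v * potL L (s / v) - v * potL L (s' / v)) := by
      simp only [potL]; ring
    rw [e]
    refine (abs_add_le _ _).trans ?_
    rw [abs_mul, add_mul, mul_assoc]
    exact add_le_add (mul_le_mul_of_nonneg_left h1 (abs_nonneg _)) h2

/-! ### the instances -/

theorem ne_of_mem_rseg {a b m : ℤ} (h : m ≠ 0 → a ≠ b) {p : WSeg} (hp : p ∈ rseg a b m) :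
    p.1 ≠ p.2.1 := by
  unfold rseg at hp
  split_ifs at hp with hm
  · simp at hp
  · simp only [List.mem_singleton] at hp
    subst hp
    intro h0
    exact h hm (congrArg Prod.fst h0)

theorem LS_ne (S : Shape) (K : ℕ) : ∀ p ∈ LS S K, p.1 ≠ p.2.1 := by
  intro p hp
  simp only [LS, List.mem_append] at hp
  rcases hp with ((((((hp | hp) | hp) | hp) | hp) | hp) | hp) | hp <;>
    exact ne_of_mem_rseg (by intro h1 h2; apply h1; omega) hp

theorem LG_ne (S : Shape) (K : ℕ) : ∀ p ∈ LG S K, p.1 ≠ p.2.1 := by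
  intro p hp
  simp only [LG, List.mem_append] at hp
  rcases hp with ((hp | hp) | hp) | hp <;>
    exact ne_of_mem_rseg (by intro h1 h2; apply h1; omega) hp

theorem modPot_LS (S : Shape) (K : ℕ) : ModPot (LS S K) := modPot _ (LS_ne S K)

theorem modPot_LG (S : Shape) (K : ℕ) : ModPot (LG S K) := modPot _ (LG_ne S K)

theorem good_of_listOK : ∀ {L : List Piece}, listOK L = true → ∀ p ∈ L, p.good = true
  | [], _, p, hp => by simp at hp
  | q :: L, h, p, hp => by
    simp only [listOK, Bool.and_eq_true] at h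
    rcases List.mem_cons.1 hp with rfl | hp
    · exact h.1.1
    · exact good_of_listOK h.2 p hp

theorem seg_ne {W : ℤ} {p : Piece} (h : p.good = true) : (p.seg W).1 ≠ (p.seg W).2.1 := by
  have h1 : p.lo < p.hi := by
    simp only [Piece.good, Bool.and_eq_true, decide_eq_true_eq] at h
    exact h.1.1
  rcases p with ⟨a, b, m⟩ | ⟨a, b, m⟩ | ⟨a, b, m⟩ <;> simp only [Piece.lo, Piece.hi] at h1 <;>
    simp only [Piece.seg, ne_eq, Prod.mk.injEq, not_and] <;> intro h2 <;> omega

theorem segs_ne {W0 : ℤ} {L : List Piece} (h : listOK L = true) :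
    ∀ p ∈ segs W0 L, p.1 ≠ p.2.1 := by
  intro p hp
  simp only [segs, List.mem_map] at hp
  obtain ⟨q, hq, rfl⟩ := hp
  exact seg_ne (good_of_listOK h q hq)

theorem modPot_segs (W0 : ℤ) {L : List Piece} (h : listOK L = true) : ModPot (segs W0 L) :=
  modPot _ (segs_ne h)

end Crest.Agent.R006.P3
end

-- ▼ part R006/P3_NodesV_673
section

/-! Row 6, block P3, leaves NODES and RHO of `P3_Leaf_390` (helper673). -/

set_option autoImplicit false

namespace Crest.Agent.R006.P3

open Crest.Agent.R006.D Crest.Agent.R006.Potx943 Crest.Agent.R006.ConstX673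
  Crest.Agent.R006.PotNx673 Crest.Agent.R006.NumSegx464

/-! ### `potL` of real segments of density one -/

lemma gc_real (A : ℤ) : gc (A, 0) = ((A : ℝ) : ℂ) := by
  apply Complex.ext <;> simp

lemma mass_mul_pot (A m : ℤ) (s : ℂ) :
    (m : ℝ) * pot (gc (A, 0)) (gc (A + m, 0)) s = Iseg (A : ℂ) 1 m s := by
  rw [Iseg_eq_pot, gc_real, gc_real]
  push_cast
  rw [mul_one]

lemma potL_rseg (A m : ℤ) (L : List WSeg) (s : ℂ) :
    potL (Cert.rseg A (A + m) m ++ L) s = Iseg (A : ℂ) 1 m s + potL L s := by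
  unfold Cert.rseg
  split_ifs with h
  · subst h
    rw [← mass_mul_pot]
    simp
  · simp only [List.singleton_append, potL]
    rw [← mass_mul_pot]

lemma potL_rseg' (A m : ℤ) (s : ℂ) :
    potL (Cert.rseg A (A + m) m) s = Iseg (A : ℂ) 1 m s := by
  have := potL_rseg A m [] s
  simpa [potL] using this

/-- potential of the nodes -/
theorem potL_LS (S : Shape) (K : ℕ) (s : ℂ) :
    potL (Cert.LS S K) s = ∑ i, Iseg ((K * wst S i : ℤ) : ℂ) 1 ((K * wlen S i : ℕ) : ℝ) s := by
  have hLS : Cert.LS S K =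
      Cert.rseg (K * wst S 0) (K * wst S 0 + K * wlen S 0) (K * wlen S 0) ++
      (Cert.rseg (K * wst S 1) (K * wst S 1 + K * wlen S 1) (K * wlen S 1) ++
      (Cert.rseg (K * wst S 2) (K * wst S 2 + K * wlen S 2) (K * wlen S 2) ++
      (Cert.rseg (K * wst S 3) (K * wst S 3 + K * wlen S 3) (K * wlen S 3) ++
      (Cert.rseg (K * wst S 4) (K * wst S 4 + K * wlen S 4) (K * wlen S 4) ++
      (Cert.rseg (K * wst S 5) (K * wst S 5 + K * wlen S 5) (K * wlen S 5) ++
      (Cert.rseg (K * wst S 6) (K * wst S 6 + K * wlen S 6) (K * wlen S 6) ++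
      Cert.rseg (K * wst S 7) (K * wst S 7 + K * wlen S 7) (K * wlen S 7))))))) := by
    simp only [Cert.LS, wst, wlen, List.append_assoc, mul_zero, zero_add, mul_neg, neg_add_cancel]
  rw [hLS]
  simp only [potL_rseg, potL_rseg', Fin.sum_univ_eight]
  push_cast
  ring

/-- potential of the zeros of the gauge -/
theorem potL_LG (S : Shape) (K : ℕ) (s : ℂ) :
    potL (Cert.LG S K) s = Iseg 0 1 ((K * S.a1 : ℕ) : ℝ) s + Iseg 0 1 ((K * S.a2 : ℕ) : ℝ) s
      + Iseg ((-(K * S.i1 : ℕ) : ℤ) : ℂ) 1 ((K * S.i1 : ℕ) : ℝ) s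
      + Iseg ((-(K * S.r1 : ℕ) : ℤ) : ℂ) 1 ((K * S.r1 : ℕ) : ℝ) s := by
  have hLG : Cert.LG S K =
      Cert.rseg 0 (0 + K * S.a1) (K * S.a1) ++ (Cert.rseg 0 (0 + K * S.a2) (K * S.a2) ++
      (Cert.rseg (-(K * S.i1)) (-(K * S.i1) + K * S.i1) (K * S.i1) ++
      Cert.rseg (-(K * S.r1)) (-(K * S.r1) + K * S.r1) (K * S.r1))) := by
    simp only [Cert.LG, List.append_assoc, zero_add, neg_add_cancel]
  rw [hLG]
  simp only [potL_rseg, potL_rseg']
  push_cast
  ring

/-! ### scaling of one window -/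

lemma Iseg_scale_v {v : ℕ} (hv : 1 ≤ v) (a : ℤ) (n : ℕ) (s : ℂ) :
    Iseg ((a * v : ℤ) : ℂ) 1 ((n * v : ℕ) : ℝ) s
      = v * (n * Real.log v + Iseg (a : ℂ) 1 n (s / v)) := by
  have hv0 : (v : ℂ) ≠ 0 := by
    have : v ≠ 0 := by omega
    exact_mod_cast this
  have h := Iseg_win_scale hv a n (s / v)
  rw [show (v : ℂ) * (s / v) = s by field_simp] at h
  exact h

lemma er_pos {v : ℕ} (hv : 1 ≤ v) (s : ℂ) : 1 ≤ er v s := by
  have h1 : (1 : ℝ) ≤ v := by exact_mod_cast hv
  have h2 : 0 ≤ Real.log (v + ‖s‖) := Real.log_nonneg (by have := norm_nonneg s; linarith)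
  unfold er
  linarith

lemma log_le_er {v : ℕ} (hv : 1 ≤ v) (s : ℂ) {b : ℝ} (hb : 0 ≤ b) :
    Real.log (2 + ‖s‖ + b * v) ≤ (1 + Real.log (3 + b)) * er v s := by
  have h1 : (1 : ℝ) ≤ v := by exact_mod_cast hv
  have hs := norm_nonneg s
  have h2 : 2 + ‖s‖ + b * v ≤ (3 + b) * (v + ‖s‖) := by nlinarith
  have h3 : 0 ≤ Real.log (v + ‖s‖) := Real.log_nonneg (by linarith)
  have h4 : 0 ≤ Real.log (3 + b) := Real.log_nonneg (by linarith)
  calc Real.log (2 + ‖s‖ + b * v) ≤ Real.log ((3 + b) * (v + ‖s‖)) :=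
        Real.log_le_log (by positivity) h2
    _ = Real.log (3 + b) + Real.log (v + ‖s‖) := Real.log_mul (by linarith) (by linarith)
    _ ≤ (1 + Real.log (3 + b)) * er v s := by unfold er; nlinarith

/-! ### NODES -/

lemma NSn_eq (S : Shape) (hS : S.Good) (u c : ℕ) (s : ℂ) :
    NSn S u c s = ∏ i, ∏ t ∈ Finset.range (wL S u c i), ‖s - wpt (whalf i) (wst S i * u) t‖ := by
  rw [← norm_NS (ι := {z // z ∈ Bordx929.sites S u c}) S u c (fun z => z.1)
    Subtype.val_injective (fun z hz => ⟨⟨z, Bordx929.mem_sites u c hS hz⟩, rfl⟩) s]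
  unfold NSn
  rw [← Finset.prod_coe_sort]
  rfl

theorem nodesGe {S : Shape} (hS : S.Good) {K : ℕ} (hK : 0 < K) (c : ℕ) : NodesGe S K c := by
  refine ⟨200 + (88 + c) * Real.log 8 + 8 * (1 + Real.log (3 + 2 * S.rows * K)), ?_, ?_⟩
  · have h1 : 0 ≤ Real.log 8 := Real.log_nonneg (by norm_num)
    have h2 : 0 ≤ Real.log (3 + 2 * S.rows * K : ℝ) :=
      Real.log_nonneg (by have : (0 : ℝ) ≤ 2 * S.rows * K := by positivity
                          linarith)
    positivity
  intro v hv s hs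
  rw [NSn_eq S hS]
  have hd : ∀ z : Site, S.mult (K * v) c z ≠ 0 → (1 / 8 : ℝ) ≤ ‖s - cv z‖ := by
    intro z _
    rcases z with i | i
    · have := hs (2 * i)
      have e : ((2 * i : ℤ) : ℂ) / 2 = cv (Site.Z i) := by
        unfold cv; simp only [Site.val]; push_cast; ring
      rwa [e] at this
    · have := hs (2 * i + 1)
      have e : ((2 * i + 1 : ℤ) : ℂ) / 2 = cv (Site.H i) := by
        unfold cv; simp only [Site.val]; push_cast; ring
      rwa [e] at this
  have h := NS_ge S (K * v) c s (δ := 1 / 8) (by norm_num) (by norm_num) hd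
  refine le_trans (Real.exp_le_exp.mpr ?_) h
  have e1 : ∀ i : Fin 8, Iseg ((wst S i * (K * v : ℕ) : ℤ) : ℂ) 1 ((wlen S i * (K * v) : ℕ) : ℝ) s
      = v * ((K * wlen S i : ℕ) * Real.log v
        + Iseg ((K * wst S i : ℤ) : ℂ) 1 ((K * wlen S i : ℕ) : ℝ) (s / v)) := by
    intro i
    rw [← Iseg_scale_v hv]
    congr 2
    · push_cast; ring
    · ring
  simp_rw [e1]
  rw [← Finset.mul_sum, Finset.sum_add_distrib, ← Finset.sum_mul, ← potL_LS]
  have e2 : ∑ i : Fin 8, ((K * wlen S i : ℕ) : ℝ) = ((K * S.rows : ℕ) : ℝ) := by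
    push_cast
    rw [← Finset.mul_sum, sum_wlen]
  rw [e2, one_div_one_div]
  have h3 := log_le_er hv s (b := 2 * S.rows * K) (by positivity)
  have h4 := er_pos hv s
  have h5 : 0 ≤ Real.log 8 := Real.log_nonneg (by norm_num)
  have h6 : (2 : ℝ) + ‖s‖ + 2 * S.rows * ((K * v : ℕ) : ℝ) = 2 + ‖s‖ + 2 * S.rows * K * v := by
    push_cast; ring
  rw [h6]
  have h7 : (200 : ℝ) + (88 + c) * Real.log 8 ≤ (200 + (88 + c) * Real.log 8) * er v s := by
    have : 0 ≤ 200 + (88 + (c : ℝ)) * Real.log 8 := by positivity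
    nlinarith
  nlinarith

/-! ### RHO -/

lemma prod_reflect_half (n : ℕ) (s : ℂ) :
    ∏ m ∈ Finset.range n, ‖s + ((m : ℂ) + 1 / 2)‖
      = ∏ t ∈ Finset.range n, ‖s - wpt true (-(n : ℤ)) t‖ := by
  rw [← Finset.prod_range_reflect]
  refine Finset.prod_congr rfl fun t ht => ?_
  have h := Finset.mem_range.mp ht
  rw [wpt_true, pt_window_half]
  congr 1
  have e : ((n - 1 - t : ℕ) : ℂ) = (n : ℂ) - 1 - t := by
    rw [Nat.cast_sub (by omega), Nat.cast_sub (by omega)]; push_cast; ring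
  rw [e]
  push_cast
  ring

lemma prod_reflect_int (n : ℕ) (s : ℂ) :
    ∏ m ∈ Finset.range n, ‖s + ((m : ℂ) + 1)‖
      = ∏ t ∈ Finset.range n, ‖s - wpt false (-(n : ℤ)) t‖ := by
  rw [← Finset.prod_range_reflect]
  refine Finset.prod_congr rfl fun t ht => ?_
  have h := Finset.mem_range.mp ht
  rw [wpt_false]
  congr 1
  have e : ((n - 1 - t : ℕ) : ℂ) = (n : ℂ) - 1 - t := by
    rw [Nat.cast_sub (by omega), Nat.cast_sub (by omega)]; push_cast; ring
  rw [e]
  push_cast
  ring

lemma prod_zero_int (n : ℕ) (s : ℂ) :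
    ∏ m ∈ Finset.range n, ‖s - (m : ℂ)‖ = ∏ t ∈ Finset.range n, ‖s - wpt false 0 t‖ := by
  refine Finset.prod_congr rfl fun t _ => ?_
  rw [wpt_false]
  push_cast
  rw [zero_add]

/-- one window of the gauge -/
lemma win_le_er {K v : ℕ} (hv : 1 ≤ v) (h : Bool) (a : ℤ) (n : ℕ)
    (ha : |(a : ℝ)| ≤ (K * n : ℕ)) (s : ℂ) :
    ∏ t ∈ Finset.range (n * (K * v)), ‖s - wpt h (a * v) t‖ ≤
      Real.exp (v * ((K * n : ℕ) * Real.log v + Iseg (a : ℂ) 1 ((K * n : ℕ) : ℝ) (s / v))
        + (25 + (1 + Real.log (3 + (K * n : ℕ)))) * er v s) := by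
  refine (win_prod_le h (a * v) (n * (K * v)) s).trans (Real.exp_le_exp.mpr ?_)
  rw [show n * (K * v) = (K * n) * v by ring, Iseg_scale_v hv]
  have h1 : Real.log (2 + ‖s - ((a * v : ℤ) : ℂ)‖) ≤ Real.log (2 + ‖s‖ + (K * n : ℕ) * v) := by
    apply Real.log_le_log (by positivity)
    have h2 := norm_sub_le s ((a * v : ℤ) : ℂ)
    have h3 : ‖((a * v : ℤ) : ℂ)‖ ≤ (K * n : ℕ) * v := by
      rw [Complex.norm_intCast]
      push_cast
      rw [abs_mul, Nat.abs_cast]
      have := mul_le_mul_of_nonneg_right ha (Nat.cast_nonneg v : (0 : ℝ) ≤ v)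
      push_cast at this
      exact this
    linarith
  have h4 := log_le_er hv s (b := ((K * n : ℕ) : ℝ)) (Nat.cast_nonneg _)
  have h5 := er_pos hv s
  nlinarith

theorem rhoLe (S : Shape) {K : ℕ} (hK : 0 < K) : RhoLe S K := by
  have hpos : ∀ n : ℕ, 0 ≤ (25 : ℝ) + (1 + Real.log (3 + ((K * n : ℕ) : ℝ))) := by
    intro n
    have h2 : 0 ≤ Real.log (3 + ((K * n : ℕ) : ℝ)) :=
      Real.log_nonneg (by have : (0 : ℝ) ≤ ((K * n : ℕ) : ℝ) := Nat.cast_nonneg _
                          linarith)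
    linarith
  refine ⟨(25 + (1 + Real.log (3 + ((K * S.a1 : ℕ) : ℝ)))) + (25 + (1 + Real.log (3 + ((K * S.a2 : ℕ) : ℝ))))
    + (25 + (1 + Real.log (3 + ((K * S.i1 : ℕ) : ℝ)))) + (25 + (1 + Real.log (3 + ((K * S.r1 : ℕ) : ℝ)))),
    by have := hpos S.a1; have := hpos S.a2; have := hpos S.i1; have := hpos S.r1; linarith, ?_⟩
  intro v hv s
  unfold rhon
  have w1 := win_le_er (K := K) hv false 0 S.a1 (by simp; positivity) s
  have w2 := win_le_er (K := K) hv false 0 S.a2 (by simp; positivity) s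
  have w3 := win_le_er (K := K) hv true (-(K * S.i1 : ℕ)) S.i1 (by
    push_cast; rw [abs_neg, abs_of_nonneg (by positivity)]) s
  have w4 := win_le_er (K := K) hv false (-(K * S.r1 : ℕ)) S.r1 (by
    push_cast; rw [abs_neg, abs_of_nonneg (by positivity)]) s
  have n1 : ∏ n ∈ Finset.range (S.a1 * (K * v)), ‖s - (n : ℂ)‖
      = ∏ t ∈ Finset.range (S.a1 * (K * v)), ‖s - wpt false (0 * v) t‖ := by
    rw [prod_zero_int, zero_mul]
  have n2 : ∏ n ∈ Finset.range (S.a2 * (K * v)), ‖s - (n : ℂ)‖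
      = ∏ t ∈ Finset.range (S.a2 * (K * v)), ‖s - wpt false (0 * v) t‖ := by
    rw [prod_zero_int, zero_mul]
  have n3 : ∏ m ∈ Finset.range (S.i1 * (K * v)), ‖s + ((m : ℂ) + 1 / 2)‖
      = ∏ t ∈ Finset.range (S.i1 * (K * v)), ‖s - wpt true (-(K * S.i1 : ℕ) * v) t‖ := by
    rw [prod_reflect_half]
    refine Finset.prod_congr rfl fun t _ => ?_
    congr 3
    push_cast; ring
  have n4 : ∏ m ∈ Finset.range (S.r1 * (K * v)), ‖s + ((m : ℂ) + 1)‖
      = ∏ t ∈ Finset.range (S.r1 * (K * v)), ‖s - wpt false (-(K * S.r1 : ℕ) * v) t‖ := by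
    rw [prod_reflect_int]
    refine Finset.prod_congr rfl fun t _ => ?_
    congr 3
    push_cast; ring
  rw [n1, n2, n3, n4]
  have p1 : 0 ≤ ∏ t ∈ Finset.range (S.a1 * (K * v)), ‖s - wpt false (0 * v) t‖ :=
    Finset.prod_nonneg fun _ _ => norm_nonneg _
  have p2 : 0 ≤ ∏ t ∈ Finset.range (S.a2 * (K * v)), ‖s - wpt false (0 * v) t‖ :=
    Finset.prod_nonneg fun _ _ => norm_nonneg _
  have p3 : 0 ≤ ∏ t ∈ Finset.range (S.i1 * (K * v)), ‖s - wpt true (-(K * S.i1 : ℕ) * v) t‖ :=
    Finset.prod_nonneg fun _ _ => norm_nonneg _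
  have p4 : 0 ≤ ∏ t ∈ Finset.range (S.r1 * (K * v)), ‖s - wpt false (-(K * S.r1 : ℕ) * v) t‖ :=
    Finset.prod_nonneg fun _ _ => norm_nonneg _
  have h := mul_le_mul (mul_le_mul (mul_le_mul w1 w2 p2 (Real.exp_pos _).le) w3 p3
    (mul_pos (Real.exp_pos _) (Real.exp_pos _)).le) w4 p4
    (mul_pos (mul_pos (Real.exp_pos _) (Real.exp_pos _)) (Real.exp_pos _)).le
  refine h.trans (le_of_eq ?_)
  rw [← Real.exp_add, ← Real.exp_add, ← Real.exp_add, potL_LG]
  congr 1
  push_cast
  ring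

end Crest.Agent.R006.P3
end

-- ▼ part R006/VVAsym_929
section

/-!
# Row 6: the literal confluent Vandermonde `VV` of `Minor_eq_lam` (helper929)

* `two_log_VV` : `2 log |VV| = ∑_s ∑_t m_s m_t log |z_s - z_t|` over the sites;
* `sum_mult_smul` : a sum over the sites with multiplicities = sum over 8 windows;
* `log_VV_asymp` : `log |VV S u c| = u² (rows²/2 log u + cV S) + O(u log u)`.
-/
namespace Crest.Agent.R006.VVx929
end Crest.Agent.R006.VVx929
end

-- ▼ part R006/ArchS_650
section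
namespace Crest.Agent.R006.ArchSx650
end Crest.Agent.R006.ArchSx650
end

-- ▼ part R006/P3_TailSlot_650
section

set_option autoImplicit false

/-!
# Row 6, block P3: tails of the exponents on the rays (helper650, leaf (d) of 390)

* `LogLe f` : `f z ≤ D log (C + ‖z‖)`; `logLe_U`, `logLe_Iseg`, `LogLe.add`;
* `UN_nonneg` : `0 ≤ UN S z` for `1 ≤ |Im z|`;
* `tail_phi` : `f z - UN S z + κ Re z - ω |Im z| ≤ l - (T - T1)` on `z = -w + T (-c ± i)`, `T ≥ T1`.
-/

namespace Crest.Agent.R006.TailSlotx650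

open Finset MeasureTheory Crest.Agent.R006.D Crest.Agent.R006.Potx943 Crest.Agent.R006.VVx929
  Crest.Agent.R006.ArchSx650

/-! ### growth -/

/-- logarithmic growth from above -/
def LogLe (f : ℂ → ℝ) : Prop :=
  ∃ D C : ℝ, 0 ≤ D ∧ 1 ≤ C ∧ ∀ z, f z ≤ D * Real.log (C + ‖z‖)

lemma LogLe.add {f g : ℂ → ℝ} (hf : LogLe f) (hg : LogLe g) : LogLe (fun z => f z + g z) := by
  obtain ⟨D, C, hD, hC, h⟩ := hf
  obtain ⟨D', C', hD', hC', h'⟩ := hg
  refine ⟨D + D', max C C', by linarith, le_max_of_le_left hC, fun z => ?_⟩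
  have hz := norm_nonneg z
  have h1 : Real.log (C + ‖z‖) ≤ Real.log (max C C' + ‖z‖) :=
    Real.log_le_log (by linarith) (by linarith [le_max_left C C'])
  have h2 : Real.log (C' + ‖z‖) ≤ Real.log (max C C' + ‖z‖) :=
    Real.log_le_log (by linarith) (by linarith [le_max_right C C'])
  have h3 := mul_le_mul_of_nonneg_left h1 hD
  have h4 := mul_le_mul_of_nonneg_left h2 hD'
  have := h z
  have := h' z
  simp only
  linarith

lemma LogLe.mul {f : ℂ → ℝ} (hf : LogLe f) {k : ℝ} (hk : 0 ≤ k) : LogLe (fun z => k * f z) := by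
  obtain ⟨D, C, hD, hC, h⟩ := hf
  refine ⟨k * D, C, by positivity, hC, fun z => ?_⟩
  have := mul_le_mul_of_nonneg_left (h z) hk
  simp only
  linarith

lemma logLe_zero : LogLe (fun _ => 0) :=
  ⟨0, 1, le_refl _, le_refl _, fun z => by simp⟩

lemma LogLe.sum {α : Type*} (s : Finset α) {f : α → ℂ → ℝ} (h : ∀ a ∈ s, LogLe (f a)) :
    LogLe (fun z => ∑ a ∈ s, f a z) := by
  induction s using Finset.cons_induction with
  | empty => simpa using logLe_zero
  | cons a s ha ih =>
    have := (h a (Finset.mem_cons_self a s)).add (ih fun b hb => h b (Finset.mem_cons_of_mem hb))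
    simpa [Finset.sum_cons] using this

theorem Iseg_le_log (a d : ℂ) {m : ℝ} (hm : 0 ≤ m) (s : ℂ) :
    Iseg a d m s ≤ m * Real.log ((1 + ‖a‖ + m * ‖d‖) + ‖s‖) := by
  have h := intervalIntegral.integral_mono_on (μ := volume) hm
    (intervalIntegrable_Iseg (a := a) (d := d) (s := s) 0 m)
    (intervalIntegrable_const (c := Real.log ((1 + ‖a‖ + m * ‖d‖) + ‖s‖))) (fun t ht => ?_)
  · rw [intervalIntegral.integral_const, smul_eq_mul, sub_zero] at h
    exact h
  · have hb : ‖s - (a + t * d)‖ ≤ (1 + ‖a‖ + m * ‖d‖) + ‖s‖ := by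
      have h1 : ‖s - (a + t * d)‖ ≤ ‖s‖ + (‖a‖ + ‖(t : ℂ) * d‖) :=
        (norm_sub_le _ _).trans (by gcongr; exact norm_add_le _ _)
      have h2 : ‖(t : ℂ) * d‖ ≤ m * ‖d‖ := by
        rw [norm_mul, Complex.norm_real, Real.norm_eq_abs, abs_of_nonneg ht.1]
        exact mul_le_mul_of_nonneg_right ht.2 (norm_nonneg _)
      linarith
    rcases eq_or_lt_of_le (norm_nonneg (s - (a + t * d))) with h0 | h0
    · rw [← h0, Real.log_zero]
      exact Real.log_nonneg (by
        have := norm_nonneg a; have := norm_nonneg s; have := mul_nonneg hm (norm_nonneg d)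
        linarith)
    · exact Real.log_le_log h0 hb

lemma logLe_Iseg (a d : ℂ) {m : ℝ} (hm : 0 ≤ m) : LogLe (fun s => Iseg a d m s) :=
  ⟨m, 1 + ‖a‖ + m * ‖d‖, hm, by
    have := norm_nonneg a; have := mul_nonneg hm (norm_nonneg d); linarith,
    fun z => Iseg_le_log a d hm z⟩





/-! ### tails -/

theorem tail_abs {A D K K' c : ℝ} (hD : 0 ≤ D) (hK : 0 < K) (hK' : 0 ≤ K') (hc : 1 < c) (l : ℝ) :
    ∃ T1 : ℝ, 1 ≤ T1 ∧ ∀ T, T1 ≤ T → A + D * Real.log (K + K' * T) - c * T ≤ l - (T - T1) := by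
  set ρ : ℝ := 2 * D * K' / (c - 1) + 1 with hρ
  have hc1 : 0 < c - 1 := by linarith
  have hρ0 : 0 < ρ := by positivity
  have hρ1 : D * K' / ρ ≤ (c - 1) / 2 := by
    rw [div_le_iff₀ hρ0, hρ]
    have : (c - 1) / 2 * (2 * D * K' / (c - 1) + 1) = D * K' + (c - 1) / 2 := by
      field_simp
    rw [this]; linarith
  set A' : ℝ := A + D * (K / ρ + Real.log ρ) with hA'
  refine ⟨max 1 (A' - l), le_max_left _ _, fun T hT => ?_⟩
  have hT1 : 1 ≤ T := (le_max_left _ _).trans hT
  have hlog : Real.log (K + K' * T) ≤ (K + K' * T) / ρ + Real.log ρ := by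
    have hx : 0 < K + K' * T := by positivity
    have h1 := Real.log_le_sub_one_of_pos (div_pos hx hρ0)
    rw [Real.log_div hx.ne' hρ0.ne'] at h1
    linarith
  have h2 := mul_le_mul_of_nonneg_left hlog hD
  have h3 : D * ((K + K' * T) / ρ + Real.log ρ) = D * (K / ρ + Real.log ρ) + D * K' / ρ * T := by
    ring
  have h4 : D * K' / ρ * T ≤ (c - 1) / 2 * T := mul_le_mul_of_nonneg_right hρ1 (by linarith)
  have h5 : A' - l ≤ max 1 (A' - l) := le_max_right _ _
  have h6 : 0 ≤ (c - 1) / 2 * T := by positivity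
  nlinarith





end Crest.Agent.R006.TailSlotx650
end

-- ▼ part R006/P3_TailC_650
section

set_option autoImplicit false

/-!
# Row 6, block P3: tails of `Cert.PhiR`, `Cert.PhiQ` on the rays (helper650)

`tail_R`, `tail_Q` : `PhiR S d z ≤ lR / D - (T - T1)` for `T ≥ T1` and `z = -K w - T ± i T`
(both rays), no hypothesis except `Cert.wf S d`.
-/

namespace Crest.Agent.R006.Cert650

open MeasureTheory Crest.Agent.R006.D Crest.Agent.R006.Cert Crest.Agent.R006.NumSegx464 Crest.Agent.R006.Potx943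
  Crest.Agent.R006.TailSlotx650

lemma pot_eq_Iseg (A B s : ℂ) : pot A B s = Iseg A (B - A) 1 s := rfl

lemma logLe_pot (A B : ℂ) : LogLe (fun s => pot A B s) := by
  simp only [pot_eq_Iseg]
  exact logLe_Iseg _ _ zero_le_one

/-- lists with nonnegative masses -/
def NonnegL (L : List WSeg) : Prop := ∀ p ∈ L, 0 ≤ p.2.2

lemma NonnegL.append {L L' : List WSeg} (h : NonnegL L) (h' : NonnegL L') : NonnegL (L ++ L') := by
  intro p hp
  rcases List.mem_append.mp hp with hp | hp
  · exact h p hp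
  · exact h' p hp

lemma logLe_potL : ∀ {L : List WSeg}, NonnegL L → LogLe (fun s => potL L s)
  | [], _ => logLe_zero
  | p :: L, h => by
    have h1 : (0 : ℝ) ≤ p.2.2 := by exact_mod_cast h p (List.mem_cons_self ..)
    exact ((logLe_pot (gc p.1) (gc p.2.1)).mul h1).add
      (logLe_potL (L := L) fun q hq => h q (List.mem_cons_of_mem _ hq))

lemma potL_append650 : ∀ (L L' : List WSeg) (s : ℂ), potL (L ++ L') s = potL L s + potL L' s
  | [], L', s => by simp [potL]
  | p :: L, L', s => by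
    rw [List.cons_append, potL, potL, potL_append650 L L' s]; ring

lemma nonneg_rseg {a b m : ℤ} (hm : 0 ≤ m) : NonnegL (rseg a b m) := by
  intro p hp
  unfold rseg at hp
  split_ifs at hp with h
  · simp at hp
  · rw [List.mem_singleton] at hp
    rw [hp]; exact hm

/-- potential of a real segment seen from above -/
lemma pot_real_ge {a b : ℤ} (hab : a ≤ b) {s : ℂ} (hs : s.im ≠ 0) :
    Real.log |s.im| ≤ pot (gc (a, 0)) (gc (b, 0)) s := by
  have h := intervalIntegral.integral_mono_on (μ := volume) (a := 0) (b := 1) zero_le_one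
    (intervalIntegrable_const (c := Real.log |s.im|))
    (intervalIntegrable_Iseg (a := gc (a, 0)) (d := gc (b, 0) - gc (a, 0)) (s := s) 0 1)
    (fun t _ => ?_)
  · rw [intervalIntegral.integral_const, smul_eq_mul, sub_zero, one_mul] at h
    exact h
  · apply Real.log_le_log (abs_pos.mpr hs)
    have := Complex.abs_im_le_norm (s - (gc (a, 0) + t * (gc (b, 0) - gc (a, 0))))
    simpa [gc] using this

lemma potL_rseg_nonneg {a b m : ℤ} (hab : a ≤ b) (hm : 0 ≤ m) {s : ℂ} (hs : 1 ≤ |s.im|) :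
    0 ≤ potL (rseg a b m) s := by
  unfold rseg
  split_ifs with h
  · simp [potL]
  · have h0 : s.im ≠ 0 := by
      intro h'; rw [h', abs_zero] at hs; linarith
    have h1 := pot_real_ge hab h0
    have h2 : (0 : ℝ) ≤ m := by exact_mod_cast hm
    have h3 := Real.log_nonneg hs
    simp only [potL, add_zero]
    exact mul_nonneg h2 (h3.trans h1)

lemma potL_LS_nonneg (S : Shape) (K : ℕ) {s : ℂ} (hs : 1 ≤ |s.im|) : 0 ≤ potL (LS S K) s := by
  have e : ∀ a : ℕ, (0 : ℤ) ≤ (K : ℤ) * a := fun a => by positivity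
  have e' : ∀ a : ℕ, -((K : ℤ) * a) ≤ 0 := fun a => by have := e a; linarith
  unfold LS
  simp only [potL_append650]
  have h1 := potL_rseg_nonneg (e S.B) (e S.B) hs
  have h2 := potL_rseg_nonneg (e' S.e1) (e S.e1) hs
  have h3 := potL_rseg_nonneg (e' S.e2) (e S.e2) hs
  have h4 := potL_rseg_nonneg (e' S.e3) (e S.e3) hs
  have h5 := potL_rseg_nonneg (e S.h1) (e S.h1) hs
  have h6 := potL_rseg_nonneg (e S.h2) (e S.h2) hs
  have h7 := potL_rseg_nonneg (e S.h3) (e S.h3) hs
  have h8 := potL_rseg_nonneg (e' S.w) (e S.w) hs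
  linarith

lemma nonneg_LG (S : Shape) (K : ℕ) : NonnegL (LG S K) := by
  have e : ∀ a : ℕ, (0 : ℤ) ≤ (K : ℤ) * a := fun a => by positivity
  unfold LG
  exact (((nonneg_rseg (e _)).append (nonneg_rseg (e _))).append (nonneg_rseg (e _))).append
    (nonneg_rseg (e _))

lemma nonneg_segs (W : ℤ) : ∀ {L : List Piece}, listOK L = true → NonnegL (segs W L)
  | [], _ => by intro p hp; simp [segs] at hp
  | q :: L, h => by
    simp only [listOK, Piece.good, Bool.and_eq_true, decide_eq_true_eq] at h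
    intro p hp
    simp only [segs, List.map_cons, List.mem_cons] at hp
    rcases hp with rfl | hp
    · have : 0 < q.mass := by tauto
      cases q <;> simpa [Piece.seg, Piece.mass] using this.le
    · exact nonneg_segs W (L := L) h.2 p hp

/-- tail of a potential difference along both rays -/
theorem tail_gen {f h : ℂ → ℝ} (hf : LogLe f) (hh : ∀ z : ℂ, 1 ≤ |z.im| → 0 ≤ h z)
    {w κ ω : ℝ} (hκω : 1 < κ + ω) (l : ℝ) :
    ∃ T1 : ℝ, 1 ≤ T1 ∧ ∀ T, T1 ≤ T → ∀ z : ℂ, z.re = -w - T → |z.im| = T →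
      f z - h z + κ * z.re - ω * |z.im| ≤ l - (T - T1) := by
  obtain ⟨D, C, hD, hC, hf⟩ := hf
  obtain ⟨T1, h1, h2⟩ := tail_abs (A := -(κ * w)) (K := C + |w|) (K' := 2) hD
    (by have := abs_nonneg w; linarith) (by norm_num) hκω l
  refine ⟨T1, h1, fun T hT z hre him => ?_⟩
  refine le_trans ?_ (h2 T hT)
  have hT1 : 1 ≤ T := h1.trans hT
  have hN := hh z (by rw [him]; exact hT1)
  have hz : ‖z‖ ≤ |w| + 2 * T := by
    refine (Complex.norm_le_abs_re_add_abs_im z).trans ?_
    rw [hre, him]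
    have h3 := abs_sub (-w) T
    rw [abs_neg, abs_of_nonneg (by linarith : 0 ≤ T)] at h3
    linarith
  have hlog : Real.log (C + ‖z‖) ≤ Real.log (C + |w| + 2 * T) :=
    Real.log_le_log (by have := norm_nonneg z; linarith) (by linarith)
  have h3 := mul_le_mul_of_nonneg_left hlog hD
  have h4 := hf z
  rw [hre, him]
  have e : κ * (-w - T) - ω * T = -(κ * w) - (κ + ω) * T := by ring
  linarith

lemma wf_lists {S : Shape} {d : Data} (h : Cert.wf S d = true) :
    listOK d.Z = true ∧ listOK d.Y = true ∧ listOK d.W = true := by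
  simp only [Cert.wf, Bool.and_eq_true] at h
  tauto

/-- **tail of `PhiR`**, both rays -/
theorem tail_R {S : Shape} {d : Data} (h : Cert.wf S d = true) (l : ℝ) :
    ∃ T1 : ℝ, 1 ≤ T1 ∧ ∀ T, T1 ≤ T → ∀ z : ℂ, z.re = -(d.K * S.w : ℝ) - T → |z.im| = T →
      PhiR S d z ≤ l - (T - T1) := by
  obtain ⟨hZ, hY, hW⟩ := wf_lists h
  have h8 : (1 : ℝ) < Real.log 8 + Real.pi := by
    have := Real.log_nonneg (show (1 : ℝ) ≤ 8 by norm_num)
    linarith [Real.pi_gt_three]
  obtain ⟨T1, h1, h2⟩ := tail_gen (((logLe_potL (nonneg_segs (d.K * S.w) hW)).add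
    (logLe_potL (nonneg_segs (d.K * S.w) hZ))).add (logLe_potL (nonneg_LG S d.K)))
    (fun z hz => potL_LS_nonneg S d.K hz) (w := (d.K * S.w : ℝ)) h8 l
  exact ⟨T1, h1, fun T hT z hre him => h2 T hT z hre him⟩

/-- **tail of `PhiQ`**, both rays -/
theorem tail_Q {S : Shape} {d : Data} (h : Cert.wf S d = true) (l : ℝ) :
    ∃ T1 : ℝ, 1 ≤ T1 ∧ ∀ T, T1 ≤ T → ∀ z : ℂ, z.re = -(d.K * S.w : ℝ) - T → |z.im| = T →
      PhiQ S d z ≤ l - (T - T1) := by
  obtain ⟨hZ, hY, hW⟩ := wf_lists h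
  have h8 : (1 : ℝ) < 0 + 2 * Real.pi := by linarith [Real.pi_gt_three]
  obtain ⟨T1, h1, h2⟩ := tail_gen ((logLe_potL (nonneg_segs (d.K * S.w) hW)).add
    (logLe_potL (nonneg_segs (d.K * S.w) hY)))
    (fun z hz => potL_LS_nonneg S d.K hz) (w := (d.K * S.w : ℝ)) h8 l
  refine ⟨T1, h1, fun T hT z hre him => ?_⟩
  have h3 := h2 T hT z hre him
  unfold PhiQ
  simp only [zero_mul, add_zero] at h3
  exact h3

end Crest.Agent.R006.Cert650
end

-- ▼ part R006/P3_Kap_200
section

/-!
# Row 6, block P3: the constant of the certificate (helper200)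

`selfE (LS S K) = K² (eV S + rows²/2 log K)`, so that 673's asymptotics of
`log κ = logV - log kden` at `u = K v` has the `v²` coefficient used by `Cert.alphaV`:
`selfE (LS S K) - K² (NL S + NC S log K)`.
-/

set_option autoImplicit false

namespace Crest.Agent.R006.Kap200

open D NumSegx464 ConstX673 Potx943 Cert

/-! ### list sums -/

theorem rowE_eq_sum (p : WSeg) : ∀ L : List WSeg, rowE p L = (L.map fun q => pairE p q).sum
  | [] => rfl
  | q :: L => by
    simp only [rowE, List.map_cons, List.sum_cons]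
    rw [rowE_eq_sum p L]

theorem two_selfE : ∀ L : List WSeg, (∀ p ∈ L, ∀ q ∈ L, pairE p q = pairE q p) →
    2 * selfE L = (L.map fun p => (L.map fun q => pairE p q).sum).sum
  | [], _ => by simp [selfE]
  | p :: L, h => by
    have ih := two_selfE L (fun a ha b hb => h a (List.mem_cons_of_mem _ ha) b
      (List.mem_cons_of_mem _ hb))
    simp only [selfE, List.map_cons, List.sum_cons]
    rw [rowE_eq_sum]
    have h1 : (L.map fun a => pairE a p + (L.map fun q => pairE a q).sum).sum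
        = (L.map fun a => pairE p a).sum + (L.map fun a => (L.map fun q => pairE a q).sum).sum := by
      rw [List.sum_map_add]
      congr 2
      apply List.map_congr_left
      intro a ha
      exact h a (List.mem_cons_of_mem _ ha) p List.mem_cons_self
    rw [h1, ← ih]
    push_cast
    ring

/-! ### real segments of density one -/

theorem pairE_real (a a' m m' : ℤ) :
    pairE ((a, 0), (a + m, 0), m) ((a', 0), (a' + m', 0), m') = Fpair ((a : ℝ) - a') m m' := by
  have h := mutE_eq_segE (a' : ℂ) 1 (m' : ℝ) (a : ℂ) 1 (m : ℝ)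
  have hc := mut_closed_real (a := (a' : ℂ)) (d := 1) (a' := (a : ℂ)) (d' := 1)
    (x0 := (a' : ℝ) - a) (ρ := 1) one_ne_zero one_ne_zero (m := (m' : ℝ)) (m' := (m : ℝ))
    (by push_cast; ring) (by norm_num)
  have e1 : gc (a, 0) = (a : ℂ) := by apply Complex.ext <;> simp
  have e2 : gc (a + m, 0) = (a : ℂ) + ((m : ℝ) : ℂ) * 1 := by apply Complex.ext <;> simp
  have e3 : gc (a', 0) = (a' : ℂ) := by apply Complex.ext <;> simp
  have e4 : gc (a' + m', 0) = (a' : ℂ) + ((m' : ℝ) : ℂ) * 1 := by apply Complex.ext <;> simp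
  unfold pairE
  simp only
  rw [e1, e2, e3, e4, Int.cast_mul, mul_comm (m : ℝ) (m' : ℝ), ← h, hc]
  unfold Fpair
  rw [show (a : ℝ) - a' + m = -((a' : ℝ) - a - m) by ring, F_neg,
    show (a : ℝ) - a' = -((a' : ℝ) - a) by ring, F_neg,
    show -((a' : ℝ) - a - m) - m' = -((a' : ℝ) - a - m + m') by ring, F_neg,
    show -((a' : ℝ) - a) - m' = -((a' : ℝ) - a + m') by ring, F_neg,
    F_eq_G2r, F_eq_G2r, F_eq_G2r, F_eq_G2r]
  simp only [norm_one, Real.log_one, mul_one, div_one]
  ring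

theorem Fpair_symm (D m m' : ℝ) : Fpair (-D) m' m = Fpair D m m' := by
  unfold Fpair
  rw [show -D + m' = -(D - m') by ring, F_neg, F_neg, show -(D - m') - m = -(D + m - m') by ring,
    F_neg, show -D - m = -(D + m) by ring, F_neg]
  ring

/-- the window `i` of the nodes, units `v` -/
def wseg (S : Shape) (K : ℤ) (i : Fin 8) : WSeg :=
  ((K * wst S i, 0), (K * wst S i + K * wlen S i, 0), K * wlen S i)

theorem pairE_wseg (S : Shape) (K : ℤ) (i j : Fin 8) :
    pairE (wseg S K i) (wseg S K j) =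
      Fpair (K * ((wst S i : ℝ) - wst S j)) (K * wlen S i) (K * wlen S j) := by
  unfold wseg
  rw [pairE_real]
  push_cast
  congr 1
  ring

theorem pairE_wseg_symm (S : Shape) (K : ℤ) (i j : Fin 8) :
    pairE (wseg S K i) (wseg S K j) = pairE (wseg S K j) (wseg S K i) := by
  rw [pairE_wseg, pairE_wseg, ← Fpair_symm]
  congr 1
  ring

theorem sum_rseg (f : WSeg → ℝ) (hf : ∀ A B, f (A, B, 0) = 0) (a b m : ℤ) :
    ((rseg a b m).map f).sum = f ((a, 0), (b, 0), m) := by
  unfold rseg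
  split_ifs with h
  · subst h
    simp [hf]
  · simp

theorem mem_LS {S : Shape} {K : ℤ} {p : WSeg} (h : p ∈ LS S K) : ∃ i, p = wseg S K i := by
  have key : ∀ (a b m : ℤ), p ∈ rseg a b m → p = ((a, 0), (b, 0), m) := by
    intro a b m hp
    unfold rseg at hp
    split_ifs at hp
    · simp at hp
    · exact List.mem_singleton.mp hp
  unfold LS at h
  simp only [List.mem_append] at h
  rcases h with ((((((h | h) | h) | h) | h) | h) | h) | h
  · exact ⟨0, by rw [key _ _ _ h]; simp [wseg, wst, wlen]⟩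
  · exact ⟨1, by rw [key _ _ _ h]; simp [wseg, wst, wlen]⟩
  · exact ⟨2, by rw [key _ _ _ h]; simp [wseg, wst, wlen]⟩
  · exact ⟨3, by rw [key _ _ _ h]; simp [wseg, wst, wlen]⟩
  · exact ⟨4, by rw [key _ _ _ h]; simp [wseg, wst, wlen]⟩
  · exact ⟨5, by rw [key _ _ _ h]; simp [wseg, wst, wlen]⟩
  · exact ⟨6, by rw [key _ _ _ h]; simp [wseg, wst, wlen]⟩
  · exact ⟨7, by rw [key _ _ _ h]; simp [wseg, wst, wlen]⟩

theorem sum_LS (S : Shape) (K : ℤ) (f : WSeg → ℝ) (hf : ∀ A B, f (A, B, 0) = 0) :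
    ((LS S K).map f).sum = ∑ i : Fin 8, f (wseg S K i) := by
  rw [Fin.sum_univ_eight]
  unfold LS
  simp only [List.map_append, List.sum_append, sum_rseg f hf]
  simp only [wseg, wst, wlen]
  simp

/-- energy of the nodes on the scale `K` -/
theorem selfE_LS (S : Shape) {K : ℕ} (hK : 0 < K) :
    selfE (LS S K) = (K : ℝ) ^ 2 * (eV S + (S.rows : ℝ) ^ 2 / 2 * Real.log K) := by
  have hKr : (0 : ℝ) < K := by exact_mod_cast hK
  have h1 := two_selfE (LS S K) (by
    intro p hp q hq
    obtain ⟨i, rfl⟩ := mem_LS hp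
    obtain ⟨j, rfl⟩ := mem_LS hq
    exact pairE_wseg_symm S K i j)
  have h2 : ((LS S K).map fun p => ((LS S K).map fun q => pairE p q).sum).sum
      = ∑ i : Fin 8, ∑ j : Fin 8, pairE (wseg S K i) (wseg S K j) := by
    rw [sum_LS S K _ (by
      intro A B
      have : (fun q => pairE (A, B, 0) q) = fun _ => (0 : ℝ) := by
        funext q; simp [pairE]
      rw [this]
      simp)]
    apply Finset.sum_congr rfl
    intro i _
    exact sum_LS S K _ (by intro A B; simp [pairE])
  have hF : ∀ x : ℝ, F (K * x) = (K : ℝ) ^ 2 * (F x + x ^ 2 / 2 * Real.log K) := by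
    intro x
    rcases eq_or_ne x 0 with h | h
    · subst h; simp
    · unfold F
      rw [Real.log_mul hKr.ne' h]
      ring
  have hFp : ∀ D m m' : ℝ, Fpair (K * D) (K * m) (K * m')
      = (K : ℝ) ^ 2 * (Fpair D m m' + m * m' * Real.log K) := by
    intro D m m'
    unfold Fpair
    rw [show (K : ℝ) * D + K * m = K * (D + m) by ring,
      show (K : ℝ) * (D + m) - K * m' = K * (D + m - m') by ring,
      show (K : ℝ) * D - K * m' = K * (D - m') by ring, hF, hF, hF, hF]
    ring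
  have h3 : ∑ i : Fin 8, ∑ j : Fin 8, pairE (wseg S K i) (wseg S K j)
      = (K : ℝ) ^ 2 * (2 * eV S + (S.rows : ℝ) ^ 2 * Real.log K) := by
    have e : ∀ i j : Fin 8, pairE (wseg S K i) (wseg S K j)
        = (K : ℝ) ^ 2 * Fpair ((wst S i : ℝ) - wst S j) (wlen S i) (wlen S j)
          + (K : ℝ) ^ 2 * Real.log K * ((wlen S i : ℝ) * wlen S j) := by
      intro i j
      rw [pairE_wseg]
      push_cast
      rw [hFp]
      ring
    simp_rw [e, Finset.sum_add_distrib, ← Finset.mul_sum]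
    have e2 : ∑ i : Fin 8, (wlen S i : ℝ) * ∑ j : Fin 8, (wlen S j : ℝ) = (S.rows : ℝ) ^ 2 := by
      rw [← Finset.sum_mul, sum_wlen]
      ring
    rw [e2]
    unfold eV
    ring
  rw [h2, h3] at h1
  linarith

/-- **the `v²` coefficient** -/
theorem kap_eq (S : Shape) {K : ℕ} (hK : 0 < K) :
    (K : ℝ) ^ 2 * (kapE S + kapA S * Real.log K)
      = selfE (LS S K) - (K : ℝ) ^ 2 * (NL S + NC S * Real.log K) := by
  rw [selfE_LS S hK]
  unfold kapE kapA NL NC sfF phi F
  ring

/-- **asymptotics of `log κ` at `u = K v`** -/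
theorem logkappa_mul (S : Shape) (c : ℕ) {K : ℕ} (hK : 0 < K) :
    ∃ C : ℝ, 0 ≤ C ∧ ∀ v : ℕ, 1 ≤ v →
      |(logV S (K * v) c - Real.log (kden S (K * v)))
        - (kapA S * (K : ℝ) ^ 2 * ((v : ℝ) ^ 2 * Real.log v)
          + (v : ℝ) ^ 2 * (selfE (LS S K) - (K : ℝ) ^ 2 * (NL S + NC S * Real.log K)))|
        ≤ C * (v * (1 + Real.log v)) := by
  obtain ⟨C, hC⟩ := Sm_logkappa S c
  have hKr : (1 : ℝ) ≤ K := by exact_mod_cast hK
  have hlK : 0 ≤ Real.log (K : ℝ) := Real.log_nonneg hKr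
  refine ⟨|C| * (K * (1 + Real.log K)), by positivity, fun v hv => ?_⟩
  have hv1 : (1 : ℝ) ≤ v := by exact_mod_cast hv
  have hlv : 0 ≤ Real.log (v : ℝ) := Real.log_nonneg hv1
  have h1 := hC (K * v) (by nlinarith)
  have hlog : Real.log ((K * v : ℕ) : ℝ) = Real.log K + Real.log v := by
    push_cast
    rw [Real.log_mul (by positivity) (by positivity)]
  simp only at h1
  rw [hlog] at h1
  push_cast at h1
  have e : kapA S * (((K : ℝ) * v) ^ 2 * (Real.log K + Real.log v)) + ((K : ℝ) * v) ^ 2 * kapE S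
      = kapA S * (K : ℝ) ^ 2 * ((v : ℝ) ^ 2 * Real.log v)
        + (v : ℝ) ^ 2 * (selfE (LS S K) - (K : ℝ) ^ 2 * (NL S + NC S * Real.log K)) := by
    rw [← kap_eq S hK]
    ring
  rw [e] at h1
  refine h1.trans ?_
  have h2 : ef (K * v) ≤ K * (1 + Real.log K) * (v * (1 + Real.log v)) := by
    unfold ef
    rw [hlog]
    push_cast
    have h3 : 1 + (Real.log (K : ℝ) + Real.log v) ≤ (1 + Real.log K) * (1 + Real.log v) := by
      nlinarith [mul_nonneg hlK hlv]
    have h4 : (0 : ℝ) ≤ (K : ℝ) * v := by positivity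
    calc (K : ℝ) * v * (1 + (Real.log K + Real.log v))
        ≤ (K : ℝ) * v * ((1 + Real.log K) * (1 + Real.log v)) :=
          mul_le_mul_of_nonneg_left h3 h4
      _ = _ := by ring
  have h5 : 0 ≤ ef (K * v) := by
    unfold ef
    have : 0 ≤ Real.log ((K * v : ℕ) : ℝ) := by rw [hlog]; positivity
    positivity
  calc C * ef (K * v) ≤ |C| * ef (K * v) := mul_le_mul_of_nonneg_right (le_abs_self C) h5
    _ ≤ |C| * (K * (1 + Real.log K) * (v * (1 + Real.log v))) :=
        mul_le_mul_of_nonneg_left h2 (abs_nonneg C)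
    _ = _ := by ring

end Crest.Agent.R006.Kap200
end

-- ▼ part R006/P3_Pieces_884
section

/-!
# Row 6, block P3: pieces of the certificate as families of reference points (helper884)

`fam W p` : the family (943's `Fam`) of a piece, `F W L : Fin (srt L).length → Fam` the families of
a list of pieces (real pieces first). If `listOK L`:

* `U_eq_potL`  : `U (F W L) s = potL (segs W L) s`;
* `En_eq_selfE` : `En (F W L) = 2 * selfE (segs W L)`;
* `mass_eq` : `(mass (F W L) : ℤ) = massL L`;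
* `F_mu`, `F_d_ne`, `sep_of_listOK` : multiplicities one, steps nonzero, separated.
-/

set_option autoImplicit false

namespace Crest.Agent.R006.Cert

open D NumSegx464 Potx943

/-- the family of a piece (`-W` = apex) -/
noncomputable def fam (W : ℤ) (p : Piece) : Fam where
  a := gc (p.seg W).1
  d := (gc (p.seg W).2.1 - gc (p.seg W).1) / (p.mass : ℂ)
  n := p.mass.toNat
  mu := 1

/-- the families of a list -/
noncomputable def G (W : ℤ) (L : List Piece) (i : Fin L.length) : Fam := fam W L[i]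

/-- real pieces first -/
def srt (L : List Piece) : List Piece :=
  L.filter (fun p => decide (p.line = 0)) ++ L.filter (fun p => !decide (p.line = 0))

/-- the families of a list, real pieces first -/
noncomputable def F (W : ℤ) (L : List Piece) : Fin (srt L).length → Fam := G W (srt L)

theorem srt_perm (L : List Piece) : (srt L).Perm L :=
  List.filter_append_perm _ L

theorem mass_seg (W : ℤ) (p : Piece) : (p.seg W).2.2 = p.mass := by
  cases p <;> rfl

theorem good_iff {p : Piece} : p.good = true ↔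
    p.lo < p.hi ∧ 0 < p.mass ∧ (p.line = 0 ∨ 0 ≤ p.lo) := by
  simp [Piece.good, and_assoc]

theorem nd_seg (W : ℤ) {p : Piece} (h : p.good = true) : nd (p.seg W) := by
  obtain ⟨h1, -, -⟩ := good_iff.1 h
  unfold nd
  intro h0
  rcases p with ⟨a, b, m⟩ | ⟨a, b, m⟩ | ⟨a, b, m⟩
  · have h1' : (a : ℝ) < b := by exact_mod_cast h1
    have := congrArg Complex.re h0
    simp [Piece.seg, gc] at this
    linarith
  · have h1' : (a : ℝ) < b := by exact_mod_cast h1
    have := congrArg Complex.im h0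
    simp [Piece.seg, gc] at this
    linarith
  · have h1' : (a : ℝ) < b := by exact_mod_cast h1
    have := congrArg Complex.im h0
    simp [Piece.seg, gc] at this
    linarith

theorem fam_n (W : ℤ) {p : Piece} (h : p.good = true) : ((fam W p).n : ℤ) = p.mass := by
  obtain ⟨-, h2, -⟩ := good_iff.1 h
  exact Int.toNat_of_nonneg h2.le

theorem fam_n' (W : ℤ) {p : Piece} (h : p.good = true) : ((fam W p).n : ℝ) = p.mass := by
  exact_mod_cast fam_n W h

theorem fam_n_c (W : ℤ) {p : Piece} (h : p.good = true) : (((fam W p).n : ℝ) : ℂ) = p.mass := by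
  rw [fam_n' W h]; push_cast; rfl

theorem mass_ne {p : Piece} (h : p.good = true) : (p.mass : ℂ) ≠ 0 := by
  obtain ⟨-, h2, -⟩ := good_iff.1 h
  exact_mod_cast h2.ne'

theorem fam_d_ne (W : ℤ) {p : Piece} (h : p.good = true) : (fam W p).d ≠ 0 :=
  div_ne_zero (nd_seg W h) (mass_ne h)

theorem fam_end (W : ℤ) {p : Piece} (h : p.good = true) :
    (fam W p).a + (((fam W p).n : ℝ) : ℂ) * (fam W p).d = gc (p.seg W).2.1 := by
  rw [fam_n_c W h]
  have := mass_ne h
  simp only [fam]
  field_simp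
  ring

theorem fam_pot (W : ℤ) {p : Piece} (h : p.good = true) (s : ℂ) :
    Iseg (fam W p).a (fam W p).d (fam W p).n s =
      ((p.seg W).2.2 : ℝ) * pot (gc (p.seg W).1) (gc (p.seg W).2.1) s := by
  rw [Iseg_eq_pot, fam_end W h, fam_n' W h, mass_seg]
  rfl

theorem fam_mut (W : ℤ) {p q : Piece} (hp : p.good = true) (hq : q.good = true) :
    Potx943.mutE (fam W p).a (fam W p).d (fam W p).n (fam W q).a (fam W q).d (fam W q).n =
      pairE (p.seg W) (q.seg W) := by
  have ea : ∀ p : Piece, (fam W p).a = gc (p.seg W).1 := fun _ => rfl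
  rw [mutE_eq_segE, fam_end W hp, fam_end W hq, fam_n' W hp, fam_n' W hq, ea, ea,
    segE_symm (nd_seg W hq)]
  unfold pairE
  rw [mass_seg, mass_seg]
  push_cast
  rfl

theorem fam_self (W : ℤ) {p : Piece} (h : p.good = true) :
    ((fam W p).mu : ℝ) ^ 2 * (((fam W p).n : ℝ) ^ 2 * Real.log ‖(fam W p).d‖
      + ((fam W p).n : ℝ) ^ 2 * Real.log (fam W p).n - 3 / 2 * ((fam W p).n : ℝ) ^ 2) =
      pairE (p.seg W) (p.seg W) := by
  have hm : (0 : ℝ) < p.mass := by
    obtain ⟨-, h2, -⟩ := good_iff.1 h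
    exact_mod_cast h2
  have hn := nd_seg W h
  have e1 : Real.log ‖(fam W p).d‖ =
      Real.log ‖gc (p.seg W).2.1 - gc (p.seg W).1‖ - Real.log p.mass := by
    simp only [fam]
    rw [norm_div, Real.log_div (norm_ne_zero_iff.2 hn) (norm_ne_zero_iff.2 (mass_ne h))]
    congr 2
    rw [Complex.norm_intCast, abs_of_pos hm]
  unfold pairE
  rw [segE_self hn, e1, fam_n' W h, mass_seg]
  have e2 : ((fam W p).mu : ℝ) = 1 := by simp [fam]
  rw [e2]
  push_cast
  ring

variable (W : ℤ)

theorem G_U (s : ℂ) : ∀ L : List Piece, (∀ p ∈ L, p.good = true) →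
    U (G W L) s = potL (segs W L) s
  | [], _ => by simp [U, segs, potL]
  | p :: L, h => by
    have ih := G_U s L fun q hq => h q (List.mem_cons_of_mem _ hq)
    have h1 : U (G W (p :: L)) s = ((fam W p).mu : ℝ) * Iseg (fam W p).a (fam W p).d (fam W p).n s
        + U (G W L) s := Fin.sum_univ_succ _
    rw [h1, ih, fam_pot W (h p List.mem_cons_self)]
    simp [segs, potL, fam]

theorem G_mass : ∀ L : List Piece, (∀ p ∈ L, p.good = true) → (mass (G W L) : ℤ) = massL L
  | [], _ => by simp [mass, massL]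
  | p :: L, h => by
    have ih := G_mass L fun q hq => h q (List.mem_cons_of_mem _ hq)
    have h1 : mass (G W (p :: L)) = (fam W p).mu * (fam W p).n + mass (G W L) :=
      Fin.sum_univ_succ _
    rw [h1]
    push_cast
    rw [ih, fam_n W (h p List.mem_cons_self)]
    simp [massL, fam]

theorem G_row {p : Piece} (hp : p.good = true) : ∀ L : List Piece, (∀ p ∈ L, p.good = true) →
    ∑ g, ((fam W p).mu : ℝ) * (G W L g).mu * Potx943.mutE (fam W p).a (fam W p).d (fam W p).n
      (G W L g).a (G W L g).d (G W L g).n = rowE (p.seg W) (segs W L)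
  | [], _ => by simp [segs, rowE]
  | q :: L, h => by
    have ih := G_row hp L fun q hq => h q (List.mem_cons_of_mem _ hq)
    have h1 : ∑ g, ((fam W p).mu : ℝ) * (G W (q :: L) g).mu *
        Potx943.mutE (fam W p).a (fam W p).d (fam W p).n
          (G W (q :: L) g).a (G W (q :: L) g).d (G W (q :: L) g).n =
        ((fam W p).mu : ℝ) * (fam W q).mu * Potx943.mutE (fam W p).a (fam W p).d (fam W p).n
          (fam W q).a (fam W q).d (fam W q).n +
        ∑ g, ((fam W p).mu : ℝ) * (G W L g).mu * Potx943.mutE (fam W p).a (fam W p).d (fam W p).n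
      (G W L g).a (G W L g).d (G W L g).n := Fin.sum_univ_succ _
    rw [h1, ih, fam_mut W hp (h q List.mem_cons_self)]
    simp [segs, rowE, fam]

theorem G_En : ∀ L : List Piece, (∀ p ∈ L, p.good = true) →
    En (G W L) = 2 * selfE (segs W L)
  | [], _ => by simp [En, segs, selfE]
  | p :: L, h => by
    have hp := h p List.mem_cons_self
    have hL := fun q hq => h q (List.mem_cons_of_mem p hq)
    have ih := G_En L hL
    have hrow := G_row W hp L hL
    have hself := fam_self W hp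
    have h1 : En (G W (p :: L)) = ((fam W p).mu : ℝ) ^ 2 * (((fam W p).n : ℝ) ^ 2 *
        Real.log ‖(fam W p).d‖ + ((fam W p).n : ℝ) ^ 2 * Real.log (fam W p).n
          - 3 / 2 * ((fam W p).n : ℝ) ^ 2) +
        2 * (∑ g, ((fam W p).mu : ℝ) * (G W L g).mu *
          Potx943.mutE (fam W p).a (fam W p).d (fam W p).n
            (G W L g).a (G W L g).d (G W L g).n) + En (G W L) := by
      unfold En
      simp only [List.length_cons]
      rw [Fin.sum_univ_succ, Fin.sum_univ_succ (f := fun f => ∑ g ∈ Finset.Ioi f, _),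
        Fin.sum_Ioi_zero]
      simp only [Fin.sum_Ioi_succ]
      have e0 : G W (p :: L) 0 = fam W p := rfl
      have e1 : ∀ i, G W (p :: L) (Fin.succ i) = G W L i := fun _ => rfl
      simp only [e0, e1]
      ring
    rw [h1, hrow, hself, ih]
    simp only [segs, List.map_cons, selfE]
    push_cast
    ring

theorem good_of_listOK : ∀ {L : List Piece}, listOK L = true → ∀ p ∈ L, p.good = true
  | [], _, p, hp => by simp at hp
  | q :: L, h, p, hp => by
    simp only [listOK, Bool.and_eq_true] at h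
    rcases List.mem_cons.1 hp with rfl | hp
    · exact h.1.1
    · exact good_of_listOK h.2 p hp

theorem pairwise_of_listOK : ∀ {L : List Piece}, listOK L = true →
    L.Pairwise fun p q => apart p q = true
  | [], _ => List.Pairwise.nil
  | q :: L, h => by
    simp only [listOK, Bool.and_eq_true] at h
    exact List.Pairwise.cons (fun p hp => List.all_eq_true.1 h.1.2 p hp)
      (pairwise_of_listOK h.2)

theorem mem_srt {L : List Piece} {p : Piece} : p ∈ srt L ↔ p ∈ L := (srt_perm L).mem_iff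

theorem good_srt {L : List Piece} (h : listOK L = true) : ∀ p ∈ srt L, p.good = true :=
  fun p hp => good_of_listOK h p (mem_srt.1 hp)

theorem U_eq_potL {L : List Piece} (h : listOK L = true) (s : ℂ) :
    U (F W L) s = potL (segs W L) s := by
  unfold F
  rw [G_U W s _ (good_srt h)]
  exact NumSegx464.potL_perm s ((srt_perm L).map _)

theorem En_eq_selfE {L : List Piece} (h : listOK L = true) :
    En (F W L) = 2 * selfE (segs W L) := by
  unfold F
  rw [G_En W _ (good_srt h)]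
  congr 1
  refine selfE_perm ((srt_perm L).map _) fun q hq => ?_
  simp only [segs, List.mem_map] at hq
  obtain ⟨p, hp, rfl⟩ := hq
  exact nd_seg W (good_srt h p hp)

theorem mass_eq {L : List Piece} (h : listOK L = true) : (mass (F W L) : ℤ) = massL L := by
  unfold F
  rw [G_mass W _ (good_srt h)]
  unfold massL
  exact ((srt_perm L).map _).sum_eq

theorem F_mu (L : List Piece) (f : Fin (srt L).length) : (F W L f).mu = 1 := rfl

theorem F_d_ne {L : List Piece} (h : listOK L = true) (f : Fin (srt L).length) :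
    (F W L f).d ≠ 0 :=
  fam_d_ne W (good_srt h _ (List.getElem_mem _))

/-- the parameter of the point `N a + τ d` of a family -/
noncomputable def par (p : Piece) (N τ : ℝ) : ℝ := N * p.lo + τ * ((p.hi - p.lo) / p.mass)

theorem re_pt {p : Piece} (h : p.line = 0) (N τ : ℝ) :
    ((N : ℂ) * (fam W p).a + τ * (fam W p).d).re = par p N τ := by
  rcases p with ⟨a, b, m⟩ | ⟨a, b, m⟩ | ⟨a, b, m⟩
  · simp [fam, Piece.seg, gc, par, Piece.lo, Piece.hi, Piece.mass, Complex.div_intCast_re]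
  · simp [Piece.line] at h
  · simp [Piece.line] at h

theorem im_pt (p : Piece) (N τ : ℝ) :
    ((N : ℂ) * (fam W p).a + τ * (fam W p).d).im =
      if p.line = 0 then 0 else if p.line = 1 then par p N τ else - par p N τ := by
  rcases p with ⟨a, b, m⟩ | ⟨a, b, m⟩ | ⟨a, b, m⟩
  · simp [fam, Piece.seg, gc, par, Piece.lo, Piece.hi, Piece.mass, Piece.line,
      Complex.div_intCast_im]
  · simp [fam, Piece.seg, gc, par, Piece.lo, Piece.hi, Piece.mass, Piece.line,
      Complex.div_intCast_im]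
  · simp [fam, Piece.seg, gc, par, Piece.lo, Piece.hi, Piece.mass, Piece.line,
      Complex.div_intCast_im]
    ring

theorem par_mem {p : Piece} (h : p.good = true) {N τ ε : ℝ} (h0 : ε ≤ τ)
    (h1 : τ + ε ≤ N * p.mass) :
    N * p.lo + ε * ((p.hi - p.lo) / p.mass) ≤ par p N τ ∧
      par p N τ ≤ N * p.hi - ε * ((p.hi - p.lo) / p.mass) := by
  obtain ⟨a1, a2, -⟩ := good_iff.1 h
  have b1 : (p.lo : ℝ) < p.hi := by exact_mod_cast a1
  have b2 : (0 : ℝ) < p.mass := by exact_mod_cast a2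
  have b3 : 0 < ((p.hi : ℝ) - p.lo) / p.mass := div_pos (by linarith) b2
  have b4 : (p.mass : ℝ) * (((p.hi : ℝ) - p.lo) / p.mass) = p.hi - p.lo := by field_simp
  have b5 := mul_le_mul_of_nonneg_right h1 b3.le
  have b6 := mul_le_mul_of_nonneg_right h0 b3.le
  have b7 : N * p.mass * (((p.hi : ℝ) - p.lo) / p.mass) = N * (p.hi - p.lo) := by
    rw [mul_assoc, b4]
  rw [b7] at b5
  unfold par
  constructor
  · linarith
  · linarith

theorem pair_sep {p q : Piece} (hp : p.good = true) (hq : q.good = true)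
    (ha : apart p q = true) (hr : p.line = 0 ∨ ¬ q.line = 0) {N : ℕ} (hN : 0 < N) {t : ℝ}
    (ht : t ∈ Set.Icc (0 : ℝ) ((fam W p).n * N)) {j : ℕ} (hj : j < (fam W q).n * N) :
    (1 / 2) * (((q.hi : ℝ) - q.lo) / q.mass) ≤
      ‖((N : ℂ) * (fam W p).a + t * (fam W p).d) - pt ((N : ℂ) * (fam W q).a) (fam W q).d j‖ := by
  set δ : ℝ := (1 / 2) * (((q.hi : ℝ) - q.lo) / q.mass) with hδ
  have hN' : (0 : ℝ) < N := by exact_mod_cast hN
  obtain ⟨q1, q2, q3⟩ := good_iff.1 hq
  obtain ⟨p1, p2, p3⟩ := good_iff.1 hp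
  have c1 : (q.lo : ℝ) < q.hi := by exact_mod_cast q1
  have c2 : (0 : ℝ) < q.mass := by exact_mod_cast q2
  have hδ0 : 0 < δ := by
    have := div_pos (sub_pos.2 c1) c2
    positivity
  have hpar := par_mem hp (N := N) (τ := t) (ε := 0) (by linarith [ht.1])
    (by have := ht.2; rw [fam_n' W hp] at this; linarith)
  have hj' : ((j : ℝ) + 1 / 2) + 1 / 2 ≤ N * q.mass := by
    have h1 : ((j + 1 : ℕ) : ℝ) ≤ (((fam W q).n * N : ℕ) : ℝ) := by exact_mod_cast hj
    push_cast at h1
    rw [fam_n' W hq] at h1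
    linarith
  have hqar := par_mem hq (N := N) (τ := (j : ℝ) + 1 / 2) (ε := 1 / 2)
    (by have : (0 : ℝ) ≤ j := Nat.cast_nonneg j
        linarith) hj'
  rw [← hδ] at hqar
  rw [zero_mul, add_zero, sub_zero] at hpar
  have ept : pt ((N : ℂ) * (fam W q).a) (fam W q).d j =
      ((N : ℝ) : ℂ) * (fam W q).a + (((j : ℝ) + 1 / 2 : ℝ) : ℂ) * (fam W q).d := by
    unfold pt; push_cast; ring
  have ep : ((N : ℂ) * (fam W p).a + t * (fam W p).d) =
      ((N : ℝ) : ℂ) * (fam W p).a + (t : ℂ) * (fam W p).d := by push_cast; ring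
  rw [ept, ep]
  have hre := Complex.abs_re_le_norm ((((N : ℝ) : ℂ) * (fam W p).a + (t : ℂ) * (fam W p).d) -
    (((N : ℝ) : ℂ) * (fam W q).a + (((j : ℝ) + 1 / 2 : ℝ) : ℂ) * (fam W q).d))
  have him := Complex.abs_im_le_norm ((((N : ℝ) : ℂ) * (fam W p).a + (t : ℂ) * (fam W p).d) -
    (((N : ℝ) : ℂ) * (fam W q).a + (((j : ℝ) + 1 / 2 : ℝ) : ℂ) * (fam W q).d))
  rw [Complex.sub_re] at hre
  rw [Complex.sub_im, im_pt, im_pt] at him
  set x := par p N t
  set y := par q N ((j : ℝ) + 1 / 2)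
  have hlin : p.line = q.line → δ ≤ |x - y| := by
    intro hl
    have h1 : p.hi ≤ q.lo ∨ q.hi ≤ p.lo := by
      simpa [apart, hl] using ha
    rcases h1 with h1 | h1
    · have h2 : (p.hi : ℝ) ≤ q.lo := by exact_mod_cast h1
      have h3 := mul_le_mul_of_nonneg_left h2 hN'.le
      rw [abs_sub_comm]
      exact le_trans (by linarith [hpar.2, hqar.1]) (le_abs_self _)
    · have h2 : (q.hi : ℝ) ≤ p.lo := by exact_mod_cast h1
      have h3 := mul_le_mul_of_nonneg_left h2 hN'.le
      exact le_trans (by linarith [hpar.1, hqar.2]) (le_abs_self _)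
  have hx0 : ¬ p.line = 0 → 0 ≤ x := by
    intro hl
    have h1 : (0 : ℝ) ≤ p.lo := by exact_mod_cast p3.resolve_left hl
    have h2 := mul_nonneg hN'.le h1
    linarith [hpar.1]
  have hy0 : ¬ q.line = 0 → δ ≤ y := by
    intro hl
    have h1 : (0 : ℝ) ≤ q.lo := by exact_mod_cast q3.resolve_left hl
    have h2 := mul_nonneg hN'.le h1
    linarith [hqar.1]
  have hl3 : ∀ p : Piece, p.line = 0 ∨ p.line = 1 ∨ p.line = 2 := by
    intro p; cases p <;> simp [Piece.line]
  rcases hl3 q with hq0 | hq1 | hq2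
  · -- both real
    have hp0 : p.line = 0 := hr.resolve_right (fun h => h hq0)
    rw [re_pt W hp0, re_pt W hq0] at hre
    exact (hlin (by rw [hp0, hq0])).trans hre
  · rcases hl3 p with hp0 | hp1 | hp2
    · simp only [hp0, hq1, if_true, one_ne_zero, if_false] at him
      refine (hy0 (by omega)).trans (le_trans ?_ him)
      rw [zero_sub, abs_neg]; exact le_abs_self _
    · simp only [hp1, hq1, one_ne_zero, if_true, if_false] at him
      exact (hlin (by rw [hp1, hq1])).trans him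
    · simp only [hp2, hq1, one_ne_zero, OfNat.ofNat_ne_zero, OfNat.ofNat_ne_one, if_true,
        if_false] at him
      refine (hy0 (by omega)).trans (le_trans ?_ him)
      rw [abs_sub_comm]
      exact le_trans (by linarith [hx0 (by omega)]) (le_abs_self _)
  · rcases hl3 p with hp0 | hp1 | hp2
    · simp only [hp0, hq2, OfNat.ofNat_ne_zero, OfNat.ofNat_ne_one, if_true, if_false] at him
      refine (hy0 (by omega)).trans (le_trans ?_ him)
      exact le_trans (by linarith) (le_abs_self _)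
    · simp only [hp1, hq2, one_ne_zero, OfNat.ofNat_ne_zero, OfNat.ofNat_ne_one, if_true,
        if_false] at him
      refine (hy0 (by omega)).trans (le_trans ?_ him)
      exact le_trans (by linarith [hx0 (by omega)]) (le_abs_self _)
    · simp only [hp2, hq2, OfNat.ofNat_ne_zero, OfNat.ofNat_ne_one, if_false] at him
      refine (hlin (by rw [hp2, hq2])).trans (le_trans (le_of_eq ?_) him)
      rw [abs_sub_comm]; congr 1; ring

theorem mass_le_massL {L : List Piece} (h : ∀ p ∈ L, p.good = true) :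
    0 ≤ massL L ∧ ∀ p ∈ L, p.mass ≤ massL L := by
  induction L with
  | nil => simp [massL]
  | cons q L ih =>
    have ih' := ih fun p hp => h p (List.mem_cons_of_mem _ hp)
    have hq := (good_iff.1 (h q List.mem_cons_self)).2.1
    have e : massL (q :: L) = q.mass + massL L := by simp [massL]
    rw [e]
    refine ⟨by linarith [ih'.1], fun p hp => ?_⟩
    rcases List.mem_cons.1 hp with rfl | hp
    · linarith [ih'.1]
    · linarith [ih'.2 p hp]

/-- the order: apart, and a ray piece is never before a real piece -/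
theorem srt_pairwise {L : List Piece} (h : listOK L = true) :
    (srt L).Pairwise fun p q => apart p q = true ∧ (p.line = 0 ∨ ¬ q.line = 0) := by
  have hp := pairwise_of_listOK h
  unfold srt
  rw [List.pairwise_append]
  refine ⟨?_, ?_, ?_⟩
  · refine List.Pairwise.imp_of_mem ?_ (hp.filter _)
    intro p q hp hq hpq
    rw [List.mem_filter, decide_eq_true_eq] at hp
    exact ⟨hpq, Or.inl hp.2⟩
  · refine List.Pairwise.imp_of_mem ?_ (hp.filter _)
    intro p q hp hq hpq
    rw [List.mem_filter] at hq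
    exact ⟨hpq, Or.inr (by simpa using hq.2)⟩
  · intro p hp q hq
    rw [List.mem_filter] at hp hq
    have h1 : p.line = 0 := by simpa using hp.2
    have h2 : ¬ q.line = 0 := by simpa using hq.2
    refine ⟨?_, Or.inl h1⟩
    have h3 : ¬ p.line = q.line := by rw [h1]; exact fun h => h2 h.symm
    simp [apart, h3]

/-- **separation** -/
theorem sep_of_listOK {L : List Piece} (h : listOK L = true) :
    ∃ ρ : ℝ, 0 < ρ ∧ Sep (F W L) ρ := by
  have hg := good_srt h
  obtain ⟨hM0, hM⟩ := mass_le_massL hg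
  have hM0' : (0 : ℝ) ≤ massL (srt L) := by exact_mod_cast hM0
  refine ⟨1 / 2 * (1 / (massL (srt L) + 1)), by positivity, ?_⟩
  intro N hN f g hfg t ht j hj
  have hpw := List.pairwise_iff_getElem.1 (srt_pairwise h) f g f.2 g.2 hfg
  have hgg := hg _ (List.getElem_mem g.2)
  refine le_trans ?_ (pair_sep W (hg _ (List.getElem_mem f.2)) hgg hpw.1 hpw.2 hN ht hj)
  apply mul_le_mul_of_nonneg_left _ (by norm_num)
  obtain ⟨q1, q2, -⟩ := good_iff.1 hgg
  have c1 : (1 : ℝ) ≤ ((srt L)[(g : ℕ)].hi : ℝ) - (srt L)[(g : ℕ)].lo := by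
    have : (1 : ℤ) ≤ (srt L)[(g : ℕ)].hi - (srt L)[(g : ℕ)].lo := by omega
    exact_mod_cast this
  have c2 : (0 : ℝ) < (srt L)[(g : ℕ)].mass := by exact_mod_cast q2
  have c3 : ((srt L)[(g : ℕ)].mass : ℝ) ≤ massL (srt L) + 1 := by
    have := hM _ (List.getElem_mem g.2)
    have : ((srt L)[(g : ℕ)].mass : ℝ) ≤ massL (srt L) := by exact_mod_cast this
    linarith
  exact div_le_div₀ (by linarith) c1 c2 c3

end Crest.Agent.R006.Cert
end

-- ▼ part R006/P3_RefPack_943
section

/-! Row 6, block P3, LEAF REF (helper943, on helper884's Pieces). -/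

set_option autoImplicit false

namespace Crest.Agent.R006.P3

open Crest.Agent.R006.D Crest.Agent.R006.Cert Crest.Agent.R006.NumSegx464
  Crest.Agent.R006.Potx943

/-- **LEAF REF** -/
theorem refPack {W0 : ℤ} {L : List Piece} {m : ℕ} (h : listOK L = true) (hm : massL L = m) (c : ℕ) :
    RefPack W0 L m c := by
  obtain ⟨ρ, hρ, hsep⟩ := sep_of_listOK W0 h
  refine refPack_of (F W0 L) (F_d_ne W0 h) (fun f => F_mu W0 L f) hρ hsep ?_ (U_eq_potL W0 h)
    (En_eq_selfE W0 h) c
  have h1 := mass_eq W0 h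
  rw [hm] at h1
  exact_mod_cast h1

end Crest.Agent.R006.P3
end

-- ▼ part R006/P3_KapLe_200
section

/-! Row 6, block P3: leaf KAPPA of `P3_Leaf_390` from `P3_Kap_200` (helper200). -/

set_option autoImplicit false

namespace Crest.Agent.R006.P3

open Crest.Agent.R006.D Crest.Agent.R006.Cert Crest.Agent.R006.ConstX673 Crest.Agent.R006.Kap200

theorem kapLe200 (S : Shape) {K : ℕ} (hK : 0 < K) (c : ℕ) : KapLe S K c := by
  obtain ⟨C, hC, h⟩ := logkappa_mul S c hK
  refine ⟨C, hC, fun v hv => ?_⟩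
  have h1 := (abs_le.mp (h v hv)).2
  have e : (v : ℝ) ^ 2 * ((K : ℝ) ^ 2 * kapA S * Real.log v
        + (NumSegx464.selfE (LS S K) - (K : ℝ) ^ 2 * (NL S + NC S * Real.log K)))
      = kapA S * (K : ℝ) ^ 2 * ((v : ℝ) ^ 2 * Real.log v)
          + (v : ℝ) ^ 2 * (NumSegx464.selfE (LS S K) - (K : ℝ) ^ 2 * (NL S + NC S * Real.log K)) := by
    ring
  rw [e]
  linarith

end Crest.Agent.R006.P3
end

-- ▼ part R006/P3_Sym_200
section

/-!
# Row 6, block P3: conjugation symmetry of the certificate (helper200)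

`symL L` (decidable, `Cert_112`): the list of pieces is invariant (as a multiset) under the
exchange of the two rays. Then `PhiR`, `PhiQ` are invariant under complex conjugation and the bounds of
`Cert.OK` on the upper ray hold on the lower ray.
-/

set_option autoImplicit false

namespace Crest.Agent.R006.Sym200

open D NumSegx464 Cert

theorem symL_perm {L : List Piece} (h : symL L = true) : (L.map Piece.conj).Perm L :=
  List.isPerm_iff.mp h

theorem pot_conj (A B s : ℂ) :
    pot ((starRingEnd ℂ) A) ((starRingEnd ℂ) B) ((starRingEnd ℂ) s) = pot A B s := by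
  unfold pot
  congr 1
  funext κ
  rw [← Complex.norm_conj (s - (A + κ * (B - A)))]
  simp

theorem conj_gc (z : ℤ × ℤ) : (starRingEnd ℂ) (gc z) = gc (z.1, -z.2) := by
  apply Complex.ext <;> simp

theorem potL_eq_sum_map (s : ℂ) : ∀ L : List WSeg,
    potL L s = (L.map fun p => (p.2.2 : ℝ) * pot (gc p.1) (gc p.2.1) s).sum
  | [] => rfl
  | p :: L => by
    simp only [potL, List.map_cons, List.sum_cons]
    rw [potL_eq_sum_map s L]


theorem potL_perm (s : ℂ) {L L' : List WSeg} (h : L.Perm L') : potL L s = potL L' s := by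
  rw [potL_eq_sum_map, potL_eq_sum_map]
  exact (h.map _).sum_eq

theorem seg_conj_pot (W : ℤ) (p : Piece) (s : ℂ) :
    pot (gc (p.seg W).1) (gc (p.seg W).2.1) ((starRingEnd ℂ) s)
      = pot (gc (p.conj.seg W).1) (gc (p.conj.seg W).2.1) s := by
  rw [← pot_conj (gc (p.seg W).1) (gc (p.seg W).2.1) ((starRingEnd ℂ) s), Complex.conj_conj,
    conj_gc, conj_gc]
  cases p <;> simp [Piece.seg, Piece.conj]

theorem seg_conj_mass (W : ℤ) (p : Piece) : (p.conj.seg W).2.2 = (p.seg W).2.2 := by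
  cases p <;> simp [Piece.seg, Piece.conj]

theorem potL_segs_conj (W : ℤ) (L : List Piece) (s : ℂ) :
    potL (segs W L) ((starRingEnd ℂ) s) = potL (segs W (L.map Piece.conj)) s := by
  rw [potL_eq_sum_map, potL_eq_sum_map]
  unfold segs
  rw [List.map_map, List.map_map, List.map_map]
  congr 1
  apply List.map_congr_left
  intro p _
  simp only [Function.comp]
  rw [seg_conj_pot, seg_conj_mass]

/-- symmetric lists have symmetric potentials -/
theorem potL_segs_sym (W : ℤ) {L : List Piece} (h : symL L = true) (s : ℂ) :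
    potL (segs W L) ((starRingEnd ℂ) s) = potL (segs W L) s := by
  rw [potL_segs_conj]
  apply potL_perm
  unfold segs
  exact (symL_perm h).map _

/-- all segments are real -/
def RealL (L : List WSeg) : Prop := ∀ p ∈ L, p.1.2 = 0 ∧ p.2.1.2 = 0

theorem RealL.append {L L' : List WSeg} (h : RealL L) (h' : RealL L') : RealL (L ++ L') := by
  intro p hp
  rcases List.mem_append.mp hp with h1 | h1
  · exact h p h1
  · exact h' p h1

theorem realL_rseg (a b m : ℤ) : RealL (rseg a b m) := by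
  unfold rseg
  split_ifs
  · intro p hp
    simp at hp
  · intro p hp
    rw [List.mem_singleton] at hp
    subst hp
    exact ⟨rfl, rfl⟩

theorem realL_LS (S : Shape) (K : ℤ) : RealL (LS S K) := by
  unfold LS
  exact ((((((((realL_rseg _ _ _).append (realL_rseg _ _ _)).append (realL_rseg _ _ _)).append
    (realL_rseg _ _ _)).append (realL_rseg _ _ _)).append (realL_rseg _ _ _)).append
    (realL_rseg _ _ _)).append (realL_rseg _ _ _))

theorem realL_LG (S : Shape) (K : ℤ) : RealL (LG S K) := by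
  unfold LG
  exact (((realL_rseg _ _ _).append (realL_rseg _ _ _)).append (realL_rseg _ _ _)).append
    (realL_rseg _ _ _)

theorem potL_real_conj {L : List WSeg} (h : RealL L) (s : ℂ) :
    potL L ((starRingEnd ℂ) s) = potL L s := by
  rw [potL_eq_sum_map, potL_eq_sum_map]
  congr 1
  apply List.map_congr_left
  intro p hp
  obtain ⟨h1, h2⟩ := h p hp
  rw [← pot_conj (gc p.1) (gc p.2.1) ((starRingEnd ℂ) s), Complex.conj_conj, conj_gc, conj_gc,
    h1, h2, neg_zero]
  congr 2
  · apply Complex.ext <;> simp [h1]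
  · apply Complex.ext <;> simp [h2]

theorem PhiR_conj (S : Shape) (d : Data) (hW : symL d.W = true) (hZ : symL d.Z = true) (s : ℂ) :
    PhiR S d ((starRingEnd ℂ) s) = PhiR S d s := by
  unfold PhiR
  rw [potL_segs_sym _ hW, potL_segs_sym _ hZ, potL_real_conj (realL_LG S d.K),
    potL_real_conj (realL_LS S d.K), Complex.conj_re, Complex.conj_im, abs_neg]

theorem PhiQ_conj (S : Shape) (d : Data) (hW : symL d.W = true) (hY : symL d.Y = true) (s : ℂ) :
    PhiQ S d ((starRingEnd ℂ) s) = PhiQ S d s := by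
  unfold PhiQ
  rw [potL_segs_sym _ hW, potL_segs_sym _ hY, potL_real_conj (realL_LS S d.K), Complex.conj_im,
    abs_neg]





theorem wf2_sym {S : Shape} {d : Data} (h : wf2 S d = true) :
    symL d.Z = true ∧ symL d.Y = true ∧ symL d.W = true := by
  unfold wf2 at h
  simp only [Bool.and_eq_true] at h
  exact ⟨h.1.1.1.1.1, h.1.1.1.1.2, h.1.1.1.2⟩

end Crest.Agent.R006.Sym200

namespace Crest.Agent.R006.P3

open Crest.Agent.R006.D Crest.Agent.R006.Cert Crest.Agent.R006.Sym200

/-- LEAF SYM of `P3_Leaf_390` -/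
theorem symPhi {S : Shape} {d : Data} (h : wf2 S d = true) : SymPhi S d := by
  obtain ⟨hZ, hY, hW⟩ := wf2_sym h
  exact fun s => ⟨PhiR_conj S d hW hZ s, PhiQ_conj S d hW hY s⟩

end Crest.Agent.R006.P3
end

-- ▼ part R006/P3_Cells_530
section

/-!
Helper530: leaf (B2) of the P3 bridge (650): the cells of `Cert_112` (affine majorants) bound the
sum of the slot levels: `slotSum ≤ v² · slot2/(2D) + C v`.
-/

set_option autoImplicit false

namespace Crest.Agent.R006.Cells530

open Finset Crest.Agent.R006.Cert Crest.Agent.R006.D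

/-- arithmetic progression -/
theorem ap_sum (A B : ℝ) (n : ℕ) :
    ∑ j ∈ range n, (A + B * j) = n * A + B * (n * ((n : ℝ) - 1) / 2) := by
  induction n with
  | zero => simp
  | succ n ih => rw [Finset.sum_range_succ, ih]; push_cast; ring

/-- the constant of one cell -/
noncomputable def cst (a b α β : ℝ) : ℝ := (α + β * ((a + b) / 2)) + (b - a + 1) * |β| / 2

theorem cst_nonneg {a b α β : ℝ} (hab : a ≤ b) (h0 : ∀ x, a ≤ x → x ≤ b → 0 ≤ α + β * x) :
    0 ≤ cst a b α β := by
  unfold cst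
  have h1 := h0 ((a + b) / 2) (by linarith) (by linarith)
  have h2 : 0 ≤ (b - a + 1) * |β| / 2 := by
    have : 0 ≤ b - a + 1 := by linarith
    positivity
  linarith

/-- one cell with an affine nonnegative majorant -/
theorem cell_sum (α β θ v : ℝ) (hv : 1 ≤ v) (a b : ℝ) (hab : a ≤ b)
    (h0 : ∀ x, a ≤ x → x ≤ b → 0 ≤ α + β * x) (F : Finset ℤ)
    (hF : ∀ i ∈ F, a ≤ ((i : ℝ) + θ) / v ∧ ((i : ℝ) + θ) / v ≤ b) :
    ∑ i ∈ F, v * (α + β * (((i : ℝ) + θ) / v))
      ≤ v ^ 2 * ((b - a) * (α + β * ((a + b) / 2))) + v * cst a b α β := by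
  have hv0 : 0 < v := by linarith
  have hM : 0 ≤ α + β * ((a + b) / 2) := h0 _ (by linarith) (by linarith)
  set p : ℤ := ⌈a * v - θ⌉ with hp
  set q : ℤ := ⌊b * v - θ⌋ with hq
  set n : ℕ := (q + 1 - p).toNat with hn
  have hp1 : a * v - θ ≤ (p : ℝ) := Int.le_ceil _
  have hp2 : (p : ℝ) < a * v - θ + 1 := Int.ceil_lt_add_one _
  have hq1 : (q : ℝ) ≤ b * v - θ := Int.floor_le _
  have hq2 : b * v - θ < (q : ℝ) + 1 := Int.lt_floor_add_one _
  have hin : ∀ i ∈ F, p ≤ i ∧ i ≤ q := by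
    intro i hi
    obtain ⟨h1, h2⟩ := hF i hi
    rw [le_div_iff₀ hv0] at h1
    rw [div_le_iff₀ hv0] at h2
    exact ⟨Int.ceil_le.2 (by linarith), Int.le_floor.2 (by linarith)⟩
  have hR : 0 ≤ v ^ 2 * ((b - a) * (α + β * ((a + b) / 2))) + v * cst a b α β := by
    have h1 : 0 ≤ (b - a) * (α + β * ((a + b) / 2)) := mul_nonneg (by linarith) hM
    have h2 := cst_nonneg hab h0
    positivity
  rcases Nat.eq_zero_or_pos n with hn0 | hn0
  · have hlt : q < p := by
      by_contra hcon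
      push Not at hcon
      omega
    have hFe : F = ∅ := by
      apply Finset.eq_empty_of_forall_notMem
      intro i hi
      obtain ⟨h1, h2⟩ := hin i hi
      omega
    rw [hFe, Finset.sum_empty]
    exact hR
  have hpq : p ≤ q := by omega
  have hnz : (n : ℤ) = q + 1 - p := by omega
  have hnr : (n : ℝ) = (q : ℝ) + 1 - p := by exact_mod_cast hnz
  have hinj : Function.Injective (fun j : ℕ => p + (j : ℤ)) := by
    intro x y hxy
    simpa using hxy
  have hsub : F ⊆ (range n).image (fun j : ℕ => p + (j : ℤ)) := by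
    intro i hi
    obtain ⟨h1, h2⟩ := hin i hi
    rw [Finset.mem_image]
    refine ⟨(i - p).toNat, ?_, ?_⟩
    · rw [Finset.mem_range]; omega
    · omega
  have hnn : ∀ i ∈ (range n).image (fun j : ℕ => p + (j : ℤ)), i ∉ F →
      0 ≤ v * (α + β * (((i : ℝ) + θ) / v)) := by
    intro i hi _
    rw [Finset.mem_image] at hi
    obtain ⟨j, hj, rfl⟩ := hi
    rw [Finset.mem_range] at hj
    have hj' : (j : ℝ) + 1 ≤ n := by exact_mod_cast hj
    have hj0 : (0 : ℝ) ≤ j := Nat.cast_nonneg j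
    apply mul_nonneg hv0.le
    apply h0
    · rw [le_div_iff₀ hv0]; push_cast; linarith
    · rw [div_le_iff₀ hv0]; push_cast; linarith
  refine (Finset.sum_le_sum_of_subset_of_nonneg hsub hnn).trans ?_
  rw [Finset.sum_image (fun x _ y _ h => hinj h)]
  have hterm : ∀ j ∈ range n, v * (α + β * ((((p + (j : ℤ) : ℤ) : ℝ) + θ) / v))
      = (v * α + β * ((p : ℝ) + θ)) + β * j := by
    intro j _
    push_cast
    field_simp
    ring
  rw [Finset.sum_congr rfl hterm, ap_sum]
  have h1 : (n : ℝ) * (v * α + β * ((p : ℝ) + θ)) + β * (n * ((n : ℝ) - 1) / 2)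
      = n * (v * (α + β * ((a + b) / 2)) + β * (((p : ℝ) + θ - a * v) - (b * v - θ - q)) / 2) := by
    rw [hnr]; ring
  rw [h1]
  have h2 : β * (((p : ℝ) + θ - a * v) - (b * v - θ - q)) / 2 ≤ |β| / 2 := by
    have h3 : |((p : ℝ) + θ - a * v) - (b * v - θ - q)| ≤ 1 := by
      rw [abs_le]; constructor <;> linarith
    have h4 : β * (((p : ℝ) + θ - a * v) - (b * v - θ - q)) ≤ |β| * 1 := by
      calc β * (((p : ℝ) + θ - a * v) - (b * v - θ - q))
          ≤ |β * (((p : ℝ) + θ - a * v) - (b * v - θ - q))| := le_abs_self _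
        _ = |β| * |((p : ℝ) + θ - a * v) - (b * v - θ - q)| := abs_mul _ _
        _ ≤ |β| * 1 := mul_le_mul_of_nonneg_left h3 (abs_nonneg _)
    linarith
  have hnle : (n : ℝ) ≤ (b - a) * v + 1 := by rw [hnr]; linarith
  have hn0' : (0 : ℝ) ≤ n := Nat.cast_nonneg n
  have h5 : v * (α + β * ((a + b) / 2)) + β * (((p : ℝ) + θ - a * v) - (b * v - θ - q)) / 2
      ≤ v * (α + β * ((a + b) / 2)) + |β| / 2 := by linarith
  have h6 : 0 ≤ v * (α + β * ((a + b) / 2)) + |β| / 2 := by positivity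
  calc (n : ℝ) * (v * (α + β * ((a + b) / 2)) +
        β * (((p : ℝ) + θ - a * v) - (b * v - θ - q)) / 2)
      ≤ n * (v * (α + β * ((a + b) / 2)) + |β| / 2) := mul_le_mul_of_nonneg_left h5 hn0'
    _ ≤ ((b - a) * v + 1) * (v * (α + β * ((a + b) / 2)) + |β| / 2) :=
        mul_le_mul_of_nonneg_right hnle h6
    _ = v ^ 2 * ((b - a) * (α + β * ((a + b) / 2)))
        + v * ((α + β * ((a + b) / 2)) + (b - a) * |β| / 2) + |β| / 2 := by ring
    _ ≤ v ^ 2 * ((b - a) * (α + β * ((a + b) / 2))) + v * cst a b α β := by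
        unfold cst
        have : |β| / 2 ≤ v * (|β| / 2) := by
          have := abs_nonneg β
          nlinarith
        nlinarith

/-! ### chains of cells -/

theorem chain_left : ∀ (L : List SCell) (X Y : ℤ), chain X Y L = true →
    (∀ c ∈ L, c.l < c.r) → ∀ x : ℝ, (X : ℝ) ≤ x → x < Y → ∃ c ∈ L, (c.l : ℝ) ≤ x ∧ x < c.r
  | [], X, Y, h, _ => by
    intro x h1 h2
    simp only [chain, decide_eq_true_eq] at h
    subst h
    linarith
  | c :: L, X, Y, h, hlt => by
    intro x h1 h2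
    simp only [chain, Bool.and_eq_true, decide_eq_true_eq] at h
    by_cases hx : x < c.r
    · exact ⟨c, List.mem_cons_self, by rw [h.1]; exact h1, hx⟩
    · push Not at hx
      obtain ⟨c', hc', h3⟩ := chain_left L c.r Y h.2
        (fun c hc => hlt c (List.mem_cons_of_mem _ hc)) x hx h2
      exact ⟨c', List.mem_cons_of_mem _ hc', h3⟩

theorem chain_right : ∀ (L : List SCell) (X Y : ℤ), chain X Y L = true →
    (∀ c ∈ L, c.l < c.r) → ∀ x : ℝ, (X : ℝ) < x → x ≤ Y → ∃ c ∈ L, (c.l : ℝ) < x ∧ x ≤ c.r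
  | [], X, Y, h, _ => by
    intro x h1 h2
    simp only [chain, decide_eq_true_eq] at h
    subst h
    linarith
  | c :: L, X, Y, h, hlt => by
    intro x h1 h2
    simp only [chain, Bool.and_eq_true, decide_eq_true_eq] at h
    by_cases hx : x ≤ c.r
    · exact ⟨c, List.mem_cons_self, by rw [h.1]; exact h1, hx⟩
    · push Not at hx
      obtain ⟨c', hc', h3⟩ := chain_right L c.r Y h.2
        (fun c hc => hlt c (List.mem_cons_of_mem _ hc)) x hx h2
      exact ⟨c', List.mem_cons_of_mem _ hc', h3⟩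

/-- a window `[lo, hi]` whose ends are break points -/
theorem window_cover (L : List SCell) (X Y lo hi : ℤ) (h : chain X Y L = true)
    (hlt : ∀ c ∈ L, c.l < c.r) (hlo : ∀ c ∈ L, lo ≤ c.l ∨ c.r ≤ lo)
    (hhi : ∀ c ∈ L, hi ≤ c.l ∨ c.r ≤ hi) (h1 : X ≤ lo) (h2 : hi ≤ Y) (h3 : lo < hi)
    (x : ℝ) (hx1 : (lo : ℝ) ≤ x) (hx2 : x ≤ hi) :
    ∃ c ∈ L, (lo ≤ c.l ∧ c.r ≤ hi) ∧ ((c.l : ℝ) ≤ x ∧ x ≤ c.r) := by
  have hlohi : (lo : ℝ) < hi := by exact_mod_cast h3
  have hX : (X : ℝ) ≤ lo := by exact_mod_cast h1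
  have hY : (hi : ℝ) ≤ Y := by exact_mod_cast h2
  rcases lt_or_eq_of_le hx2 with hlt2 | heq
  · obtain ⟨c, hc, ha, hb⟩ := chain_left L X Y h hlt x (hX.trans hx1) (hlt2.trans_le hY)
    refine ⟨c, hc, ⟨?_, ?_⟩, ha, hb.le⟩
    · rcases hlo c hc with hh | hh
      · exact hh
      · exfalso
        have : (c.r : ℝ) ≤ lo := by exact_mod_cast hh
        linarith
    · rcases hhi c hc with hh | hh
      · exfalso
        have : (hi : ℝ) ≤ c.l := by exact_mod_cast hh
        linarith
      · exact hh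
  · subst heq
    obtain ⟨c, hc, ha, hb⟩ := chain_right L X Y h hlt (hi : ℝ) (by linarith) hY
    refine ⟨c, hc, ⟨?_, ?_⟩, ha.le, hb⟩
    · rcases hlo c hc with hh | hh
      · exact hh
      · exfalso
        have : (c.r : ℝ) ≤ lo := by exact_mod_cast hh
        linarith
    · rcases hhi c hc with hh | hh
      · exfalso
        have : (hi : ℝ) ≤ c.l := by exact_mod_cast hh
        linarith
      · exact hh

/-- integral of the majorant of a cell -/
noncomputable def ival (D : ℕ) (c : SCell) : ℝ :=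
  (((c.r - c.l) * (2 * c.al + c.be * (c.l + c.r)) : ℤ) : ℝ) / (2 * D)

noncomputable def cval (D : ℕ) (c : SCell) : ℝ :=
  cst c.l c.r (c.al / D) (c.be / D)

theorem window_sum (D : ℕ) (hD : 0 < D) (L : List SCell) (X Y lo hi : ℤ)
    (h : chain X Y L = true)
    (hlt : ∀ c ∈ L, c.l < c.r) (hlo : ∀ c ∈ L, lo ≤ c.l ∨ c.r ≤ lo)
    (hhi : ∀ c ∈ L, hi ≤ c.l ∨ c.r ≤ hi) (h1 : X ≤ lo) (h2 : hi ≤ Y) (h3 : lo < hi)
    (G : ℝ → ℝ) (hG : ∀ c ∈ L, ∀ x ∈ Set.Icc (c.l : ℝ) c.r, G x ≤ c.val D x)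
    (h0 : ∀ c ∈ L, ∀ x ∈ Set.Icc (c.l : ℝ) c.r, 0 ≤ c.val D x)
    (θ v : ℝ) (hv : 1 ≤ v) (F : Finset ℤ)
    (hF : ∀ i ∈ F, (lo : ℝ) ≤ ((i : ℝ) + θ) / v ∧ ((i : ℝ) + θ) / v ≤ hi) :
    ∑ i ∈ F, max 0 (v * G (((i : ℝ) + θ) / v))
      ≤ (L.map fun c => if lo ≤ c.l ∧ c.r ≤ hi then v ^ 2 * ival D c + v * cval D c else 0).sum
      := by
  classical
  have hv0 : 0 < v := by linarith
  have hD' : (D : ℝ) ≠ 0 := by positivity
  have key : ∀ i ∈ F, max 0 (v * G (((i : ℝ) + θ) / v))
      ≤ (L.map fun c => if (lo ≤ c.l ∧ c.r ≤ hi) ∧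
          ((c.l : ℝ) ≤ ((i : ℝ) + θ) / v ∧ ((i : ℝ) + θ) / v ≤ c.r)
          then v * c.val D (((i : ℝ) + θ) / v) else 0).sum := by
    intro i hi'
    have hnn : ∀ y ∈ (L.map fun c => if (lo ≤ c.l ∧ c.r ≤ hi) ∧
          ((c.l : ℝ) ≤ ((i : ℝ) + θ) / v ∧ ((i : ℝ) + θ) / v ≤ c.r)
          then v * c.val D (((i : ℝ) + θ) / v) else 0), 0 ≤ y := by
      intro y hy
      rw [List.mem_map] at hy
      obtain ⟨c, hc, rfl⟩ := hy
      split_ifs with hcond
      · exact mul_nonneg hv0.le (h0 c hc _ ⟨hcond.2.1, hcond.2.2⟩)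
      · exact le_rfl
    apply max_le
    · exact List.sum_nonneg hnn
    · obtain ⟨c, hc, hw, hx⟩ := window_cover L X Y lo hi h hlt hlo hhi h1 h2 h3
        (((i : ℝ) + θ) / v) (hF i hi').1 (hF i hi').2
      have h4 : v * G (((i : ℝ) + θ) / v) ≤ v * c.val D (((i : ℝ) + θ) / v) :=
        mul_le_mul_of_nonneg_left (hG c hc _ ⟨hx.1, hx.2⟩) hv0.le
      refine h4.trans ?_
      exact List.single_le_sum hnn _ (List.mem_map.2 ⟨c, hc, by rw [if_pos ⟨hw, hx⟩]⟩)
  refine (Finset.sum_le_sum key).trans ?_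
  clear key hG hlo hhi h
  induction L with
  | nil => simp
  | cons c L ih =>
    have ih' := ih (fun c hc => hlt c (List.mem_cons_of_mem _ hc))
      (fun c hc => h0 c (List.mem_cons_of_mem _ hc))
    simp only [List.map_cons, List.sum_cons]
    rw [Finset.sum_add_distrib]
    refine add_le_add ?_ ih'
    by_cases hw : lo ≤ c.l ∧ c.r ≤ hi
    · rw [if_pos hw]
      simp only [hw, true_and, and_self]
      rw [← Finset.sum_filter]
      have hcl : (c.l : ℝ) ≤ c.r := by exact_mod_cast (hlt c List.mem_cons_self).le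
      have hc0 := h0 c List.mem_cons_self
      have h5 := cell_sum ((c.al : ℝ) / D) ((c.be : ℝ) / D) θ v hv c.l c.r hcl
        (by
          intro x hx1 hx2
          have := hc0 x ⟨hx1, hx2⟩
          unfold SCell.val at this
          have e : ((c.al : ℝ) / D) + ((c.be : ℝ) / D) * x = ((c.al : ℝ) + c.be * x) / D := by ring
          rw [e]; exact this)
        (F.filter fun i : ℤ => (c.l : ℝ) ≤ ((i : ℝ) + θ) / v ∧ ((i : ℝ) + θ) / v ≤ c.r)
        (by
          intro i hi
          rw [Finset.mem_filter] at hi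
          exact hi.2)
      have e1 : ∀ i : ℤ, v * c.val D (((i : ℝ) + θ) / v)
          = v * ((c.al : ℝ) / D + (c.be : ℝ) / D * (((i : ℝ) + θ) / v)) := by
        intro i
        unfold SCell.val
        ring
      simp only [e1]
      refine h5.trans (le_of_eq ?_)
      unfold ival cval
      push_cast
      field_simp
    · rw [if_neg hw]
      apply le_of_eq
      apply Finset.sum_eq_zero
      intro i _
      rw [if_neg (fun hh => hw hh.1)]

/-- the same for an index map `e : ℕ → ℤ` and an arbitrary window (empty if `hi ≤ lo`) -/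
theorem window_sum' (D : ℕ) (hD : 0 < D) (L : List SCell) (X Y lo hi : ℤ)
    (h : chain X Y L = true)
    (hlt : ∀ c ∈ L, c.l < c.r) (hlo : ∀ c ∈ L, lo ≤ c.l ∨ c.r ≤ lo)
    (hhi : ∀ c ∈ L, hi ≤ c.l ∨ c.r ≤ hi) (h1 : X ≤ lo) (h2 : hi ≤ Y)
    (G : ℝ → ℝ) (hG : ∀ c ∈ L, ∀ x ∈ Set.Icc (c.l : ℝ) c.r, G x ≤ c.val D x)
    (h0 : ∀ c ∈ L, ∀ x ∈ Set.Icc (c.l : ℝ) c.r, 0 ≤ c.val D x)
    (θ v : ℝ) (hv : 1 ≤ v) (F : Finset ℕ) (e : ℕ → ℤ) (he : Function.Injective e)
    (hne : F.Nonempty → lo < hi)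
    (hF : ∀ i ∈ F, (lo : ℝ) ≤ ((e i : ℝ) + θ) / v ∧ ((e i : ℝ) + θ) / v ≤ hi) :
    ∑ i ∈ F, max 0 (v * G (((e i : ℝ) + θ) / v))
      ≤ (L.map fun c => if lo ≤ c.l ∧ c.r ≤ hi then v ^ 2 * ival D c + v * cval D c else 0).sum
      := by
  classical
  have hv0 : 0 < v := by linarith
  by_cases hFn : F.Nonempty
  · have := window_sum D hD L X Y lo hi h hlt hlo hhi h1 h2 (hne hFn) G hG h0 θ v hv
      (F.image e) (by
        intro i hi
        rw [Finset.mem_image] at hi
        obtain ⟨j, hj, rfl⟩ := hi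
        exact hF j hj)
    rwa [Finset.sum_image (fun x _ y _ hxy => he hxy)] at this
  · rw [Finset.not_nonempty_iff_eq_empty] at hFn
    rw [hFn, Finset.sum_empty]
    apply List.sum_nonneg
    intro y hy
    rw [List.mem_map] at hy
    obtain ⟨c, hc, rfl⟩ := hy
    split_ifs
    · have hcl : (c.l : ℝ) ≤ c.r := by exact_mod_cast (hlt c hc).le
      have hc0 : ∀ x, (c.l : ℝ) ≤ x → x ≤ c.r → 0 ≤ (c.al : ℝ) / D + (c.be : ℝ) / D * x := by
        intro x hx1 hx2
        have := h0 c hc x ⟨hx1, hx2⟩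
        unfold SCell.val at this
        have e : ((c.al : ℝ) / D) + ((c.be : ℝ) / D) * x = ((c.al : ℝ) + c.be * x) / D := by ring
        rw [e]; exact this
      have hM : 0 ≤ (c.al : ℝ) / D + (c.be : ℝ) / D * (((c.l : ℝ) + c.r) / 2) :=
        hc0 _ (by linarith) (by linarith)
      have h5 : 0 ≤ ival D c := by
        have e2 : ival D c = ((c.r : ℝ) - c.l) *
            ((c.al : ℝ) / D + (c.be : ℝ) / D * (((c.l : ℝ) + c.r) / 2)) := by
          have hD' : (D : ℝ) ≠ 0 := by positivity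
          unfold ival
          push_cast
          field_simp
        rw [e2]
        exact mul_nonneg (by linarith) hM
      have h6 : 0 ≤ cval D c := cst_nonneg hcl hc0
      positivity
    · exact le_rfl

/-- the sum of the slot levels -/
noncomputable def slotSum (S : Shape) (K : ℕ) (G : ℝ → ℝ) (v : ℕ) : ℝ :=
  3 * ∑ l ∈ range (K * S.w * v), max 0 ((v : ℝ) * G (-(((l : ℝ) + 1 / 2) / v)))
  + ∑ i : Fin 3, ∑ l ∈ range (K * (![S.h1, S.h2, S.h3] i) * v),
      max 0 ((v : ℝ) * G (((l : ℝ) + 1 / 2) / v))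
  + ∑ i : Fin 3, ∑ m ∈ Ioc (K * S.w * v) (K * (![S.e1, S.e2, S.e3] i) * v),
      max 0 ((v : ℝ) * G (-((m : ℝ) / v)))

theorem listSum_mul_add (L : List SCell) (f g : SCell → ℝ) (a b : ℝ) :
    (L.map fun c => a * f c + b * g c).sum = a * (L.map f).sum + b * (L.map g).sum := by
  induction L with
  | nil => simp
  | cons c L ih => simp only [List.map_cons, List.sum_cons, ih]; ring

theorem listSum_congr (L : List SCell) (f g : SCell → ℝ) (h : ∀ c ∈ L, f c = g c) :
    (L.map f).sum = (L.map g).sum := by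
  rw [List.map_congr_left h]

theorem listSum_add (L : List SCell) (f g : SCell → ℝ) :
    (L.map fun c => f c + g c).sum = (L.map f).sum + (L.map g).sum := by
  induction L with
  | nil => simp
  | cons c L ih => simp only [List.map_cons, List.sum_cons, ih]; ring

theorem listSum_mul (L : List SCell) (f : SCell → ℝ) (a : ℝ) :
    (L.map fun c => a * f c).sum = a * (L.map f).sum := by
  induction L with
  | nil => simp
  | cons c L ih => simp only [List.map_cons, List.sum_cons, ih]; ring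

/-- the multiplicity of a cell counted by the windows -/
noncomputable def capW (S : Shape) (K : ℕ) (c : SCell) : ℝ :=
  3 * (if -((K : ℤ) * S.w) ≤ c.l ∧ c.r ≤ 0 then 1 else 0)
  + ∑ i : Fin 3, (if (0 : ℤ) ≤ c.l ∧ c.r ≤ (K : ℤ) * (![S.h1, S.h2, S.h3] i : ℕ) then 1 else 0)
  + ∑ i : Fin 3, (if -((K : ℤ) * (![S.e1, S.e2, S.e3] i : ℕ)) ≤ c.l ∧
      c.r ≤ -((K : ℤ) * S.w) then 1 else 0)

theorem cap_aux (l r A E1 E2 E3 H1 H2 H3 : ℤ) (hA : 0 ≤ A) (hlt : l < r)
    (hw : -A ≤ l ∨ r ≤ -A) (h0 : 0 ≤ l ∨ r ≤ 0) :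
    (3 * (if -A ≤ l ∧ r ≤ 0 then 1 else 0)
      + ((if 0 ≤ l ∧ r ≤ H1 then 1 else 0) + (if 0 ≤ l ∧ r ≤ H2 then 1 else 0)
        + (if 0 ≤ l ∧ r ≤ H3 then 1 else 0))
      + ((if -E1 ≤ l ∧ r ≤ -A then 1 else 0) + (if -E2 ≤ l ∧ r ≤ -A then 1 else 0)
        + (if -E3 ≤ l ∧ r ≤ -A then 1 else 0)) : ℝ)
    = ((if r ≤ -A then (if -E1 ≤ l then 1 else 0) + (if -E2 ≤ l then 1 else 0) +
          (if -E3 ≤ l then 1 else 0)
        else if r ≤ 0 then 3
        else (if r ≤ H1 then 1 else 0) + (if r ≤ H2 then 1 else 0) +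
          (if r ≤ H3 then 1 else 0) : ℤ) : ℝ) := by
  by_cases c1 : r ≤ -A
  · rw [if_pos c1, if_neg (by omega : ¬ (-A ≤ l ∧ r ≤ 0)),
      if_neg (by omega : ¬ (0 ≤ l ∧ r ≤ H1)), if_neg (by omega : ¬ (0 ≤ l ∧ r ≤ H2)),
      if_neg (by omega : ¬ (0 ≤ l ∧ r ≤ H3))]
    simp only [c1, and_true]
    push_cast
    ring
  · rw [if_neg c1]
    by_cases c2 : r ≤ 0
    · rw [if_pos c2, if_pos (by omega : -A ≤ l ∧ r ≤ 0),
        if_neg (by omega : ¬ (0 ≤ l ∧ r ≤ H1)), if_neg (by omega : ¬ (0 ≤ l ∧ r ≤ H2)),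
        if_neg (by omega : ¬ (0 ≤ l ∧ r ≤ H3)),
        if_neg (by omega : ¬ (-E1 ≤ l ∧ r ≤ -A)),
        if_neg (by omega : ¬ (-E2 ≤ l ∧ r ≤ -A)),
        if_neg (by omega : ¬ (-E3 ≤ l ∧ r ≤ -A))]
      norm_num
    · rw [if_neg c2, if_neg (by omega : ¬ (-A ≤ l ∧ r ≤ 0)),
        if_neg (by omega : ¬ (-E1 ≤ l ∧ r ≤ -A)),
        if_neg (by omega : ¬ (-E2 ≤ l ∧ r ≤ -A)),
        if_neg (by omega : ¬ (-E3 ≤ l ∧ r ≤ -A))]
      have hl0 : 0 ≤ l := by omega
      simp only [hl0, true_and]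
      push_cast
      ring

theorem capW_eq (S : Shape) (K : ℕ) (c : SCell) (h : cellOK S K c = true) :
    capW S K c = (cap S K c : ℝ) := by
  unfold cellOK at h
  simp only [List.all_cons, List.all_nil, Bool.and_eq_true, decide_eq_true_eq, Bool.or_eq_true,
    Bool.and_true] at h
  obtain ⟨hlt, he1, he2, he3, hw, h0, hh1, hh2, hh3⟩ := h
  have hKw : (0 : ℤ) ≤ (K : ℤ) * S.w := by positivity
  unfold capW cap
  simp only [Fin.sum_univ_three, Matrix.cons_val_zero, Matrix.cons_val_one, Matrix.cons_val]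
  exact cap_aux c.l c.r _ _ _ _ _ _ _ hKw hlt hw h0

/-- **(B2)**: the slot levels are bounded by the cells of the certificate. -/
theorem slot_of_cells (S : Shape) (hS : S.Good) (d : Data) (hwf : Cert.wf S d = true) (G : ℝ → ℝ)
    (hG : ∀ c ∈ d.cells, ∀ x ∈ Set.Icc (c.l : ℝ) c.r, G x ≤ c.val d.D x)
    (h0 : ∀ c ∈ d.cells, ∀ x ∈ Set.Icc (c.l : ℝ) c.r, 0 ≤ c.val d.D x) :
    ∃ C : ℝ, ∀ v : ℕ, 1 ≤ v →
      slotSum S d.K G v ≤ (v : ℝ) ^ 2 * ((slot2 S d : ℝ) / (2 * d.D)) + C * v := by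
  unfold Cert.wf at hwf
  simp only [Bool.and_eq_true, decide_eq_true_eq] at hwf
  obtain ⟨⟨⟨⟨⟨⟨⟨⟨⟨hK, hD⟩, _⟩, _⟩, _⟩, _⟩, _⟩, _⟩, hcells⟩, hchain⟩ := hwf
  rw [List.all_eq_true] at hcells
  set L := d.cells with hL
  set K := d.K with hKdef
  have hbrk : ∀ c ∈ L, c.l < c.r ∧ (-((K : ℤ) * S.e1) ≤ c.l ∨ c.r ≤ -((K : ℤ) * S.e1)) ∧
      (-((K : ℤ) * S.e2) ≤ c.l ∨ c.r ≤ -((K : ℤ) * S.e2)) ∧
      (-((K : ℤ) * S.e3) ≤ c.l ∨ c.r ≤ -((K : ℤ) * S.e3)) ∧
      (-((K : ℤ) * S.w) ≤ c.l ∨ c.r ≤ -((K : ℤ) * S.w)) ∧ (0 ≤ c.l ∨ c.r ≤ 0) ∧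
      ((K : ℤ) * S.h1 ≤ c.l ∨ c.r ≤ (K : ℤ) * S.h1) ∧
      ((K : ℤ) * S.h2 ≤ c.l ∨ c.r ≤ (K : ℤ) * S.h2) ∧
      ((K : ℤ) * S.h3 ≤ c.l ∨ c.r ≤ (K : ℤ) * S.h3) := by
    intro c hc
    have h := hcells c hc
    unfold cellOK at h
    simpa only [List.all_cons, List.all_nil, Bool.and_eq_true, decide_eq_true_eq, Bool.or_eq_true,
      Bool.and_true] using h
  have hlt : ∀ c ∈ L, c.l < c.r := fun c hc => (hbrk c hc).1
  have hKz : (0 : ℤ) < K := by exact_mod_cast hK
  -- the chain range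
  have hX1 : -((K : ℤ) * max (S.e1 : ℤ) S.w) ≤ -((K : ℤ) * S.w) := by
    have : (K : ℤ) * S.w ≤ (K : ℤ) * max (S.e1 : ℤ) S.w :=
      mul_le_mul_of_nonneg_left (le_max_right _ _) hKz.le
    linarith
  have hXe : ∀ i : Fin 3, -((K : ℤ) * max (S.e1 : ℤ) S.w)
      ≤ -((K : ℤ) * (![S.e1, S.e2, S.e3] i : ℕ)) := by
    intro i
    have h1 : ((![S.e1, S.e2, S.e3] i : ℕ) : ℤ) ≤ S.e1 := by
      have := hS.e21
      have := hS.e32
      fin_cases i <;> simp <;> omega
    have : (K : ℤ) * (![S.e1, S.e2, S.e3] i : ℕ) ≤ (K : ℤ) * max (S.e1 : ℤ) S.w :=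
      mul_le_mul_of_nonneg_left (h1.trans (le_max_left _ _)) hKz.le
    linarith
  have hYh : ∀ i : Fin 3, (K : ℤ) * (![S.h1, S.h2, S.h3] i : ℕ) ≤ (K : ℤ) * S.h1 := by
    intro i
    have h1 : ((![S.h1, S.h2, S.h3] i : ℕ) : ℤ) ≤ S.h1 := by
      have := hS.h21
      have := hS.h32
      fin_cases i <;> simp <;> omega
    exact mul_le_mul_of_nonneg_left h1 hKz.le
  have hX0 : -((K : ℤ) * max (S.e1 : ℤ) S.w) ≤ 0 := by
    have : 0 ≤ (K : ℤ) * S.w := by positivity
    linarith
  have hY0 : (0 : ℤ) ≤ (K : ℤ) * S.h1 := by positivity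
  refine ⟨(L.map fun c => capW S K c * cval d.D c).sum, ?_⟩
  intro v hv
  have hv1 : (1 : ℝ) ≤ v := by exact_mod_cast hv
  have hv0 : (0 : ℝ) < v := by linarith
  -- w-sites
  have W1 := window_sum' d.D hD L _ _ (-((K : ℤ) * S.w)) 0 hchain hlt
    (fun c hc => (hbrk c hc).2.2.2.2.1) (fun c hc => (hbrk c hc).2.2.2.2.2.1) hX1 hY0 G hG h0
    (1 / 2) v hv1 (range (K * S.w * v)) (fun l => -(l : ℤ) - 1)
    (fun x y hxy => by simp only [sub_left_inj, neg_inj, Nat.cast_inj] at hxy; exact hxy)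
    (by
      rintro ⟨l, hl⟩
      rw [Finset.mem_range] at hl
      have : 0 < K * S.w := by
        rcases Nat.eq_zero_or_pos (K * S.w) with h | h
        · rw [h] at hl; omega
        · exact h
      have : (0 : ℤ) < (K : ℤ) * S.w := by exact_mod_cast this
      linarith)
    (by
      intro l hl
      rw [Finset.mem_range] at hl
      have hl' : (l : ℝ) + 1 ≤ (K : ℝ) * S.w * v := by exact_mod_cast hl
      have hl0 : (0 : ℝ) ≤ l := Nat.cast_nonneg l
      rw [le_div_iff₀ hv0, div_le_iff₀ hv0]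
      push_cast
      constructor <;> linarith)
  have e1 : ∑ l ∈ range (K * S.w * v), max 0 ((v : ℝ) * G (-(((l : ℝ) + 1 / 2) / v)))
      = ∑ l ∈ range (K * S.w * v),
        max 0 ((v : ℝ) * G ((((-(l : ℤ) - 1 : ℤ) : ℝ) + 1 / 2) / v)) := by
    apply Finset.sum_congr rfl
    intro l _
    have : -(((l : ℝ) + 1 / 2) / v) = (((-(l : ℤ) - 1 : ℤ) : ℝ) + 1 / 2) / v := by
      push_cast; ring
    rw [this]
  -- stars
  have H1 : ∀ i : Fin 3, ∑ l ∈ range (K * (![S.h1, S.h2, S.h3] i) * v),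
      max 0 ((v : ℝ) * G (((l : ℝ) + 1 / 2) / v))
      ≤ (L.map fun c => if (0 : ℤ) ≤ c.l ∧ c.r ≤ (K : ℤ) * (![S.h1, S.h2, S.h3] i : ℕ) then
        (v : ℝ) ^ 2 * ival d.D c + v * cval d.D c else 0).sum := by
    intro i
    have := window_sum' d.D hD L _ _ 0 ((K : ℤ) * (![S.h1, S.h2, S.h3] i : ℕ)) hchain hlt
      (fun c hc => (hbrk c hc).2.2.2.2.2.1)
      (fun c hc => by
        have h := hbrk c hc
        fin_cases i
        · exact h.2.2.2.2.2.2.1
        · exact h.2.2.2.2.2.2.2.1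
        · exact h.2.2.2.2.2.2.2.2)
      hX0 (hYh i) G hG h0
      (1 / 2) v hv1 (range (K * (![S.h1, S.h2, S.h3] i) * v)) (fun l => (l : ℤ))
      (fun x y hxy => by simpa using hxy)
      (by
        rintro ⟨l, hl⟩
        rw [Finset.mem_range] at hl
        have : 0 < K * (![S.h1, S.h2, S.h3] i) := by
          rcases Nat.eq_zero_or_pos (K * (![S.h1, S.h2, S.h3] i)) with h | h
          · rw [h] at hl; omega
          · exact h
        exact_mod_cast this)
      (by
        intro l hl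
        rw [Finset.mem_range] at hl
        have hl' : (l : ℝ) + 1 ≤ (K : ℝ) * (![S.h1, S.h2, S.h3] i : ℕ) * v := by exact_mod_cast hl
        have hl0 : (0 : ℝ) ≤ l := Nat.cast_nonneg l
        rw [le_div_iff₀ hv0, div_le_iff₀ hv0]
        push_cast
        constructor <;> linarith)
    simpa only [Int.cast_natCast] using this
  -- nodes
  have E1 : ∀ i : Fin 3, ∑ m ∈ Ioc (K * S.w * v) (K * (![S.e1, S.e2, S.e3] i) * v),
      max 0 ((v : ℝ) * G (-((m : ℝ) / v)))
      ≤ (L.map fun c => if -((K : ℤ) * (![S.e1, S.e2, S.e3] i : ℕ)) ≤ c.l ∧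
        c.r ≤ -((K : ℤ) * S.w) then
        (v : ℝ) ^ 2 * ival d.D c + v * cval d.D c else 0).sum := by
    intro i
    have := window_sum' d.D hD L _ _ (-((K : ℤ) * (![S.e1, S.e2, S.e3] i : ℕ)))
      (-((K : ℤ) * S.w)) hchain hlt
      (fun c hc => by
        have h := hbrk c hc
        fin_cases i
        · exact h.2.1
        · exact h.2.2.1
        · exact h.2.2.2.1)
      (fun c hc => (hbrk c hc).2.2.2.2.1)
      (hXe i) (by have : 0 ≤ (K : ℤ) * S.w := by positivity
                  linarith) G hG h0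
      0 v hv1 (Ioc (K * S.w * v) (K * (![S.e1, S.e2, S.e3] i) * v)) (fun m => -(m : ℤ))
      (fun x y hxy => by simpa using hxy)
      (by
        rintro ⟨m, hm⟩
        rw [Finset.mem_Ioc] at hm
        have h1 : K * S.w * v < K * (![S.e1, S.e2, S.e3] i) * v := lt_of_lt_of_le hm.1 hm.2
        have h2 : K * S.w < K * (![S.e1, S.e2, S.e3] i) := lt_of_mul_lt_mul_right h1 (Nat.zero_le _)
        have : (K : ℤ) * S.w < (K : ℤ) * (![S.e1, S.e2, S.e3] i : ℕ) := by exact_mod_cast h2
        linarith)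
      (by
        intro m hm
        rw [Finset.mem_Ioc] at hm
        have hm1 : (K : ℝ) * S.w * v ≤ m := by exact_mod_cast hm.1.le
        have hm2 : (m : ℝ) ≤ (K : ℝ) * (![S.e1, S.e2, S.e3] i : ℕ) * v := by exact_mod_cast hm.2
        rw [le_div_iff₀ hv0, div_le_iff₀ hv0]
        push_cast
        constructor <;> linarith)
    refine le_trans (le_of_eq ?_) this
    apply Finset.sum_congr rfl
    intro m _
    have : -((m : ℝ) / v) = (((-(m : ℤ) : ℤ) : ℝ) + 0) / v := by push_cast; ring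
    rw [this]
  -- assemble
  have hall : slotSum S K G v ≤ (L.map fun c =>
      (v : ℝ) ^ 2 * (capW S K c * ival d.D c) + v * (capW S K c * cval d.D c)).sum := by
    unfold slotSum
    rw [e1]
    have hs1 := Finset.sum_le_sum (fun i (_ : i ∈ (univ : Finset (Fin 3))) => H1 i)
    have hs2 := Finset.sum_le_sum (fun i (_ : i ∈ (univ : Finset (Fin 3))) => E1 i)
    refine (add_le_add (add_le_add (mul_le_mul_of_nonneg_left W1 (by norm_num)) hs1) hs2).trans
      (le_of_eq ?_)
    rw [← listSum_mul]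
    simp only [Fin.sum_univ_three]
    rw [← listSum_add, ← listSum_add, ← listSum_add, ← listSum_add, ← listSum_add, ← listSum_add]
    apply listSum_congr
    intro c _
    unfold capW
    simp only [Fin.sum_univ_three]
    split_ifs <;> ring
  refine hall.trans (le_of_eq ?_)
  rw [listSum_mul_add]
  have h7 : (L.map fun c => capW S K c * ival d.D c).sum = (slot2 S d : ℝ) / (2 * d.D) := by
    unfold slot2
    rw [← hL, ← hKdef]
    have h8 : ∀ c ∈ L, capW S K c * ival d.D c = (1 / (2 * (d.D : ℝ))) *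
        ((cap S K c * ((c.r - c.l) * (2 * c.al + c.be * (c.l + c.r))) : ℤ) : ℝ) := by
      intro c hc
      rw [capW_eq S K c (hcells c hc)]
      unfold ival
      push_cast
      ring
    rw [listSum_congr L _ _ h8, listSum_mul]
    rw [Int.cast_list_sum, List.map_map]
    simp only [Function.comp_def]
    ring
  rw [h7]
  ring

/-- the slot level of a certificate -/
noncomputable def GG0 (S : Shape) (d : Data) (x : ℝ) : ℝ :=
  max (PhiR S d (x : ℂ) - (d.lR : ℝ) / d.D) (PhiQ S d (x : ℂ) - (d.lQ : ℝ) / d.D)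

/-- **(B2)** for `Cert.OK`. -/
theorem slot_of_OK (S : Shape) (hS : S.Good) (d : Data) (h : OK S d) :
    ∃ C : ℝ, ∀ v : ℕ, 1 ≤ v →
      slotSum S d.K (GG0 S d) v ≤ (v : ℝ) ^ 2 * ((slot2 S d : ℝ) / (2 * d.D)) + C * v :=
  slot_of_cells S hS d h.wf (GG0 S d)
    (fun c hc x hx => max_le (h.cellR c hc x hx) (h.cellQ c hc x hx)) h.cell0


end Crest.Agent.R006.Cells530
end

-- ▼ part R006/P3_CellsF_530
section

/-!
Helper530: LEAF CELLS of `P3_Leaf_390`: `P3.Cells S d` from `Cert.OK S d`.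
-/

set_option autoImplicit false

namespace Crest.Agent.R006.CellsF530

open Finset Crest.Agent.R006.Cert Crest.Agent.R006.D Crest.Agent.R006.Cells530

/-- the sum over the slots in the window form -/
theorem slots_eq (S : Shape) (hS : S.Good) (K v : ℕ) (G : ℝ → ℝ) :
    ∑ k : P3.Slot S (K * v), (P3.ord S (K * v) k : ℝ) *
        max 0 ((v : ℝ) * G (P3.ctr S (K * v) k / v)) = slotSum S K G v := by
  have h21 := hS.h21
  have h32 := hS.h32
  have e21 := hS.e21
  have e32 := hS.e32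
  rw [Fintype.sum_sum_type, Fintype.sum_sum_type]
  unfold slotSum
  rw [add_assoc]
  congr 1
  · -- w-sites
    have h1 : ∑ x : Fin (S.w * (K * v)), (P3.ord S (K * v) (Sum.inl x) : ℝ) *
        max 0 ((v : ℝ) * G (P3.ctr S (K * v) (Sum.inl x) / v))
        = ∑ x : Fin (S.w * (K * v)), (fun l : ℕ => 3 * max 0 ((v : ℝ) *
          G (-(((l : ℝ) + 1 / 2) / v)))) (x : ℕ) := by
      apply Finset.sum_congr rfl
      intro x _
      simp only [P3.ord, P3.ctr]
      rw [neg_div]
      norm_num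
    rw [h1, Fin.sum_univ_eq_sum_range (fun l : ℕ => 3 * max 0 ((v : ℝ) *
          G (-(((l : ℝ) + 1 / 2) / v)))), ← Finset.mul_sum]
    have h2 : S.w * (K * v) = K * S.w * v := by ring
    rw [h2]
  · congr 1
    · -- stars
      have h1 : ∑ x : Fin (S.h1 * (K * v)), (P3.ord S (K * v) (Sum.inr (Sum.inl x)) : ℝ) *
          max 0 ((v : ℝ) * G (P3.ctr S (K * v) (Sum.inr (Sum.inl x)) / v))
          = ∑ x : Fin (S.h1 * (K * v)), (fun l : ℕ =>
            (((if l < S.h1 * (K * v) then 1 else 0) + (if l < S.h2 * (K * v) then 1 else 0)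
              + (if l < S.h3 * (K * v) then 1 else 0) : ℕ) : ℝ) * max 0 ((v : ℝ) *
            G (((l : ℝ) + 1 / 2) / v))) (x : ℕ) := by
        apply Finset.sum_congr rfl
        intro x _
        simp only [P3.ord, P3.ctr]
      rw [h1, Fin.sum_univ_eq_sum_range (fun l : ℕ =>
            (((if l < S.h1 * (K * v) then 1 else 0) + (if l < S.h2 * (K * v) then 1 else 0)
              + (if l < S.h3 * (K * v) then 1 else 0) : ℕ) : ℝ) * max 0 ((v : ℝ) *
            G (((l : ℝ) + 1 / 2) / v)))]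
      simp only [Fin.sum_univ_three, Matrix.cons_val_zero, Matrix.cons_val_one, Matrix.cons_val]
      have hf : ∀ h : ℕ, h ≤ S.h1 → ∑ l ∈ range (S.h1 * (K * v)),
          (((if l < h * (K * v) then 1 else 0 : ℕ) : ℝ) * max 0 ((v : ℝ) *
            G (((l : ℝ) + 1 / 2) / v))) = ∑ l ∈ range (K * h * v), max 0 ((v : ℝ) *
            G (((l : ℝ) + 1 / 2) / v)) := by
        intro h hh
        have h2 : h * (K * v) = K * h * v := by ring
        have h3 : h * (K * v) ≤ S.h1 * (K * v) := Nat.mul_le_mul_right _ hh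
        rw [← h2]
        have h4 : range (h * (K * v)) = (range (S.h1 * (K * v))).filter
            (fun l => l < h * (K * v)) := by
          ext l
          simp only [mem_range, mem_filter]
          omega
        rw [h4, Finset.sum_filter]
        apply Finset.sum_congr rfl
        intro l _
        split_ifs <;> simp
      rw [← hf S.h1 le_rfl, ← hf S.h2 h21, ← hf S.h3 (h32.trans h21),
        ← Finset.sum_add_distrib, ← Finset.sum_add_distrib]
      apply Finset.sum_congr rfl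
      intro l _
      push_cast
      ring
    · -- nodes
      have h1 : ∑ x : Fin (S.e1 * (K * v) - S.w * (K * v)),
          (P3.ord S (K * v) (Sum.inr (Sum.inr x)) : ℝ) *
          max 0 ((v : ℝ) * G (P3.ctr S (K * v) (Sum.inr (Sum.inr x)) / v))
          = ∑ x : Fin (S.e1 * (K * v) - S.w * (K * v)), (fun j : ℕ =>
            (((if S.w * (K * v) + 1 + j ≤ S.e1 * (K * v) then 1 else 0)
              + (if S.w * (K * v) + 1 + j ≤ S.e2 * (K * v) then 1 else 0)
              + (if S.w * (K * v) + 1 + j ≤ S.e3 * (K * v) then 1 else 0) : ℕ) : ℝ) *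
              max 0 ((v : ℝ) * G (-(((S.w * (K * v) + 1 + j : ℕ) : ℝ) / v)))) (x : ℕ) := by
        apply Finset.sum_congr rfl
        intro x _
        simp only [P3.ord, P3.ctr]
        rw [neg_div]
      rw [h1, Fin.sum_univ_eq_sum_range (fun j : ℕ =>
            (((if S.w * (K * v) + 1 + j ≤ S.e1 * (K * v) then 1 else 0)
              + (if S.w * (K * v) + 1 + j ≤ S.e2 * (K * v) then 1 else 0)
              + (if S.w * (K * v) + 1 + j ≤ S.e3 * (K * v) then 1 else 0) : ℕ) : ℝ) *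
              max 0 ((v : ℝ) * G (-(((S.w * (K * v) + 1 + j : ℕ) : ℝ) / v))))]
      simp only [Fin.sum_univ_three, Matrix.cons_val_zero, Matrix.cons_val_one, Matrix.cons_val]
      have hf : ∀ e : ℕ, e ≤ S.e1 → ∑ j ∈ range (S.e1 * (K * v) - S.w * (K * v)),
          (((if S.w * (K * v) + 1 + j ≤ e * (K * v) then 1 else 0 : ℕ) : ℝ) *
            max 0 ((v : ℝ) * G (-(((S.w * (K * v) + 1 + j : ℕ) : ℝ) / v))))
          = ∑ m ∈ Ioc (K * S.w * v) (K * e * v), max 0 ((v : ℝ) *
            G (-((m : ℝ) / v))) := by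
        intro e he
        have h2 : e * (K * v) = K * e * v := by ring
        have h2' : S.w * (K * v) = K * S.w * v := by ring
        have h3 : e * (K * v) ≤ S.e1 * (K * v) := Nat.mul_le_mul_right _ he
        rw [← h2, ← h2']
        have h4 : Ioc (S.w * (K * v)) (e * (K * v)) = ((range (S.e1 * (K * v) - S.w * (K * v))).filter
            (fun j => S.w * (K * v) + 1 + j ≤ e * (K * v))).image
            (fun j => S.w * (K * v) + 1 + j) := by
          ext m
          simp only [mem_Ioc, mem_image, mem_filter, mem_range]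
          constructor
          · rintro ⟨ha, hb⟩
            exact ⟨m - (S.w * (K * v) + 1), ⟨by omega, by omega⟩, by omega⟩
          · rintro ⟨j, ⟨ha, hb⟩, rfl⟩
            omega
        rw [h4, Finset.sum_image (fun a _ b _ hab => by omega), Finset.sum_filter]
        apply Finset.sum_congr rfl
        intro j _
        split_ifs <;> simp
      rw [← hf S.e1 le_rfl, ← hf S.e2 e21, ← hf S.e3 (e32.trans e21),
        ← Finset.sum_add_distrib, ← Finset.sum_add_distrib]
      apply Finset.sum_congr rfl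
      intro j _
      push_cast
      ring

/-- **LEAF CELLS** (note of 390, `P3_Leaf_390`). -/
theorem cells (S : Shape) (hS : S.Good) (d : Data) (h : OK S d) : P3.Cells S d := by
  obtain ⟨C, hC⟩ := slot_of_OK S hS d h
  refine ⟨max C 0, le_max_right _ _, fun v hv => ?_⟩
  rw [slots_eq S hS d.K v (P3.slotG S d)]
  have h1 := hC v hv
  have h2 : C * v ≤ max C 0 * v := mul_le_mul_of_nonneg_right (le_max_left _ _) (Nat.cast_nonneg v)
  have h3 : slotSum S d.K (P3.slotG S d) v = slotSum S d.K (GG0 S d) v := rfl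
  rw [h3]
  linarith



end Crest.Agent.R006.CellsF530
end

-- ▼ part R006/OKDatN_464
section

/-!
# Row 6, block P3: the certificate `datN` is correct (helper464)
-/

set_option autoImplicit false

namespace Crest.Agent.R006.Cert

open D

/-- **the certificate holds** -/
theorem OK_datN : OK SN datN :=
  OK_mk wf_N wf2_N (R := 2000) (R' := 2000) (Q := 1400) (Q' := 1400) (C := stdC) (C' := stdC)
    (by exact_mod_cast rayR_datN) (by decide +kernel) le_rfl
    (by exact_mod_cast rayQ_datN) (by decide +kernel) le_rfl real_datN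

end Crest.Agent.R006.Cert
end

-- ▼ part R006/ArchSN_103
section

/-!
# Row 6, block P3: `ArchK SN c 100 (-751)` from the claim of the assembly (helper103)

Certificate: `Cert.OK_datN` (464) and `Cert.alphaN` (103). Open input: `Cert.Claim SN datN` (390).
-/

set_option autoImplicit false

namespace Crest.Agent.R006.D

/-- P3 for the frozen shape, from `Claim SN datN` alone. -/
theorem arch_SN_of_claim (h : Cert.Claim SN Cert.datN) (c : ℕ) : ArchK SN c 100 (-751) :=
  ArchK_mono_103 (h Cert.OK_datN c) Cert.alphaN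

/-- the same with a bound `aa ≥ -751` -/
theorem arch_SN_of_claim' (h : Cert.Claim SN Cert.datN) (c : ℕ) {aa : ℝ} (ha : -751 ≤ aa) :
    ArchK SN c 100 aa :=
  ArchK_mono_103 (arch_SN_of_claim h c) ha

end Crest.Agent.R006.D
end

-- ▼ part R006/P3_Claim_257

/-!
# Row 6, block P3: `Cert.Claim` (helper257, shadow of helper390's last file)
-/

set_option autoImplicit false

namespace Crest.Agent.R006.P3

open Crest.Agent.R006.D Crest.Agent.R006.Cert

theorem leaves_257 {S : Shape} (hS : S.Good) {d : Data} (h : OK S d) (c : ℕ) : Leaves S d c := by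
  have hwf := h.wf
  simp only [Cert.wf, Bool.and_eq_true, decide_eq_true_eq] at hwf
  obtain ⟨⟨⟨⟨⟨⟨⟨⟨⟨hK, hD⟩, hZ⟩, hY⟩, hW⟩, mZ⟩, mY⟩, mW⟩, hcells⟩, hchain⟩ := hwf
  have hray : ∀ T : ℝ, 0 ≤ T → (ray S d T).re = -(d.K * S.w : ℝ) - T ∧ |(ray S d T).im| = T :=
    fun T hT => ⟨rfl, abs_of_nonneg hT⟩
  have htR : Tail (fun T => PhiR S d (ray S d T)) ((d.lR : ℝ) / d.D) := by
    obtain ⟨T1, h1, h2⟩ := Cert650.tail_R h.wf ((d.lR : ℝ) / d.D)
    exact ⟨T1, by linarith, fun T hT =>
      h2 T hT _ (hray T (by linarith)).1 (hray T (by linarith)).2⟩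
  have htQ : Tail (fun T => PhiQ S d (ray S d T)) ((d.lQ : ℝ) / d.D) := by
    obtain ⟨T1, h1, h2⟩ := Cert650.tail_Q h.wf ((d.lQ : ℝ) / d.D)
    exact ⟨T1, by linarith, fun T hT =>
      h2 T hT _ (hray T (by linarith)).1 (hray T (by linarith)).2⟩
  exact
    { K_pos := hK
      rows := hS.kpos.le
      disc := Disc_holds hS c
      W := refPack hW (by rw [mW]; push_cast; ring) c
      Z := refPack hZ (by rw [mZ]; push_cast; ring) 0
      Y := refPack hY (by rw [mY]; push_cast; ring) 0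
      mW := modPot_segs _ hW
      mZ := modPot_segs _ hZ
      mY := modPot_segs _ hY
      mS := modPot_LS S d.K
      mG := modPot_LG S d.K
      nodes := nodesGe hS hK c
      rho := rhoLe S hK
      sR := h.rayR
      sQ := h.rayQ
      tR := htR
      tQ := htQ
      kap := kapLe200 S hK c
      sym := symPhi h.wf2
      cells := CellsF530.cells S hS d h }

theorem claim_257 {S : Shape} (hS : S.Good) (d : Data) : Claim S d :=
  fun h c => archK_of_leaves (leaves_257 hS h c)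

end Crest.Agent.R006.P3

namespace Crest.Agent.R006.D

/-- **P3 for the frozen shape** -/
theorem arch_SN_257 (c : ℕ) {aa : ℝ} (ha : -751 ≤ aa) : ArchK SN c 100 aa :=
  arch_SN_of_claim' (P3.claim_257 SN_good _) c ha

end Crest.Agent.R006.D
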