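import Crest.Agent.R006.NumSum_464
import Crest.Agent.R006.P3_Const2_673
import Crest.Agent.R006.VAsym_252

/-!
# Row 6, block P3, certified numerics of the shape constants (helper103)

Computable enclosures (`Enc`, scale `2^48`) of
* `F n`, `Fpair`, `eV S`, `kapE S` of `P3_Const2_673`,
* `sfF`, `phi`, `VL S`, `NL S` of `VAsym_252`, and `VL S - NL S = kapE S`.
-/

set_option autoImplicit false

namespace Crest.Agent.R006.EnShape103

open Real Num482 Crest.Agent.R006.NumSegx464 Crest.Agent.R006.ConstX673 Crest.Agent.R006.D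

theorem log_natAbs (n : ℤ) : Real.log ((n.natAbs : ℕ) : ℝ) = Real.log (n : ℝ) := by
  rw [Nat.cast_natAbs, Int.cast_abs, Real.log_abs]

/-- `F n = n²/2 log|n| - 3/4 n²` -/
def FI (n : ℤ) : ℤ × ℤ :=
  subI (nsmulI (n.natAbs * n.natAbs) (hlN n.natAbs)) (divI (3 * n * n * 281474976710656, 3 * n * n * 281474976710656) 4)

theorem enc_int (n : ℤ) : Enc (n : ℝ) (n * 281474976710656, n * 281474976710656) := by
  constructor <;> push_cast <;> exact le_rfl

theorem enc_FI (n : ℤ) : Enc (F (n : ℝ)) (FI n) := by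
  have h1 := (enc_hlN n.natAbs).nsmul (n.natAbs * n.natAbs)
  have h2 := (enc_int (3 * n * n)).divN (q := 4) (by norm_num)
  have := h1.sub h2
  unfold FI
  refine (Eq.subst (motive := fun r : ℝ => Enc r _) ?_ this)
  have e : ((n.natAbs * n.natAbs : ℕ) : ℝ) = (n : ℝ) ^ 2 := by
    rw [Nat.cast_mul, Nat.cast_natAbs, Int.cast_abs, ← pow_two, sq_abs]
  rw [e, log_natAbs]
  unfold F
  push_cast
  ring







/-- `n log n - n` -/
def phI (n : ℕ) : ℤ × ℤ := subI (nsmulI (2 * n) (hlN n)) (n * 281474976710656, n * 281474976710656)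

theorem enc_phI (n : ℕ) : Enc ((n : ℝ) * Real.log n - n) (phI n) := by
  have h2 := enc_int (n : ℤ)
  have := ((enc_hlN n).nsmul (2 * n)).sub h2
  refine (Eq.subst (motive := fun r : ℝ => Enc r _) ?_ this)
  push_cast
  ring



/-! ### the constants of `VAsym_252` -/

theorem F_eq_sfF (x : ℝ) : F x = sfF x := rfl







end Crest.Agent.R006.EnShape103
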