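import Crest.Agent.R006.P8_FastSpec_799
import Crest.Agent.R006.KapKinds_305
import Crest.Agent.R006.CellTot_305
import Crest.Agent.R006.OddFast_365
import Crest.Agent.R006.P4Iface_814
import Crest.Agent.R006.RowCount_757
import Crest.Agent.R006.Bord_929
import Crest.Agent.R006.KindsS_305
import Crest.Agent.R006.OddAsm_365
import Crest.Agent.R006.GaugeP_555
import Crest.Agent.R006.KapVal_305
import Crest.Agent.R006.KapValid_305
import Crest.Agent.R006.Shape_378

-- ▼ part R006/P8_Hint_799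
section

/-!
Row 6, block P8 (helper799): all-`ℕ` kernel evaluation of the strip sums for the class cost `kapK`
of `KapKinds_305`, with hints.

`tf` = function applied to the multipliers of the strip first (e.g. to drop an entry which is
used by `ext` only). A strip `⟨u, v, t, code⟩` carries the multipliers `t = lam :: mu :: (pi, dR, dQ) triples` and a number
`code`: its digits in base `64` are, for the cells from the bottom to the top, the number of the
triple to be used (polar classes and decomposition A: the number `h` of the triple; decomposition B1: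
`h + number of triples`). Any hint is sound (`stripH_spec`): the value is a lower bound of the exact
one, and it is equal to it if the hints point to the best triples.

The `j`-vector is packed in base `1024` (entries shifted by `256`); all lines are compared by the
natural numbers `2 (A + 32) v + (1534 - j) u`. The definitions use explicit recursors and `Nat.add`
etc., which the kernel evaluates about 50 times faster than `totalLow`.
-/

set_option autoImplicit false

namespace Crest.Agent.R006.P8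

/-- an item: shifts of the boundaries, special node (`j0`, `j0 + 1`), condition of the special node,
losses (`64 - D`) of the ordinary, special and conditional special rows -/
structure It where
  sa : ℕ
  sb : ℕ
  j0 : ℕ
  j1 : ℕ
  sc : ℕ
  sd : ℕ
  c0 : ℕ
  c1 : ℕ
  E : ℕ
  Es : ℕ
  Ec : ℕ

/-- an entry of the table -/
structure Ent where
  toll : ℕ
  its : List It

/-- a digit of a packed vector -/
def pget (J s : ℕ) : ℕ := Nat.mod (Nat.shiftRight J s) 1024

/-- loss of the rows of an item -/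
def itLoss (J : ℕ) (a : It) : ℕ :=
  cond (Nat.ble (pget J a.sa) a.j0)
    (cond (Nat.ble a.j1 (pget J a.sb))
      (Nat.add (Nat.mul (Nat.sub (Nat.sub (pget J a.sb) (pget J a.sa)) 1) a.E)
        (cond (Nat.ble (pget J a.sc) a.c0) (cond (Nat.ble a.c1 (pget J a.sd)) a.Ec a.Es) a.Es))
      (Nat.mul (Nat.sub (pget J a.sb) (pget J a.sa)) a.E))
    (Nat.mul (Nat.sub (pget J a.sb) (pget J a.sa)) a.E)

/-- (number of rows, loss) -/
noncomputable def foldIt (J : ℕ) (L : List It) : ℕ → ℕ → ℕ × ℕ :=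
  List.rec (motive := fun _ => ℕ → ℕ → ℕ × ℕ) (fun n e => (n, e))
    (fun a _ ih n e =>
      ih (Nat.add n (Nat.sub (pget J a.sb) (pget J a.sa))) (Nat.add e (itLoss J a))) L

/-- sum of the upper ends -/
noncomputable def sumB (J : ℕ) (L : List (ℕ × ℕ)) : ℕ :=
  List.rec (motive := fun _ => ℕ) 0 (fun a _ ih => Nat.add (pget J a.2) ih) L

/-- sum of the lower ends -/
noncomputable def sumA (J : ℕ) (L : List (ℕ × ℕ)) : ℕ :=
  List.rec (motive := fun _ => ℕ) 0 (fun a _ ih => Nat.add (pget J a.1) ih) L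

/-- a part of the reference: sum of `s * C(cnt, 2)` -/
noncomputable def refN (J : ℕ) (L : List (ℕ × List (ℕ × ℕ))) : ℕ :=
  List.rec (motive := fun _ => ℕ) 0
    (fun a _ ih => Nat.add (Nat.mul a.1 (Nat.div (Nat.mul (Nat.sub (sumB J a.2) (sumA J a.2))
      (Nat.sub (Nat.sub (sumB J a.2) (sumA J a.2)) 1)) 2)) ih) L

/-- entry number `h` -/
noncomputable def nthD {α : Type} (d : α) (L : List α) : ℕ → α :=
  List.rec (motive := fun _ => ℕ → α) (fun _ => d)
    (fun a _ ih h => Nat.rec (motive := fun _ => α) a (fun h' _ => ih h') h) L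

/-- a line -/
structure QN where
  i : ℕ
  e : ℕ
  z0 : ℕ
  z1 : ℕ
  w : ℕ

/-- start digit of a boundary -/
def jbN (N p A h : ℕ) : ℕ :=
  Nat.add 1 (Nat.mod (Nat.div (Nat.sub (Nat.add (Nat.mul (Nat.mul 2 A) N) (Nat.mul (Nat.sub 512 h) p))
    (Nat.add (Nat.mul 64 N) 1)) (Nat.mul 2 p)) 1023)

/-- value of a line -/
def zN (A m v u : ℕ) : ℕ := Nat.add (Nat.mul (Nat.mul 2 A) v) (Nat.mul m u)

/-- the line of a boundary -/
def mkQN (u0 v0 u1 v1 i e A m : ℕ) : QN :=
  ⟨i, e, zN A m v0 u0, zN A m v1 u1, Nat.add (Nat.mul v1 (zN A m v0 u0)) (Nat.mul v0 (zN A m v1 u1))⟩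

/-- slope number of the line -/
def mN (J h : ℕ) : ℕ := Nat.sub (Nat.sub 2048 (Nat.mul 2 J)) h

/-- all lines -/
noncomputable def mkQNs (u0 v0 u1 v1 : ℕ) (bd : List (ℕ × ℕ)) : ℕ → ℕ → List QN :=
  List.rec (motive := fun _ => ℕ → ℕ → List QN) (fun _ _ => [])
    (fun q _ ih i e => mkQN u0 v0 u1 v1 i e q.1
        (mN (jbN (Nat.add v0 v1) (Nat.add u0 u1) q.1 q.2) q.2) ::
      ih (Nat.succ i) (Nat.mul e 1024)) bd

/-- packed start vector -/
noncomputable def pk0 (N p : ℕ) (bd : List (ℕ × ℕ)) : ℕ :=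
  List.rec (motive := fun _ => ℕ) 0
    (fun q _ ih => Nat.add (jbN N p q.1 q.2) (Nat.mul 1024 ih)) bd

/-- insertion by the weight -/
noncomputable def insN (l : QN) (L : List QN) : List QN :=
  List.rec (motive := fun _ => List QN) [l]
    (fun a as ih => cond (Nat.ble l.w a.w) (l :: a :: as) (a :: ih)) L

/-- insertion sort -/
noncomputable def sortN (L : List QN) : List QN :=
  List.rec (motive := fun _ => List QN) [] (fun a _ ih => insN a ih) L

/-- chain check -/
noncomputable def chkN (t0 t1 : ℕ) (S : List QN) : ℕ → ℕ → Bool :=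
  List.rec (motive := fun _ => ℕ → ℕ → Bool)
    (fun a b => cond (Nat.ble a t0) (Nat.ble b t1) false)
    (fun q _ ih a b => cond (Nat.ble a q.z0) (cond (Nat.ble b q.z1) (ih q.z0 q.z1) false) false) S

/-- the tables of a strip -/
structure Tb where
  sp : ℕ
  rP : List (ℕ × List (ℕ × ℕ))
  rM : List (ℕ × List (ℕ × ℕ))
  dP : Ent
  dR : Ent
  tP : List Ent
  tR : List Ent

/-- the table entry of a cell -/
noncomputable def entOf (T : Tb) (J h : ℕ) : Ent :=
  cond (Nat.beq (pget J T.sp) 256) (nthD T.dP T.tP h) (nthD T.dR T.tR h)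

/-- value of a cell `(plus, minus)` -/
noncomputable def cellV (T : Tb) (J : ℕ) (r : ℕ × ℕ) : ℕ × ℕ :=
  (Nat.add (Nat.mul 64 r.1) (refN J T.rM), Nat.add r.2 (refN J T.rP))

/-- value of a cell -/
noncomputable def cellH (T : Tb) (J h : ℕ) : ℕ × ℕ :=
  cellV T J (foldIt J (entOf T J h).its 0 (entOf T J h).toll)

/-- the pair of sums -/
noncomputable def walkN (T : Tb) (wt : ℕ) (S : List QN) : ℕ → ℕ → ℕ → ℕ → ℕ → ℕ × ℕ :=
  List.rec (motive := fun _ => ℕ → ℕ → ℕ → ℕ → ℕ → ℕ × ℕ)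
    (fun J w code sp sm =>
      (Nat.add sp (Nat.mul (cellH T J (Nat.mod code 64)).1 (Nat.sub wt w)),
       Nat.add sm (Nat.mul (cellH T J (Nat.mod code 64)).2 (Nat.sub wt w))))
    (fun q _ ih J w code sp sm =>
      ih (Nat.sub J q.e) q.w (Nat.div code 64)
        (Nat.add sp (Nat.mul (cellH T J (Nat.mod code 64)).1 (Nat.sub q.w w)))
        (Nat.add sm (Nat.mul (cellH T J (Nat.mod code 64)).2 (Nat.sub q.w w)))) S

/-! ### the tables -/

/-- loss of a row: `64 - D` -/
def lossN (D : ℤ) : ℕ := Int.toNat (64 - D)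

/-- items of an entry -/
def itsOf (o s c : Kind → ℤ) : List Kind → List It
  | [] => []
  | k :: ks => ⟨10 * k.ia, 10 * k.ib, (k.j0 + 256).toNat, (k.j0 + 257).toNat,
      10 * k.ca, 10 * k.cb, (k.cj + 256).toNat, (k.cj + 257).toNat,
      lossN (o k), lossN (s k), lossN (c k)⟩ :: itsOf o s c ks

/-- polar class -/
def polEnt (ks : List Kind) (lam mu sR sX sQ : ℤ) : Ent :=
  ⟨(tri sR + (tri sX + (tri sQ + bePol lam sR))).toNat,
    itsOf (fun k => k.pol.D lam mu sR sX sQ) (fun k => k.polS.D lam mu sR sX sQ)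
      (fun k => k.polC.D lam mu sR sX sQ) ks⟩

/-- regular class, decomposition A -/
def regEnt (ks : List Kind) (lam mu sR sX sQ : ℤ) : Ent :=
  ⟨(tri sR + (tri sX + (tri sQ + tri (lam - 2 - pos sR)))).toNat,
    itsOf (fun k => k.reg.D lam mu sR sX sQ) (fun k => k.regS.D lam mu sR sX sQ)
      (fun k => k.regS.D lam mu sR sX sQ) ks⟩

/-- regular class, decomposition B1 -/
def regEntB (ks : List Kind) (lam mu sR sX sQ : ℤ) : Ent :=
  ⟨(tri sR + (tri sX + (tri sQ + tri (lam - 2 - pos sR)))).toNat,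
    itsOf (fun k => k.regB.DB lam mu sR sX sQ) (fun k => k.regBS.DB lam mu sR sX sQ)
      (fun k => k.regBS.DB lam mu sR sX sQ) ks⟩

/-- polar -/
def entP (ks : List Kind) (lam mu p r q : ℤ) : Ent :=
  polEnt ks lam mu (p + lam + 2 + r) p (p + mu + q)

/-- regular, A -/
def entR (ks : List Kind) (lam mu p r q : ℤ) : Ent :=
  regEnt ks lam mu (p + lam - 1 + r) p (p + mu - 2 + q)

/-- regular, B1 -/
def entB (ks : List Kind) (lam mu p r q : ℤ) : Ent :=
  regEntB ks lam mu (p + lam - 1 + r) p (p + mu - 2 + q)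

/-- table over the triples -/
def tabOf (f : ℤ → ℤ → ℤ → Ent) (tl : List Ent) : List ℤ → List Ent
  | p :: r :: q :: L => f p r q :: tabOf f tl L
  | _ => tl

/-- `ℕ` version of the boundaries -/
def bdN (bd : List (ℤ × ℤ)) : List (ℕ × ℕ) := bd.map fun q => ((q.1 + 32).toNat, q.2.toNat)

/-- shifts of windows -/
def winN (L : List (ℕ × ℕ)) : List (ℕ × ℕ) := L.map fun q => (10 * q.1, 10 * q.2)

/-- positive references -/
def refPN (L : List (ℤ × List (ℕ × ℕ))) : List (ℕ × List (ℕ × ℕ)) :=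
  L.map fun q => (q.1.toNat, winN q.2)

/-- negative references -/
def refMN (L : List (ℤ × List (ℕ × ℕ))) : List (ℕ × List (ℕ × ℕ)) :=
  L.map fun q => ((-q.1).toNat, winN q.2)

/-- drop the references with coefficient `0` -/
def dropZ (L : List (ℕ × List (ℕ × ℕ))) : List (ℕ × List (ℕ × ℕ)) :=
  L.filter fun q => !(Nat.beq q.1 0)

/-- the tables of `t` -/
def mkTb (ks : List Kind) (refs : List (ℤ × List (ℕ × ℕ))) (ip : ℕ) : List ℤ → Tb
  | lam :: mu :: L =>
    ⟨10 * ip, dropZ (refPN refs), dropZ (refMN refs),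
      entP ks lam mu 0 0 0, entR ks lam mu 0 0 0,
      tabOf (entP ks lam mu) [] L,
      tabOf (entR ks lam mu) (tabOf (entB ks lam mu) [] L) L⟩
  | _ => ⟨0, [], [], ⟨0, []⟩, ⟨0, []⟩, [], []⟩

/-- two multipliers are given -/
def lenOK : List ℤ → Bool
  | _ :: _ :: _ => true
  | _ => false

/-- the sums to an integer -/
def finN (Sc : ℤ) (e : ℤ) (u0 v0 u1 v1 : ℕ) (r : ℕ × ℕ) : ℤ :=
  (Sc * ((u1 * v0 - u0 * v1) * (r.1 - r.2 + 4 * e * (v0 * v1)))) / (4 * (v0 * v1 : ℤ) ^ 2)

/-- the value of a strip -/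
noncomputable def stripH (Sc : ℤ) (ks : List Kind) (refs : List (ℤ × List (ℕ × ℕ))) (ip : ℕ)
    (tf : List ℤ → List ℤ) (bd : List (ℤ × ℤ)) (ext : List ℤ → ℤ) (u0 v0 u1 v1 : ℕ) (t : List ℤ)
    (code : ℕ) : Option ℤ :=
  cond (Nat.ble 1 u0 && (Nat.ble 1 v0 && (Nat.ble 1 v1 &&
    (Nat.ble (Nat.mul u0 v1) (Nat.mul u1 v0) && (lenOK (tf t) &&
     chkN (Nat.add (Nat.mul 64 v0) (Nat.mul 1536 u0)) (Nat.add (Nat.mul 64 v1) (Nat.mul 1536 u1))
      (sortN (mkQNs u0 v0 u1 v1 (bdN bd) 0 1))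
      (Nat.add (Nat.mul 64 v0) (Nat.mul 1534 u0)) (Nat.add (Nat.mul 64 v1) (Nat.mul 1534 u1)))))))
    (some (finN Sc (ext t) u0 v0 u1 v1
      (walkN (mkTb ks refs ip (tf t))
        (Nat.add (Nat.mul v1 (Nat.add (Nat.mul 64 v0) (Nat.mul 1536 u0)))
          (Nat.mul v0 (Nat.add (Nat.mul 64 v1) (Nat.mul 1536 u1))))
        (sortN (mkQNs u0 v0 u1 v1 (bdN bd) 0 1))
        (pk0 (Nat.add v0 v1) (Nat.add u0 u1) (bdN bd))
        (Nat.add (Nat.mul v1 (Nat.add (Nat.mul 64 v0) (Nat.mul 1534 u0)))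
          (Nat.mul v0 (Nat.add (Nat.mul 64 v1) (Nat.mul 1534 u1)))) code 0 0)))
    none

/-- a strip with hints -/
structure SH where
  u : ℕ
  v : ℕ
  t : List ℤ
  code : ℕ

/-- total over consecutive strips -/
noncomputable def totalH (Sc : ℤ) (ks : List Kind) (refs : List (ℤ × List (ℕ × ℕ))) (ip : ℕ)
    (tf : List ℤ → List ℤ) (bd : List (ℤ × ℤ)) (ext : List ℤ → ℤ) : List SH → Option ℤ
  | [] => some 0
  | [_] => some 0
  | ⟨u, v, t, c⟩ :: ⟨u', v', t', c'⟩ :: L =>
    match stripH Sc ks refs ip tf bd ext u v u' v' t c,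
      totalH Sc ks refs ip tf bd ext (⟨u', v', t', c'⟩ :: L) with
    | some a, some b => some (a + b)
    | _, _ => none

/-- static check of the tables -/
def cfgOK (ks : List Kind) (refs : List (ℤ × List (ℕ × ℕ))) (ip : ℕ) (bd : List (ℤ × ℤ)) : Bool :=
  bd.all (fun q => decide (-32 ≤ q.1) && (decide (0 ≤ q.2) && decide (q.2 ≤ 1))) &&
  (decide (ip < bd.length) &&
  (ks.all (fun k => decide (k.ia < bd.length) && (decide (k.ib < bd.length) &&
    (decide (k.ca < bd.length) && (decide (k.cb < bd.length) &&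
    (decide (-256 ≤ k.j0) && decide (-256 ≤ k.cj)))))) &&
  refs.all (fun r => r.2.all (fun q => decide (q.1 < bd.length) && decide (q.2 < bd.length)))))

end Crest.Agent.R006.P8
private theorem rz_0d922fb7bf : type_of% @_root_.Crest.Agent.R006.P8.tabOf.eq_def := @_root_.Crest.Agent.R006.P8.tabOf.eq_def -- L207
private theorem rz_a71d7dd7e3 : type_of% @_root_.Crest.Agent.R006.P8.tabOf.eq_1 := @_root_.Crest.Agent.R006.P8.tabOf.eq_1 -- L207
private theorem rz_13187e11cf : type_of% @_root_.Crest.Agent.R006.P8.totalH.eq_def := @_root_.Crest.Agent.R006.P8.totalH.eq_def -- L274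
private theorem rz_c22bcf53a2 : type_of% @_root_.Crest.Agent.R006.P8.totalH.eq_1 := @_root_.Crest.Agent.R006.P8.totalH.eq_1 -- L274
end

-- ▼ part R006/P8_FastTot_799
section

/-!
# Row 6, block P8 (helper799): `total_ge` for the fast evaluation

`StripLB`, `TotLB`: lower bounds for one strip and for a list of strips, whatever the way they have
been computed; `total_ge_LB` is `total_ge` for them; `total_ge_fast` is `total_ge` for `fastTotal`.
-/

set_option autoImplicit false

namespace Crest.Agent.R006.P8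

open Filter Topology Finset

/-- `a` is a lower bound (scaled by `Sc`) of the integral of the strip -/
def StripLB (Sc : ℤ) (bd : List (ℤ × ℤ)) (kap : List ℤ → List ℤ → ℤ) (ext : List ℤ → ℤ)
    (I : Iv) (t : List ℤ) (a : ℤ) : Prop :=
  ∃ cs : List Cell, checkStrip bd I cs = true ∧
    a ≤ intLow Sc I (alTot (kap t) cs + ext t) (jTot (kap t) cs)

/-- `T` is a lower bound of the sum over consecutive strips -/
def TotLB (Sc : ℤ) (bd : List (ℤ × ℤ)) (kap : List ℤ → List ℤ → ℤ) (ext : List ℤ → ℤ) :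
    List St → ℤ → Prop
  | s :: s' :: L, T => ∃ a b, StripLB Sc bd kap ext ⟨s.u, s.v, s'.u, s'.v⟩ s.t a ∧
      TotLB Sc bd kap ext (s' :: L) b ∧ T = a + b
  | _, T => T = 0

/-- one strip -/
theorem strip_ge_LB (Sc : ℤ) (hSc : 0 < Sc) (bd : List (ℤ × ℤ))
    (kap : List ℤ → List ℤ → ℤ) (ext : List ℤ → ℤ) (I : Iv) (t : List ℤ) (a : ℤ)
    (ha : StripLB Sc bd kap ext I t a) (C : ℝ) {δ : ℝ} (hδ : 0 < δ) :
    ((I.u0 : ℝ) / I.v0 ≤ (I.u1 : ℝ) / I.v1 ∧ 0 < (I.u0 : ℝ) / I.v0) ∧
    ∀ᶠ N : ℕ in atTop, ∀ V : ℕ → ℝ,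
      (∀ p ∈ pr ((I.u0 : ℝ) / I.v0 * N) ((I.u1 : ℝ) / I.v1 * N),
        (∑ c ∈ range p, (kap t (jvec bd N p c) : ℝ)) + ext t * N - C ≤ V p) →
      (N : ℝ) ^ 2 * ((a : ℝ) / Sc - δ)
        ≤ ∑ p ∈ pr ((I.u0 : ℝ) / I.v0 * N) ((I.u1 : ℝ) / I.v1 * N), Real.log p * V p := by
  obtain ⟨cs, hc, hae⟩ := ha
  obtain ⟨hu0, hv0, hv1, huv⟩ := Iv.ok_iff (ok_of_checkStrip hc)
  set al : ℤ := alTot (kap t) cs with hal
  set j : ℤ := jTot (kap t) cs with hj
  have hu0R : (0 : ℝ) < I.u0 := by exact_mod_cast hu0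
  have hv0R : (0 : ℝ) < I.v0 := by exact_mod_cast hv0
  have hv1R : (0 : ℝ) < I.v1 := by exact_mod_cast hv1
  have huvR : (I.u0 : ℝ) * I.v1 ≤ I.u1 * I.v0 := by exact_mod_cast huv
  have hle : (I.u0 : ℝ) / I.v0 ≤ (I.u1 : ℝ) / I.v1 := by
    rw [div_le_div_iff₀ hv0R hv1R]; exact huvR
  refine ⟨⟨hle, by positivity⟩, ?_⟩
  set P : Piece := ivPiece I (al + ext t) j with hP
  have hPlo : ((P.lo : ℚ) : ℝ) = (I.u0 : ℝ) / I.v0 := by simp [hP, ivPiece]
  have hPhi : ((P.hi : ℚ) : ℝ) = (I.u1 : ℝ) / I.v1 := by simp [hP, ivPiece]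
  have hlo0 : 0 ≤ P.lo := by
    have : (0 : ℝ) ≤ ((P.lo : ℚ) : ℝ) := by rw [hPlo]; positivity
    exact_mod_cast this
  have hlh : P.lo ≤ P.hi := by
    have : ((P.lo : ℚ) : ℝ) ≤ ((P.hi : ℚ) : ℝ) := by rw [hPlo, hPhi]; exact hle
    exact_mod_cast this
  have key := tendsto_natCast_atTop_atTop.eventually
    (P.sum_le hlo0 hlh (C + absTot (kap t) cs) hδ)
  filter_upwards [key, eventually_gt_atTop 0] with N hN hN0 V hV
  have hN0R : (0 : ℝ) < N := by exact_mod_cast hN0
  rw [hPlo, hPhi] at hN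
  have e1 := hN (fun p => -V p) ?_
  · have e2 : ∑ p ∈ pr ((I.u0 : ℝ) / I.v0 * N) ((I.u1 : ℝ) / I.v1 * N), Real.log p * -V p
        = -∑ p ∈ pr ((I.u0 : ℝ) / I.v0 * N) ((I.u1 : ℝ) / I.v1 * N), Real.log p * V p := by
      rw [← Finset.sum_neg_distrib]
      exact Finset.sum_congr rfl fun p _ => by ring
    rw [e2] at e1
    have hScR : (0 : ℝ) < Sc := by exact_mod_cast hSc
    have e3 : (a : ℝ) ≤ -(Sc * (P.I : ℝ)) := by
      have h1 := intLow_le (Sc := Sc) hv0 hv1 (al + ext t) j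
      have h2 : (a : ℚ) ≤ ((intLow Sc I (al + ext t) j : ℤ) : ℚ) := by exact_mod_cast hae
      have h3 := h2.trans h1
      exact_mod_cast h3
    have e4 : (a : ℝ) / Sc ≤ -(P.I : ℝ) := by
      rw [div_le_iff₀ hScR]; linarith
    have e5 : (N : ℝ) ^ 2 * ((a : ℝ) / Sc - δ) ≤ (N : ℝ) ^ 2 * (-(P.I : ℝ) - δ) := by
      gcongr
    linarith
  · intro p hp
    have hp' := hp
    rw [mem_pr] at hp'
    have hV' := hV p hp
    have h0 : I.u0 * N ≤ I.v0 * p := by
      have := hp'.2.1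
      rw [div_mul_eq_mul_div, div_lt_iff₀ hv0R] at this
      have h' : (I.u0 : ℝ) * N ≤ I.v0 * p := by linarith
      exact_mod_cast h'
    have h1 : I.v1 * p ≤ I.u1 * N := by
      have := hp'.2.2
      rw [div_mul_eq_mul_div, le_div_iff₀ hv1R] at this
      have h' : (I.v1 : ℝ) * p ≤ I.u1 * N := by linarith
      exact_mod_cast h'
    have h2 := classSumGe bd I cs hc (kap t) N p hN0 h0 h1 (fun c => kap t (jvec bd N p c))
      (fun c _ => le_rfl)
    have h3 : (N : ℝ) * ((P.al : ℝ) + P.be * (p / N))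
        = -((N : ℝ) * (al + ext t)) + p * j / 2 := by
      simp only [hP, ivPiece]
      push_cast
      field_simp
    rw [h3]
    linarith



/-- lower bounds may be cut at any strip `s` -/
theorem TotLB.append {Sc : ℤ} {bd : List (ℤ × ℤ)} {kap : List ℤ → List ℤ → ℤ}
    {ext : List ℤ → ℤ} {s : St} {L2 : List St} {b : ℤ}
    (h2 : TotLB Sc bd kap ext (s :: L2) b) :
    ∀ {L1 : List St} {a : ℤ}, TotLB Sc bd kap ext (L1 ++ [s]) a →
      TotLB Sc bd kap ext (L1 ++ s :: L2) (a + b)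
  | [], a, h1 => by
    have h0 : a = 0 := h1
    subst h0
    rw [zero_add]; exact h2
  | [r], a, h1 => by
    obtain ⟨x, y, hx, hy, rfl⟩ := h1
    have hy0 : y = 0 := hy
    subst hy0
    exact ⟨x, b, hx, h2, by ring⟩
  | r :: r' :: L1, a, h1 => by
    obtain ⟨x, y, hx, hy, rfl⟩ := h1
    have hy' : TotLB Sc bd kap ext ((r' :: L1) ++ [s]) y := hy
    have h3 := TotLB.append h2 hy'
    exact ⟨x, y + b, hx, h3, by ring⟩



end Crest.Agent.R006.P8
end

-- ▼ part R006/P8_HintSpec_799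
section

/-! Row 6, block P8 (helper799): correctness of the hinted all-`ℕ` strip evaluation. -/

set_option autoImplicit false

namespace Crest.Agent.R006.P8

/-! ### packed vectors -/

/-- the packed value -/
def pkL : List ℕ → ℕ
  | [] => 0
  | a :: l => a + 1024 * pkL l

lemma pget_eq (J s : ℕ) : pget J s = (J >>> s) % 1024 := rfl

lemma pget_pkL : ∀ (l : List ℕ) (_ : ∀ a ∈ l, a < 1024) (i : ℕ),
    pget (pkL l) (10 * i) = l.getD i 0
  | [], _, i => by simp [pget_eq, pkL]
  | a :: l, h, 0 => by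
    have ha := h a (List.mem_cons_self ..)
    simp only [pget_eq, pkL, mul_zero, Nat.shiftRight_zero, List.getD_cons_zero]
    omega
  | a :: l, h, i + 1 => by
    have ha := h a (List.mem_cons_self ..)
    have ih := pget_pkL l (fun b hb => h b (List.mem_cons_of_mem _ hb)) i
    rw [List.getD_cons_succ, ← ih, pget_eq, pget_eq, pkL]
    congr 1
    rw [Nat.shiftRight_eq_div_pow, Nat.shiftRight_eq_div_pow, show 10 * (i + 1) = 10 + 10 * i by ring,
      pow_add, ← Nat.div_div_eq_div_mul]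
    congr 1
    omega

/-- entry minus one -/
def decL : ℕ → List ℕ → List ℕ
  | _, [] => []
  | 0, a :: l => (a - 1) :: l
  | i + 1, a :: l => a :: decL i l

lemma pkL_decL : ∀ (i : ℕ) (l : List ℕ), i < l.length → 1 ≤ l.getD i 0 →
    pkL l = pkL (decL i l) + 1024 ^ i
  | _, [], h, _ => by simp at h
  | 0, a :: l, _, h => by
    simp only [List.getD_cons_zero] at h
    simp only [decL, pkL, pow_zero]
    omega
  | i + 1, a :: l, h, h1 => by
    have ih := pkL_decL i l (by simpa using h) (by simpa using h1)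
    simp only [decL, pkL]
    rw [ih]
    ring

lemma decL_lt : ∀ (i : ℕ) (l : List ℕ), (∀ a ∈ l, a < 1024) → ∀ a ∈ decL i l, a < 1024
  | _, [], _ => by simp [decL]
  | 0, b :: l, h => by
    intro a ha
    simp only [decL, List.mem_cons] at ha
    rcases ha with ha | ha
    · have := h b (List.mem_cons_self ..); omega
    · exact h a (List.mem_cons_of_mem _ ha)
  | i + 1, b :: l, h => by
    intro a ha
    simp only [decL, List.mem_cons] at ha
    rcases ha with ha | ha
    · rw [ha]; exact h b (List.mem_cons_self ..)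
    · exact decL_lt i l (fun c hc => h c (List.mem_cons_of_mem _ hc)) a ha

/-- `J` is the packed vector `js` -/
def PK (J : ℕ) (js : List ℤ) : Prop :=
  ∃ l : List ℕ, J = pkL l ∧ (∀ a ∈ l, a < 1024) ∧ js = l.map fun a : ℕ => (a : ℤ) - 256

lemma getD_map_sub : ∀ (l : List ℕ) (i : ℕ), i < l.length →
    (l.map fun a : ℕ => (a : ℤ) - 256).getD i 0 = (l.getD i 0 : ℕ) - 256
  | [], _, h => by simp at h
  | a :: l, 0, _ => by simp
  | a :: l, i + 1, h => by
    have := getD_map_sub l i (by simpa using h)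
    simpa using this

lemma PK.get {J : ℕ} {js : List ℤ} (h : PK J js) {i : ℕ} (hi : i < js.length) :
    ((pget J (10 * i) : ℕ) : ℤ) = js.getD i 0 + 256 := by
  obtain ⟨l, rfl, h1, rfl⟩ := h
  rw [pget_pkL l h1 i, getD_map_sub l i (by simpa using hi)]
  ring

lemma decL_map : ∀ (i : ℕ) (l : List ℕ), i < l.length → 1 ≤ l.getD i 0 →
    (decL i l).map (fun a : ℕ => (a : ℤ) - 256) = decAt i (l.map fun a : ℕ => (a : ℤ) - 256)
  | _, [], h, _ => by simp at h
  | 0, a :: l, _, h => by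
    simp only [List.getD_cons_zero] at h
    simp only [decL, List.map_cons, decAt]
    congr 1
    push_cast [Nat.cast_sub h]
    ring
  | i + 1, a :: l, h, h1 => by
    have ih := decL_map i l (by simpa using h) (by simpa using h1)
    simp only [decL, List.map_cons, decAt, ih]

lemma PK.dec {J : ℕ} {js : List ℤ} (h : PK J js) {i : ℕ} (hi : i < js.length)
    (h1 : -255 ≤ js.getD i 0) : PK (J - 1024 ^ i) (decAt i js) := by
  obtain ⟨l, rfl, h2, rfl⟩ := h
  have hi' : i < l.length := by simpa using hi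
  rw [getD_map_sub l i hi'] at h1
  have h3 : 1 ≤ l.getD i 0 := by omega
  refine ⟨decL i l, ?_, decL_lt i l h2, (decL_map i l hi' h3).symm⟩
  rw [pkL_decL i l hi' h3]
  omega

/-! ### losses -/

lemma lossN_ge (D : ℤ) : 64 - D ≤ (lossN D : ℤ) := Int.self_le_toNat _

lemma loss_mul (n : ℕ) (D : ℤ) : (n : ℤ) * (64 - (lossN D : ℤ)) ≤ n * D :=
  mul_le_mul_of_nonneg_left (by have := lossN_ge D; linarith) (by positivity)

/-- validity of a kind -/
structure KOK (m : ℕ) (k : Kind) : Prop where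
  a : k.ia < m
  b : k.ib < m
  c : k.ca < m
  d : k.cb < m
  j : -256 ≤ k.j0
  cj : -256 ≤ k.cj

/-- the contribution of a kind -/
def kterm (js : List ℤ) (o s c : Kind → ℤ) (k : Kind) : ℤ :=
  if js.getD k.ib 0 ≤ js.getD k.ia 0 then 0
  else if js.getD k.ia 0 ≤ k.j0 ∧ k.j0 < js.getD k.ib 0 then
    (js.getD k.ib 0 - js.getD k.ia 0 - 1) * o k + (if k.cond js then c k else s k)
  else (js.getD k.ib 0 - js.getD k.ia 0) * o k

lemma kindSum_cons (js : List ℤ) (o s c : Kind → ℤ) (k : Kind) (ks : List Kind) :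
    kindSum js o s c (k :: ks) = kterm js o s c k + kindSum js o s c ks := by
  simp only [kindSum, kterm]
  split_ifs <;> ring

/-- the item of a kind -/
def itK (o s c : Kind → ℤ) (k : Kind) : It :=
  ⟨10 * k.ia, 10 * k.ib, (k.j0 + 256).toNat, (k.j0 + 257).toNat,
      10 * k.ca, 10 * k.cb, (k.cj + 256).toNat, (k.cj + 257).toNat,
      lossN (o k), lossN (s k), lossN (c k)⟩

lemma ble_true {a b : ℕ} : Nat.ble a b = true ↔ a ≤ b := by
  rw [Nat.ble_eq]


lemma itLoss_le {J : ℕ} {js : List ℤ} (h : PK J js) (o s c : Kind → ℤ) {k : Kind}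
    (hk : KOK js.length k) :
    64 * ((Nat.sub (pget J (10 * k.ib)) (pget J (10 * k.ia)) : ℕ) : ℤ)
      - (itLoss J (itK o s c k) : ℤ) ≤ kterm js o s c k := by
  have hU := h.get hk.a
  have hV := h.get hk.b
  have hA := h.get hk.c
  have hB := h.get hk.d
  have hj := hk.j
  have hcj := hk.cj
  unfold itLoss itK kterm
  simp only
  generalize pget J (10 * k.ia) = U at *
  generalize pget J (10 * k.ib) = V at *
  generalize pget J (10 * k.ca) = A at *
  generalize pget J (10 * k.cb) = B at *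
  simp only [Nat.sub_eq, Nat.add_eq, Nat.mul_eq]
  have ho := loss_mul (V - U) (o k)
  by_cases c0 : js.getD k.ib 0 ≤ js.getD k.ia 0
  · have hn : V - U = 0 := by omega
    rw [if_pos c0, hn]
    cases h1 : Nat.ble U (k.j0 + 256).toNat with
    | false => simp
    | true =>
      cases h2 : Nat.ble (k.j0 + 257).toNat V with
      | false => simp
      | true =>
        exfalso
        rw [ble_true] at h1 h2
        omega
  · rw [if_neg c0]
    by_cases c1 : js.getD k.ia 0 ≤ k.j0 ∧ k.j0 < js.getD k.ib 0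
    · rw [if_pos c1]
      have h1 : Nat.ble U (k.j0 + 256).toNat = true := by rw [ble_true]; omega
      have h2 : Nat.ble (k.j0 + 257).toNat V = true := by rw [ble_true]; omega
      rw [h1, h2]
      simp only [cond_true]
      have hn : ((V - U - 1 : ℕ) : ℤ) = js.getD k.ib 0 - js.getD k.ia 0 - 1 := by omega
      have hn' : ((V - U : ℕ) : ℤ) = (V - U - 1 : ℕ) + 1 := by omega
      have ho' := loss_mul (V - U - 1) (o k)
      have key : ((cond (Nat.ble A (k.cj + 256).toNat)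
          (cond (Nat.ble (k.cj + 257).toNat B) (lossN (c k)) (lossN (s k))) (lossN (s k)) : ℕ) : ℤ)
          ≥ 64 - (if k.cond js then c k else s k) := by
        by_cases c2 : k.cond js = true
        · rw [if_pos c2]
          unfold Kind.cond at c2
          rw [Bool.and_eq_true, decide_eq_true_eq, decide_eq_true_eq] at c2
          have h3 : Nat.ble A (k.cj + 256).toNat = true := by rw [ble_true]; omega
          have h4 : Nat.ble (k.cj + 257).toNat B = true := by rw [ble_true]; omega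
          rw [h3, h4]
          simp only [cond_true]
          exact lossN_ge _
        · rw [if_neg c2]
          unfold Kind.cond at c2
          rw [Bool.and_eq_true, decide_eq_true_eq, decide_eq_true_eq] at c2
          cases h3 : Nat.ble A (k.cj + 256).toNat with
          | false => simp only [cond_false]; exact lossN_ge _
          | true =>
            cases h4 : Nat.ble (k.cj + 257).toNat B with
            | false => simp only [cond_true, cond_false]; exact lossN_ge _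
            | true =>
              exfalso
              rw [ble_true] at h3 h4
              omega
      rw [hn']
      push_cast
      rw [hn] at ho' ⊢
      nlinarith
    · rw [if_neg c1]
      have hn : ((V - U : ℕ) : ℤ) = js.getD k.ib 0 - js.getD k.ia 0 := by omega
      have hE : ∀ X : ℕ, cond (Nat.ble U (k.j0 + 256).toNat)
          (cond (Nat.ble (k.j0 + 257).toNat V) X ((V - U) * lossN (o k)))
          ((V - U) * lossN (o k)) = (V - U) * lossN (o k) := by
        intro X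
        cases h1 : Nat.ble U (k.j0 + 256).toNat with
        | false => rfl
        | true =>
          cases h2 : Nat.ble (k.j0 + 257).toNat V with
          | false => rfl
          | true =>
            exfalso
            rw [ble_true] at h1 h2
            omega
      rw [hE]
      push_cast
      rw [hn] at ho ⊢
      linarith

lemma foldIt_le {J : ℕ} {js : List ℤ} (h : PK J js) (o s c : Kind → ℤ) :
    ∀ (ks : List Kind) (_ : ∀ k ∈ ks, KOK js.length k) (n e : ℕ),
      64 * ((foldIt J (itsOf o s c ks) n e).1 : ℤ) - ((foldIt J (itsOf o s c ks) n e).2 : ℤ)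
        ≤ 64 * n - e + kindSum js o s c ks
  | [], _, n, e => by
    show 64 * (n : ℤ) - e ≤ 64 * n - e + 0
    linarith
  | k :: ks, hk, n, e => by
    have h1 := itLoss_le h o s c (hk k (List.mem_cons_self ..))
    have h2 := foldIt_le h o s c ks (fun k' hk' => hk k' (List.mem_cons_of_mem _ hk'))
      (Nat.add n (Nat.sub (pget J (10 * k.ib)) (pget J (10 * k.ia))))
      (Nat.add e (itLoss J (itK o s c k)))
    rw [kindSum_cons]
    have h3 : foldIt J (itsOf o s c (k :: ks)) n e = foldIt J (itsOf o s c ks)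
      (Nat.add n (Nat.sub (pget J (10 * k.ib)) (pget J (10 * k.ia))))
      (Nat.add e (itLoss J (itK o s c k))) := rfl
    rw [h3]
    refine h2.trans ?_
    simp only [Nat.add_eq]
    push_cast
    linarith

/-! ### references -/

lemma sumB_sub_sumA {J : ℕ} {js : List ℤ} (h : PK J js) : ∀ (L : List (ℕ × ℕ))
    (_ : ∀ q ∈ L, q.1 < js.length ∧ q.2 < js.length),
    ((sumB J (winN L) : ℕ) : ℤ) - (sumA J (winN L) : ℕ) = cntSum js L
  | [], _ => by simp [sumA, sumB, winN, cntSum]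
  | q :: L, hL => by
    have ih := sumB_sub_sumA h L (fun q' hq' => hL q' (List.mem_cons_of_mem _ hq'))
    have hq := hL q (List.mem_cons_self ..)
    have h1 := h.get hq.1
    have h2 := h.get hq.2
    have e1 : sumB J (winN (q :: L)) = pget J (10 * q.2) + sumB J (winN L) := rfl
    have e2 : sumA J (winN (q :: L)) = pget J (10 * q.1) + sumA J (winN L) := rfl
    rw [e1, e2, cntSum]
    push_cast
    linarith

lemma tri_eq (B A : ℕ) (x : ℤ) (h : ((B : ℕ) : ℤ) - (A : ℕ) = x) :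
    tri (x - 1) = (((B - A) * (B - A - 1) / 2 : ℕ) : ℤ) := by
  unfold tri
  congr 1
  subst h
  rcases le_or_gt B A with h1 | h1
  · have e1 : B - A = 0 := by omega
    have e2 : ((B : ℤ) - A - 1).toNat = 0 := by omega
    rw [e1, e2]
  · have e2 : ((B : ℤ) - A - 1).toNat = B - A - 1 := by omega
    have e3 : B - A - 1 + 1 = B - A := by omega
    rw [e2, e3, mul_comm]

lemma refN_cons (J : ℕ) (a : ℕ × List (ℕ × ℕ)) (L : List (ℕ × List (ℕ × ℕ))) :
    refN J (a :: L) = a.1 * ((sumB J a.2 - sumA J a.2) * (sumB J a.2 - sumA J a.2 - 1) / 2)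
      + refN J L := rfl

lemma refN_dropZ (J : ℕ) : ∀ L : List (ℕ × List (ℕ × ℕ)), refN J (dropZ L) = refN J L
  | [] => rfl
  | a :: L => by
    have ih := refN_dropZ J L
    unfold dropZ at *
    rw [List.filter_cons]
    rcases Nat.eq_zero_or_pos a.1 with h | h
    · rw [h]
      simp only [Nat.beq, Bool.not_true, Bool.false_eq_true, if_false]
      rw [ih, refN_cons, h]
      simp
    · have h1 : Nat.beq a.1 0 = false := by
        cases hb : Nat.beq a.1 0 with
        | false => rfl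
        | true => have := Nat.eq_of_beq_eq_true hb; omega
      rw [h1]
      simp only [Bool.not_false, if_true]
      rw [refN_cons, ih, refN_cons]

lemma ref_eq {J : ℕ} {js : List ℤ} (h : PK J js) : ∀ (L : List (ℤ × List (ℕ × ℕ)))
    (_ : ∀ r ∈ L, ∀ q ∈ r.2, q.1 < js.length ∧ q.2 < js.length),
    ((refN J (refPN L) : ℕ) : ℤ) - (refN J (refMN L) : ℕ) = refSum js L
  | [], _ => by simp [refN, refPN, refMN, refSum]
  | r :: L, hL => by
    have ih := ref_eq h L (fun q' hq' => hL q' (List.mem_cons_of_mem _ hq'))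
    have hr := sumB_sub_sumA h r.2 (hL r (List.mem_cons_self ..))
    have e0 := tri_eq _ _ _ hr
    have e1 : refPN (r :: L) = (r.1.toNat, winN r.2) :: refPN L := rfl
    have e2 : refMN (r :: L) = ((-r.1).toNat, winN r.2) :: refMN L := rfl
    rw [e1, e2, refN_cons, refN_cons, refSum, e0]
    have e3 : r.1 = (r.1.toNat : ℤ) - ((-r.1).toNat : ℤ) := by omega
    rw [← ih]
    generalize ((sumB J (winN r.2) - sumA J (winN r.2)) *
      (sumB J (winN r.2) - sumA J (winN r.2) - 1) / 2 : ℕ) = X at *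
    simp only
    push_cast
    nlinarith [e3]

end Crest.Agent.R006.P8
private theorem rz_007c610ef0 : type_of% @_root_.Crest.Agent.R006.P8.decL.eq_def := @_root_.Crest.Agent.R006.P8.decL.eq_def -- L37
private theorem rz_668d2ad76c : type_of% @_root_.Crest.Agent.R006.P8.decL.eq_1 := @_root_.Crest.Agent.R006.P8.decL.eq_1 -- L37
private theorem rz_e9c13a70fb : type_of% @_root_.Crest.Agent.R006.P8.pkL.eq_def := @_root_.Crest.Agent.R006.P8.pkL.eq_def -- L13
private theorem rz_fff3116dc0 : type_of% @_root_.Crest.Agent.R006.P8.pkL.eq_1 := @_root_.Crest.Agent.R006.P8.pkL.eq_1 -- L13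
end

-- ▼ part R006/P8_HintSpec2_799
section

/-! Row 6, block P8 (helper799): correctness of the hinted strip evaluation, second part. -/

set_option autoImplicit false

namespace Crest.Agent.R006.P8

/-! ### entries and cells -/

/-- the entry is sound for the value `x` -/
def EntLE (J : ℕ) (x : ℤ) (e : Ent) : Prop :=
  64 * ((foldIt J e.its 0 e.toll).1 : ℤ) - ((foldIt J e.its 0 e.toll).2 : ℤ) ≤ x

lemma entLE_of {J : ℕ} {js : List ℤ} (h : PK J js) (o s c : Kind → ℤ) {ks : List Kind}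
    (hks : ∀ k ∈ ks, KOK js.length k) (toll x : ℤ) (hx : kindSum js o s c ks - toll ≤ x) :
    EntLE J x ⟨toll.toNat, itsOf o s c ks⟩ := by
  have h1 := foldIt_le h o s c ks hks 0 toll.toNat
  have h2 : toll ≤ (toll.toNat : ℤ) := Int.self_le_toNat _
  unfold EntLE
  simp only
  push_cast at h1
  linarith

lemma EntLE.entP {J : ℕ} {js : List ℤ} (h : PK J js) {ks : List Kind}
    (hks : ∀ k ∈ ks, KOK js.length k) {lam mu p r q x : ℤ}
    (hx : polVal ks js lam mu (p + lam + 2 + r) p (p + mu + q) ≤ x) :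
    EntLE J x (entP ks lam mu p r q) :=
  entLE_of h _ _ _ hks _ _ hx

lemma EntLE.entR {J : ℕ} {js : List ℤ} (h : PK J js) {ks : List Kind}
    (hks : ∀ k ∈ ks, KOK js.length k) {lam mu p r q x : ℤ}
    (hx : regVal ks js lam mu (p + lam - 1 + r) p (p + mu - 2 + q) ≤ x) :
    EntLE J x (entR ks lam mu p r q) :=
  entLE_of h _ _ _ hks _ _ hx

lemma EntLE.entB {J : ℕ} {js : List ℤ} (h : PK J js) {ks : List Kind}
    (hks : ∀ k ∈ ks, KOK js.length k) {lam mu p r q x : ℤ}
    (hx : regValB ks js lam mu (p + lam - 1 + r) p (p + mu - 2 + q) ≤ x) :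
    EntLE J x (entB ks lam mu p r q) :=
  entLE_of h _ _ _ hks _ _ hx

lemma nthD_mem {α : Type} {P : α → Prop} {d : α} (hd : P d) : ∀ (L : List α) (_ : ∀ e ∈ L, P e)
    (h : ℕ), P (nthD d L h)
  | [], _, _ => hd
  | a :: L, hL, 0 => hL a (List.mem_cons_self ..)
  | a :: L, hL, h + 1 =>
    nthD_mem hd L (fun e he => hL e (List.mem_cons_of_mem _ he)) h

lemma le_bestOf_default (g : ℤ → ℤ → ℤ → ℤ) : ∀ L : List ℤ, g 0 0 0 ≤ bestOf g L
  | p :: r :: q :: L => (le_bestOf_default g L).trans (le_max_right _ _)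
  | [] => le_rfl
  | [_] => le_rfl
  | [_, _] => le_rfl

lemma tabOf_mem {P : Ent → Prop} (f : ℤ → ℤ → ℤ → Ent) (g : ℤ → ℤ → ℤ → ℤ) (x : ℤ)
    (hf : ∀ p r q, g p r q ≤ x → P (f p r q)) {tl : List Ent} (htl : ∀ e ∈ tl, P e) :
    ∀ L : List ℤ, bestOf g L ≤ x → ∀ e ∈ tabOf f tl L, P e
  | p :: r :: q :: L, hx => by
    intro e he
    rw [bestOf, max_le_iff] at hx
    simp only [tabOf, List.mem_cons] at he
    rcases he with he | he
    · rw [he]; exact hf p r q hx.1
    · exact tabOf_mem f g x hf htl L hx.2 e he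
  | [], _ => by simpa [tabOf] using htl
  | [_], _ => by simpa [tabOf] using htl
  | [_, _], _ => by simpa [tabOf] using htl

/-- validity of the tables -/
structure COK (ks : List Kind) (refs : List (ℤ × List (ℕ × ℕ))) (ip m : ℕ) : Prop where
  ip : ip < m
  ks : ∀ k ∈ ks, KOK m k
  refs : ∀ r ∈ refs, ∀ q ∈ r.2, q.1 < m ∧ q.2 < m

lemma beq_true {a b : ℕ} : Nat.beq a b = true ↔ a = b := by
  constructor
  · exact Nat.eq_of_beq_eq_true
  · rintro rfl; exact Nat.beq_refl a

/-- **a cell** -/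
theorem cellH_le {ks : List Kind} {refs : List (ℤ × List (ℕ × ℕ))} {ip : ℕ} {J : ℕ} {js : List ℤ}
    (h : PK J js) (hc : COK ks refs ip js.length) {t : List ℤ} (ht : lenOK t = true) (n : ℕ) :
    ((cellH (mkTb ks refs ip t) J n).1 : ℤ) - ((cellH (mkTb ks refs ip t) J n).2 : ℤ)
      ≤ kapK ks refs ip t js := by
  match t, ht with
  | lam :: mu :: L, _ =>
    have href := ref_eq h refs hc.refs
    set T := mkTb ks refs ip (lam :: mu :: L) with hT
    have hrP : refN J T.rP = refN J (refPN refs) := refN_dropZ J _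
    have hrM : refN J T.rM = refN J (refMN refs) := refN_dropZ J _
    -- the value without the references
    have key : EntLE J (kapK ks refs ip (lam :: mu :: L) js + refSum js refs) (entOf T J n) := by
      have hip := h.get hc.ip
      have e1 : entOf T J n = cond (Nat.beq (pget J (10 * ip)) 256)
        (nthD (entP ks lam mu 0 0 0) (tabOf (entP ks lam mu) [] L) n)
        (nthD (entR ks lam mu 0 0 0)
          (tabOf (entR ks lam mu) (tabOf (entB ks lam mu) [] L) L) n) := rfl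
      rw [e1]
      by_cases hz : js.getD ip 0 = 0
      · have h1 : Nat.beq (pget J (10 * ip)) 256 = true := by rw [beq_true]; omega
        rw [h1, cond_true]
        have hk : bestOf (fun p r q => polVal ks js lam mu (p + lam + 2 + r) p (p + mu + q)) L
            ≤ kapK ks refs ip (lam :: mu :: L) js + refSum js refs := by
          rw [kapK, if_pos hz]; linarith
        refine nthD_mem (EntLE.entP h hc.ks ((le_bestOf_default
          (fun p r q => polVal ks js lam mu (p + lam + 2 + r) p (p + mu + q)) L).trans hk)) _ ?_ n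
        exact tabOf_mem _ (fun p r q => polVal ks js lam mu (p + lam + 2 + r) p (p + mu + q)) _
          (fun p r q hx => EntLE.entP h hc.ks hx) (by simp) L hk
      · have h1 : Nat.beq (pget J (10 * ip)) 256 = false := by
          cases hb : Nat.beq (pget J (10 * ip)) 256 with
          | false => rfl
          | true => rw [beq_true] at hb; omega
        rw [h1, cond_false]
        have hk : max (bestOf (fun p r q => regVal ks js lam mu (p + lam - 1 + r) p
              (p + mu - 2 + q)) L)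
            (bestOf (fun p r q => regValB ks js lam mu (p + lam - 1 + r) p (p + mu - 2 + q)) L)
            ≤ kapK ks refs ip (lam :: mu :: L) js + refSum js refs := by
          rw [kapK, if_neg hz]; linarith
        rw [max_le_iff] at hk
        refine nthD_mem (EntLE.entR h hc.ks ((le_bestOf_default
          (fun p r q => regVal ks js lam mu (p + lam - 1 + r) p (p + mu - 2 + q)) L).trans hk.1))
          _ ?_ n
        exact tabOf_mem _ (fun p r q => regVal ks js lam mu (p + lam - 1 + r) p (p + mu - 2 + q)) _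
          (fun p r q hx => EntLE.entR h hc.ks hx)
          (tabOf_mem _ (fun p r q => regValB ks js lam mu (p + lam - 1 + r) p (p + mu - 2 + q)) _
            (fun p r q hx => EntLE.entB h hc.ks hx) (by simp) L hk.2) L hk.1
    have e2 : cellH T J n = (64 * (foldIt J (entOf T J n).its 0 (entOf T J n).toll).1
        + refN J T.rM, (foldIt J (entOf T J n).its 0 (entOf T J n).toll).2 + refN J T.rP) := rfl
    unfold EntLE at key
    rw [e2, hrP, hrM]
    simp only
    push_cast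
    linarith

/-! ### lines -/

lemma decAt_length : ∀ (i : ℕ) (js : List ℤ), (decAt i js).length = js.length
  | _, [] => by simp [decAt]
  | 0, _ :: _ => rfl
  | i + 1, j :: js => by simp [decAt, decAt_length i js]

lemma getD_decAt_ne : ∀ (i k : ℕ) (js : List ℤ), i ≠ k → (decAt k js).getD i 0 = js.getD i 0
  | _, _, [], _ => by simp [decAt]
  | 0, 0, _ :: _, h => absurd rfl h
  | 0, _ + 1, _ :: _, _ => rfl
  | _ + 1, 0, _ :: _, _ => by simp [decAt]
  | i + 1, k + 1, j :: js, h => by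
    simp only [decAt, List.getD_cons_succ]
    exact getD_decAt_ne i k js (by omega)

lemma entOK_decAt_ne (l : Ln) : ∀ (i k : ℕ) (bd : List (ℤ × ℤ)) (js : List ℤ), i ≠ k →
    entOK l i bd (decAt k js) = entOK l i bd js
  | _, _, _, [], _ => by simp [decAt]
  | i, k, [], j :: js, _ => by cases i <;> cases k <;> simp [entOK, decAt]
  | 0, 0, _ :: _, _ :: _, h => absurd rfl h
  | 0, _ + 1, _ :: _, _ :: _, _ => rfl
  | _ + 1, 0, _ :: _, _ :: _, _ => rfl
  | i + 1, k + 1, q :: bd, j :: js, h => by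
    simp only [decAt, entOK]
    exact entOK_decAt_ne l i k bd js (by omega)

lemma entOK_lt {l : Ln} : ∀ (i : ℕ) (bd : List (ℤ × ℤ)) (js : List ℤ),
    entOK l i bd js = true → i < js.length
  | _, [], _, h => by simp [entOK] at h
  | 0, _ :: _, [], h => by simp [entOK] at h
  | _ + 1, _ :: _, [], h => by simp [entOK] at h
  | 0, _ :: _, _ :: _, _ => by simp
  | i + 1, _ :: bd, _ :: js, h => by
    have := entOK_lt i bd js (by simpa [entOK] using h)
    simpa using this

/-- insertion by a key -/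
def insG (w : QL → ℕ) (l : QL) : List QL → List QL
  | [] => [l]
  | a :: as => cond (Nat.ble (w l) (w a)) (l :: a :: as) (a :: insG w l as)

/-- insertion sort by a key -/
def sortG (w : QL → ℕ) : List QL → List QL
  | [] => []
  | a :: as => insG w a (sortG w as)

lemma insG_perm (w : QL → ℕ) (l : QL) : ∀ L : List QL, (insG w l L).Perm (l :: L)
  | [] => List.Perm.refl _
  | a :: as => by
    unfold insG
    cases Nat.ble (w l) (w a) with
    | true => exact List.Perm.refl _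
    | false => exact ((insG_perm w l as).cons a).trans (List.Perm.swap l a as)

lemma sortG_perm (w : QL → ℕ) : ∀ L : List QL, (sortG w L).Perm L
  | [] => List.Perm.refl _
  | a :: as => (insG_perm w a (sortG w as)).trans ((sortG_perm w as).cons a)

/-- a `ℕ`-line and its model -/
structure RelQ (u0 v0 u1 v1 : ℕ) (q : QN) (s : QL) : Prop where
  e : q.e = 1024 ^ s.i
  z0 : (q.z0 : ℤ) = s.a + (64 * v0 + 1534 * u0)
  z1 : (q.z1 : ℤ) = s.b + (64 * v1 + 1534 * u1)
  w : q.w = v1 * q.z0 + v0 * q.z1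

/-- the key -/
def keyG (u0 v0 u1 v1 : ℕ) (s : QL) : ℕ :=
  v1 * (s.a + (64 * v0 + 1534 * u0)).toNat + v0 * (s.b + (64 * v1 + 1534 * u1)).toNat

lemma RelQ.key {u0 v0 u1 v1 : ℕ} {q : QN} {s : QL} (h : RelQ u0 v0 u1 v1 q s) :
    q.w = keyG u0 v0 u1 v1 s := by
  rw [h.w, keyG, ← h.z0, ← h.z1, Int.toNat_natCast, Int.toNat_natCast]

lemma insN_cons (l a : QN) (as : List QN) :
    insN l (a :: as) = cond (Nat.ble l.w a.w) (l :: a :: as) (a :: insN l as) := rfl

lemma insN_rel {u0 v0 u1 v1 : ℕ} {l : QN} {s : QL} (h : RelQ u0 v0 u1 v1 l s) :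
    ∀ {L : List QN} {L' : List QL}, List.Forall₂ (RelQ u0 v0 u1 v1) L L' →
      List.Forall₂ (RelQ u0 v0 u1 v1) (insN l L) (insG (keyG u0 v0 u1 v1) s L')
  | _, _, List.Forall₂.nil => List.Forall₂.cons h List.Forall₂.nil
  | a :: as, b :: bs, List.Forall₂.cons h1 h2 => by
    rw [insN_cons, insG, h.key, h1.key]
    cases Nat.ble (keyG u0 v0 u1 v1 s) (keyG u0 v0 u1 v1 b) with
    | true => exact List.Forall₂.cons h (List.Forall₂.cons h1 h2)
    | false => exact List.Forall₂.cons h1 (insN_rel h h2)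

lemma sortN_rel {u0 v0 u1 v1 : ℕ} : ∀ {L : List QN} {L' : List QL},
    List.Forall₂ (RelQ u0 v0 u1 v1) L L' →
      List.Forall₂ (RelQ u0 v0 u1 v1) (sortN L) (sortG (keyG u0 v0 u1 v1) L')
  | _, _, List.Forall₂.nil => List.Forall₂.nil
  | _ :: _, _ :: _, List.Forall₂.cons h1 h2 => insN_rel h1 (sortN_rel h2)

lemma mkQNs_cons (u0 v0 u1 v1 : ℕ) (q : ℕ × ℕ) (bd : List (ℕ × ℕ)) (i e : ℕ) :
    mkQNs u0 v0 u1 v1 (q :: bd) i e = mkQN u0 v0 u1 v1 i e q.1
        (mN (jbN (v0 + v1) (u0 + u1) q.1 q.2) q.2) ::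
      mkQNs u0 v0 u1 v1 bd (i + 1) (e * 1024) := rfl

/-- validity of a boundary -/
def BOK (q : ℤ × ℤ) : Prop := -32 ≤ q.1 ∧ 0 ≤ q.2 ∧ q.2 ≤ 1

/-- the start entry -/
def JQ (u0 v0 u1 v1 : ℕ) (q : ℤ × ℤ) : ℤ :=
  (jbN (v0 + v1) (u0 + u1) (q.1 + 32).toNat q.2.toNat : ℤ) - 256

lemma jbN_bounds (N p A h : ℕ) : 1 ≤ jbN N p A h ∧ jbN N p A h < 1024 := by
  unfold jbN
  simp only [Nat.add_eq]
  have : ∀ x : ℕ, Nat.mod x 1023 < 1023 := fun x => Nat.mod_lt _ (by norm_num)
  have := this (Nat.div (Nat.sub (Nat.mul (Nat.mul 2 A) N + Nat.mul (Nat.sub 512 h) p)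
    (Nat.mul 64 N + 1)) (Nat.mul 2 p))
  omega

lemma mkQN_rel (u0 v0 u1 v1 i : ℕ) {q : ℤ × ℤ} (hq : BOK q) :
    RelQ u0 v0 u1 v1 (mkQN u0 v0 u1 v1 i (1024 ^ i) (q.1 + 32).toNat
        (mN (jbN (v0 + v1) (u0 + u1) (q.1 + 32).toNat q.2.toNat) q.2.toNat))
      (mkQL ⟨u0, v0, u1, v1⟩ i q (JQ u0 v0 u1 v1 q)) := by
  obtain ⟨h1, h2, h3⟩ := hq
  have hb := jbN_bounds (v0 + v1) (u0 + u1) (q.1 + 32).toNat q.2.toNat
  have hm : ((mN (jbN (v0 + v1) (u0 + u1) (q.1 + 32).toNat q.2.toNat) q.2.toNat : ℕ) : ℤ)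
      = 1534 - (2 * JQ u0 v0 u1 v1 q - 2 + q.2) := by
    unfold mN JQ
    simp only [Nat.sub_eq, Nat.mul_eq]
    omega
  have hA : (((q.1 + 32).toNat : ℕ) : ℤ) = q.1 + 32 := by omega
  have hz : ∀ v u : ℕ, ((zN (q.1 + 32).toNat
      (mN (jbN (v0 + v1) (u0 + u1) (q.1 + 32).toNat q.2.toNat) q.2.toNat) v u : ℕ) : ℤ)
      = (2 * q.1 * v - (2 * JQ u0 v0 u1 v1 q - 2 + q.2) * u) + (64 * v + 1534 * u) := by
    intro v u
    unfold zN
    simp only [Nat.add_eq, Nat.mul_eq]
    push_cast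
    rw [hm, hA]
    ring
  constructor
  · rfl
  · exact hz v0 u0
  · exact hz v1 u1
  · rfl

lemma mkQNs_rel (u0 v0 u1 v1 : ℕ) : ∀ (bd : List (ℤ × ℤ)) (_ : ∀ q ∈ bd, BOK q) (i : ℕ),
    List.Forall₂ (RelQ u0 v0 u1 v1) (mkQNs u0 v0 u1 v1 (bdN bd) i (1024 ^ i))
      (mkQLs ⟨u0, v0, u1, v1⟩ (JQ u0 v0 u1 v1) i bd)
  | [], _, _ => List.Forall₂.nil
  | q :: bd, h, i => by
    have e1 : bdN (q :: bd) = ((q.1 + 32).toNat, q.2.toNat) :: bdN bd := rfl
    rw [e1, mkQNs_cons, mkQLs, ← pow_succ]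
    exact List.Forall₂.cons (mkQN_rel u0 v0 u1 v1 i (h q (List.mem_cons_self ..)))
      (mkQNs_rel u0 v0 u1 v1 bd (fun q' hq' => h q' (List.mem_cons_of_mem _ hq')) (i + 1))

/-! ### invariants of the walk -/

/-- invariant of the remaining lines -/
structure Inv (bd : List (ℤ × ℤ)) (js : List ℤ) (S : List QL) : Prop where
  nd : (S.map QL.i).Nodup
  ent : ∀ q ∈ S, entOK q.ln q.i bd js = true
  pos : ∀ q ∈ S, -255 ≤ js.getD q.i 0

lemma Inv.tail {bd : List (ℤ × ℤ)} {js : List ℤ} {q : QL} {S : List QL}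
    (h : Inv bd js (q :: S)) : Inv bd (decAt q.i js) S := by
  have hnd := h.nd
  rw [List.map_cons, List.nodup_cons] at hnd
  have hne : ∀ s ∈ S, s.i ≠ q.i := by
    intro s hs he
    exact hnd.1 (by rw [← he]; exact List.mem_map_of_mem hs)
  constructor
  · exact hnd.2
  · intro s hs
    rw [entOK_decAt_ne _ _ _ _ _ (hne s hs)]
    exact h.ent s (List.mem_cons_of_mem _ hs)
  · intro s hs
    rw [getD_decAt_ne _ _ _ (hne s hs)]
    exact h.pos s (List.mem_cons_of_mem _ hs)

lemma mkQLs_i (I : Iv) (J : ℤ × ℤ → ℤ) : ∀ (bd : List (ℤ × ℤ)) (i : ℕ),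
    (mkQLs I J i bd).map QL.i = List.range' i bd.length
  | [], _ => rfl
  | q :: bd, i => by
    simp only [mkQLs, List.map_cons, List.length_cons, List.range'_succ]
    rw [mkQLs_i I J bd (i + 1)]
    rfl

lemma mkQLs_ent (I : Iv) (J : ℤ × ℤ → ℤ) (hJ : ∀ q, -255 ≤ J q) :
    ∀ (bd : List (ℤ × ℤ)) (i : ℕ), ∀ s ∈ mkQLs I J i bd,
      i ≤ s.i ∧ entOK s.ln (s.i - i) bd (bd.map J) = true ∧ -255 ≤ (bd.map J).getD (s.i - i) 0
  | [], _, s, h => by simp [mkQLs] at h
  | q :: bd, i, s, h => by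
    simp only [mkQLs, List.mem_cons] at h
    rcases h with h | h
    · subst h
      refine ⟨le_rfl, ?_, ?_⟩
      · simp [mkQL, entOK]
      · simpa [mkQL] using hJ q
    · obtain ⟨h1, h2, h3⟩ := mkQLs_ent I J hJ bd (i + 1) s h
      have e : s.i - i = (s.i - (i + 1)) + 1 := by omega
      refine ⟨by omega, ?_, ?_⟩
      · rw [e]; simpa [entOK] using h2
      · rw [e]; simpa using h3

lemma inv_start (I : Iv) (J : ℤ × ℤ → ℤ) (hJ : ∀ q, -255 ≤ J q) (bd : List (ℤ × ℤ))
    {S : List QL} (hS : S.Perm (mkQLs I J 0 bd)) : Inv bd (bd.map J) S := by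
  constructor
  · rw [(hS.map QL.i).nodup_iff, mkQLs_i]
    exact List.nodup_range'
  · intro s hs
    have := (mkQLs_ent I J hJ bd 0 s (hS.mem_iff.1 hs)).2.1
    simpa using this
  · intro s hs
    have := (mkQLs_ent I J hJ bd 0 s (hS.mem_iff.1 hs)).2.2
    simpa using this

lemma chkN_cons (t0 t1 : ℕ) (q : QN) (S : List QN) (a b : ℕ) : chkN t0 t1 (q :: S) a b =
    cond (Nat.ble a q.z0) (cond (Nat.ble b q.z1) (chkN t0 t1 S q.z0 q.z1) false) false := rfl

lemma chkN_cons_true {t0 t1 : ℕ} {q : QN} {S : List QN} {a b : ℕ}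
    (h : chkN t0 t1 (q :: S) a b = true) :
    a ≤ q.z0 ∧ b ≤ q.z1 ∧ chkN t0 t1 S q.z0 q.z1 = true := by
  rw [chkN_cons] at h
  cases h1 : Nat.ble a q.z0 with
  | false => rw [h1] at h; simp at h
  | true =>
    cases h2 : Nat.ble b q.z1 with
    | false => rw [h1, h2] at h; simp at h
    | true =>
      rw [h1, h2] at h
      exact ⟨ble_true.1 h1, ble_true.1 h2, h⟩

lemma chkN_nil_true {t0 t1 a b : ℕ} (h : chkN t0 t1 [] a b = true) : a ≤ t0 ∧ b ≤ t1 := by
  have e : chkN t0 t1 [] a b = cond (Nat.ble a t0) (Nat.ble b t1) false := rfl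
  rw [e] at h
  cases h1 : Nat.ble a t0 with
  | false => rw [h1] at h; simp at h
  | true => rw [h1] at h; exact ⟨ble_true.1 h1, ble_true.1 h⟩

/-- the `ℕ` check implies the check of the model -/
lemma chk_of_chkN {u0 v0 u1 v1 : ℕ} {bd : List (ℤ × ℤ)} :
    ∀ {S : List QN} {S' : List QL}, List.Forall₂ (RelQ u0 v0 u1 v1) S S' →
      ∀ {js : List ℤ} {a b : ℕ} {la lb : ℤ}, Inv bd js S' →
      (a : ℤ) = la + (64 * v0 + 1534 * u0) → (b : ℤ) = lb + (64 * v1 + 1534 * u1) →
      chkN (64 * v0 + 1536 * u0) (64 * v1 + 1536 * u1) S a b = true →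
      chkWalk bd ⟨u0, v0, u1, v1⟩ la lb js S' = true
  | _, _, List.Forall₂.nil, js, a, b, la, lb, _, ha, hb, h => by
    obtain ⟨h1, h2⟩ := chkN_nil_true h
    simp only [chkWalk, Bool.and_eq_true, decide_eq_true_eq]
    constructor
    · have : (a : ℤ) ≤ 64 * v0 + 1536 * u0 := by exact_mod_cast h1
      linarith
    · have : (b : ℤ) ≤ 64 * v1 + 1536 * u1 := by exact_mod_cast h2
      linarith
  | q :: S, s :: S', List.Forall₂.cons hr hR, js, a, b, la, lb, hI, ha, hb, h => by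
    obtain ⟨h1, h2, h3⟩ := chkN_cons_true h
    simp only [chkWalk, Bool.and_eq_true, decide_eq_true_eq]
    have h1' : (a : ℤ) ≤ q.z0 := by exact_mod_cast h1
    have h2' : (b : ℤ) ≤ q.z1 := by exact_mod_cast h2
    refine ⟨?_, ?_, hI.ent s (List.mem_cons_self ..),
      chk_of_chkN hR hI.tail hr.z0 hr.z1 h3⟩
    · have := hr.z0; linarith
    · have := hr.z1; linarith

/-- the walk passes `checkStrip`, for any order of the lines -/
lemma walk_checkStrip_perm (bd : List (ℤ × ℤ)) (I : Iv) (J : ℤ × ℤ → ℤ) (hI : I.ok = true)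
    (S : List QL) (hperm : S.Perm (mkQLs I J 0 bd))
    (hc : chkWalk bd I 0 0 (bd.map J) S = true) :
    checkStrip bd I (walk ⟨0, 0⟩ (bd.map J) S) = true := by
  have hbounds := (chk_bounds bd I S 0 0 _ hc).2
  have hQ : ∀ q ∈ S, QOK I q := by
    intro s hs
    obtain ⟨q, _, k, hk⟩ := mem_mkQLs I J 0 bd s (hperm.mem_iff.1 hs)
    rw [hk]; exact QOK_mkQL I k q (J q)
  have hval : ∀ q ∈ bd,
      (0 ≤ 2 * q.1 * I.v0 - (2 * J q - 2 + q.2) * I.u0 ∧
        2 * q.1 * I.v0 - (2 * J q - 2 + q.2) * I.u0 ≤ 2 * I.u0) ∧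
      (0 ≤ 2 * q.1 * I.v1 - (2 * J q - 2 + q.2) * I.u1 ∧
        2 * q.1 * I.v1 - (2 * J q - 2 + q.2) * I.u1 ≤ 2 * I.u1) := by
    intro q hq
    obtain ⟨k, hk⟩ := mkQLs_mem I J 0 bd q hq
    exact hbounds _ (hperm.mem_iff.2 hk)
  have hL : LowP I ⟨0, 0⟩ bd (bd.map J) := by
    unfold LowP
    rw [List.forall₂_map_right_iff, List.forall₂_same]
    intro q hq
    rw [le2_iff]
    have := hval q hq
    simp only [Ln.v]
    constructor
    · have := this.1.2
      linarith
    · have := this.2.2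
      linarith
  have hfold : S.foldl (fun js q => decAt q.i js) (bd.map J) = bd.map fun q => J q - 1 := by
    have h1 := hperm.foldl_eq' (f := fun js (q : QL) => decAt q.i js)
      (fun x _ y _ z => decAt_comm y.i x.i z) (bd.map J)
    rw [h1]
    have := foldl_mkQLs I J bd []
    simpa using this
  have hU : UpP I topLn bd (S.foldl (fun js q => decAt q.i js) (bd.map J)) := by
    rw [hfold]
    unfold UpP
    rw [List.forall₂_map_right_iff, List.forall₂_same]
    intro q hq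
    rw [le2_iff]
    have := hval q hq
    simp only [Ln.v, topLn]
    constructor
    · have := this.1.1
      linarith
    · have := this.2.1
      linarith
  have h0 : ∀ N p : ℤ, (0 : ℤ) = (⟨0, 0⟩ : Ln).v N p := by intro N p; simp [Ln.v]
  have hw := walk_check bd I S ⟨0, 0⟩ 0 0 (bd.map J) (h0 _ _) (h0 _ _) hQ hc hL hU
  rw [walk_eq]
  simp only [checkStrip]
  rw [← walk_eq]
  simp [hI, hw.1]

/-! ### the sums -/


lemma walkN_cons (T : Tb) (wt : ℕ) (q : QN) (S : List QN) (J w code sp sm : ℕ) :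
    walkN T wt (q :: S) J w code sp sm = walkN T wt S (J - q.e) q.w (code / 64)
      (sp + (cellH T J (code % 64)).1 * (q.w - w)) (sm + (cellH T J (code % 64)).2 * (q.w - w)) :=
  rfl

lemma walkN_nil (T : Tb) (wt : ℕ) (J w code sp sm : ℕ) :
    walkN T wt [] J w code sp sm = (sp + (cellH T J (code % 64)).1 * (wt - w),
      sm + (cellH T J (code % 64)).2 * (wt - w)) := rfl

lemma walkN_le (T : Tb) (kap : List ℤ → ℤ) (n : ℕ) (hn : ∀ J js h, PK J js → js.length = n →
      ((cellH T J h).1 : ℤ) - ((cellH T J h).2 : ℤ) ≤ kap js)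
    {u0 v0 u1 v1 : ℕ} {bd : List (ℤ × ℤ)} :
    ∀ {S : List QN} {S' : List QL}, List.Forall₂ (RelQ u0 v0 u1 v1) S S' →
      (∀ s ∈ S', QOK ⟨u0, v0, u1, v1⟩ s) →
      ∀ (l : Ln) (J : ℕ) (js : List ℤ) (a b code sp sm : ℕ), PK J js → js.length = n →
      Inv bd js S' → (a : ℤ) = l.v v0 u0 + (64 * v0 + 1534 * u0) →
      (b : ℤ) = l.v v1 u1 + (64 * v1 + 1534 * u1) →
      chkN (64 * v0 + 1536 * u0) (64 * v1 + 1536 * u1) S a b = true →
      ((walkN T (v1 * (64 * v0 + 1536 * u0) + v0 * (64 * v1 + 1536 * u1)) S J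
          (v1 * a + v0 * b) code sp sm).1 : ℤ)
        - ((walkN T (v1 * (64 * v0 + 1536 * u0) + v0 * (64 * v1 + 1536 * u1)) S J
          (v1 * a + v0 * b) code sp sm).2 : ℤ)
        ≤ (sp - sm) + (4 * alTot kap (walk l js S') * (v0 * v1)
          - jTot kap (walk l js S') * (u0 * v1 + u1 * v0))
  | _, _, List.Forall₂.nil, _, l, J, js, a, b, code, sp, sm, hP, hl, _, ha, hb, h => by
    obtain ⟨h1, h2⟩ := chkN_nil_true h
    have hc := hn J js (code % 64) hP hl
    rw [walkN_nil]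
    simp only [walk, alTot, jTot, nextLn, topLn]
    have hle : v1 * a + v0 * b ≤ v1 * (64 * v0 + 1536 * u0) + v0 * (64 * v1 + 1536 * u1) :=
      Nat.add_le_add (Nat.mul_le_mul_left _ h1) (Nat.mul_le_mul_left _ h2)
    push_cast [Nat.cast_sub hle]
    have hw : (0 : ℤ) ≤ ((v1 : ℤ) * (64 * v0 + 1536 * u0) + v0 * (64 * v1 + 1536 * u1))
        - (v1 * a + v0 * b) := by
      have : ((v1 * a + v0 * b : ℕ) : ℤ)
        ≤ ((v1 * (64 * v0 + 1536 * u0) + v0 * (64 * v1 + 1536 * u1) : ℕ) : ℤ) := by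
        exact_mod_cast hle
      push_cast at this
      linarith
    have hmul := mul_le_mul_of_nonneg_right hc hw
    have e : ((v1 : ℤ) * (64 * v0 + 1536 * u0) + v0 * (64 * v1 + 1536 * u1))
        - (v1 * a + v0 * b) = 4 * (0 - l.al) * (v0 * v1) - (-2 - l.j) * (u0 * v1 + u1 * v0) := by
      rw [ha, hb]
      simp only [Ln.v]
      ring
    rw [e] at hmul ⊢
    nlinarith
  | q :: S, s :: S', List.Forall₂.cons hr hR, hQ, l, J, js, a, b, code, sp, sm, hP, hl, hI,
      ha, hb, h => by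
    obtain ⟨h1, h2, h3⟩ := chkN_cons_true h
    have hc := hn J js (code % 64) hP hl
    have hs := hQ s (List.mem_cons_self ..)
    have hlt := entOK_lt _ _ _ (hI.ent s (List.mem_cons_self ..))
    have hP' : PK (J - q.e) (decAt s.i js) := by
      rw [hr.e]
      exact hP.dec hlt (hI.pos s (List.mem_cons_self ..))
    have hz0 : (q.z0 : ℤ) = s.ln.v v0 u0 + (64 * v0 + 1534 * u0) := by
      rw [hr.z0, hs.1]
    have hz1 : (q.z1 : ℤ) = s.ln.v v1 u1 + (64 * v1 + 1534 * u1) := by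
      rw [hr.z1, hs.2]
    have ih := walkN_le T kap n hn hR (fun s' hs' => hQ s' (List.mem_cons_of_mem _ hs')) s.ln
      (J - q.e) (decAt s.i js) q.z0 q.z1 (code / 64)
      (sp + (cellH T J (code % 64)).1 * (q.w - (v1 * a + v0 * b)))
      (sm + (cellH T J (code % 64)).2 * (q.w - (v1 * a + v0 * b)))
      hP' (by rw [decAt_length]; exact hl) hI.tail hz0 hz1 h3
    rw [walkN_cons]
    rw [← hr.w] at ih
    refine ih.trans ?_
    have hle : v1 * a + v0 * b ≤ q.w := by
      rw [hr.w]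
      exact Nat.add_le_add (Nat.mul_le_mul_left _ h1) (Nat.mul_le_mul_left _ h2)
    have hn' : nextLn (walk s.ln (decAt s.i js) S') = s.ln := by rw [walk_eq]; rfl
    simp only [walk, alTot, jTot]
    rw [hn']
    have hqw : (q.w : ℤ) = v1 * q.z0 + v0 * q.z1 := by exact_mod_cast hr.w
    push_cast [Nat.cast_sub hle]
    have hw : (0 : ℤ) ≤ (q.w : ℤ) - (v1 * a + v0 * b) := by
      have : ((v1 * a + v0 * b : ℕ) : ℤ) ≤ (q.w : ℤ) := by exact_mod_cast hle
      push_cast at this
      linarith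
    have hmul := mul_le_mul_of_nonneg_right hc hw
    have e : (q.w : ℤ) - (v1 * a + v0 * b)
        = 4 * (s.ln.al - l.al) * (v0 * v1) - (s.ln.j - l.j) * (u0 * v1 + u1 * v0) := by
      rw [hqw, ha, hb, hz0, hz1]
      simp only [Ln.v]
      ring
    rw [e] at hmul ⊢
    nlinarith

end Crest.Agent.R006.P8
private theorem rz_5a60f1e5b8 : type_of% @_root_.Crest.Agent.R006.P8.insG.eq_def := @_root_.Crest.Agent.R006.P8.insG.eq_def -- L174
private theorem rz_d1926aafa8 : type_of% @_root_.Crest.Agent.R006.P8.insG.eq_1 := @_root_.Crest.Agent.R006.P8.insG.eq_1 -- L174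
end

-- ▼ part R006/P8_HintTot_799
section

/-!
# Row 6, block P8 (helper799): the hinted strip evaluation

`TotLB_of_totalH`: if `totalH Sc ks refs ip tf bd ext L = some T` then `T` is a lower bound
(`TotLB` of `P8_FastTot_799`) for the strips `L.map SH.st` and the class cost
`fun t => kapK ks refs ip (tf t)`; `total_ge_hint` = `total_ge` for `totalH`.
-/

set_option autoImplicit false

namespace Crest.Agent.R006.P8

open Filter Topology Finset

/-- the strip without the hint -/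
def SH.st (s : SH) : St := ⟨s.u, s.v, s.t⟩

lemma BOK_of_cfg {ks : List Kind} {refs : List (ℤ × List (ℕ × ℕ))} {ip : ℕ}
    {bd : List (ℤ × ℤ)} (h : cfgOK ks refs ip bd = true) : ∀ q ∈ bd, BOK q := by
  simp only [cfgOK, Bool.and_eq_true, List.all_eq_true, decide_eq_true_eq] at h
  intro q hq
  have := h.1 q hq
  exact ⟨this.1, this.2.1, this.2.2⟩

lemma COK_of_cfg {ks : List Kind} {refs : List (ℤ × List (ℕ × ℕ))} {ip : ℕ}
    {bd : List (ℤ × ℤ)} (h : cfgOK ks refs ip bd = true) : COK ks refs ip bd.length := by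
  simp only [cfgOK, Bool.and_eq_true, List.all_eq_true, decide_eq_true_eq] at h
  obtain ⟨_, h1, h2, h3⟩ := h
  refine ⟨h1, ?_, ?_⟩
  · intro k hk
    obtain ⟨a, b, c, d, e, f⟩ := h2 k hk
    exact ⟨a, b, c, d, e, f⟩
  · intro r hr q hq
    exact h3 r hr q hq

lemma and_true {a b : Bool} : (a && b) = true ↔ a = true ∧ b = true := Bool.and_eq_true_iff

lemma pk0_cons (N p : ℕ) (q : ℕ × ℕ) (bd : List (ℕ × ℕ)) :
    pk0 N p (q :: bd) = jbN N p q.1 q.2 + 1024 * pk0 N p bd := rfl

lemma pk0_eq (N p : ℕ) : ∀ bd : List (ℤ × ℤ),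
    pk0 N p (bdN bd) = pkL (bd.map fun q => jbN N p (q.1 + 32).toNat q.2.toNat)
  | [] => rfl
  | q :: bd => by
    have e1 : bdN (q :: bd) = ((q.1 + 32).toNat, q.2.toNat) :: bdN bd := rfl
    rw [e1, pk0_cons, pk0_eq N p bd]
    rfl

lemma PK_start (u0 v0 u1 v1 : ℕ) (bd : List (ℤ × ℤ)) :
    PK (pk0 (v0 + v1) (u0 + u1) (bdN bd)) (bd.map (JQ u0 v0 u1 v1)) := by
  refine ⟨bd.map fun q => jbN (v0 + v1) (u0 + u1) (q.1 + 32).toNat q.2.toNat, pk0_eq _ _ bd,
    ?_, ?_⟩
  · intro a ha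
    obtain ⟨q, _, rfl⟩ := List.mem_map.1 ha
    exact (jbN_bounds _ _ _ _).2
  · rw [List.map_map]
    rfl

/-- **Specification of the hinted evaluation of a strip.** -/
theorem stripH_spec {Sc : ℤ} (hSc : 0 ≤ Sc) {ks : List Kind} {refs : List (ℤ × List (ℕ × ℕ))}
    {ip : ℕ} {tf : List ℤ → List ℤ} {bd : List (ℤ × ℤ)} {ext : List ℤ → ℤ} {u0 v0 u1 v1 : ℕ}
    {t : List ℤ} {code : ℕ} {a : ℤ} (hcfg : cfgOK ks refs ip bd = true)
    (h : stripH Sc ks refs ip tf bd ext u0 v0 u1 v1 t code = some a) :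
    StripLB Sc bd (fun t => kapK ks refs ip (tf t)) ext ⟨u0, v0, u1, v1⟩ t a := by
  unfold stripH at h
  set S := sortN (mkQNs u0 v0 u1 v1 (bdN bd) 0 1) with hS
  set I : Iv := ⟨u0, v0, u1, v1⟩ with hI
  set J := JQ u0 v0 u1 v1 with hJ
  set S' := sortG (keyG u0 v0 u1 v1) (mkQLs I J 0 bd) with hS'
  cases hb : (Nat.ble 1 u0 && (Nat.ble 1 v0 && (Nat.ble 1 v1 &&
    (Nat.ble (Nat.mul u0 v1) (Nat.mul u1 v0) && (lenOK (tf t) &&
     chkN (Nat.add (Nat.mul 64 v0) (Nat.mul 1536 u0)) (Nat.add (Nat.mul 64 v1) (Nat.mul 1536 u1))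
      S (Nat.add (Nat.mul 64 v0) (Nat.mul 1534 u0))
        (Nat.add (Nat.mul 64 v1) (Nat.mul 1534 u1))))))) with
  | false => rw [hb] at h; simp at h
  | true =>
    rw [hb] at h
    simp only [cond_true, Option.some.injEq] at h
    rw [and_true, and_true, and_true, and_true, and_true] at hb
    obtain ⟨b1, b2, b3, b4, b5, b6⟩ := hb
    rw [ble_true] at b1 b2 b3 b4
    simp only [Nat.add_eq, Nat.mul_eq] at b4 b6 h
    have hrel : List.Forall₂ (RelQ u0 v0 u1 v1) S S' := by
      have h1 := mkQNs_rel u0 v0 u1 v1 bd (BOK_of_cfg hcfg) 0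
      rw [pow_zero] at h1
      exact sortN_rel h1
    have hperm : S'.Perm (mkQLs I J 0 bd) := sortG_perm _ _
    have hJ255 : ∀ q, -255 ≤ J q := by
      intro q
      have := (jbN_bounds (v0 + v1) (u0 + u1) (q.1 + 32).toNat q.2.toNat).1
      simp only [hJ, JQ]
      omega
    have hinv : Inv bd (bd.map J) S' := inv_start I J hJ255 bd hperm
    have hQ : ∀ s ∈ S', QOK I s := by
      intro s hs
      obtain ⟨q, _, k, hk⟩ := mem_mkQLs I J 0 bd s (hperm.mem_iff.1 hs)
      rw [hk]; exact QOK_mkQL I k q (J q)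
    have hok : I.ok = true := by
      simp only [Iv.ok, hI, Bool.and_eq_true, decide_eq_true_eq]
      refine ⟨by exact_mod_cast b1, by exact_mod_cast b2, by exact_mod_cast b3, ?_⟩
      exact_mod_cast b4
    have hchk : chkWalk bd I 0 0 (bd.map J) S' = true :=
      chk_of_chkN hrel hinv (by push_cast; ring) (by push_cast; ring) b6
    have hck := walk_checkStrip_perm bd I J hok S' hperm hchk
    refine ⟨walk ⟨0, 0⟩ (bd.map J) S', hck, ?_⟩
    have hcell : ∀ (Jn : ℕ) (js : List ℤ) (n : ℕ), PK Jn js → js.length = bd.length →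
        ((cellH (mkTb ks refs ip (tf t)) Jn n).1 : ℤ)
          - ((cellH (mkTb ks refs ip (tf t)) Jn n).2 : ℤ) ≤ kapK ks refs ip (tf t) js := by
      intro Jn js n hP hl
      exact cellH_le hP (by rw [hl]; exact COK_of_cfg hcfg) b5 n
    have hw := walkN_le (mkTb ks refs ip (tf t)) (kapK ks refs ip (tf t)) bd.length hcell hrel hQ
      ⟨0, 0⟩ (pk0 (v0 + v1) (u0 + u1) (bdN bd)) (bd.map J) (64 * v0 + 1534 * u0)
      (64 * v1 + 1534 * u1) code 0 0 (PK_start u0 v0 u1 v1 bd) (by simp) hinv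
      (by simp [Ln.v]) (by simp [Ln.v]) b6
    rw [← h]
    unfold finN intLow
    set r := walkN (mkTb ks refs ip (tf t)) (v1 * (64 * v0 + 1536 * u0) +
      v0 * (64 * v1 + 1536 * u1)) S (pk0 (v0 + v1) (u0 + u1) (bdN bd))
      (v1 * (64 * v0 + 1534 * u0) + v0 * (64 * v1 + 1534 * u1)) code 0 0 with hr
    simp only [hI]
    refine Int.ediv_le_ediv (by positivity) (mul_le_mul_of_nonneg_left ?_ hSc)
    have b4' : (u0 : ℤ) * v1 ≤ u1 * v0 := by exact_mod_cast b4
    refine mul_le_mul_of_nonneg_left ?_ (by linarith)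
    push_cast at hw
    nlinarith

lemma totalH_cons {Sc : ℤ} {ks : List Kind} {refs : List (ℤ × List (ℕ × ℕ))}
    {ip : ℕ} {tf : List ℤ → List ℤ} {bd : List (ℤ × ℤ)} {ext : List ℤ → ℤ} {s s' : SH}
    {L : List SH} {T : ℤ} (h : totalH Sc ks refs ip tf bd ext (s :: s' :: L) = some T) :
    ∃ a b, stripH Sc ks refs ip tf bd ext s.u s.v s'.u s'.v s.t s.code = some a ∧
      totalH Sc ks refs ip tf bd ext (s' :: L) = some b ∧ T = a + b := by
  obtain ⟨u, v, t, c⟩ := s
  obtain ⟨u', v', t', c'⟩ := s'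
  simp only [totalH] at h ⊢
  rcases h1 : stripH Sc ks refs ip tf bd ext u v u' v' t c with _ | a
  · rw [h1] at h; simp at h
  · rcases h2 : totalH Sc ks refs ip tf bd ext (⟨u', v', t', c'⟩ :: L) with _ | b
    · rw [h1, h2] at h; simp at h
    · rw [h1, h2] at h
      simp only [Option.some.injEq] at h
      exact ⟨a, b, rfl, rfl, h.symm⟩

/-- **The hinted evaluation gives a lower bound.** -/
theorem TotLB_of_totalH {Sc : ℤ} (hSc : 0 ≤ Sc) {ks : List Kind}
    {refs : List (ℤ × List (ℕ × ℕ))} {ip : ℕ} {tf : List ℤ → List ℤ} {bd : List (ℤ × ℤ)}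
    {ext : List ℤ → ℤ} (hcfg : cfgOK ks refs ip bd = true) : ∀ {L : List SH} {T : ℤ},
    totalH Sc ks refs ip tf bd ext L = some T →
      TotLB Sc bd (fun t => kapK ks refs ip (tf t)) ext (L.map SH.st) T
  | [], T, h => by
    simp only [totalH, Option.some.injEq] at h
    exact h.symm
  | [_], T, h => by
    simp only [totalH, Option.some.injEq] at h
    exact h.symm
  | s :: s' :: L, T, h => by
    obtain ⟨a, b, ha, hb, hT⟩ := totalH_cons h
    exact ⟨a, b, stripH_spec hSc hcfg ha, TotLB_of_totalH hSc hcfg hb, hT⟩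


end Crest.Agent.R006.P8
end

-- ▼ part R006/OddHint_799
section

set_option autoImplicit false

/-!
# Row 6, block P8 (helper799): the middle range from hinted strips

`Mid.of_LB`, `Mid.of_hint` : as `Mid.of_fast` (helper365), for lower bounds computed in any way,
resp. by `totalH`; `kapT_eq` : 814's class cost `kapT` is `kapK` after dropping the third multiplier.
-/

namespace Crest.Agent.R006.D

open Polynomial Filter Topology Finset Crest.Agent.R006 Crest.Agent.R006.P8

/-- one strip -/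
theorem Mid.of_stripLB {S : Shape} {c : ℕ} {Sc : ℤ} (hSc : 0 < Sc) {bd : List (ℤ × ℤ)}
    {kap : List ℤ → List ℤ → ℤ} {ext : List ℤ → ℤ} {s s' : St} {a : ℤ}
    (ha : StripLB Sc bd kap ext ⟨s.u, s.v, s'.u, s'.v⟩ s.t a)
    (hCl : ClassStrip S c bd kap ext s s') :
    (s.u : ℝ) / s.v ≤ (s'.u : ℝ) / s'.v ∧
      Oddx529.Mid S c ((s.u : ℚ) / s.v) ((s'.u : ℚ) / s'.v) (-((a : ℝ) / Sc)) := by
  obtain ⟨C', hCl⟩ := hCl
  refine ⟨(strip_ge_LB Sc hSc bd kap ext _ _ a ha C' one_pos).1.1, ?_⟩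
  intro δ hδ
  have ht := (strip_ge_LB Sc hSc bd kap ext _ _ a ha C' hδ).2
  simp only at ht
  filter_upwards [hCl, ht] with u hCl ht r hr
  refine ⟨fun p => C' - ((∑ a ∈ range p, (kap s.t (jvec bd u p a) : ℝ)) + ext s.t * u), ?_, ?_⟩
  · intro p hp
    obtain ⟨hp0, hp1, hp2⟩ := mem_pr.mp hp
    push_cast at hp1 hp2
    exact hCl r hr p hp0 hp1 hp2
  · have h := ht (fun p => (∑ a ∈ range p, (kap s.t (jvec bd u p a) : ℝ)) + ext s.t * u - C')
      fun p _ => le_rfl
    push_cast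
    have e : ∑ p ∈ pr ((s.u : ℝ) / s.v * u) ((s'.u : ℝ) / s'.v * u),
        Real.log p * (C' - ((∑ a ∈ range p, (kap s.t (jvec bd u p a) : ℝ)) + ext s.t * u))
        = -∑ p ∈ pr ((s.u : ℝ) / s.v * u) ((s'.u : ℝ) / s'.v * u),
          Real.log p * ((∑ a ∈ range p, (kap s.t (jvec bd u p a) : ℝ)) + ext s.t * u - C') := by
      rw [← Finset.sum_neg_distrib]
      exact Finset.sum_congr rfl fun p _ => by ring
    rw [e]
    linarith

/-- **one chunk**, any lower bound -/
theorem Mid.of_LB {S : Shape} {c : ℕ} {Sc : ℤ} (hSc : 0 < Sc) {bd : List (ℤ × ℤ)}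
    {kap : List ℤ → List ℤ → ℤ} {ext : List ℤ → ℤ} : ∀ (L : List St) (T : ℤ),
    TotLB Sc bd kap ext L T → ClassForm S c bd kap ext L →
      stLo L ≤ stHi L ∧ Oddx529.Mid S c (stLo L) (stHi L) (-((T : ℝ) / Sc))
  | [], T, hT, _ => by
    have hT : T = 0 := hT
    subst hT
    refine ⟨le_rfl, ?_⟩
    have e : stLo [] = stHi [] := rfl
    rw [← e]
    simpa using Oddx529.Mid.refl S c (stLo [])
  | [s], T, hT, _ => by
    have hT : T = 0 := hT
    subst hT
    refine ⟨le_rfl, ?_⟩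
    have e : stLo [s] = stHi [s] := rfl
    rw [← e]
    simpa using Oddx529.Mid.refl S c (stLo [s])
  | s :: s' :: L, T, hT, hCl => by
    obtain ⟨a, b, ha, hb, rfl⟩ := hT
    obtain ⟨h1, h2⟩ := Mid.of_stripLB hSc ha
      (hCl s s' (List.prefix_append [s, s'] L).isInfix)
    obtain ⟨h3, h4⟩ := Mid.of_LB hSc (s' :: L) b hb
      (fun x y hxy => hCl x y (hxy.trans (List.suffix_cons s (s' :: L)).isInfix))
    have h1' : stLo (s :: s' :: L) ≤ stLo (s' :: L) := by
      have : ((stLo (s :: s' :: L) : ℚ) : ℝ) ≤ (stLo (s' :: L) : ℚ) := by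
        simp only [stLo]; push_cast; exact h1
      exact_mod_cast this
    refine ⟨h1'.trans h3, ?_⟩
    have := Oddx529.Mid.append h1' h3 h2 h4
    have e : -(((a + b : ℤ) : ℝ) / Sc) = -((a : ℝ) / Sc) + -((b : ℝ) / Sc) := by
      push_cast; ring
    rw [e]
    exact this

/-- drop the third multiplier -/
def tfT : List ℤ → List ℤ
  | lam :: mu :: _ :: L => lam :: mu :: L
  | _ => []

theorem kapT_eq : P4If.kapT = fun t => kapK kindsS refsS ipS (tfT t) := by
  funext t js
  rcases t with _ | ⟨a, _ | ⟨b, _ | ⟨c, L⟩⟩⟩ <;> rfl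

/-- **hinted strips**, kernel-checked -/
theorem Mid.of_hint {S : Shape} {c : ℕ} {Sc : ℤ} (hSc : 0 < Sc) {bd : List (ℤ × ℤ)}
    {ext : List ℤ → ℤ} (hcfg : cfgOK kindsS refsS ipS bd = true) (L : List SH) (T : ℤ)
    (hT : totalH Sc kindsS refsS ipS tfT bd ext L = some T)
    (hCl : ClassForm S c bd P4If.kapT ext (L.map SH.st)) :
    stLo (L.map SH.st) ≤ stHi (L.map SH.st) ∧
      Oddx529.Mid S c (stLo (L.map SH.st)) (stHi (L.map SH.st)) (-((T : ℝ) / Sc)) := by
  have h := TotLB_of_totalH hSc.le hcfg hT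
  rw [← kapT_eq] at h
  exact Mid.of_LB hSc _ T h hCl

end Crest.Agent.R006.D
end

-- ▼ part R006/RowSum_757
section

set_option autoImplicit false

/-!
# Row 6, blocks P4/P8: sums over all rows of the design = sums over the classes (helper757)

* `sum_rows` : `∑` over all rows `Lam.Row (mm S u c)` of `F (site, jet)` as a sum over the windows
  of the design (exact, any `F`).
* `dblx` : doubled coordinate of a site; `sum_winx` : the sum over a window of sites of any function
  of (class, index) = the sum over the classes and the indices between the two `jst`.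
* `jvec_getD` : the entries of `jvec`.
-/

namespace Crest.Agent.R006.P8.RowSumx757

open Finset Crest.Agent.R006 Crest.Agent.R006.P8 Crest.Agent.R006.D

/-! ### the rows of the design -/

section rows

variable {M : Type*} [AddCommMonoid M] {S : Shape} {u c : ℕ}

theorem sum_rows_sites (F : D.Row → M) :
    ∑ x : Lam.Row (Bordx929.mm S u c), F (Bordx929.ofRow u c x) =
      ∑ z ∈ Bordx929.sites S u c, ∑ j ∈ range (S.mult u c z), F (z, j) := by
  rw [← Finset.sum_coe_sort (Bordx929.sites S u c)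
    (fun z => ∑ j ∈ range (S.mult u c z), F (z, j)), Fintype.sum_sigma]
  refine Finset.sum_congr rfl fun z _ => ?_
  rw [← Fin.sum_univ_eq_sum_range (fun j => F (z.1, j)) (S.mult u c z.1)]
  rfl

/-- restriction of an interval by a condition that describes another interval -/
lemma sum_ite_Ico (G : ℤ → M) (a b a' b' : ℤ) (q : ℤ → Prop) [DecidablePred q]
    (h : ∀ i, (a ≤ i ∧ i < b) ∧ q i ↔ a' ≤ i ∧ i < b') :
    ∑ i ∈ Ico a b, (if q i then G i else 0) = ∑ i ∈ Ico a' b', G i := by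
  rw [← Finset.sum_filter]
  refine Finset.sum_congr ?_ fun _ _ => rfl
  ext i
  rw [mem_filter, mem_Ico, mem_Ico, h]

lemma sum_range_mult {m : ℕ} (hm : m ≤ 3) (G : ℕ → M) :
    ∑ j ∈ range m, G j = (if 0 < m then G 0 else 0) + (if 1 < m then G 1 else 0)
      + (if 2 < m then G 2 else 0) := by
  interval_cases m <;> simp [Finset.sum_range_succ]

/-- **the sum over all rows of the design**, window by window -/
theorem sum_rows (hS : S.Good) (F : D.Row → M) :
    ∑ x : Lam.Row (Bordx929.mm S u c), F (Bordx929.ofRow u c x) =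
      ∑ i ∈ Ico (0 : ℤ) ((S.B * u + c : ℕ) : ℤ), F (.Z i, 0)
      + (∑ i ∈ Ico (-((S.e1 * u : ℕ) : ℤ)) 0, F (.Z i, 0)
        + ∑ i ∈ Ico (-((S.e2 * u : ℕ) : ℤ)) 0, F (.Z i, 1)
        + ∑ i ∈ Ico (-((S.e3 * u : ℕ) : ℤ)) 0, F (.Z i, 2))
      + (∑ l ∈ Ico (0 : ℤ) ((S.h1 * u : ℕ) : ℤ), F (.H l, 0)
        + ∑ l ∈ Ico (0 : ℤ) ((S.h2 * u : ℕ) : ℤ), F (.H l, 1)
        + ∑ l ∈ Ico (0 : ℤ) ((S.h3 * u : ℕ) : ℤ), F (.H l, 2))
      + ∑ l ∈ Ico (-((S.w * u : ℕ) : ℤ)) 0, F (.H l, 0) := by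
  have h1 := Nat.mul_le_mul_right u hS.e21
  have h2 := Nat.mul_le_mul_right u hS.e32
  have h3 := Nat.mul_le_mul_right u hS.h21
  have h4 := Nat.mul_le_mul_right u hS.h32
  rw [sum_rows_sites, Bordx929.sites, Finset.sum_disjUnion, Finset.sum_map, Finset.sum_map]
  simp only [Function.Embedding.coeFn_mk]
  have e1 : ∀ i : ℤ, ∑ j ∈ range (S.mult u c (Site.Z i)), F (.Z i, j) =
      (if 0 ≤ i ∧ i < S.B * u + c then F (.Z i, 0) else 0)
      + (if i < 0 ∧ -i ≤ S.e1 * u then F (.Z i, 0) else 0)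
      + (if i < 0 ∧ -i ≤ S.e2 * u then F (.Z i, 1) else 0)
      + (if i < 0 ∧ -i ≤ S.e3 * u then F (.Z i, 2) else 0) := by
    intro i
    by_cases h : 0 ≤ i
    · have h' : ¬ i < 0 := not_lt.mpr h
      rw [Shape.mult, if_pos h]
      by_cases h5 : i < S.B * u + c
      · rw [if_pos h5]; simp [h, h', h5]
      · rw [if_neg h5]; simp [h', h5]
    · have h' : i < 0 := not_le.mp h
      rw [sum_range_mult (by rw [Shape.mult, if_neg h]; split_ifs <;> omega)]
      simp only [h, h', false_and, true_and, if_false, zero_add]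
      rw [Shape.mult, if_neg h]
      zify at h1 h2
      congr 1
      · congr 1
        · refine if_congr ?_ rfl rfl
          split_ifs <;> simp <;> omega
        · refine if_congr ?_ rfl rfl
          split_ifs <;> simp <;> omega
      · refine if_congr ?_ rfl rfl
        split_ifs <;> simp <;> omega
  have e2 : ∀ i : ℤ, ∑ j ∈ range (S.mult u c (Site.H i)), F (.H i, j) =
      (if i < 0 ∧ -i ≤ S.w * u then F (.H i, 0) else 0)
      + (if 0 ≤ i ∧ i < S.h1 * u then F (.H i, 0) else 0)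
      + (if 0 ≤ i ∧ i < S.h2 * u then F (.H i, 1) else 0)
      + (if 0 ≤ i ∧ i < S.h3 * u then F (.H i, 2) else 0) := by
    intro i
    by_cases h : 0 ≤ i
    · have h' : ¬ i < 0 := not_lt.mpr h
      rw [sum_range_mult (by rw [Shape.mult, if_pos h]; split_ifs <;> omega)]
      simp only [h, h', false_and, true_and, if_false, zero_add]
      rw [Shape.mult, if_pos h]
      zify at h3 h4
      congr 1
      · congr 1
        · refine if_congr ?_ rfl rfl
          split_ifs <;> simp <;> omega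
        · refine if_congr ?_ rfl rfl
          split_ifs <;> simp <;> omega
      · refine if_congr ?_ rfl rfl
        split_ifs <;> simp <;> omega
    · have h' : i < 0 := not_le.mp h
      rw [Shape.mult, if_neg h]
      by_cases h5 : -i ≤ S.w * u
      · rw [if_pos h5]; simp [h, h', h5]
      · rw [if_neg h5]; simp [h, h5]
  simp only [e1, e2, Finset.sum_add_distrib]
  rw [sum_ite_Ico _ _ _ 0 (S.B * u + c : ℕ), sum_ite_Ico _ _ _ (-((S.e1 * u : ℕ) : ℤ)) 0,
    sum_ite_Ico _ _ _ (-((S.e2 * u : ℕ) : ℤ)) 0, sum_ite_Ico _ _ _ (-((S.e3 * u : ℕ) : ℤ)) 0,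
    sum_ite_Ico _ _ _ (-((S.w * u : ℕ) : ℤ)) 0, sum_ite_Ico _ _ _ 0 ((S.h1 * u : ℕ) : ℤ),
    sum_ite_Ico _ _ _ 0 ((S.h2 * u : ℕ) : ℤ), sum_ite_Ico _ _ _ 0 ((S.h3 * u : ℕ) : ℤ)]
  · abel
  all_goals
    intro i
    zify at h1 h2 h3 h4
    have p1 : (0 : ℤ) ≤ S.e1 * u := by positivity
    have p2 : (0 : ℤ) ≤ S.e2 * u := by positivity
    have p3 : (0 : ℤ) ≤ S.e3 * u := by positivity
    have p4 : (0 : ℤ) ≤ S.h1 * u := by positivity
    have p5 : (0 : ℤ) ≤ S.h2 * u := by positivity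
    have p6 : (0 : ℤ) ≤ S.h3 * u := by positivity
    have p7 : (0 : ℤ) ≤ S.w * u := by positivity
    have p8 : (0 : ℤ) ≤ S.B * u := by positivity
    have p9 : (0 : ℤ) ≤ c := by positivity
    push_cast
    omega

end rows

/-! ### windows of sites, class by class -/

section wins

/-- doubled coordinate of a site -/
def dblx : Site → ℤ
  | .Z i => 2 * i
  | .H i => 2 * i + 1

/-- the site number `n` of type `h` -/
def stx (h n : ℤ) : Site := if h = 0 then .Z n else .H n

lemma stx_zero (n : ℤ) : stx 0 n = .Z n := rfl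

lemma stx_one (n : ℤ) : stx 1 n = .H n := rfl

/-- **windows, class by class**: any function `V` of the class and of the index -/
theorem sum_winx {M : Type*} [AddCommMonoid M] {A B h N : ℤ} {p : ℕ} (hp : 0 < p)
    (hodd : p % 2 = 1) (hh : h = 0 ∨ h = 1) (V : ℤ → ℤ → M) :
    ∑ n ∈ Ico (A * N) (B * N), V (cls p (dblx (stx h n))) (jdx p (dblx (stx h n))) =
      ∑ a ∈ range p, ∑ j ∈ Ico (jst A h N p a) (jst B h N p a), V a j := by
  have hp' : (0 : ℤ) < p := by exact_mod_cast hp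
  have hodd' : (p : ℤ) % 2 = 1 := by omega
  have key : ∀ a ∈ range p, ∀ j : ℤ,
      V (cls p (2 * (a : ℤ) + (2 * j + h) * p)) (jdx p (2 * (a : ℤ) + (2 * j + h) * p)) = V a j := by
    intro a ha j
    rw [mem_range] at ha
    obtain ⟨_, h1, h2⟩ := node_unique (c := a) (j := j) (h := h) hp' hodd' (by positivity)
      (by exact_mod_cast ha) hh rfl
    rw [h1, h2]
  have h1 := sum_window (A := A) (B := B) (N := N) hp hodd hh
    (fun s => V (cls p s) (jdx p s))
  rw [Finset.sum_congr rfl fun a ha => Finset.sum_congr rfl fun j _ => key a ha j] at h1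
  rw [← h1]
  rcases hh with rfl | rfl
  · rw [win_int, Finset.sum_image (by intro a _ b _ hab; simpa using hab)]
    rfl
  · rw [win_half, Finset.sum_image (by intro a _ b _ hab; simpa using hab)]
    rfl






end wins

end Crest.Agent.R006.P8.RowSumx757
private theorem rz_c631c4ce56 : type_of% @_root_.Crest.Agent.R006.P8.RowSumx757.dblx.eq_1 := @_root_.Crest.Agent.R006.P8.RowSumx757.dblx.eq_1 -- L144
end

-- ▼ part R006/RowCls_757
section

set_option autoImplicit false

/-!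
# Row 6, blocks P4/P8: the sum over all rows, class by class (helper757)

`sum_rows_cls` : if `F` at a row is `V w (class) (index)` with `w` = the window of the row
(`0` : integers `n ≥ 0`; `1,2,3` : jets `0,1,2` at negative integers; `4,5,6` : jets at `l + 1/2`,
`l ≥ 0`; `7` : `-1/2-m`), then the sum over all rows is the sum over the classes of the window sums
plus the `c` extra `G`-rows.
-/

namespace Crest.Agent.R006.P8.RowSumx757

open Finset Crest.Agent.R006 Crest.Agent.R006.P8 Crest.Agent.R006.D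

/-- the window of a row -/
def wnd : D.Row → ℕ
  | (.Z i, j) => if 0 ≤ i then 0 else j + 1
  | (.H i, j) => if 0 ≤ i then j + 4 else 7

/-- the window sums of the class `a` -/
noncomputable def clsSum {M : Type*} [AddCommMonoid M] (S : Shape) (N p a : ℤ) (V : ℕ → ℤ → M) : M :=
  ∑ j ∈ Ico (jst 0 0 N p a) (jst S.B 0 N p a), V 0 j
    + (∑ j ∈ Ico (jst (-S.e1) 0 N p a) (jst 0 0 N p a), V 1 j
    + (∑ j ∈ Ico (jst (-S.e2) 0 N p a) (jst 0 0 N p a), V 2 j
    + (∑ j ∈ Ico (jst (-S.e3) 0 N p a) (jst 0 0 N p a), V 3 j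
    + (∑ j ∈ Ico (jst 0 1 N p a) (jst S.h1 1 N p a), V 4 j
    + (∑ j ∈ Ico (jst 0 1 N p a) (jst S.h2 1 N p a), V 5 j
    + (∑ j ∈ Ico (jst 0 1 N p a) (jst S.h3 1 N p a), V 6 j
    + ∑ j ∈ Ico (jst (-S.w) 1 N p a) (jst 0 1 N p a), V 7 j))))))

/-- **the sum over all rows, class by class** -/
theorem sum_rows_cls {M : Type*} [AddCommMonoid M] {S : Shape} {u c : ℕ} (hS : S.Good) {p : ℕ}
    (hp : 0 < p) (hodd : p % 2 = 1) (V : ℕ → ℤ → ℤ → M) :
    ∑ x : Lam.Row (Bordx929.mm S u c), V (wnd (Bordx929.ofRow u c x))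
        (cls p (dblx (Bordx929.ofRow u c x).1)) (jdx p (dblx (Bordx929.ofRow u c x).1)) =
      ∑ a ∈ range p, clsSum S u p a (fun w j => V w a j)
        + ∑ n ∈ Ico ((S.B * u : ℕ) : ℤ) ((S.B * u + c : ℕ) : ℤ), V 0 (cls p (2 * n)) (jdx p (2 * n)) := by
  rw [sum_rows hS (fun ρ => V (wnd ρ) (cls p (dblx ρ.1)) (jdx p (dblx ρ.1)))]
  simp only [clsSum, Finset.sum_add_distrib]
  rw [← sum_winx (M := M) (A := 0) (B := S.B) (N := u) hp hodd (Or.inl rfl) (fun a j => V 0 a j),
    ← sum_winx (M := M) (A := -S.e1) (B := 0) (N := u) hp hodd (Or.inl rfl) (fun a j => V 1 a j),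
    ← sum_winx (M := M) (A := -S.e2) (B := 0) (N := u) hp hodd (Or.inl rfl) (fun a j => V 2 a j),
    ← sum_winx (M := M) (A := -S.e3) (B := 0) (N := u) hp hodd (Or.inl rfl) (fun a j => V 3 a j),
    ← sum_winx (M := M) (A := 0) (B := S.h1) (N := u) hp hodd (Or.inr rfl) (fun a j => V 4 a j),
    ← sum_winx (M := M) (A := 0) (B := S.h2) (N := u) hp hodd (Or.inr rfl) (fun a j => V 5 a j),
    ← sum_winx (M := M) (A := 0) (B := S.h3) (N := u) hp hodd (Or.inr rfl) (fun a j => V 6 a j),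
    ← sum_winx (M := M) (A := -S.w) (B := 0) (N := u) hp hodd (Or.inr rfl) (fun a j => V 7 a j)]
  have hsplit : ∀ G : ℤ → M, ∑ i ∈ Ico (0 : ℤ) ((S.B * u + c : ℕ) : ℤ), G i =
      ∑ i ∈ Ico (0 : ℤ) ((S.B * u : ℕ) : ℤ), G i
        + ∑ i ∈ Ico ((S.B * u : ℕ) : ℤ) ((S.B * u + c : ℕ) : ℤ), G i := by
    intro G
    rw [← Finset.Ico_union_Ico_eq_Ico (a := (0 : ℤ)) (b := ((S.B * u : ℕ) : ℤ)) (by positivity)
      (by push_cast; linarith [Int.natCast_nonneg c]),
      Finset.sum_union (Finset.Ico_disjoint_Ico_consecutive _ _ _)]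
  rw [hsplit]
  have w0 : ∀ n ∈ Ico (0 : ℤ) ((S.B * u : ℕ) : ℤ), V (wnd (.Z n, 0)) (cls p (dblx (.Z n)))
      (jdx p (dblx (.Z n))) = V 0 (cls p (dblx (stx 0 n))) (jdx p (dblx (stx 0 n))) := by
    intro n hn
    rw [mem_Ico] at hn
    rw [wnd, if_pos hn.1, stx_zero]
  have w0' : ∀ n ∈ Ico ((S.B * u : ℕ) : ℤ) ((S.B * u + c : ℕ) : ℤ), V (wnd (.Z n, 0))
      (cls p (dblx (.Z n))) (jdx p (dblx (.Z n))) = V 0 (cls p (2 * n)) (jdx p (2 * n)) := by
    intro n hn
    rw [mem_Ico] at hn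
    rw [wnd, if_pos ((Int.natCast_nonneg _).trans hn.1), dblx]
  have wneg : ∀ (A : ℕ) (o : ℕ), ∀ n ∈ Ico (-(A : ℤ)) 0, V (wnd (.Z n, o)) (cls p (dblx (.Z n)))
      (jdx p (dblx (.Z n))) = V (o + 1) (cls p (dblx (stx 0 n))) (jdx p (dblx (stx 0 n))) := by
    intro A o n hn
    rw [mem_Ico] at hn
    rw [wnd, if_neg (not_le.mpr hn.2), stx_zero]
  have wst : ∀ (A : ℕ) (o : ℕ), ∀ n ∈ Ico (0 : ℤ) (A : ℤ), V (wnd (.H n, o)) (cls p (dblx (.H n)))
      (jdx p (dblx (.H n))) = V (o + 4) (cls p (dblx (stx 1 n))) (jdx p (dblx (stx 1 n))) := by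
    intro A o n hn
    rw [mem_Ico] at hn
    rw [wnd, if_pos hn.1, stx_one]
  have ww : ∀ n ∈ Ico (-((S.w * u : ℕ) : ℤ)) 0, V (wnd (.H n, 0)) (cls p (dblx (.H n)))
      (jdx p (dblx (.H n))) = V 7 (cls p (dblx (stx 1 n))) (jdx p (dblx (stx 1 n))) := by
    intro n hn
    rw [mem_Ico] at hn
    rw [wnd, if_neg (not_le.mpr hn.2), stx_one]
  rw [Finset.sum_congr rfl w0, Finset.sum_congr rfl w0', Finset.sum_congr rfl (wneg _ 0),
    Finset.sum_congr rfl (wneg _ 1), Finset.sum_congr rfl (wneg _ 2),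
    Finset.sum_congr rfl (wst _ 0), Finset.sum_congr rfl (wst _ 1), Finset.sum_congr rfl (wst _ 2),
    Finset.sum_congr rfl ww]
  push_cast
  simp only [zero_mul, neg_mul]
  abel

end Crest.Agent.R006.P8.RowSumx757
private theorem rz_6b4e0b2f8a : type_of% @_root_.Crest.Agent.R006.P8.RowSumx757.wnd.eq_1 := @_root_.Crest.Agent.R006.P8.RowSumx757.wnd.eq_1 -- L19
end

-- ▼ part R006/RowKinds_757
section

set_option autoImplicit false

/-!
# Row 6, blocks P4/P8: the sum over all rows in terms of the kinds table (helper757)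

`sum_rows_kinds` : the sum over all rows `x` of the design of `G (class) (kind of the row) (index)`
is the sum over the classes, the kinds `kindsF` (those of `kindsS` which are not zeros of the gauge)
and the indices `js[ia] ≤ j < js[ib]`, plus the `c` extra `G`-rows.
-/

namespace Crest.Agent.R006.P8.RowSumx757

open Finset Crest.Agent.R006 Crest.Agent.R006.P8 Crest.Agent.R006.D

/-- the kinds of the rows of the design (`kindsS` without the zeros of the gauge) -/
def kindsF : List Kind := [kG, kE1, kE2, kH1, kH2, kW]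

lemma kindsS_eq : kindsS = kindsF ++ [kZero 0 7 0, kZero 8 4 (-1)] := rfl

/-- the kind of a window -/
def kOf : ℕ → Kind
  | 0 => kG
  | 1 => kE1
  | 2 => kE2
  | 3 => kE2
  | 4 => kH1
  | 5 => kH2
  | 6 => kH2
  | _ => kW

/-- the kind of a row -/
def kRow (ρ : D.Row) : Kind := kOf (wnd ρ)

lemma kRow_G {i : ℤ} (hi : 0 ≤ i) (o : ℕ) : kRow (.Z i, o) = kG := by
  rw [kRow, wnd, if_pos hi]; rfl

lemma kRow_E1 {i : ℤ} (hi : i < 0) : kRow (.Z i, 0) = kE1 := by
  rw [kRow, wnd, if_neg (not_le.mpr hi)]; rfl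

lemma kRow_E2 {i : ℤ} (hi : i < 0) : kRow (.Z i, 1) = kE2 := by
  rw [kRow, wnd, if_neg (not_le.mpr hi)]; rfl

lemma kRow_H1 {i : ℤ} (hi : 0 ≤ i) : kRow (.H i, 0) = kH1 := by
  rw [kRow, wnd, if_pos hi]; rfl

lemma kRow_H2 {i : ℤ} (hi : 0 ≤ i) : kRow (.H i, 1) = kH2 := by
  rw [kRow, wnd, if_pos hi]; rfl

lemma kRow_W {i : ℤ} (hi : i < 0) (o : ℕ) : kRow (.H i, o) = kW := by
  rw [kRow, wnd, if_neg (not_le.mpr hi)]; rfl

section

variable {M : Type*} [AddCommMonoid M] {S : Shape}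

/-- the nodes of the kind `k` in the class with the vector `js` -/
noncomputable def nodesK (js : List ℤ) (k : Kind) : Finset ℤ :=
  Ico (js.getD k.ia 0) (js.getD k.ib 0)

/-- class of a row, as a natural number -/
def clsN (p : ℕ) (ρ : D.Row) : ℕ := (cls p (dblx ρ.1)).toNat

/-- index of a row in its class -/
def jdN (p : ℕ) (ρ : D.Row) : ℤ := jdx p (dblx ρ.1)

lemma clsSum_kinds (h3 : S.e3 = 0) (h3' : S.h3 = 0) {u p a : ℤ}
    (V : ℕ → ℤ → M) (G : Kind → ℤ → M) (hV : ∀ w, V w = G (kOf w)) :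
    clsSum S u p a V = (kindsF.map fun k => ∑ j ∈ nodesK (jvec (bdS S) u p a) k, G k j).sum := by
  simp only [kindsF, List.map_cons, List.map_nil, List.sum_cons, List.sum_nil, clsSum, hV, kOf]
  simp only [nodesK, kG, kE1, kE2, kH1, kH2, kW, bdS, jvec, List.map_cons, List.map_nil]
  simp only [List.getD_eq_getElem?_getD, List.getElem?_cons_zero, List.getElem?_cons_succ,
    Option.getD_some, h3, h3', Nat.cast_zero, neg_zero, Finset.Ico_self, Finset.sum_empty,
    zero_add, add_zero]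

/-- **the sum over all rows of the design, in terms of the kinds** -/
theorem sum_rows_kinds {u c : ℕ} (hS : S.Good) (h3 : S.e3 = 0) (h3' : S.h3 = 0) {p : ℕ}
    (hp : 0 < p) (hodd : p % 2 = 1) (G : ℕ → Kind → ℤ → M) :
    ∑ x : Lam.Row (Bordx929.mm S u c), G (clsN p (Bordx929.ofRow u c x))
        (kRow (Bordx929.ofRow u c x)) (jdN p (Bordx929.ofRow u c x)) =
      ∑ a ∈ range p, (kindsF.map fun k => ∑ j ∈ nodesK (jvec (bdS S) u p a) k, G a k j).sum
        + ∑ n ∈ Ico ((S.B * u : ℕ) : ℤ) ((S.B * u + c : ℕ) : ℤ),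
          G (cls p (2 * n)).toNat kG (jdx p (2 * n)) := by
  have h := sum_rows_cls (c := c) (u := u) hS hp hodd
    (fun w a j => G a.toNat (kOf w) j)
  refine h.trans ?_
  congr 1
  refine Finset.sum_congr rfl fun a _ => ?_
  rw [clsSum_kinds h3 h3' _ (fun k j => G a k j)]
  intro w
  funext j
  rw [Int.toNat_natCast]


end

end Crest.Agent.R006.P8.RowSumx757
private theorem rz_fa64c8b1d1 : type_of% @_root_.Crest.Agent.R006.P8.RowSumx757.kOf.eq_1 := @_root_.Crest.Agent.R006.P8.RowSumx757.kOf.eq_1 -- L24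
end

-- ▼ part R006/RowD0_757
section

set_option autoImplicit false

/-!
# Row 6, block P4: the sum of the row potentials = the sum over the classes (helper757)

`sum_D0X`    : `∑_x D0X x = ∑_{a<p} kindSum js (oX a) (sX' a) (cX a) kindsF + (the c extra G-rows)`
`sum_D0X_ge` : `∑_x D0X x ≥ ∑_{a<p} kindSum js (oX a) (sX' a) (cX a) kindsF - c M`.
-/

namespace Crest.Agent.R006.P8.RowSumx757

open Finset Crest.Agent.R006 Crest.Agent.R006.P8 Crest.Agent.R006.D Crest.Agent.R006.P4If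
  Crest.Agent.R006.Bordx929 Crest.Agent.R006.P4Asmx814 Crest.Agent.R006.GaugeP555

/-- the record of the ordinary nodes -/
def recO : Mode → Kind → Row3
  | .pol, k => k.pol
  | .rA, k => k.reg
  | .rB, k => k.regB

/-- the record of the special node -/
def recS : Mode → Kind → Row3
  | .pol, k => k.polS
  | .rA, k => k.regS
  | .rB, k => k.regBS

/-- the record of the special node under the condition of the kind -/
def recC : Mode → Kind → Row3
  | .pol, k => k.polC
  | .rA, k => k.regS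
  | .rB, k => k.regBS

lemma tabK_eq (d : Mode) (k : Kind) (js : List ℤ) (j : ℤ) :
    tabK d k js j = if j = k.j0 then (if k.cond js then recC d k else recS d k) else recO d k := by
  cases d <;> simp [tabK, Kind.row3, recO, recS, recC]

variable (S : Shape) (u p : ℕ) (dec : ℕ → Mode) (lam mu : ℤ) (sg sX sQ : ℕ → ℤ)

/-- the potential of the record `r` in the class `a` -/
noncomputable def potC (a : ℕ) (r : Row3) : ℤ :=
  r.Dm (dec a) lam mu (sg a + zc S u p (a : ℤ)) (sX a) (sQ a)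

variable {S u p dec lam mu sg sX sQ}

lemma kindR_eq_kRow {c : ℕ} (h3 : S.e3 = 0) (h3' : S.h3 = 0) (x : RI S u c) :
    kindR (ofRow u c x) = kRow (ofRow u c x) := by
  obtain ⟨⟨z, hz⟩, ⟨o, ho⟩⟩ := x
  have ho' : o < S.mult u c z := ho
  simp only [ofRow]
  rcases z with i | i
  · rw [Shape.mult] at ho'
    by_cases hi : 0 ≤ i
    · simp only [kindR, if_pos hi, kRow_G hi]
    · have hi' : i < 0 := not_le.mp hi
      simp only [if_neg hi, h3, Nat.cast_zero, zero_mul] at ho'
      have : o < 2 := by split_ifs at ho' <;> omega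
      interval_cases o
      · simp only [kindR, if_neg hi, if_true, kRow_E1 hi']
      · simp only [kindR, if_neg hi, one_ne_zero, if_false, kRow_E2 hi']
  · rw [Shape.mult] at ho'
    by_cases hi : 0 ≤ i
    · simp only [if_pos hi, h3', Nat.cast_zero, zero_mul] at ho'
      have : o < 2 := by split_ifs at ho' <;> omega
      interval_cases o
      · simp only [kindR, if_pos hi, if_true, kRow_H1 hi]
      · simp only [kindR, if_pos hi, one_ne_zero, if_false, kRow_H2 hi]
    · have hi' : i < 0 := not_le.mp hi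
      simp only [kindR, if_neg hi, kRow_W hi']

lemma dbl_eq (z : Site) : dbl z = dblx z := by rcases z with i | i <;> rfl

/-- the windows of the kinds -/
lemma isWin_kG : IsWin (bdS S) kG 0 S.B 0 := ⟨by simp [bdS, kG], by simp [bdS, kG], by rfl, by rfl, Or.inl rfl, by positivity⟩
lemma isWin_kE1 : IsWin (bdS S) kE1 (-S.e1) 0 0 := ⟨by simp [bdS, kE1], by simp [bdS, kE1], by rfl, by rfl, Or.inl rfl, by simp⟩
lemma isWin_kE2 : IsWin (bdS S) kE2 (-S.e2) 0 0 := ⟨by simp [bdS, kE2], by simp [bdS, kE2], by rfl, by rfl, Or.inl rfl, by simp⟩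
lemma isWin_kH1 : IsWin (bdS S) kH1 0 S.h1 1 := ⟨by simp [bdS, kH1], by simp [bdS, kH1], by rfl, by rfl, Or.inr rfl, by positivity⟩
lemma isWin_kH2 : IsWin (bdS S) kH2 0 S.h2 1 := ⟨by simp [bdS, kH2], by simp [bdS, kH2], by rfl, by rfl, Or.inr rfl, by positivity⟩
lemma isWin_kW : IsWin (bdS S) kW (-S.w) 0 1 := ⟨by simp [bdS, kW], by simp [bdS, kW], by rfl, by rfl, Or.inr rfl, by simp⟩

lemma le_of_mem_kindsF {k : Kind} (hk : k ∈ kindsF) {a : ℤ} (hp : 0 < p) :
    (jvec (bdS S) u p a).getD k.ia 0 ≤ (jvec (bdS S) u p a).getD k.ib 0 := by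
  have hp' : (0 : ℤ) < p := by exact_mod_cast hp
  have hu : (0 : ℤ) ≤ u := by positivity
  simp only [kindsF, List.mem_cons, List.not_mem_nil, or_false] at hk
  rcases hk with rfl | rfl | rfl | rfl | rfl | rfl
  exacts [isWin_kG.le hp' hu, isWin_kE1.le hp' hu, isWin_kE2.le hp' hu, isWin_kH1.le hp' hu,
    isWin_kH2.le hp' hu, isWin_kW.le hp' hu]

/-- **The sum of the row potentials, class by class.** -/
theorem sum_D0X {c : ℕ} (hS : S.Good) (h3 : S.e3 = 0) (h3' : S.h3 = 0)
    (hp : 0 < p) (hodd : p % 2 = 1) :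
    ∑ x : RI S u c, D0X S u p dec lam mu sg sX sQ (ofRow u c x) =
      ∑ a ∈ range p, kindSum (jvec (bdS S) u p a)
          (fun k => potC S u p dec lam mu sg sX sQ a (recO (dec a) k))
          (fun k => potC S u p dec lam mu sg sX sQ a (recS (dec a) k))
          (fun k => potC S u p dec lam mu sg sX sQ a (recC (dec a) k)) kindsF
        + ∑ n ∈ Ico ((S.B * u : ℕ) : ℤ) ((S.B * u + c : ℕ) : ℤ),
          potC S u p dec lam mu sg sX sQ (cls p (2 * n)).toNat
            (tabK (dec (cls p (2 * n)).toNat) kG (jvec (bdS S) u p (cls p (2 * n)).toNat)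
              (jdx p (2 * n))) := by
  have h := sum_rows_kinds (u := u) (c := c) hS h3 h3' hp hodd
    (fun a k j => potC S u p dec lam mu sg sX sQ a (tabK (dec a) k (jvec (bdS S) u p a) j))
  have h1 : ∀ x : RI S u c, D0X S u p dec lam mu sg sX sQ (ofRow u c x) =
      potC S u p dec lam mu sg sX sQ (clsN p (ofRow u c x))
        (tabK (dec (clsN p (ofRow u c x))) (kRow (ofRow u c x))
          (jvec (bdS S) u p (clsN p (ofRow u c x))) (jdN p (ofRow u c x))) := by
    intro x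
    rw [← kindR_eq_kRow h3 h3' x]
    simp only [D0X, potC, tabX, clsN, jdN, clsS, jS, dbl_eq]
  rw [Finset.sum_congr rfl fun x _ => h1 x]
  refine h.trans ?_
  congr 1
  refine Finset.sum_congr rfl fun a ha => ?_
  rw [kindSum_eq _ _ _ _ _ fun k hk => le_of_mem_kindsF hk hp]
  congr 1
  refine List.map_congr_left fun k _ => ?_
  refine Finset.sum_congr rfl fun j _ => ?_
  rw [tabK_eq]
  split_ifs <;> rfl

/-- **Lower bound**: the `c` extra rows cost at most `c M`. -/
theorem sum_D0X_ge {c : ℕ} (hS : S.Good) (h3 : S.e3 = 0) (h3' : S.h3 = 0)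
    (hp : 0 < p) (hodd : p % 2 = 1) {M : ℤ}
    (hO : ∀ a < p, -M ≤ potC S u p dec lam mu sg sX sQ a (recO (dec a) kG))
    (hS' : ∀ a < p, -M ≤ potC S u p dec lam mu sg sX sQ a (recS (dec a) kG))
    (hC : ∀ a < p, -M ≤ potC S u p dec lam mu sg sX sQ a (recC (dec a) kG)) :
    ∑ a ∈ range p, kindSum (jvec (bdS S) u p a)
        (fun k => potC S u p dec lam mu sg sX sQ a (recO (dec a) k))
        (fun k => potC S u p dec lam mu sg sX sQ a (recS (dec a) k))
        (fun k => potC S u p dec lam mu sg sX sQ a (recC (dec a) k)) kindsF - c * M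
      ≤ ∑ x : RI S u c, D0X S u p dec lam mu sg sX sQ (ofRow u c x) := by
  rw [sum_D0X hS h3 h3' hp hodd]
  have hp' : (0 : ℤ) < p := by exact_mod_cast hp
  have h1 : ∑ _n ∈ Ico ((S.B * u : ℕ) : ℤ) ((S.B * u + c : ℕ) : ℤ), (-M) ≤
      ∑ n ∈ Ico ((S.B * u : ℕ) : ℤ) ((S.B * u + c : ℕ) : ℤ),
          potC S u p dec lam mu sg sX sQ (cls p (2 * n)).toNat
            (tabK (dec (cls p (2 * n)).toNat) kG (jvec (bdS S) u p (cls p (2 * n)).toNat)
              (jdx p (2 * n))) := by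
    refine Finset.sum_le_sum fun n _ => ?_
    have h2 := cls_nonneg (s := 2 * n) hp'
    have h4 := cls_lt (s := 2 * n) hp'
    have h5 : (cls p (2 * n)).toNat < p := by omega
    rw [tabK_eq]
    split_ifs
    exacts [hC _ h5, hS' _ h5, hO _ h5]
  rw [Finset.sum_const, Int.card_Ico, nsmul_eq_mul] at h1
  have h2 : ((((S.B * u + c : ℕ) : ℤ) - ((S.B * u : ℕ) : ℤ)).toNat : ℤ) = c := by
    push_cast; omega
  rw [h2] at h1
  linarith

/-- a record whose costs are at least `-2, 0, 0` has a potential `≥ -(2 + |lam| + |mu|)` -/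
lemma le_potC (a : ℕ) {r : Row3} (hR : -2 ≤ r.R.a) (hX : 0 ≤ r.X.a) (hQ : 0 ≤ r.Q.a) :
    -(2 + |lam| + |mu|) ≤ potC S u p dec lam mu sg sX sQ a r := by
  have e1 : ∀ s, -2 ≤ r.R.val s := fun s => by
    rw [Cst.val]; linarith [pos_nonneg (s - r.R.b)]
  have e2 : ∀ s, 0 ≤ r.X.val s := fun s => by
    rw [Cst.val]; linarith [pos_nonneg (s - r.X.b)]
  have e3 : ∀ s, 0 ≤ r.Q.val s := fun s => by
    rw [Cst.val]; linarith [pos_nonneg (s - r.Q.b)]
  have hl := le_abs_self lam
  have hm := le_abs_self mu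
  have hl0 := abs_nonneg lam
  have hm0 := abs_nonneg mu
  have hD : ∀ sR sX' sQ', -(2 + |lam| + |mu|) ≤ r.D lam mu sR sX' sQ' := by
    intro sR sX' sQ'
    rw [Row3.D, le_min_iff, le_min_iff]
    exact ⟨by linarith [e1 sR], by linarith [e2 sX'], by linarith [e3 sQ']⟩
  rw [potC]
  rcases dec a with _ | _ | _
  · exact hD _ _ _
  · exact hD _ _ _
  · simp only [Row3.Dm, Row3.DB, le_min_iff]
    refine ⟨hD _ _ _, ?_⟩
    split_ifs
    · linarith [e2 (pos (sX a)), pos_nonneg (sg a + (zc S u p (a : ℤ) : ℤ))]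
    · linarith [e2 (max (sX a) (pos (sg a + (zc S u p (a : ℤ) : ℤ)) + 1))]

/-- **Lower bound**, with the constant `c (2 + |lam| + |mu|)`. -/
theorem sum_D0X_ge' {c : ℕ} (hS : S.Good) (h3 : S.e3 = 0) (h3' : S.h3 = 0)
    (hp : 0 < p) (hodd : p % 2 = 1) :
    ∑ a ∈ range p, kindSum (jvec (bdS S) u p a)
        (fun k => potC S u p dec lam mu sg sX sQ a (recO (dec a) k))
        (fun k => potC S u p dec lam mu sg sX sQ a (recS (dec a) k))
        (fun k => potC S u p dec lam mu sg sX sQ a (recC (dec a) k)) kindsF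
          - c * (2 + |lam| + |mu|)
      ≤ ∑ x : RI S u c, D0X S u p dec lam mu sg sX sQ (ofRow u c x) := by
  refine sum_D0X_ge hS h3 h3' hp hodd (fun a _ => ?_) (fun a _ => ?_) (fun a _ => ?_)
  · rcases dec a with _ | _ | _ <;> exact le_potC a (by decide) (by decide) (by decide)
  · rcases dec a with _ | _ | _ <;> exact le_potC a (by decide) (by decide) (by decide)
  · rcases dec a with _ | _ | _ <;> exact le_potC a (by decide) (by decide) (by decide)

/-- upper bound of a row potential: `D ≤ X.val (sX)` -/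
lemma potC_le (a : ℕ) (r : Row3) :
    potC S u p dec lam mu sg sX sQ a r ≤ r.X.val (sX a) := by
  have hD : ∀ sR sQ', r.D lam mu sR (sX a) sQ' ≤ r.X.val (sX a) := fun sR sQ' =>
    (min_le_right _ _).trans (min_le_left _ _)
  rw [potC]
  rcases dec a with _ | _ | _
  · exact hD _ _
  · exact hD _ _
  · exact (min_le_left _ _).trans (hD _ _)

/-- the row potentials are at most `1 + max 0 sX` -/
lemma D0X_le {c : ℕ} (h3 : S.e3 = 0) (h3' : S.h3 = 0) (x : RI S u c) {P : ℤ}
    (hP : ∀ a, sX a ≤ P) (hP0 : 0 ≤ P) :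
    D0X S u p dec lam mu sg sX sQ (ofRow u c x) ≤ 1 + P := by
  have h1 : D0X S u p dec lam mu sg sX sQ (ofRow u c x) =
      potC S u p dec lam mu sg sX sQ (clsN p (ofRow u c x))
        (tabK (dec (clsN p (ofRow u c x))) (kRow (ofRow u c x))
          (jvec (bdS S) u p (clsN p (ofRow u c x))) (jdN p (ofRow u c x))) := by
    rw [← kindR_eq_kRow h3 h3' x]
    simp only [D0X, potC, tabX, clsN, jdN, clsS, jS, dbl_eq]
  rw [h1]
  refine (potC_le _ _).trans ?_
  generalize clsN p (ofRow u c x) = a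
  generalize jdN p (ofRow u c x) = j
  have key : ∀ w, ∀ d : Mode, ∀ js : List ℤ,
      (tabK d (kOf w) js j).X.a ≤ 1 ∧ 0 ≤ (tabK d (kOf w) js j).X.b := by
    intro w d js
    rw [tabK_eq]
    have hw : kOf w ∈ kindsF := by
      match w with
      | 0 | 1 | 2 | 3 | 4 | 5 | 6 => simp [kOf, kindsF]
      | n + 7 => simp [kOf, kindsF]
    generalize kOf w = k at hw
    simp only [kindsF, List.mem_cons, List.not_mem_nil, or_false] at hw
    rcases hw with rfl | rfl | rfl | rfl | rfl | rfl <;> rcases d with _ | _ | _ <;>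
      (split_ifs <;> decide)
  have h2 := key (wnd (ofRow u c x)) (dec a) (jvec (bdS S) u p a)
  have h3 := hP a
  rw [kRow, Cst.val, pos_eq]
  omega

end Crest.Agent.R006.P8.RowSumx757
private theorem rz_505db71d2e : type_of% @_root_.Crest.Agent.R006.P8.RowSumx757.recC.eq_1 := @_root_.Crest.Agent.R006.P8.RowSumx757.recC.eq_1 -- L31
private theorem rz_439f60b3eb : type_of% @_root_.Crest.Agent.R006.P8.RowSumx757.recO.eq_1 := @_root_.Crest.Agent.R006.P8.RowSumx757.recO.eq_1 -- L19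
private theorem rz_0465836b81 : type_of% @_root_.Crest.Agent.R006.P8.RowSumx757.recS.eq_1 := @_root_.Crest.Agent.R006.P8.RowSumx757.recS.eq_1 -- L25
end

-- ▼ part R006/P4Top_814
section

set_option autoImplicit false

/-!
# Row 6, block P4: the top theorem (helper814)

`MatrixSide` (955, 657, 830, 110, 538, 226) + the counts (757, `RowD0_757`) + the constants
(`ConstLe`, 529) give 365's `ClassForm`.
-/

namespace Crest.Agent.R006.P4If

open Polynomial Filter Finset Crest.Agent.R006.D Crest.Agent.R006.P8 Crest.Agent.R006.Bordx929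
  Crest.Agent.R006.P4Asmx814 Crest.Agent.R006.P4Toll961 Crest.Agent.R006.GaugeP555
  Crest.Agent.R006.P8.RowSumx757

/-- value of the class `a` (gauge form) without the tolls -/
noncomputable def classF (S : Shape) (u p : ℕ) (dec : ℕ → Mode) (lam mu : ℤ) (sg sX sQ : ℕ → ℤ)
    (a : ℕ) : ℤ :=
  kindSum (jvec (bdS S) u p a)
    (fun k => potC S u p dec lam mu sg sX sQ a (recO (dec a) k))
    (fun k => potC S u p dec lam mu sg sX sQ a (recS (dec a) k))
    (fun k => potC S u p dec lam mu sg sX sQ a (recC (dec a) k)) kindsF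

/-- the constants (529) on the strip that starts at `s` : `B` bounds the tolls `sX` -/
def ConstLe (S : Shape) (s : St) (B : ℤ) : Prop :=
  ∃ lam mu : ℤ, ∀ᶠ u : ℕ in atTop, ∀ p : ℕ, p.Prime → (s.u : ℝ) / s.v * u < p →
    ∃ (dec : ℕ → Mode) (sg sX sQ : ℕ → ℤ), DecOK S u p dec ∧ (∀ a, sX a ≤ B) ∧
      ∑ a ∈ range p, kapT s.t (jvec (bdS S) u p a) + extT S s.t * u
        ≤ lam * (S.k * u : ℕ) + mu * (S.g * u : ℕ)
          + ∑ a ∈ range p, (classF S u p dec lam mu sg sX sQ a
              - tollC S u p dec lam sg sX sQ a)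
          - (padicValNat p (den S u) : ℕ)

/-! ### the top theorem -/

theorem classStrip_of {S : Shape} (hS : S.Good) (h3 : S.e3 = 0) (h3' : S.h3 = 0) {c C1 : ℕ}
    (hMS : MatrixSide S c C1) {s s' : St} {B : ℤ} (hs : (0 : ℝ) < (s.u : ℝ) / s.v)
    (hk : ConstLe S s B) : ClassStrip S c (bdS S) kapT (extT S) s s' := by
  obtain ⟨lam, mu, hk⟩ := hk
  set M : ℤ := 2 + |lam| + |mu| with hM
  have hM0 : 0 ≤ M := by positivity
  set nu : ℤ := -(1 + pos B) with hnu
  refine ⟨(c : ℝ) * M + (c : ℝ) * (1 + pos B : ℤ), ?_⟩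
  set x : ℝ := (s.u : ℝ) / s.v with hx
  have hev1 : ∀ᶠ u : ℕ in atTop, (5 : ℝ) ≤ x * u := by
    filter_upwards [(tendsto_natCast_atTop_atTop (R := ℝ)).eventually_ge_atTop (5 / x)] with u hu
    rw [div_le_iff₀ hs] at hu
    linarith
  have hev2 : ∀ᶠ u : ℕ in atTop, ((C1 * (u + 1) : ℕ) : ℝ) ≤ (x * u) ^ 2 := by
    filter_upwards [(tendsto_natCast_atTop_atTop (R := ℝ)).eventually_ge_atTop (2 * C1 / x ^ 2),
      eventually_ge_atTop 1] with u hu hu1
    have hu1' : (1 : ℝ) ≤ u := by exact_mod_cast hu1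
    rw [div_le_iff₀ (by positivity)] at hu
    push_cast
    have h3 : (C1 : ℝ) * (u + 1) ≤ 2 * C1 * u := by
      have : (0 : ℝ) ≤ C1 := by positivity
      nlinarith
    have h4 : 2 * (C1 : ℝ) * u ≤ (u * x ^ 2) * u :=
      mul_le_mul_of_nonneg_right hu (by linarith)
    nlinarith
  filter_upwards [hk, hev1, hev2] with u hku h5 hC r hr p hp hlo _
  haveI : Fact p.Prime := ⟨hp⟩
  have hp5 : 5 < p := by
    have : (5 : ℝ) < p := lt_of_le_of_lt h5 hlo
    exact_mod_cast this
  have hodd : p % 2 = 1 := (hp.eq_two_or_odd).resolve_left (by omega)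
  have hpC : C1 * (u + 1) < p ^ 2 := by
    have h1 : (x * u) ^ 2 < (p : ℝ) ^ 2 := by
      have : 0 ≤ x * u := by positivity
      exact pow_lt_pow_left₀ hlo this two_ne_zero
    have h2 : ((C1 * (u + 1) : ℕ) : ℝ) < ((p ^ 2 : ℕ) : ℝ) := by
      push_cast at hC ⊢
      linarith
    exact_mod_cast h2
  obtain ⟨dec, sg, sX, sQ, hdec, hB, hle⟩ := hku p hp hlo
  have hcnt := sum_D0X_ge' (S := S) (u := u) (p := p) (dec := dec) (lam := lam) (mu := mu)
    (sg := sg) (sX := sX) (sQ := sQ) (c := c) hS h3 h3' hp.pos hodd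
  have hB0 := pos_nonneg B
  have hD : ∀ y : RI S u c, D0X S u p dec lam mu sg sX sQ (ofRow u c y) ≤ 1 + pos B := fun y =>
    D0X_le h3 h3' y (fun a => (hB a).trans (by simp only [pos_eq]; omega)) hB0
  set E : ℤ := lam * (S.k * u : ℕ) + mu * (S.g * u : ℕ) + nu * c
        + ∑ x : RI S u c, D0X S u p dec lam mu sg sX sQ (ofRow u c x)
        - ∑ a ∈ Finset.range p, tollC S u p dec lam sg sX sQ a with hE
  have hloss : Loss p (Minor S u r) (-(E : ℝ) + (padicValNat p (den S u) : ℕ)) := by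
    refine loss_of_border S u c hS r hr ?_
    intro J hJ e
    set E0 : ℤ := |lam| + (1 + pos B + max lam (max 0 mu)) with hE0
    have hm0 : 0 ≤ max lam (max 0 mu) := (le_max_left 0 mu).trans (le_max_right _ _)
    obtain ⟨N, W, R, hside⟩ := hMS u p hp5.le hpC dec hdec J hJ E0
    refine hside.det_mem lam mu nu sg sX sQ ?_ ?_ ?_ ?_ e
    · have := le_abs_self lam; rw [hE0]; linarith
    · intro y
      have h1 := hD y
      have := abs_nonneg lam
      rw [hE0]; linarith
    · have := abs_nonneg lam; rw [hE0]; linarith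
    · intro y
      have h1 := hD y
      rw [hnu]; linarith
  refine hloss.mono ?_
  obtain ⟨v, hv⟩ : ∃ v : ℕ, v = padicValNat p (den S u) := ⟨_, rfl⟩
  rw [← hv] at hle ⊢
  have h1 : (∑ a ∈ range p, kapT s.t (jvec (bdS S) u p a) + extT S s.t * u : ℤ)
      ≤ E + c * M + c * (1 + pos B) - (v : ℕ) := by
    rw [hE, hnu]
    rw [Finset.sum_sub_distrib] at hle
    simp only [classF] at hle
    linarith
  have h2 : (((∑ a ∈ range p, kapT s.t (jvec (bdS S) u p a) + extT S s.t * u : ℤ)) : ℝ)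
      ≤ ((E + c * M + c * (1 + pos B) - (v : ℕ) : ℤ) : ℝ) := by
    exact_mod_cast h1
  push_cast at h2 ⊢
  linarith

/-- **P4 for a list of strips.** -/
theorem classForm_of {S : Shape} (hS : S.Good) (h3 : S.e3 = 0) (h3' : S.h3 = 0) {c C1 : ℕ}
    (hMS : MatrixSide S c C1) {L : List St} (hL : ∀ s s' : St, [s, s'] <:+: L →
      (0 : ℝ) < (s.u : ℝ) / s.v ∧ ∃ B, ConstLe S s B) :
    ClassForm S c (bdS S) kapT (extT S) L := by
  intro s s' hss
  obtain ⟨h1, B, h2⟩ := hL s s' hss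
  exact classStrip_of hS h3 h3' hMS h1 h2

end Crest.Agent.R006.P4If
end

-- ▼ part R006/P4Const_529
section

set_option autoImplicit false

/-!
# Row 6, block P4 -> P8: the constants (helper529), on 305's frozen tables

* `rowsG` : the potentials of the rows of a class (`kindsF`);
* `class_le` : row form `≤` gauge form, one class (`classVal`, `refsS`);
* `kapS_le` : `kapS ≤ rowsG - tolls - lam z - refF` for suitable tolls, with a bound of `sX`;
* `val_den_le` : the valuation of the denominators;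
* `const_le` : the sum over the classes;
* `Dm_ge_G`, `Dm_le_F` : bounds of the potentials.
-/

namespace Crest.Agent.R006.P8.Constx529

open Finset Crest.Agent.R006.D Crest.Agent.R006.RefClass555 Crest.Agent.R006.GaugeP555
  Crest.Agent.R006.P8.RowSumx757

/-! ### one class -/

/-- the potentials of the rows of a class -/
noncomputable def rowsG (md : Mode) (js : List ℤ) (lam mu a sX sQ : ℤ) : ℤ :=
  (kindsF.map fun k => ∑ j ∈ nodesK js k, (k.row3 md js j).Dm md lam mu a sX sQ).sum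

/-- the gauge form of the tolls -/
def tollG (md : Mode) (z lam sg sX sQ : ℤ) : ℤ :=
  tri sg + (tri sX + (tri sQ + md.be lam (sg + z)))

/-- number of gauge zeros -/
def zJ (js : List ℤ) : ℤ := cntSum js [(0, 7), (8, 4)]

/-- the superfactorials -/
def refF (js : List ℤ) : ℤ :=
  refSum js [(1, [(0, 10)]), (-1, [(0, 7)]), (1, [(0, 11)]), (1, [(0, 12)])]

theorem refS_eq (js : List ℤ) : refSum js refsS = tri (zJ js - 1) + refF js := by
  simp only [refsS, refSum, refF, zJ]
  ring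

theorem rowsG_mono (md : Mode) (js : List ℤ) (lam mu sX sQ : ℤ) {s t : ℤ} (h : s ≤ t) :
    rowsG md js lam mu s sX sQ ≤ rowsG md js lam mu t sX sQ := by
  unfold rowsG
  refine List.sum_le_sum fun k _ => Finset.sum_le_sum fun j _ => Dm_mono _ _ _ _ _ _ h

theorem row3_cases (k : Kind) (md : Mode) (js : List ℤ) (j : ℤ) (P : Row3 → Prop)
    (h1 : P k.pol) (h2 : P k.polS) (h3 : P k.polC) (h4 : P k.reg) (h5 : P k.regS)
    (h6 : P k.regB) (h7 : P k.regBS) : P (k.row3 md js j) := by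
  cases md with
  | pol =>
    show P (if j = k.j0 then (if k.cond js then k.polC else k.polS) else k.pol)
    by_cases c1 : j = k.j0
    · rw [if_pos c1]
      by_cases c2 : k.cond js = true
      · rw [if_pos c2]; exact h3
      · rw [if_neg c2]; exact h2
    · rw [if_neg c1]; exact h1
  | rA =>
    show P (if j = k.j0 then k.regS else k.reg)
    by_cases c1 : j = k.j0
    · rw [if_pos c1]; exact h5
    · rw [if_neg c1]; exact h4
  | rB =>
    show P (if j = k.j0 then k.regBS else k.regB)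
    by_cases c1 : j = k.j0
    · rw [if_pos c1]; exact h7
    · rw [if_neg c1]; exact h6

theorem kZero_R (ia ib : ℕ) (j0 : ℤ) (md : Mode) (js : List ℤ) (j : ℤ) :
    ((kZero ia ib j0).row3 md js j).R = ⟨0, 0⟩ :=
  row3_cases (kZero ia ib j0) md js j (fun t => t.R = ⟨0, 0⟩) rfl rfl rfl rfl rfl rfl rfl

theorem sum_kZero_le (ia ib : ℕ) (j0 : ℤ) (md : Mode) (js : List ℤ) (lam mu sR sX sQ : ℤ)
    (h : js.getD ia 0 ≤ js.getD ib 0) :
    ∑ j ∈ Ico (js.getD (kZero ia ib j0).ia 0) (js.getD (kZero ia ib j0).ib 0),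
        ((kZero ia ib j0).row3 md js j).Dm md lam mu sR sX sQ
      ≤ (js.getD ib 0 - js.getD ia 0) * (pos sR - lam) := by
  refine (Finset.sum_le_sum (g := fun _ => pos sR - lam) fun j _ =>
    Dm_zero_le md _ (kZero_R ia ib j0 md js j) lam mu sR sX sQ).trans (le_of_eq ?_)
  rw [Finset.sum_const, nsmul_eq_mul, Int.card_Ico]
  have e1 : (kZero ia ib j0).ia = ia := rfl
  have e2 : (kZero ia ib j0).ib = ib := rfl
  rw [e1, e2, Int.toNat_of_nonneg (by linarith)]

/-- **Row form `≤` gauge form, one class.** -/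
theorem class_le (md : Mode) (js : List ℤ) (hjs : ∀ k ∈ kindsS, js.getD k.ia 0 ≤ js.getD k.ib 0)
    (lam mu sR sX sQ : ℤ) (z : ℕ) (hz : (z : ℤ) = zJ js) :
    classVal md kindsS js lam mu sR sX sQ - refSum js refsS
      ≤ rowsG md js lam mu (max (pos sR) z - z + z) sX sQ
        - tollG md z lam (max (pos sR) z - z) sX sQ - lam * z - refF js := by
  have h07 : js.getD 0 0 ≤ js.getD 7 0 := hjs (kZero 0 7 0) (by simp [kindsS])
  have h84 : js.getD 8 0 ≤ js.getD 4 0 := hjs (kZero 8 4 (-1)) (by simp [kindsS])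
  rw [classVal_eq md kindsS js lam mu sR sX sQ hjs, refS_eq, ← hz]
  have hsplit : (kindsS.map fun k => ∑ j ∈ Ico (js.getD k.ia 0) (js.getD k.ib 0),
        (k.row3 md js j).Dm md lam mu sR sX sQ).sum
      = rowsG md js lam mu sR sX sQ
        + (∑ j ∈ Ico (js.getD (kZero 0 7 0).ia 0) (js.getD (kZero 0 7 0).ib 0),
            ((kZero 0 7 0).row3 md js j).Dm md lam mu sR sX sQ
          + ∑ j ∈ Ico (js.getD (kZero 8 4 (-1)).ia 0) (js.getD (kZero 8 4 (-1)).ib 0),
            ((kZero 8 4 (-1)).row3 md js j).Dm md lam mu sR sX sQ) := by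
    rw [kindsS_eq, List.map_append, List.sum_append]
    simp only [rowsG, nodesK, List.map_cons, List.map_nil, List.sum_cons, List.sum_nil, add_zero]
  rw [hsplit]
  have z1 := sum_kZero_le 0 7 0 md js lam mu sR sX sQ h07
  have z2 := sum_kZero_le 8 4 (-1) md js lam mu sR sX sQ h84
  have hzz : (z : ℤ) = (js.getD 7 0 - js.getD 0 0) + (js.getD 4 0 - js.getD 8 0) := by
    rw [hz, zJ]; simp [cntSum]
  have hz3 : (z : ℤ) * (pos sR - lam) = (js.getD 7 0 - js.getD 0 0) * (pos sR - lam)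
      + (js.getD 4 0 - js.getD 8 0) * (pos sR - lam) := by rw [hzz]; ring
  have hT := row_le_gauge (ι := ℕ) md ∅ (fun _ => ⟨⟨0, 0⟩, ⟨0, 0⟩, ⟨0, 0⟩, false⟩) lam mu sR sX sQ z
  rw [Finset.sum_empty, Finset.sum_empty, zero_add, zero_sub] at hT
  have hF := rowsG_mono md js lam mu sX sQ (show sR ≤ max (pos sR) z - z + z by
    rw [sub_add_cancel]
    exact (by simp only [pos_eq]; omega : sR ≤ pos sR).trans (le_max_left _ _))
  unfold tollG
  linarith

/-! ### the candidates -/

/-- a bound of the candidates -/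
def Bt (L : List ℤ) : ℤ := (L.map fun x => |x|).sum

theorem Bt_nonneg (L : List ℤ) : 0 ≤ Bt L := by
  unfold Bt
  refine List.sum_nonneg fun x hx => ?_
  obtain ⟨y, _, rfl⟩ := List.mem_map.mp hx
  exact abs_nonneg y


theorem bestOf_mem' (f : ℤ → ℤ → ℤ → ℤ) :
    ∀ L : List ℤ, ∃ p r q, bestOf f L = f p r q ∧ |p| ≤ Bt L
  | p :: r :: q :: L => by
    obtain ⟨p', r', q', h, hb⟩ := bestOf_mem' f L
    have e : Bt (p :: r :: q :: L) = |p| + (|r| + (|q| + Bt L)) := by simp [Bt]
    have h1 := abs_nonneg r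
    have h2 := abs_nonneg q
    have h3 := abs_nonneg p
    have h4 := Bt_nonneg L
    rcases le_total (f p r q) (bestOf f L) with h5 | h5
    · exact ⟨p', r', q', by rw [bestOf, max_eq_right h5, h], by rw [e]; linarith⟩
    · exact ⟨p, r, q, by rw [bestOf, max_eq_left h5], by rw [e]; linarith⟩
  | [] => ⟨0, 0, 0, rfl, by simpa using Bt_nonneg []⟩
  | [x] => ⟨0, 0, 0, rfl, by simpa using Bt_nonneg [x]⟩
  | [x, y] => ⟨0, 0, 0, rfl, by simpa using Bt_nonneg [x, y]⟩

/-- `kapK_spec` with a bound of `sX` -/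
theorem kapK_spec' (ks : List Kind) (refs : List (ℤ × List (ℕ × ℕ))) (ip : ℕ) (lam mu : ℤ)
    (L js : List ℤ) :
    ∃ md : Mode, (md = .pol ↔ js.getD ip 0 = 0) ∧ ∃ sR sX sQ, |sX| ≤ Bt L ∧
      kapK ks refs ip (lam :: mu :: L) js
        = classVal md ks js lam mu sR sX sQ - refSum js refs := by
  by_cases h : js.getD ip 0 = 0
  · obtain ⟨p, r, q, h1, hb⟩ := bestOf_mem'
      (fun p r q => polVal ks js lam mu (p + lam + 2 + r) p (p + mu + q)) L
    exact ⟨.pol, ⟨fun _ => h, fun _ => rfl⟩, _, _, _, hb, by rw [kapK, if_pos h, h1, classVal]⟩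
  · obtain ⟨p, r, q, h1, hb⟩ := bestOf_mem'
      (fun p r q => regVal ks js lam mu (p + lam - 1 + r) p (p + mu - 2 + q)) L
    obtain ⟨p', r', q', h2, hb'⟩ := bestOf_mem'
      (fun p r q => regValB ks js lam mu (p + lam - 1 + r) p (p + mu - 2 + q)) L
    rcases le_total (regVal ks js lam mu (p + lam - 1 + r) p (p + mu - 2 + q))
      (regValB ks js lam mu (p' + lam - 1 + r') p' (p' + mu - 2 + q')) with h3 | h3
    · exact ⟨.rB, ⟨(fun hh => Mode.noConfusion hh), fun hh => absurd hh h⟩, _, _, _, hb', by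
        rw [kapK, if_neg h, h1, h2, max_eq_right h3, classVal]⟩
    · exact ⟨.rA, ⟨(fun hh => Mode.noConfusion hh), fun hh => absurd hh h⟩, _, _, _, hb, by
        rw [kapK, if_neg h, h1, h2, max_eq_left h3, classVal]⟩

/-- **`kapS` is bounded by the gauge form of a certificate.** -/
theorem kapS_le (lam mu : ℤ) (L js : List ℤ)
    (hjs : ∀ k ∈ kindsS, js.getD k.ia 0 ≤ js.getD k.ib 0) (z : ℕ) (hz : (z : ℤ) = zJ js) :
    ∃ (md : Mode) (sg sX sQ : ℤ), 0 ≤ sg ∧ |sX| ≤ Bt L ∧ (md = .pol ↔ js.getD 4 0 = 0) ∧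
      kapS (lam :: mu :: L) js
        ≤ rowsG md js lam mu (sg + z) sX sQ - tollG md z lam sg sX sQ - lam * z - refF js := by
  obtain ⟨md, hmd, sR, sX, sQ, hb, h⟩ := kapK_spec' kindsS refsS ipS lam mu L js
  refine ⟨md, max (pos sR) z - z, sX, sQ, ?_, hb, hmd, ?_⟩
  · have := le_max_right (pos sR) (z : ℤ)
    linarith
  · rw [kapS, h]
    exact class_le md js hjs lam mu sR sX sQ z hz

/-! ### bounds of the potentials -/






/-! ### the entries of the `j`-vector -/

section jv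

variable (S : Shape) (u p c : ℤ)

theorem js0 : (jvec (bdS S) u p c).getD 0 0 = jst 0 0 u p c := rfl
theorem js1 : (jvec (bdS S) u p c).getD 1 0 = jst S.B 0 u p c := rfl
theorem js2 : (jvec (bdS S) u p c).getD 2 0 = jst (-S.e1) 0 u p c := rfl
theorem js3 : (jvec (bdS S) u p c).getD 3 0 = jst (-S.e2) 0 u p c := rfl
theorem js4 : (jvec (bdS S) u p c).getD 4 0 = jst 0 1 u p c := rfl
theorem js5 : (jvec (bdS S) u p c).getD 5 0 = jst S.h1 1 u p c := rfl
theorem js6 : (jvec (bdS S) u p c).getD 6 0 = jst S.h2 1 u p c := rfl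
theorem js7 : (jvec (bdS S) u p c).getD 7 0 = jst S.a1 0 u p c := rfl
theorem js8 : (jvec (bdS S) u p c).getD 8 0 = jst (-S.i1) 1 u p c := rfl
theorem js9 : (jvec (bdS S) u p c).getD 9 0 = jst (-S.w) 1 u p c := rfl
theorem js10 : (jvec (bdS S) u p c).getD 10 0 = jst (S.a1 + S.k) 0 u p c := rfl
theorem js11 : (jvec (bdS S) u p c).getD 11 0 = jst S.q 0 u p c := rfl
theorem js12 : (jvec (bdS S) u p c).getD 12 0 = jst S.g 0 u p c := rfl

end jv

theorem js_mono (S : Shape) {u p c : ℤ} (hp : 0 < p) (hu : 0 ≤ u) :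
    ∀ k ∈ kindsS, (jvec (bdS S) u p c).getD k.ia 0 ≤ (jvec (bdS S) u p c).getD k.ib 0 := by
  intro k hk
  have hk' : k = kG ∨ k = kE1 ∨ k = kE2 ∨ k = kH1 ∨ k = kH2 ∨ k = kW ∨ k = kZero 0 7 0
      ∨ k = kZero 8 4 (-1) := by simpa [kindsS] using hk
  rcases hk' with rfl | rfl | rfl | rfl | rfl | rfl | rfl | rfl
  · exact (js0 S u p c).le.trans ((P8.jst_mono hp hu (by positivity)).trans (js1 S u p c).ge)
  · exact (js2 S u p c).le.trans ((P8.jst_mono hp hu (by simp)).trans (js0 S u p c).ge)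
  · exact (js3 S u p c).le.trans ((P8.jst_mono hp hu (by simp)).trans (js0 S u p c).ge)
  · exact (js4 S u p c).le.trans ((P8.jst_mono hp hu (by positivity)).trans (js5 S u p c).ge)
  · exact (js4 S u p c).le.trans ((P8.jst_mono hp hu (by positivity)).trans (js6 S u p c).ge)
  · exact (js9 S u p c).le.trans ((P8.jst_mono hp hu (by simp)).trans (js4 S u p c).ge)
  · exact (js0 S u p c).le.trans ((P8.jst_mono hp hu (by positivity)).trans (js7 S u p c).ge)
  · exact (js8 S u p c).le.trans ((P8.jst_mono hp hu (by simp)).trans (js4 S u p c).ge)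

/-! ### sums over the classes -/

theorem card_win (A B h N : ℤ) (hh : h = 0 ∨ h = 1) (hAB : A * N ≤ B * N) :
    ((win A B h N).card : ℤ) = B * N - A * N := by
  rcases hh with rfl | rfl
  · rw [win_int, Finset.card_image_of_injective _ (by intro a b h; simpa using h), Int.card_Ico]
    omega
  · rw [win_half, Finset.card_image_of_injective _ (by intro a b h; simpa using h), Int.card_Ico]
    omega

theorem sum_jst {A B h : ℤ} {u p : ℕ} (hp : 0 < p) (hodd : p % 2 = 1) (hh : h = 0 ∨ h = 1)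
    (hAB : A ≤ B) :
    ∑ c ∈ range p, (jst B h u p c - jst A h u p c) = (B - A) * u := by
  have h1 := sum_window_class (A := A) (B := B) (h := h) (N := (u : ℤ)) hp hodd hh (by positivity)
    hAB (fun _ => 1)
  have h2 := card_win A B h u hh (mul_le_mul_of_nonneg_right hAB (by positivity))
  rw [Finset.sum_const, nsmul_eq_mul, mul_one, h2] at h1
  simp only [mul_one] at h1
  rw [← h1]; ring

theorem sum_zc (S : Shape) (u p : ℕ) (hp : 0 < p) (hodd : p % 2 = 1) :
    ∑ c ∈ range p, (zc S u p c : ℤ) = (S.a1 + S.a2 + S.i1 + S.r1 : ℕ) * u := by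
  have h1 : ∀ c ∈ range p, (zc S u p c : ℤ) = (jst S.a2 0 u p c - jst 0 0 u p c)
      + (jst 0 1 u p c - jst (-(S.i1 : ℤ)) 1 u p c) + (jst 0 0 u p c - jst (-(S.r1 : ℤ)) 0 u p c)
      + (jst S.a1 0 u p c - jst 0 0 u p c) := by
    intro c hc
    have hcp : (c : ℤ) < p := by exact_mod_cast Finset.mem_range.mp hc
    rw [zc_eq S u p c (by positivity) hcp hodd, jst_zero u p c (by positivity) hcp]
    ring
  rw [Finset.sum_congr rfl h1, Finset.sum_add_distrib, Finset.sum_add_distrib,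
    Finset.sum_add_distrib, sum_jst hp hodd (Or.inl rfl) (by positivity),
    sum_jst hp hodd (Or.inr rfl) (by simp), sum_jst hp hodd (Or.inl rfl) (by simp),
    sum_jst hp hodd (Or.inl rfl) (by positivity)]
  push_cast
  ring

theorem tri_sub_one {x : ℤ} (hx : 0 ≤ x) : tri (x - 1) = x * (x - 1) / 2 := by
  have h := two_tri (x := x - 1) (by linarith)
  have h2 : x * (x - 1) = 2 * tri (x - 1) := by rw [h]; ring
  rw [h2, Int.mul_ediv_cancel_left _ (by norm_num)]

theorem zJ_jvec {S : Shape} (ha2 : S.a2 = 0) (hr1 : S.r1 = 0) {u p c : ℕ} (hc : c < p)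
    (hodd : p % 2 = 1) : zJ (jvec (bdS S) u p c) = (zc S u p c : ℤ) := by
  have hcp : (c : ℤ) < p := by exact_mod_cast hc
  have h0 := jst_zero u p c (by positivity) hcp
  rw [zc_eq S u p c (by positivity) hcp hodd, ha2, hr1, zJ]
  simp only [cntSum, js0, js7, js4, js8, Nat.cast_zero, neg_zero, h0]
  ring

theorem refF_jvec (S : Shape) {u p c : ℕ} (hc : c < p) :
    refF (jvec (bdS S) u p c)
      = (jst (S.a1 + S.k : ℕ) 0 u p c * (jst (S.a1 + S.k : ℕ) 0 u p c - 1) / 2
            - jst S.a1 0 u p c * (jst S.a1 0 u p c - 1) / 2)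
          + (jst S.q 0 u p c * (jst S.q 0 u p c - 1) / 2
            + jst S.g 0 u p c * (jst S.g 0 u p c - 1) / 2) := by
  have hp : (0 : ℤ) < p := by exact_mod_cast (show 0 < p by omega)
  have hu : (0 : ℤ) ≤ u := by positivity
  have hcp : (c : ℤ) < p := by exact_mod_cast hc
  have h0 := jst_zero u p c (by positivity) hcp
  have hnn : ∀ A : ℤ, 0 ≤ A → 0 ≤ jst A 0 u p c := fun A hA => by
    have := P8.jst_mono (c := c) (h := 0) hp hu hA
    rwa [h0] at this
  rw [refF]
  simp only [refSum, cntSum, js0, js10, js7, js11, js12, h0, sub_zero, add_zero, one_mul]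
  push_cast
  rw [tri_sub_one (hnn _ (by positivity)), tri_sub_one (hnn _ (by positivity)),
    tri_sub_one (hnn _ (by positivity)), tri_sub_one (hnn _ (by positivity))]
  ring

/-! ### the gauge factorials -/

theorem fact_le {a u p : ℕ} [hp : Fact p.Prime] (hu : 0 < u) (hap : a * u < p ^ 2) {su sv : ℤ}
    (hsu : 0 < su) (hsv : 0 < sv) (hsp : su * u < sv * p) :
    ((padicValNat p (a * u).factorial : ℕ) : ℤ) ≤ max 0 ((a * sv - 1) / su) := by
  have hpp := hp.out.pos
  set f := a * u / p with hf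
  have h1 : f * p ≤ a * u := Nat.div_mul_le_self _ _
  have h2 : a * u < (f + 1) * p := by
    have := Nat.lt_div_mul_add (a := a * u) hpp
    rw [← hf] at this
    linarith
  have h3 : f < p := by
    rw [hf, Nat.div_lt_iff_lt_mul hpp]
    nlinarith
  rw [val_factorial_strip p (a * u) f h1 h2 h3]
  rcases Nat.eq_zero_or_pos f with h0 | h0
  · rw [h0]; exact le_max_left _ _
  · refine le_max_of_le_right ?_
    rw [Int.le_ediv_iff_mul_le hsu]
    have h1z : (f : ℤ) * p ≤ a * u := by exact_mod_cast h1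
    have hfz : (0 : ℤ) < f := by exact_mod_cast h0
    have huz : (0 : ℤ) < u := by exact_mod_cast hu
    have h4 : (f : ℤ) * su * u < a * sv * u := by
      have e1 : (f : ℤ) * (su * u) < f * (sv * p) := mul_lt_mul_of_pos_left hsp hfz
      have e2 : sv * (f * p) ≤ sv * (a * u) := mul_le_mul_of_nonneg_left h1z hsv.le
      nlinarith
    have h5 := lt_of_mul_lt_mul_right h4 huz.le
    linarith [Int.add_one_le_iff.mpr h5]

/-- the windows are shorter than `p^2` -/
structure WinOK (S : Shape) (u p : ℕ) : Prop where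
  ak : (S.a1 + S.k) * u ≤ p ^ 2
  q : S.q * u ≤ p ^ 2
  g : S.g * u ≤ p ^ 2
  i1 : S.i1 * u < p ^ 2

/-- **the valuation of the denominators** -/
theorem val_den_le {S : Shape} (ha2 : S.a2 = 0) (hr1 : S.r1 = 0) {u p : ℕ}
    [hp : Fact p.Prime] (hu : 0 < u) (hW : WinOK S u p) {su sv : ℤ} (hsu : 0 < su)
    (hsv : 0 < sv) {gc : ℤ} (hgc : max 0 ((S.i1 * sv - 1) / su) ≤ gc) (hsp : su * u < sv * p) :
    ((padicValNat p (den S u) : ℕ) : ℤ)
      ≤ ∑ c ∈ range p, refF (jvec (bdS S) u p c) + S.k * gc * u := by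
  rw [val_den S u p hW.ak hW.q hW.g,
    Finset.sum_congr rfl fun c hc => refF_jvec S (Finset.mem_range.mp hc)]
  have h2 := fact_le hu hW.i1 hsu hsv hsp
  have h5 : (((padicValNat p (S.a2 * u).factorial + padicValNat p (S.i1 * u).factorial
      + padicValNat p (S.r1 * u).factorial : ℕ)) : ℤ) ≤ gc := by
    rw [ha2, hr1, Nat.zero_mul, Nat.factorial_zero, padicValNat_one_right, zero_add, add_zero]
    linarith
  have h6 := mul_le_mul_of_nonneg_left h5 (show (0 : ℤ) ≤ ((S.k * u : ℕ) : ℤ) by positivity)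
  push_cast at h6 ⊢
  linarith

theorem jst_pol {u p a : ℕ} (hp : 0 < p) : jst 0 1 u p a = 0 ↔ 2 * a < p := by
  have hp' : (0 : ℤ) < p := by exact_mod_cast hp
  have h1 : jst 0 1 u p a ≤ 0 := by
    rw [P8.jst_le_iff hp']
    have : (0 : ℤ) ≤ a := by positivity
    nlinarith
  have h2 : -1 < jst 0 1 u p a ↔ 2 * a < p := by
    rw [P8.lt_jst_iff hp']
    constructor
    · intro h
      have : 2 * (a : ℤ) < p := by linarith
      exact_mod_cast this
    · intro h
      have : 2 * (a : ℤ) < p := by exact_mod_cast h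
      linarith
  rw [← h2]
  omega

/-- **The sum over the classes.** -/
theorem const_le {S : Shape} (ha2 : S.a2 = 0) (hr1 : S.r1 = 0)
    {u p : ℕ} [hp : Fact p.Prime] (hp2 : p ≠ 2) (hu : 0 < u) (hW : WinOK S u p)
    (lam mu gc : ℤ) (L : List ℤ) {su sv : ℤ} (hsu : 0 < su) (hsv : 0 < sv)
    (hgc : max 0 ((S.i1 * sv - 1) / su) ≤ gc) (hsp : su * u < sv * p) :
    ∃ (dec : ℕ → Mode) (sg sX sQ : ℕ → ℤ),
      (∀ a < p, dec a = .pol ↔ 2 * a < p) ∧ (∀ a, 0 ≤ sg a) ∧ (∀ a, |sX a| ≤ Bt L) ∧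
      ∑ a ∈ range p, kapS (lam :: mu :: L) (jvec (bdS S) u p a)
          + (lam * (S.k + S.a1 + S.i1) + mu * S.g - S.k * gc) * u
        ≤ lam * (S.k * u : ℕ) + mu * (S.g * u : ℕ)
          + (∑ a ∈ range p, rowsG (dec a) (jvec (bdS S) u p a) lam mu
              (sg a + zc S u p a) (sX a) (sQ a)
            - ∑ a ∈ range p, tollG (dec a) (zc S u p a) lam (sg a) (sX a) (sQ a))
          - (padicValNat p (den S u) : ℕ) := by
  have hpp := hp.out.pos
  have hodd : p % 2 = 1 := (hp.out.eq_two_or_odd).resolve_left hp2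
  have hpz : (0 : ℤ) < p := by exact_mod_cast hpp
  have huz : (0 : ℤ) ≤ u := by positivity
  have key : ∀ a : ℕ, ∃ x : Mode × ℤ × ℤ × ℤ, 0 ≤ x.2.1 ∧ |x.2.2.1| ≤ Bt L ∧
      (a < p → (x.1 = .pol ↔ 2 * a < p) ∧
      kapS (lam :: mu :: L) (jvec (bdS S) u p a) ≤ rowsG x.1 (jvec (bdS S) u p a) lam mu
          (x.2.1 + zc S u p a) x.2.2.1 x.2.2.2
        - tollG x.1 (zc S u p a) lam x.2.1 x.2.2.1 x.2.2.2 - lam * zc S u p a
        - refF (jvec (bdS S) u p a)) := by
    intro a
    by_cases ha : a < p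
    · obtain ⟨d, sg, sX, sQ, k1, k2, k3, k4⟩ := kapS_le lam mu L (jvec (bdS S) u p a)
        (js_mono S hpz huz) (zc S u p a) (zJ_jvec ha2 hr1 ha hodd).symm
      rw [js4, jst_pol hpp] at k3
      exact ⟨(d, sg, sX, sQ), k1, k2, fun _ => ⟨k3, k4⟩⟩
    · exact ⟨(.pol, 0, 0, 0), le_rfl, by simpa using Bt_nonneg L, fun h => absurd h ha⟩
  choose x hx1 hx2 hx using key
  refine ⟨fun c => (x c).1, fun c => (x c).2.1, fun c => (x c).2.2.1, fun c => (x c).2.2.2,
    fun a ha => (hx a ha).1, hx1, hx2, ?_⟩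
  have h1 := Finset.sum_le_sum fun c hc => (hx c (Finset.mem_range.mp hc)).2
  rw [Finset.sum_sub_distrib, Finset.sum_sub_distrib, Finset.sum_sub_distrib, ← Finset.mul_sum,
    sum_zc S u p hpp hodd, ha2, hr1] at h1
  have h2 := val_den_le ha2 hr1 hu hW hsu hsv hgc hsp
  push_cast at h1 h2 ⊢
  linarith

end Crest.Agent.R006.P8.Constx529
namespace Crest.Agent.R006.P8.Constx529.Cst
end Crest.Agent.R006.P8.Constx529.Cst
end

-- ▼ part R006/P4Fin_814

set_option autoImplicit false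

/-!
# Row 6, block P4: the class form from the matrix side (helper814)

`constLe_of` : 529's `const_le` in the form `ConstLe`;
`classForm_of_side` : `MatrixSide` gives 365's `ClassForm` for all lists of strips.
-/

namespace Crest.Agent.R006.P4If

open Polynomial Filter Finset Crest.Agent.R006.D Crest.Agent.R006.P8 Crest.Agent.R006.Bordx929
  Crest.Agent.R006.P4Asmx814 Crest.Agent.R006.P4Toll961 Crest.Agent.R006.GaugeP555
  Crest.Agent.R006.P8.RowSumx757

lemma classF_eq {S : Shape} {u p : ℕ} {dec : ℕ → Mode} {lam mu : ℤ} {sg sX sQ : ℕ → ℤ}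
    (hp : 0 < p) (a : ℕ) : classF S u p dec lam mu sg sX sQ a =
      Constx529.rowsG (dec a) (jvec (bdS S) u p a) lam mu (sg a + zc S u p a) (sX a) (sQ a) := by
  rw [classF, kindSum_eq _ _ _ _ _ fun k hk => le_of_mem_kindsF hk hp, Constx529.rowsG]
  congr 1
  refine List.map_congr_left fun k _ => ?_
  refine Finset.sum_congr rfl fun j _ => ?_
  have h := tabK_eq (dec a) k (jvec (bdS S) u p a) j
  simp only [tabK] at h
  rw [h]
  split_ifs <;> rfl

theorem constLe_of {S : Shape} (ha2 : S.a2 = 0) (hr1 : S.r1 = 0) {s : St} (hu : 0 < s.u)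
    (hv : 0 < s.v) (hgc : gcOK S s = true) (hlen : 3 ≤ s.t.length) : ∃ B, ConstLe S s B := by
  obtain ⟨lam, mu, gc, L, ht⟩ : ∃ lam mu gc L, s.t = lam :: mu :: gc :: L := by
    match h : s.t with
    | [] => simp [h] at hlen
    | [_] => simp [h] at hlen
    | [_, _] => simp [h] at hlen
    | lam :: mu :: gc :: L => exact ⟨lam, mu, gc, L, rfl⟩
  refine ⟨Constx529.Bt L, lam, mu, ?_⟩
  have hgc' : max 0 ((S.i1 * s.v - 1) / s.u) ≤ gc := by
    have := of_decide_eq_true hgc
    rwa [ht] at this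
  have huR : (0 : ℝ) < s.u := by exact_mod_cast hu
  have hvR : (0 : ℝ) < s.v := by exact_mod_cast hv
  set x : ℝ := (s.u : ℝ) / s.v with hx
  have hx0 : 0 < x := by positivity
  set K : ℕ := S.a1 + S.k + S.q + S.g + S.i1 with hK
  filter_upwards [(tendsto_natCast_atTop_atTop (R := ℝ)).eventually_ge_atTop (3 / x),
    (tendsto_natCast_atTop_atTop (R := ℝ)).eventually_ge_atTop (K / x ^ 2),
    eventually_gt_atTop 0] with u h3 hKu hu0 p hp hlo
  haveI : Fact p.Prime := ⟨hp⟩
  have hu0R : (0 : ℝ) < u := by exact_mod_cast hu0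
  rw [div_le_iff₀ hx0] at h3
  rw [div_le_iff₀ (by positivity)] at hKu
  have hp3 : 3 < p := by
    have : (3 : ℝ) < p := by linarith
    exact_mod_cast this
  have hKp : K * u < p ^ 2 := by
    have h1 : (K : ℝ) * u ≤ (x * u) ^ 2 := by
      have := mul_le_mul_of_nonneg_right hKu hu0R.le
      nlinarith
    have h2 : (x * u) ^ 2 < (p : ℝ) ^ 2 := pow_lt_pow_left₀ hlo (by positivity) two_ne_zero
    have h4 : ((K * u : ℕ) : ℝ) < ((p ^ 2 : ℕ) : ℝ) := by push_cast; linarith
    exact_mod_cast h4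
  have hW : Constx529.WinOK S u p := by
    constructor
    · exact (Nat.mul_le_mul_right u (by omega)).trans hKp.le
    · exact (Nat.mul_le_mul_right u (by omega)).trans hKp.le
    · exact (Nat.mul_le_mul_right u (by omega)).trans hKp.le
    · exact lt_of_le_of_lt (Nat.mul_le_mul_right u (by omega)) hKp
  have hsp : s.u * u < s.v * p := by
    rw [hx, div_mul_eq_mul_div, div_lt_iff₀ hvR] at hlo
    have : (s.u : ℝ) * u < s.v * p := by linarith
    exact_mod_cast this
  obtain ⟨dec, sg, sX, sQ, h1, _, h5, h6⟩ := Constx529.const_le ha2 hr1 (by omega) hu0 hW lam mu gc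
    L hu hv hgc' hsp
  refine ⟨dec, sg, sX, sQ, ⟨h1⟩, fun a => (le_abs_self _).trans (h5 a), ?_⟩
  refine le_trans (le_of_eq ?_) (h6.trans (le_of_eq ?_))
  · rw [ht]
    rfl
  · rw [Finset.sum_sub_distrib, Finset.sum_congr rfl fun a _ => classF_eq hp.pos a]
    rfl

/-- **P4 for all lists of strips.** -/
theorem classForm_of_side {S : Shape} (hS : S.Good) (h3 : S.e3 = 0) (h3' : S.h3 = 0)
    (ha2 : S.a2 = 0) (hr1 : S.r1 = 0) {c C1 : ℕ} (hMS : MatrixSide S c C1) {L : List St}
    (hL : ∀ s ∈ L.dropLast, 0 < s.u ∧ 0 < s.v ∧ gcOK S s = true ∧ 3 ≤ s.t.length) :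
    ClassForm S c (bdS S) kapT (extT S) L := by
  refine classForm_of hS h3 h3' hMS ?_
  intro s s' hss
  have hmem : s ∈ L.dropLast := by
    obtain ⟨A, B, rfl⟩ := hss
    have : A ++ [s, s'] ++ B = (A ++ [s]) ++ (s' :: B) := by simp
    rw [this, List.dropLast_append_of_ne_nil (by simp)]
    simp
  obtain ⟨h1, h2, h4, h5⟩ := hL s hmem
  refine ⟨?_, constLe_of ha2 hr1 h1 h2 h4 h5⟩
  have hu : (0 : ℝ) < s.u := by exact_mod_cast h1
  have hv : (0 : ℝ) < s.v := by exact_mod_cast h2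
  positivity

/-- **P4 for the frozen shape.** -/
theorem classForm_SN {C1 : ℕ} (hMS : MatrixSide SN 40 C1) {L : List St}
    (hL : ∀ s ∈ L.dropLast, 0 < s.u ∧ 0 < s.v ∧ gcOK SN s = true ∧ 3 ≤ s.t.length) :
    ClassForm SN 40 (bdS SN) kapT (extT SN) L :=
  classForm_of_side SN_good rfl rfl rfl rfl hMS hL

end Crest.Agent.R006.P4If
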