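import Crest.Agent.R006.P4M_GW_830
import Crest.Agent.R006.P4SideCls_110
import Crest.Agent.R006.P4Iface_814
import Crest.Agent.R006.P4SideOp_226
import Crest.Agent.R006.P4SidePsi_938

-- ▼ part R006/P4SideTab_830
section

/-!
# Row 6, block P4, matrix side (helper830): the cost tables of the rows

`tabU` = table without the record `polC`.  On 955's `Dat`:

* `psS` : the choice of the germs;
* `rowA_pol`, `rowB`, `rowC_pol` : the fields `A`, `B`, `C` of `Tables` for the unreduced rows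
  (`dec = pol`; `rowB` for all modes);

* `reduced` : the reduced row, record `kG.polC`.
-/

set_option autoImplicit false

namespace Crest.Agent.R006.P4M

open Polynomial Finset Tollx814 P4Toll961
open Crest.Agent.R006.D Crest.Agent.R006.PsiInf Crest.Agent.R006.P8 Crest.Agent.R006.P4If
open Crest.Agent.R006.P4M531 (pt cst phi linB BB)

/-- the records without `polC` -/
def tabU (d : Mode) (k : Kind) (j : ℤ) : Row3 :=
  match d with
  | .pol => if j = k.j0 then k.polS else k.pol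
  | .rA => if j = k.j0 then k.regS else k.reg
  | .rB => if j = k.j0 then k.regBS else k.regB

lemma kindR_cases (ρ : D.Row) : kindR ρ = kG ∨ kindR ρ = kE1 ∨ kindR ρ = kE2 ∨ kindR ρ = kH1 ∨
    kindR ρ = kH2 ∨ kindR ρ = kW := by
  rcases ρ with ⟨i | i, o⟩
  · simp only [kindR]
    split_ifs <;> simp
  · simp only [kindR]
    split_ifs <;> simp

/-- the record `polC` differs from `polS` for `kG` only -/
lemma tabK_eq_tabU (d : Mode) (ρ : D.Row) (js : List ℤ) (j : ℤ)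
    (h : ¬ (d = .pol ∧ kindR ρ = kG ∧ j = 0 ∧ kG.cond js = true)) :
    tabK d (kindR ρ) js j = tabU d (kindR ρ) j := by
  rcases d with _ | _ | _
  · simp only [tabK, Kind.row3, tabU]
    split_ifs with h1 h2
    · rcases kindR_cases ρ with hk | hk | hk | hk | hk | hk
      · exfalso
        rw [hk] at h1 h2
        exact h ⟨rfl, hk, h1, h2⟩
      all_goals rw [hk]; rfl
    · rfl
    · rfl
  · rfl
  · rfl

lemma tabK_polC {ρ : D.Row} {js : List ℤ} {j : ℤ} (hk : kindR ρ = kG) (hj : j = 0)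
    (hc : kG.cond js = true) : tabK .pol (kindR ρ) js j = kG.polC := by
  rw [hk]
  simp only [tabK, Kind.row3]
  rw [if_pos (by rw [hj]; rfl), if_pos hc]

/-- **the choice of the germs**: `gB` is used in the `W` rows of the classes with `dec = rB` -/
noncomputable def psS {p : ℕ} (e : Fin p → ℚ[X]) (M : ℕ) (c : Fin p) (d : Mode) (gB : BB)
    (z : Site) : BB :=
  match z with
  | .Z i => psi' e M c (.Z i)
  | .H i => if 0 ≤ i then psi' e M c (.H i) else
      match d with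
      | .pol => psi' e M c (.Z ((c : ℕ) : ℤ))
      | .rA => 0
      | .rB => gB

lemma psS_Z {p : ℕ} (e : Fin p → ℚ[X]) (M : ℕ) (c : Fin p) (d : Mode) (gB : BB) (i : ℤ) :
    psS e M c d gB (.Z i) = psi' e M c (.Z i) := rfl

lemma psS_H {p : ℕ} (e : Fin p → ℚ[X]) (M : ℕ) (c : Fin p) (d : Mode) (gB : BB) {i : ℤ}
    (hi : 0 ≤ i) : psS e M c d gB (.H i) = psi' e M c (.H i) := by
  simp only [psS, if_pos hi]

lemma psS_W {p : ℕ} (e : Fin p → ℚ[X]) (M : ℕ) (c : Fin p) (d : Mode) (gB : BB) {i : ℤ}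
    (hi : i < 0) : psS e M c d gB (.H i) =
      match d with
      | .pol => psi' e M c (.Z ((c : ℕ) : ℤ))
      | .rA => 0
      | .rB => gB := by
  simp only [psS, if_neg (not_le.mpr hi)]

namespace Dat

variable {p : ℕ} [hp : Fact p.Prime] {jR jT jQ jU ι : Type*} {D : Dat p jR jT jQ jU ι}
  {z : ℕ → ℕ} {NL : ℕ}

/-- standing facts for one row -/
structure RowF (D : Dat p jR jT jQ jU ι) (i : ι) : Prop where
  h5 : 5 ≤ p
  cs : (D.cs i : ℕ) = cl p (D.ro i).1
  inR : InR p (D.ro i).1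
  ord : (D.ro i).2 ≤ 1
  ordZ : ∀ n : ℤ, (D.ro i).1 = .Z n → 0 ≤ n → (D.ro i).2 = 0
  ordH : ∀ n : ℤ, (D.ro i).1 = .H n → n < 0 → (D.ro i).2 = 0

namespace RowF

variable {i : ι}

lemma h2 (h : D.RowF i) : p ≠ 2 := by have := h.h5; omega

lemma odd (h : D.RowF i) : p % 2 = 1 := P4SideCls110.odd_of_prime h.h5

lemma csS (h : D.RowF i) : (D.cs i : ℕ) = clsS p (D.ro i).1 := by
  rw [h.cs, P4SideCls110.cl_eq h.odd]

/-- order and kind -/
lemma kind_cases (h : D.RowF i) :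
    (kindR (D.ro i) = kG ∧ (D.ro i).2 = 0 ∧ ∃ n : ℤ, (D.ro i).1 = .Z n ∧ 0 ≤ n) ∨
    (kindR (D.ro i) = kE1 ∧ (D.ro i).2 = 0 ∧ ∃ m : ℕ, (D.ro i).1 = .Z (-(m : ℤ)) ∧ 0 < m) ∨
    (kindR (D.ro i) = kE2 ∧ (D.ro i).2 = 1 ∧ ∃ m : ℕ, (D.ro i).1 = .Z (-(m : ℤ)) ∧ 0 < m) ∨
    (kindR (D.ro i) = kH1 ∧ (D.ro i).2 = 0 ∧ ∃ l : ℕ, (D.ro i).1 = .H (l : ℤ)) ∨
    (kindR (D.ro i) = kH2 ∧ (D.ro i).2 = 1 ∧ ∃ l : ℕ, (D.ro i).1 = .H (l : ℤ)) ∨
    (kindR (D.ro i) = kW ∧ (D.ro i).2 = 0 ∧ ∃ n : ℤ, (D.ro i).1 = .H n ∧ n < 0) := by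
  have ho := h.ord
  have hZ := h.ordZ
  have hH := h.ordH
  rcases hr : D.ro i with ⟨n | n, o⟩
  · rw [hr] at ho hZ hH
    simp only [kindR]
    by_cases hn : 0 ≤ n
    · left
      rw [if_pos hn]
      exact ⟨rfl, hZ n rfl hn, n, rfl, hn⟩
    · right
      rw [if_neg hn]
      have e : n = -((n.natAbs : ℕ) : ℤ) := by omega
      by_cases h0 : o = 0
      · left
        rw [if_pos h0]
        exact ⟨rfl, h0, n.natAbs, by rw [← e], by omega⟩
      · right; left
        rw [if_neg h0]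
        exact ⟨rfl, by simp only at ho ⊢; omega, n.natAbs, by rw [← e], by omega⟩
  · rw [hr] at ho hZ hH
    simp only [kindR]
    by_cases hn : 0 ≤ n
    · have e : n = ((n.natAbs : ℕ) : ℤ) := by omega
      right; right; right
      rw [if_pos hn]
      by_cases h0 : o = 0
      · left
        rw [if_pos h0]
        exact ⟨rfl, h0, n.natAbs, by rw [← e]⟩
      · right; left
        rw [if_neg h0]
        exact ⟨rfl, by simp only at ho ⊢; omega, n.natAbs, by rw [← e]⟩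
    · right; right; right; right; right
      rw [if_neg hn]
      exact ⟨rfl, hH n rfl (by omega), n, rfl, by omega⟩

/-! ### polar classes -/

lemma psS_mem (h : D.RowF i) (L : LocalInput p NL D.M D.e) (hpol : 2 * (D.cs i : ℕ) < p)
    (gB : BB) : psS D.e D.M (D.cs i) .pol gB (D.ro i).1 ∈ (psFil (pbFil p)).F (-2) := by
  have hR := h.inR
  have hc := h.cs
  rcases hr : (D.ro i).1 with n | n
  · rw [psS_Z]
    rw [hr] at hR hc
    exact L.psi_polar _ _ hR hc hpol (by intro j hj; cases hj)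
  · by_cases hn : 0 ≤ n
    · rw [psS_H _ _ _ _ _ hn]
      rw [hr] at hR hc
      refine L.psi_polar _ _ hR hc hpol ?_
      intro j hj
      cases hj
      exact hn
    · rw [psS_W _ _ _ _ _ (by omega)]
      exact (psFil (pbFil p)).mono (by norm_num) (L.psi_zero _ _ rfl hpol)

/-- **field `A`, polar classes, unreduced rows** -/
theorem rowA_pol (h : D.RowF i) (L : LocalInput p NL D.M D.e) (hNL : D.G + D.Nb ≤ NL)
    (hz : D.Zer z) (hpol : 2 * (D.cs i : ℕ) < p) {gB : BB}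
    (hps : D.ps i = psS D.e D.M (D.cs i) .pol gB (D.ro i).1) (l : ℕ) :
    D.cA0 i l ∈ (pbFil p).F ((tabU .pol (kindR (D.ro i)) (jS p (D.ro i).1)).R.a +
      pos ((l : ℤ) + z (D.cs i) - (tabU .pol (kindR (D.ro i)) (jS p (D.ro i).1)).R.b)) := by
  have h1 : ∀ v : ℤ, v ≤ (l : ℤ) + z (D.cs i) - 2 - (D.ro i).2 → D.cA0 i l ∈ (pbFil p).F v :=
    fun v hv => (pbFil p).mono hv (cA0_polar L hNL h.h2 hz i h.cs hpol
      (by rw [hps]; exact h.psS_mem L hpol gB) l)
  have h0 : D.ps i ∈ (psFil (pbFil p)).F 0 → ∀ v : ℤ,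
      v ≤ max 0 ((l : ℤ) + z (D.cs i) - 2) - (D.ro i).2 → D.cA0 i l ∈ (pbFil p).F v :=
    fun hp0 v hv => (pbFil p).mono hv (cA0_polar0 L hNL h.h2 hz i h.cs hpol hp0 l)
  rcases h.kind_cases with ⟨hk, ho, n, hn, hn0⟩ | ⟨hk, ho, n, hn, hn0⟩ | ⟨hk, ho, n, hn, hn0⟩ |
    ⟨hk, ho, n, hn⟩ | ⟨hk, ho, n, hn⟩ | ⟨hk, ho, n, hn, hn0⟩
  · rw [hk]
    by_cases hj : jS p (D.ro i).1 = 0
    · have e : tabU .pol kG (jS p (D.ro i).1) = kG.polS := by
        simp only [tabU]
        rw [if_pos (by rw [hj]; rfl)]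
      rw [e]
      have hcl : ((D.cs i : ℕ) : ℤ) = n := by
        rw [h.csS, hn]
        rw [hn] at hj
        exact (P4SideCls110.jS_Z_zero h.odd n).mp hj
      refine h0 ?_ _ ?_
      · rw [hps, hn, psS_Z, ← hcl]
        exact L.psi_zero _ _ rfl hpol
      · simp only [kG, pos]
        omega
    · have e : tabU .pol kG (jS p (D.ro i).1) = kG.pol := by
        simp only [tabU]
        rw [if_neg (by intro h'; exact hj h')]
      rw [e]
      refine h1 _ ?_
      simp only [kG, pos]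
      omega
  · have e : tabU .pol kE1 (jS p (D.ro i).1) = kE1.pol := by
      simp only [tabU]; split_ifs <;> rfl
    rw [hk, e]
    refine h1 _ ?_
    simp only [kE1, pos]
    omega
  · have e : tabU .pol kE2 (jS p (D.ro i).1) = kE2.pol := by
      simp only [tabU]; split_ifs <;> rfl
    rw [hk, e]
    refine h1 _ ?_
    simp only [kE2, pos]
    omega
  · have e : tabU .pol kH1 (jS p (D.ro i).1) = kH1.pol := by
      simp only [tabU]; split_ifs <;> rfl
    rw [hk, e]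
    refine h1 _ ?_
    simp only [kH1, pos]
    omega
  · have e : tabU .pol kH2 (jS p (D.ro i).1) = kH2.pol := by
      simp only [tabU]; split_ifs <;> rfl
    rw [hk, e]
    refine h1 _ ?_
    simp only [kH2, pos]
    omega
  · have e : tabU .pol kW (jS p (D.ro i).1) = kW.pol := by
      simp only [tabU]; split_ifs <;> rfl
    rw [hk, e]
    refine h0 ?_ _ ?_
    · rw [hps, hn, psS_W _ _ _ _ _ hn0]
      exact L.psi_zero _ _ rfl hpol
    · simp only [kW, pos]
      omega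

/-- **field `B`, unreduced rows**, all modes -/
theorem rowB (h : D.RowF i) (d : Mode) (s : ℕ) :
    D.cB0 i s ∈ (pbFil p).F ((tabU d (kindR (D.ro i)) (jS p (D.ro i).1)).X.a +
      pos ((s : ℤ) - (tabU d (kindR (D.ro i)) (jS p (D.ro i).1)).X.b)) := by
  have h1 := cB0_mem h.h2 i h.cs s
  have key : ∀ k : Kind, ((tabU d k (jS p (D.ro i).1)).X = k.pol.X ∨
      (tabU d k (jS p (D.ro i).1)).X = k.polS.X ∨ (tabU d k (jS p (D.ro i).1)).X = k.reg.X ∨
      (tabU d k (jS p (D.ro i).1)).X = k.regS.X ∨ (tabU d k (jS p (D.ro i).1)).X = k.regB.X ∨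
      (tabU d k (jS p (D.ro i).1)).X = k.regBS.X) := by
    intro k
    rcases d with _ | _ | _ <;> simp only [tabU] <;> split_ifs <;> simp
  rcases h.kind_cases with ⟨hk, ho, n, hn, hn0⟩ | ⟨hk, ho, n, hn, hn0⟩ | ⟨hk, ho, n, hn, hn0⟩ |
    ⟨hk, ho, n, hn⟩ | ⟨hk, ho, n, hn⟩ | ⟨hk, ho, n, hn, hn0⟩
  · rw [hk]
    refine (pbFil p).mono ?_ h1
    rcases key kG with e | e | e | e | e | e <;> rw [e] <;> simp only [kG, pos] <;> omega
  · rw [hk]
    refine (pbFil p).mono ?_ h1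
    rcases key kE1 with e | e | e | e | e | e <;> rw [e] <;> simp only [kE1, pos] <;> omega
  · rw [hk]
    refine (pbFil p).mono ?_ h1
    rcases key kE2 with e | e | e | e | e | e <;> rw [e] <;> simp only [kE2, pos] <;> omega
  · rw [hk]
    refine (pbFil p).mono ?_ h1
    rcases key kH1 with e | e | e | e | e | e <;> rw [e] <;> simp only [kH1, pos] <;> omega
  · rw [hk]
    refine (pbFil p).mono ?_ h1
    rcases key kH2 with e | e | e | e | e | e <;> rw [e] <;> simp only [kH2, pos] <;> omega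
  · rw [hk]
    refine (pbFil p).mono ?_ h1
    rcases key kW with e | e | e | e | e | e <;> rw [e] <;> simp only [kW, pos] <;> omega

/-- `g` vanishes in the `E` and `H` rows -/
lemma cC_zero (h : D.RowF i) (hG : GamOrd)
    (hs : (∃ m : ℕ, (D.ro i).1 = .Z (-(m : ℤ)) ∧ 0 < m) ∨ ∃ l : ℕ, (D.ro i).1 = .H (l : ℤ))
    (u : ℕ) : D.cC0 i u = 0 := by
  refine cC0_zero i ?_ u
  have ho := h.ord
  have h2 : (PowerSeries.X : PowerSeries ℚ) ^ ((D.ro i).2 + 1) ∣ PowerSeries.X ^ 2 :=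
    pow_dvd_pow _ (by omega)
  rcases hs with ⟨m, hm, hm0⟩ | ⟨l, hl⟩
  · rw [hm]; exact h2.trans (hG.1 m hm0)
  · rw [hl]; exact h2.trans (hG.2 l)

/-- **field `C`, polar classes, unreduced rows** -/
theorem rowC_pol (h : D.RowF i) (L : LocalInput p NL D.M D.e) (hG : GamOrd)
    (hpol : 2 * (D.cs i : ℕ) < p) (u : ℕ) :
    D.cC0 i u ∈ (pbFil p).F ((tabU .pol (kindR (D.ro i)) (jS p (D.ro i).1)).Q.a +
      pos ((u : ℤ) - (tabU .pol (kindR (D.ro i)) (jS p (D.ro i).1)).Q.b)) := by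
  have h1 := cC0_mem h.h2 i h.cs (w := 0) (L.gam_polar _ _ h.inR h.cs hpol) u
  rcases h.kind_cases with ⟨hk, ho, n, hn, hn0⟩ | ⟨hk, ho, n, hn, hn0⟩ | ⟨hk, ho, n, hn, hn0⟩ |
    ⟨hk, ho, n, hn⟩ | ⟨hk, ho, n, hn⟩ | ⟨hk, ho, n, hn, hn0⟩
  · rw [hk]
    refine (pbFil p).mono ?_ h1
    simp only [tabU]
    split_ifs <;> simp only [kG, pos] <;> omega
  · rw [h.cC_zero hG (Or.inl ⟨n, hn, hn0⟩) u]; exact AddSubgroup.zero_mem _
  · rw [h.cC_zero hG (Or.inl ⟨n, hn, hn0⟩) u]; exact AddSubgroup.zero_mem _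
  · rw [h.cC_zero hG (Or.inr ⟨n, hn⟩) u]; exact AddSubgroup.zero_mem _
  · rw [h.cC_zero hG (Or.inr ⟨n, hn⟩) u]; exact AddSubgroup.zero_mem _
  · rw [hk]
    refine (pbFil p).mono ?_ h1
    simp only [tabU]
    split_ifs <;> simp only [kW, pos] <;> omega

end RowF

/-! ### the reduced row -/

/-- **the reduced row**: record `kG.polC` -/
theorem reduced {i j : ι} (hi : D.RowF i) (hj : D.RowF j) (L : LocalInput p NL D.M D.e)
    (hNL : D.G + D.Nb ≤ NL) (hz : D.Zer z) {l' : ℕ} (hl' : l' ≤ (p - 1) / 2)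
    (hri : D.ro i = (.Z ((((p - 1) / 2 : ℕ) : ℤ) - l'), 0))
    (hrj : D.ro j = (.H (-1 - (l' : ℤ)), 0)) {gB : BB}
    (hpi : D.ps i = psS D.e D.M (D.cs i) .pol gB (D.ro i).1)
    (hpj : D.ps j = psS D.e D.M (D.cs j) .pol gB (D.ro j).1) (l : ℕ) :
    D.cA0 i l - D.cA0 j l ∈ (pbFil p).F (kG.polC.R.a +
      pos ((l : ℤ) + z (D.cs i) - kG.polC.R.b)) ∧
    D.cB0 i l - D.cB0 j l ∈ (pbFil p).F (kG.polC.X.a + pos ((l : ℤ) - kG.polC.X.b)) ∧
    D.cC0 i l - D.cC0 j l ∈ (pbFil p).F (kG.polC.Q.a + pos ((l : ℤ) - kG.polC.Q.b)) ∧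
    D.cs j = D.cs i := by
  have hodd := hi.odd
  have hci : (D.cs i : ℕ) = (p - 1) / 2 - l' := by
    rw [hi.cs, hri, cl]
    have e : (((p - 1) / 2 : ℕ) : ℤ) - l' = (((p - 1) / 2 - l' : ℕ) : ℤ) := by omega
    rw [e, Int.emod_eq_of_lt (by omega) (by omega)]
    rfl
  have hcj : (D.cs j : ℕ) = (p - 1) / 2 - l' := by
    rw [hj.cs, hrj, cl]
    have e : (-1 - (l' : ℤ) + ((p + 1) / 2 : ℕ)) = (((p - 1) / 2 - l' : ℕ) : ℤ) := by omega
    rw [e, Int.emod_eq_of_lt (by omega) (by omega)]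
    rfl
  have hcc : D.cs j = D.cs i := Fin.ext (by rw [hci, hcj])
  have hp2 : p = 2 * ((p - 1) / 2) + 1 := by omega
  have h1 := gw_table (z := z) L hNL hz hp2 hl' hri hrj hci hcc
    (by rw [hpi, hri, psS_Z]) (by
      rw [hpj, hpi, hri, hrj, psS_Z, psS_W _ _ _ _ _ (by omega), hcc]
      simp only [hci]
      congr 1
      simp only [Site.Z.injEq]
      omega) hj.inR hj.cs l
  exact ⟨h1.1, h1.2.1, h1.2.2, hcc⟩

end Dat

end Crest.Agent.R006.P4M
private theorem rz_5ca295537b : type_of% @_root_.Crest.Agent.R006.P4M.psS.eq_1 := @_root_.Crest.Agent.R006.P4M.psS.eq_1 -- L64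
private theorem rz_e469c7ab0a : type_of% @_root_.Crest.Agent.R006.P4M.tabU.eq_1 := @_root_.Crest.Agent.R006.P4M.tabU.eq_1 -- L26
end

-- ▼ part R006/P4SideGlue_830

/-!
# Row 6, block P4, matrix side (helper830): glue for the fields `A`, `B`, `B0`, `C` of `Tables`

For 955's `D : Dat` with `D.ro x = ofRow u c x`, `(D.cs x : ℕ) = clsS p (ofRow u c x).1` and
`R := partRows (D.Rows0 nr) (gwPartner S u c hS ((p-1)/2))`.

* `rowF_of` : the standing facts `Dat.RowF`;
* `partner_none_reg`, `tabX_none`, `tabX_some`;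
* `fieldB`, `fieldB0`, `fieldC` : all modes;
* `fieldA_pol` : polar classes; `fieldA` : all classes from the bound of `Rows0.cA` in the regular
  classes.
-/

set_option autoImplicit false

namespace Crest.Agent.R006.P4M

open Polynomial Finset Tollx814 P4Toll961
open Crest.Agent.R006.D Crest.Agent.R006.PsiInf Crest.Agent.R006.P8 Crest.Agent.R006.P4If
open Crest.Agent.R006.Bordx929 Crest.Agent.R006.P4Asmx814 Crest.Agent.R006.P4GW657
open Crest.Agent.R006.GaugeP555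
open Crest.Agent.R006.P4M531 (pt cst phi linB BB)

namespace Dat

section regular

variable {p : ℕ} [hp : Fact p.Prime] {jR jT jQ jU ι : Type*} {D : Dat p jR jT jQ jU ι}
  {NL : ℕ} {i : ι}



end regular

section glue

variable {p : ℕ} [hp : Fact p.Prime] {S : Shape} {u c : ℕ} {jR jT jQ jU : Type*}
  {D : Dat p jR jT jQ jU (RI S u c)} {NL : ℕ}

/-- (1) the standing facts -/
theorem rowF_of (hS : S.Good) (he : S.e3 = 0) (hh : S.h3 = 0) (h5 : 5 ≤ p)
    (hC : (2 * (S.B + S.e1 + S.h1 + S.w + c) + 8) * (u + 1) < p ^ 2)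
    (hro : ∀ x, D.ro x = ofRow u c x) (hcs : ∀ x, (D.cs x : ℕ) = clsS p (ofRow u c x).1)
    (x : RI S u c) : D.RowF x where
  h5 := h5
  cs := by rw [hcs, hro, P4SideCls110.cl_eq (P4SideCls110.odd_of_prime h5)]
  inR := by rw [hro]; exact P4SideCls110.inR_row hC x
  ord := by rw [hro]; exact P4M938.order_le_one he hh x
  ordZ := by
    intro n hn hn0
    rw [hro] at hn ⊢
    exact P4M938.order_Z_nonneg x hn hn0
  ordH := by
    intro n hn hn0
    rw [hro] at hn ⊢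
    exact (P4M938.order_H_neg x hn hn0).1

/-- the partner row, all facts -/
lemma partner_some (h5 : 5 ≤ p) (hS : S.Good) {x y : RI S u c}
    (hxy : gwPartner S u c hS ((p - 1) / 2) x = some y) :
    ∃ l : ℕ, l ≤ (p - 1) / 2 ∧ l < S.w * u ∧
      ofRow u c x = (.Z ((((p - 1) / 2 : ℕ) : ℤ) - l), 0) ∧
      ofRow u c y = (.H (-1 - (l : ℤ)), 0) ∧
      clsS p (ofRow u c x).1 = (p - 1) / 2 - l ∧ jS p (ofRow u c x).1 = 0 := by
  obtain ⟨l, hl, hlw, hx, hy⟩ := gwPartner_some S u c hS ((p - 1) / 2) hxy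
  have hodd := P4SideCls110.odd_of_prime (p := p) h5
  have h1 := P4SideCls110.cls_jS_Z (p := p) hodd (a := (p - 1) / 2 - l)
    (i := (((p - 1) / 2 : ℕ) : ℤ) - l) (j := 0) (by omega) (by
      rw [zero_mul, add_zero, Nat.cast_sub hl])
  refine ⟨l, hl, hlw, hx, hy, ?_, ?_⟩
  · rw [hx]; exact h1.1
  · rw [hx]; exact h1.2


/-- the record of an unreduced row -/
theorem tabX_none (h5 : 5 ≤ p) (hS : S.Good) {dec : ℕ → Mode} (hdec : DecOK S u p dec)
    {x : RI S u c} (hx : gwPartner S u c hS ((p - 1) / 2) x = none) :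
    tabX S u p dec (ofRow u c x) = tabU (dec (clsS p (ofRow u c x).1)) (kindR (ofRow u c x))
      (jS p (ofRow u c x).1) := by
  have hodd := P4SideCls110.odd_of_prime (p := p) h5
  refine tabK_eq_tabU _ _ _ _ ?_
  rintro ⟨hd, hk, hj, hc⟩
  have hcp : 2 * clsS p (ofRow u c x).1 < p := (hdec.pol _
    (P4SideCls110.clsS_lt (by omega) _)).mp hd
  have hlt := P4SideCls110.cond_lt hodd hc hcp
  -- the site is `Z n`
  have hsite : ∃ n : ℤ, (ofRow u c x).1 = .Z n := by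
    rcases hr : ofRow u c x with ⟨n | n, o⟩
    · exact ⟨n, rfl⟩
    · exfalso
      rw [hr] at hk
      simp only [kindR] at hk
      split_ifs at hk
      all_goals
        have h10 := congrArg Kind.ia hk
        simp [kG, kH1, kH2, kW] at h10
  obtain ⟨n, hn⟩ := hsite
  have hcl : ((clsS p (ofRow u c x).1 : ℕ) : ℤ) = n := by
    rw [hn] at hj ⊢
    exact (P4SideCls110.jS_Z_zero hodd n).mp hj
  have h9 := gwPartner_none S u c hS ((p - 1) / 2) hx
    (l := (p - 1) / 2 - clsS p (ofRow u c x).1) (by omega) hlt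
  apply h9
  change (ofRow u c x).1 = _
  have e : n = (((p - 1) / 2 : ℕ) : ℤ) - (((p - 1) / 2 - clsS p (ofRow u c x).1 : ℕ) : ℤ) := by
    omega
  rw [← e]
  exact hn

/-- the record of a reduced row -/
theorem tabX_some (h5 : 5 ≤ p) (hS : S.Good) {dec : ℕ → Mode} (hdec : DecOK S u p dec)
    {x y : RI S u c} (hxy : gwPartner S u c hS ((p - 1) / 2) x = some y) :
    tabX S u p dec (ofRow u c x) = kG.polC := by
  have hodd := P4SideCls110.odd_of_prime (p := p) h5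
  obtain ⟨l, hl, hlw, hx, hy, hcl, hj⟩ := partner_some h5 hS hxy
  have hpol : dec (clsS p (ofRow u c x).1) = .pol :=
    (hdec.pol _ (P4SideCls110.clsS_lt (by omega) _)).mpr (by rw [hcl]; omega)
  rw [tabX, hpol]
  refine tabK_polC ?_ hj ?_
  · rw [hx]
    simp only [kindR]
    rw [if_pos (by omega)]
  · refine P4SideCls110.cond_of_lt hodd (by rw [hcl]; omega) ?_
    rw [hcl]
    omega

variable {z : ℕ → ℕ}

/-- **(2) the reduced rows** -/
theorem field_red (hS : S.Good) (he : S.e3 = 0) (hh : S.h3 = 0) (h5 : 5 ≤ p)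
    (hC : (2 * (S.B + S.e1 + S.h1 + S.w + c) + 8) * (u + 1) < p ^ 2)
    (hro : ∀ x, D.ro x = ofRow u c x) (hcs : ∀ x, (D.cs x : ℕ) = clsS p (ofRow u c x).1)
    {dec : ℕ → Mode} (hdec : DecOK S u p dec) (L : LocalInput p NL D.M D.e)
    (hNL : D.G + D.Nb ≤ NL) (hz : D.Zer z) {gB : RI S u c → BB}
    (hps : ∀ x, D.ps x = psS D.e D.M (D.cs x) (dec (clsS p (ofRow u c x).1)) (gB x)
      (ofRow u c x).1)
    {x y : RI S u c} (hxy : gwPartner S u c hS ((p - 1) / 2) x = some y) (l : ℕ) :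
    D.cA0 x l - D.cA0 y l ∈ (pbFil p).F ((tabX S u p dec (ofRow u c x)).R.a +
      pos ((l : ℤ) + z (D.cs x) - (tabX S u p dec (ofRow u c x)).R.b)) ∧
    D.cB0 x l - D.cB0 y l ∈ (pbFil p).F ((tabX S u p dec (ofRow u c x)).X.a +
      pos ((l : ℤ) - (tabX S u p dec (ofRow u c x)).X.b)) ∧
    D.cC0 x l - D.cC0 y l ∈ (pbFil p).F ((tabX S u p dec (ofRow u c x)).Q.a +
      pos ((l : ℤ) - (tabX S u p dec (ofRow u c x)).Q.b)) ∧
    D.cs y = D.cs x := by
  have hodd := P4SideCls110.odd_of_prime (p := p) h5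
  rw [tabX_some h5 hS hdec hxy]
  obtain ⟨l', hl', hlw, hx, hy, hcl, hj⟩ := partner_some h5 hS hxy
  have hFx := rowF_of hS he hh h5 hC hro hcs x
  have hFy := rowF_of hS he hh h5 hC hro hcs y
  have hcy : clsS p (ofRow u c y).1 = (p - 1) / 2 - l' := by
    rw [hy]
    exact (P4SideCls110.cls_jS_H (p := p) hodd (a := (p - 1) / 2 - l')
      (i := -1 - (l' : ℤ)) (j := -1) (by omega) (by omega)).1
  have hpx : dec (clsS p (ofRow u c x).1) = .pol :=
    (hdec.pol _ (P4SideCls110.clsS_lt (by omega) _)).mpr (by rw [hcl]; omega)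
  have hpy : dec (clsS p (ofRow u c y).1) = .pol :=
    (hdec.pol _ (P4SideCls110.clsS_lt (by omega) _)).mpr (by rw [hcy]; omega)
  refine reduced (gB := 0) hFx hFy L hNL hz hl' (by rw [hro, hx]) (by rw [hro, hy]) ?_ ?_ l
  · rw [hps, hpx, hro, hx]
    rfl
  · rw [hps, hpy, hro, hy, psS_W _ _ _ _ _ (by omega), psS_W _ _ _ _ _ (by omega)]

variable {nr : Fin p → Fin D.N → Fin D.N → ℚ[X]}


end glue

end Dat

end Crest.Agent.R006.P4M
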