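import Crest.Agent.R006.P6Stmt_784
import Crest.Agent.R006.Toll_814
import Crest.Agent.R006.P6V_784
import Crest.Agent.R006.P6Weights_153

-- ▼ part R006/P6Toll_784
section

/-!
# Row 6, block P6: the toll bound for `PB` (helper784)
-/

set_option autoImplicit false

namespace Crest.Agent.R006.P6

open Polynomial Crest.Agent.R006.ProdBound481

/-- the Gauss filtration as a `ZFil` -/
def filPB (p : ℕ) [Fact p.Prime] : Tollx814.ZFil ℚ[X] where
  F v :=
    { carrier := {P | PB p v P}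
      add_mem' := fun h1 h2 => PB.add h1 h2
      zero_mem' := PB.zero v
      neg_mem' := fun h => PB.neg h }
  anti := fun h _ hx => PB.mono hx h
  mul_mem := fun h1 h2 => PB.mul h1 h2
  one_mem := PB.one

variable {p : ℕ} [hp : Fact p.Prime]

/-- **Toll bound.** `M = X * Y` through the states `s`. -/
theorem PB_det_toll {ι S : Type*} [Fintype ι] [DecidableEq ι] [Fintype S]
    (M : Matrix ι ι ℚ[X]) (X : ι → S → ℚ[X]) (Y : S → ι → ℚ[X])
    (hM : ∀ i j, M i j = ∑ s, X i s * Y s j)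
    (π E : ι → ℤ) (D σ : S → ℤ) (hσ : ∀ s, 0 ≤ σ s)
    (hX : ∀ i s, PB p (π i - D s - σ s) (X i s))
    (hY : ∀ s j, PB p (D s + E j) (Y s j)) :
    PB p (∑ i, π i - ∑ s, σ s + ∑ j, E j) M.det := by
  have hMeq : M = Matrix.of fun i j => ∑ s, X i s * Y s j := by
    ext1 i j
    rw [Matrix.of_apply, hM]
  rw [hMeq]
  exact Tollx814.det_toll_one (filPB p) π D σ hσ X Y (∑ j, E j) hX
    (fun ψ _ => by
      have h := PB_det (p := p) (Matrix.of fun i j => Y (ψ i) j) (fun i => D (ψ i)) E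
        (fun i j => hY (ψ i) j)
      rw [add_comm] at h
      exact h)

end Crest.Agent.R006.P6
end

-- ▼ part R006/P6Core_784
section

/-!
# Row 6, block P6: states and the entrywise table (helper784)

Columns `Fin nR ⊕ Fin nT ⊕ Fin nQ`, rows `r i : Row` (sites with orders).  States
`(tag, l)`, `l < L`, tags `R, T, Q, TH, QH`, and one error state per row.
-/

set_option autoImplicit false

namespace Crest.Agent.R006.P6

open Polynomial Crest.Agent.R006.NV Crest.Agent.R006.PsiInf Crest.Agent.R006.D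
open Crest.Agent.R006.ProdBound481

/-- kinds of states -/
inductive Tag
  | R | T | Q | TH | QH
  deriving DecidableEq, Fintype

lemma sum_tag {A : Type*} [AddCommMonoid A] (f : Tag → A) :
    ∑ t, f t = f .R + f .T + f .Q + f .TH + f .QH := by
  have h : (Finset.univ : Finset Tag) = {.R, .T, .Q, .TH, .QH} := rfl
  rw [h]
  rw [Finset.sum_insert (by decide), Finset.sum_insert (by decide), Finset.sum_insert (by decide),
    Finset.sum_insert (by decide), Finset.sum_singleton]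
  simp only [add_assoc]

/-- value of the state `(t, l)` at the row `ρ` -/
noncomputable def Xst (γ : ℚ) (ρ2 : ℚ[X]) (ρ : Row) : Tag → ℕ → ℚ[X]
  | .R, l => match ρ.1 with
    | .Z i => (C γ - X) * C (PowerSeries.coeff ρ.2 (gm (i : ℚ) (ρ2 * bin l) * HomZ i))
    | .H _ => 0
  | .T, l => match ρ.1 with
    | .Z i => C (PowerSeries.coeff ρ.2 (gm (i : ℚ) (bin l)))
    | .H _ => 0
  | .Q, l => match ρ.1 with
    | .Z i => C (PowerSeries.coeff ρ.2 (gm (i : ℚ) (bin l) * GamZ i))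
    | .H _ => 0
  | .TH, l => match ρ.1 with
    | .Z _ => 0
    | .H i => C (PowerSeries.coeff ρ.2 (gm (i : ℚ) (bin l)))
  | .QH, l => match ρ.1 with
    | .Z _ => 0
    | .H i => C (PowerSeries.coeff ρ.2 (gm (i : ℚ) (bin l) * GamH i))

variable {nR nT nQ : ℕ}

/-- coordinates of the columns in the states -/
noncomputable def Yst (aR dR wR : Fin nR → ℕ → ℚ) (bb : ℕ → ℕ → ℚ) :
    Tag → ℕ → (Fin nR ⊕ Fin nT ⊕ Fin nQ) → ℚ[X]
  | .R, l => Sum.elim (fun j => C (aR j l)) (fun _ => 0)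
  | .T, l => Sum.elim (fun j => C (dR j l))
      (Sum.elim (fun l' => if (l' : ℕ) = l then 1 else 0) (fun _ => 0))
  | .Q, l => Sum.elim (fun _ => 0)
      (Sum.elim (fun _ => 0) (fun l' => if (l' : ℕ) = l then 1 else 0))
  | .TH, l => Sum.elim (fun j => C (wR j l)) (Sum.elim (fun l' => C (bb l' l)) (fun _ => 0))
  | .QH, l => Sum.elim (fun _ => 0) (Sum.elim (fun _ => 0) (fun l' => C (bb l' l)))

/-- the representation of the matrix by states -/
structure Rep (M : Matrix (Fin nR ⊕ Fin nT ⊕ Fin nQ) (Fin nR ⊕ Fin nT ⊕ Fin nQ) ℚ[X])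
    (r : Fin nR ⊕ Fin nT ⊕ Fin nQ → Row) (γ : ℚ) (ρ2 : ℚ[X]) (L : ℕ)
    (aR dR wR : Fin nR → ℕ → ℚ) (bb : ℕ → ℕ → ℚ)
    (err : (Fin nR ⊕ Fin nT ⊕ Fin nQ) → (Fin nR ⊕ Fin nT ⊕ Fin nQ) → ℚ[X]) : Prop where
  LT : nT ≤ L
  LQ : nQ ≤ L
  zR : ∀ i z, (r i).1 = .Z z → ∀ j, M i (Sum.inl j) =
    (C γ - X) * C (∑ l ∈ Finset.range L, aR j l *
      PowerSeries.coeff (r i).2 (gm (z : ℚ) (ρ2 * bin l) * HomZ z)) +
    C (∑ l ∈ Finset.range L, dR j l * PowerSeries.coeff (r i).2 (gm (z : ℚ) (bin l))) +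
    err i (Sum.inl j)
  zT : ∀ i z, (r i).1 = .Z z → ∀ l, M i (Sum.inr (Sum.inl l)) =
    C (PowerSeries.coeff (r i).2 (gm (z : ℚ) (bin l))) + err i (Sum.inr (Sum.inl l))
  zQ : ∀ i z, (r i).1 = .Z z → ∀ l, M i (Sum.inr (Sum.inr l)) =
    C (PowerSeries.coeff (r i).2 (gm (z : ℚ) (bin l) * GamZ z)) + err i (Sum.inr (Sum.inr l))
  hR : ∀ i z, (r i).1 = .H z → ∀ j, M i (Sum.inl j) =
    C (∑ l ∈ Finset.range L, wR j l * PowerSeries.coeff (r i).2 (gm (z : ℚ) (bin l))) +
    err i (Sum.inl j)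
  hT : ∀ i z, (r i).1 = .H z → ∀ l : Fin nT, M i (Sum.inr (Sum.inl l)) =
    C (∑ l' ∈ Finset.range L, bb l l' * PowerSeries.coeff (r i).2 (gm (z : ℚ) (bin l'))) +
    err i (Sum.inr (Sum.inl l))
  hQ : ∀ i z, (r i).1 = .H z → ∀ l : Fin nQ, M i (Sum.inr (Sum.inr l)) =
    C (∑ l' ∈ Finset.range L, bb l l' *
      PowerSeries.coeff (r i).2 (gm (z : ℚ) (bin l') * GamH z)) +
    err i (Sum.inr (Sum.inr l))

/-- sum over the states -/
lemma sum_states {L : ℕ} {ι : Type*} [Fintype ι] [DecidableEq ι] (X : Tag → ℕ → ℚ[X])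
    (Y : Tag → ℕ → ℚ[X]) (i : ι) (e : ι → ℚ[X]) :
    ∑ s : (Tag × Fin L) ⊕ ι, Sum.elim (fun s : Tag × Fin L => X s.1 s.2)
      (fun i' => if i = i' then 1 else 0) s *
      Sum.elim (fun s : Tag × Fin L => Y s.1 s.2) e s =
    (∑ l ∈ Finset.range L, X .R l * Y .R l) + (∑ l ∈ Finset.range L, X .T l * Y .T l) +
    (∑ l ∈ Finset.range L, X .Q l * Y .Q l) + (∑ l ∈ Finset.range L, X .TH l * Y .TH l) +
    (∑ l ∈ Finset.range L, X .QH l * Y .QH l) + e i := by
  rw [Fintype.sum_sum_type, Fintype.sum_prod_type, sum_tag]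
  simp only [Sum.elim_inl, Sum.elim_inr, ite_mul, one_mul, zero_mul, Finset.sum_ite_eq,
    Finset.mem_univ, if_true]
  simp only [Fin.sum_univ_eq_sum_range (fun l => X .R l * Y .R l) L,
    Fin.sum_univ_eq_sum_range (fun l => X .T l * Y .T l) L,
    Fin.sum_univ_eq_sum_range (fun l => X .Q l * Y .Q l) L,
    Fin.sum_univ_eq_sum_range (fun l => X .TH l * Y .TH l) L,
    Fin.sum_univ_eq_sum_range (fun l => X .QH l * Y .QH l) L]

theorem Rep.eq {M : Matrix (Fin nR ⊕ Fin nT ⊕ Fin nQ) (Fin nR ⊕ Fin nT ⊕ Fin nQ) ℚ[X]}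
    {r : Fin nR ⊕ Fin nT ⊕ Fin nQ → Row} {γ : ℚ} {ρ2 : ℚ[X]} {L : ℕ}
    {aR dR wR : Fin nR → ℕ → ℚ} {bb : ℕ → ℕ → ℚ}
    {err : (Fin nR ⊕ Fin nT ⊕ Fin nQ) → (Fin nR ⊕ Fin nT ⊕ Fin nQ) → ℚ[X]}
    (h : Rep M r γ ρ2 L aR dR wR bb err) (i j : Fin nR ⊕ Fin nT ⊕ Fin nQ) :
    M i j = ∑ s : (Tag × Fin L) ⊕ (Fin nR ⊕ Fin nT ⊕ Fin nQ),
      Sum.elim (fun s : Tag × Fin L => Xst γ ρ2 (r i) s.1 s.2)
      (fun i' => if i = i' then 1 else 0) s *
      Sum.elim (fun s : Tag × Fin L => Yst (nT := nT) (nQ := nQ) aR dR wR bb s.1 s.2 j)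
        (fun i' => err i' j) s := by
  rw [sum_states (fun t l => Xst γ ρ2 (r i) t l)
    (fun t l => Yst (nT := nT) (nQ := nQ) aR dR wR bb t l j) i (fun i' => err i' j)]
  rcases hz : (r i).1 with z | z
  · rcases j with j | l | l
    · rw [h.zR i z hz j]
      simp only [Xst, Yst, hz, Sum.elim_inl, Sum.elim_inr, mul_zero, zero_mul,
        Finset.sum_const_zero, add_zero, map_sum, map_mul]
      rw [Finset.mul_sum]
      congr 2
      · refine Finset.sum_congr rfl fun l _ => ?_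
        ring
      · refine Finset.sum_congr rfl fun l _ => ?_
        ring
    · rw [h.zT i z hz l]
      simp only [Xst, Yst, hz, Sum.elim_inl, Sum.elim_inr, mul_zero, zero_mul,
        Finset.sum_const_zero, add_zero, zero_add, mul_ite, mul_one]
      rw [Finset.sum_ite_eq, if_pos (Finset.mem_range.mpr (l.2.trans_le h.LT))]
    · rw [h.zQ i z hz l]
      simp only [Xst, Yst, hz, Sum.elim_inl, Sum.elim_inr, mul_zero, zero_mul,
        Finset.sum_const_zero, add_zero, zero_add, mul_ite, mul_one]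
      rw [Finset.sum_ite_eq, if_pos (Finset.mem_range.mpr (l.2.trans_le h.LQ))]
  · rcases j with j | l | l
    · rw [h.hR i z hz j]
      simp only [Xst, Yst, hz, Sum.elim_inl, Sum.elim_inr, mul_zero, zero_mul,
        Finset.sum_const_zero, add_zero, zero_add, map_sum, map_mul]
      congr 1
      refine Finset.sum_congr rfl fun l _ => ?_
      ring
    · rw [h.hT i z hz l]
      simp only [Xst, Yst, hz, Sum.elim_inl, Sum.elim_inr, mul_zero, zero_mul,
        Finset.sum_const_zero, add_zero, zero_add, map_sum, map_mul]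
      congr 1
      refine Finset.sum_congr rfl fun l _ => ?_
      ring
    · rw [h.hQ i z hz l]
      simp only [Xst, Yst, hz, Sum.elim_inl, Sum.elim_inr, mul_zero, zero_mul,
        Finset.sum_const_zero, add_zero, zero_add, map_sum, map_mul]
      congr 1
      refine Finset.sum_congr rfl fun l _ => ?_
      ring

end Crest.Agent.R006.P6
private theorem rz_0034c8bdc6 : type_of% @_root_.Crest.Agent.R006.P6.Xst.eq_1 := @_root_.Crest.Agent.R006.P6.Xst.eq_1 -- L31
private theorem rz_ecea9ed9ce : type_of% @_root_.Crest.Agent.R006.P6.Yst.eq_1 := @_root_.Crest.Agent.R006.P6.Yst.eq_1 -- L51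
end

-- ▼ part R006/P6Newton_674
section

/-!
# Row 6, block P6 (p = 2), leaf N of note 2889: Newton expansions (helper674)

* `N1` : an integral polynomial in the basis `bin l`: coefficients divisible by `l!`.
* `N1_zero` : the coefficients below `A` vanish if `P` vanishes at `0, .., A-1`.
* `N2` : `W(2s+1)`: coefficients divisible by `2^l l!`.
* `N3` : `bin l (s + 1/2)`.
* `N4` : Taylor coefficients of `bin l` at integers.
-/

set_option autoImplicit false

namespace Crest.Agent.R006.P6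

open Polynomial Crest.Agent.R006.NV Crest.Agent.R006.PsiInf Crest.Agent.R006.D
open Crest.Agent.R006.ProdBound481

/-! ### `I2` -/

lemma two_zpow_pos (v : ℤ) : (0 : ℚ) < (2 : ℚ) ^ v := zpow_pos (by norm_num) _

lemma I2.zero (v : ℤ) : I2 v 0 := by
  rw [I2, padicNorm.zero]; exact (two_zpow_pos _).le

lemma I2.mono {v w : ℤ} {x : ℚ} (h : I2 v x) (hw : w ≤ v) : I2 w x :=
  h.trans (zpow_le_zpow_right₀ (by norm_num) (by omega))

lemma I2.add {v : ℤ} {x y : ℚ} (hx : I2 v x) (hy : I2 v y) : I2 v (x + y) :=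
  (padicNorm.nonarchimedean (p := 2)).trans (max_le hx hy)

lemma I2.neg {v : ℤ} {x : ℚ} (hx : I2 v x) : I2 v (-x) := by
  rw [I2, padicNorm.neg]; exact hx

lemma I2.sub {v : ℤ} {x y : ℚ} (hx : I2 v x) (hy : I2 v y) : I2 v (x - y) := by
  rw [sub_eq_add_neg]; exact hx.add hy.neg

lemma I2.mul {v w : ℤ} {x y : ℚ} (hx : I2 v x) (hy : I2 w y) : I2 (v + w) (x * y) := by
  rw [I2, padicNorm.mul, neg_add, zpow_add₀ (by norm_num : (2 : ℚ) ≠ 0)]
  exact mul_le_mul hx hy (padicNorm.nonneg _) (two_zpow_pos _).le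

lemma I2.sum {ι : Type*} {v : ℤ} (s : Finset ι) (f : ι → ℚ) (h : ∀ i ∈ s, I2 v (f i)) :
    I2 v (∑ i ∈ s, f i) := by
  classical
  induction s using Finset.induction_on with
  | empty => simpa using I2.zero v
  | insert a s ha ih =>
    rw [Finset.sum_insert ha]
    exact (h a (Finset.mem_insert_self _ _)).add
      (ih fun i hi => h i (Finset.mem_insert_of_mem hi))

lemma I2_iff {v : ℤ} {x : ℚ} (hx : x ≠ 0) : I2 v x ↔ v ≤ padicValRat 2 x := by
  rw [I2, padicNorm.eq_zpow_of_nonzero hx]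
  have h2 : (1 : ℚ) < (2 : ℕ) := by norm_num
  push_cast
  rw [zpow_le_zpow_iff_right₀ (by norm_num)]
  omega

lemma I2_nat (n : ℕ) (hn : n ≠ 0) : I2 (padicValNat 2 n) (n : ℚ) := by
  rw [I2_iff (by exact_mod_cast hn), padicValRat.of_nat]

lemma I2_inv_nat (n : ℕ) (hn : n ≠ 0) : I2 (-(padicValNat 2 n : ℤ)) ((n : ℚ)⁻¹) := by
  rw [I2_iff (inv_ne_zero (by exact_mod_cast hn)), padicValRat.inv, padicValRat.of_nat]

lemma I2_int (z : ℤ) : I2 0 (z : ℚ) := by
  rw [I2, neg_zero, zpow_zero]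
  exact padicNorm.of_int z

lemma I2_two_pow (n : ℕ) : I2 n ((2 : ℚ) ^ n) := by
  rw [I2_iff (by positivity), padicValRat.pow]
  have h2 : padicValRat 2 (2 : ℚ) = 1 := by
    have := padicValRat.self (p := 2) (by norm_num)
    exact_mod_cast this
  rw [h2, mul_one]

lemma I2_two_pow_inv (n : ℕ) : I2 (-(n : ℤ)) (((2 : ℚ) ^ n)⁻¹) := by
  rw [I2_iff (by positivity), padicValRat.inv, padicValRat.pow]
  have h2 : padicValRat 2 (2 : ℚ) = 1 := by
    have := padicValRat.self (p := 2) (by norm_num)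
    exact_mod_cast this
  rw [h2, mul_one]

lemma I2.coeff {v : ℤ} {P : ℚ[X]} (h : PB 2 v P) (k : ℕ) : I2 v (P.coeff k) := by
  have := h k
  push_cast at this
  exact this

lemma I2.toPB {v : ℤ} {x : ℚ} (h : I2 v x) : PB 2 v (C x) := by
  apply PB.C
  push_cast
  exact h

/-! ### monic bases -/

lemma PB_X_sub_C_int (z : ℤ) : PB 2 0 (X - C (z : ℚ)) := by
  refine PB.sub ?_ (I2_int z).toPB
  intro k
  rw [coeff_X]
  push_cast
  split_ifs
  · simp
  · simp

/-- expansion of an integral polynomial in a monic integral basis -/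
lemma expand (D : ℕ → ℚ[X]) (hm : ∀ l, (D l).Monic) (hd : ∀ l, (D l).natDegree = l)
    (hD : ∀ l, PB 2 0 (D l)) (d : ℕ) : ∀ P : ℚ[X], P.natDegree ≤ d → PB 2 0 P →
    ∃ c : ℕ → ℚ, (∀ l, I2 0 (c l)) ∧ P = ∑ l ∈ Finset.range (d + 1), C (c l) * D l := by
  induction d with
  | zero =>
    intro P hP hPB
    refine ⟨fun l => P.coeff 0, fun l => I2.coeff hPB 0, ?_⟩
    have h0 : D 0 = 1 := (hm 0).natDegree_eq_zero.mp (hd 0)
    rw [Finset.sum_range_one, h0, mul_one]
    exact eq_C_of_natDegree_le_zero hP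
  | succ d ih =>
    intro P hP hPB
    set a : ℚ := P.coeff (d + 1) with ha
    have hI : I2 0 a := I2.coeff hPB _
    have h1 : PB 2 0 (P - C a * D (d + 1)) := by
      refine hPB.sub ?_
      have := hI.toPB.mul (hD (d + 1))
      simpa using this
    have h2 : (P - C a * D (d + 1)).natDegree ≤ d := by
      rw [natDegree_le_iff_coeff_eq_zero]
      intro N hN
      rcases Nat.lt_or_ge (d + 1) N with h | h
      · rw [coeff_sub, coeff_eq_zero_of_natDegree_lt (lt_of_le_of_lt hP h), coeff_C_mul,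
          coeff_eq_zero_of_natDegree_lt (by rw [hd]; exact h), mul_zero, sub_zero]
      · have : N = d + 1 := by omega
        subst this
        have h3 : (D (d + 1)).coeff (d + 1) = 1 := by
          have := (hm (d + 1)).coeff_natDegree
          rwa [hd] at this
        rw [coeff_sub, coeff_C_mul, h3, mul_one, ← ha, sub_self]
    obtain ⟨c, hc, hcP⟩ := ih _ h2 h1
    refine ⟨fun l => if l = d + 1 then a else c l, fun l => ?_, ?_⟩
    · dsimp only
      split_ifs
      · exact hI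
      · exact hc l
    · rw [Finset.sum_range_succ]
      dsimp only
      rw [if_pos rfl]
      have h3 : ∑ l ∈ Finset.range (d + 1), C (if l = d + 1 then a else c l) * D l =
          ∑ l ∈ Finset.range (d + 1), C (c l) * D l := by
        refine Finset.sum_congr rfl fun l hl => ?_
        rw [if_neg (by have := Finset.mem_range.mp hl; omega)]
      rw [h3, ← hcP]
      ring

lemma PB_descPochhammer (l : ℕ) : PB 2 0 (descPochhammer ℚ l) := by
  induction l with
  | zero => rw [descPochhammer_zero]; exact PB.one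
  | succ l ih =>
    rw [descPochhammer_succ_right]
    have h := PB_X_sub_C_int (l : ℤ)
    have e : (X - ((l : ℕ) : ℚ[X])) = X - C ((l : ℤ) : ℚ) := by
      push_cast
      rw [← C_eq_natCast]
    rw [e]
    simpa using ih.mul h

lemma bin_eq (l : ℕ) : D.bin l = C ((l.factorial : ℚ)⁻¹) * descPochhammer ℚ l := rfl

lemma descPochhammer_eq_bin (l : ℕ) : descPochhammer ℚ l = C (l.factorial : ℚ) * D.bin l := by
  rw [bin_eq, ← mul_assoc, ← C_mul, mul_inv_cancel₀ (by exact_mod_cast l.factorial_ne_zero), C_1,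
    one_mul]

/-- **(N1)** -/
theorem N1 {P : ℚ[X]} (hP : PB 2 0 P) {d : ℕ} (hd : P.natDegree ≤ d) :
    ∃ a : ℕ → ℚ, (∀ l, I2 (padicValNat 2 l.factorial) (a l)) ∧
      P = ∑ l ∈ Finset.range (d + 1), C (a l) * D.bin l := by
  obtain ⟨c, hc, h⟩ := expand (fun l => descPochhammer ℚ l) (fun l => monic_descPochhammer ℚ l)
    (fun l => descPochhammer_natDegree ℚ l) PB_descPochhammer d P hd hP
  refine ⟨fun l => c l * l.factorial, fun l => ?_, ?_⟩
  · have := (hc l).mul (I2_nat _ l.factorial_ne_zero)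
    simpa using this
  · rw [h]
    refine Finset.sum_congr rfl fun l _ => ?_
    rw [descPochhammer_eq_bin, C_mul, mul_assoc]

lemma bin_eval_nat (l n : ℕ) : (D.bin l).eval (n : ℚ) = n.choose l := by
  rw [bin_eq, eval_mul, eval_C, descPochhammer_eval_eq_descFactorial,
    Nat.descFactorial_eq_factorial_mul_choose]
  push_cast
  rw [← mul_assoc, inv_mul_cancel₀ (by exact_mod_cast l.factorial_ne_zero), one_mul]

/-- **(N1), vanishing** -/
theorem N1_zero {P : ℚ[X]} {d A : ℕ} {a : ℕ → ℚ}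
    (h : P = ∑ l ∈ Finset.range (d + 1), C (a l) * D.bin l)
    (h0 : ∀ n < A, P.eval (n : ℚ) = 0) : ∀ l < A, l ≤ d → a l = 0 := by
  intro l
  induction l using Nat.strong_induction_on with
  | _ l ih =>
    intro hl hld
    have h1 := h0 l hl
    rw [h, eval_finsetSum] at h1
    rw [Finset.sum_eq_single l] at h1
    · rw [eval_mul, eval_C, bin_eval_nat, Nat.choose_self, Nat.cast_one, mul_one] at h1
      exact h1
    · intro k hk hkl
      rw [eval_mul, eval_C, bin_eval_nat]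
      rcases Nat.lt_or_ge l k with h2 | h2
      · rw [Nat.choose_eq_zero_of_lt h2, Nat.cast_zero, mul_zero]
      · rw [ih k (by omega) (by omega) (by omega), zero_mul]
    · intro h2
      exact absurd (Finset.mem_range.mpr (by omega)) h2

/-- `y (y-2) .. (y-2l+2)` -/
noncomputable def dd2 (l : ℕ) : ℚ[X] := ∏ i ∈ Finset.range l, (X - C ((2 * i : ℤ) : ℚ))

lemma dd2_monic (l : ℕ) : (dd2 l).Monic := monic_prod_of_monic _ _ fun _ _ => monic_X_sub_C _

lemma dd2_natDegree (l : ℕ) : (dd2 l).natDegree = l := by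
  rw [dd2, natDegree_prod_of_monic _ _ fun _ _ => monic_X_sub_C _,
    Finset.sum_congr rfl fun _ _ => natDegree_X_sub_C _]
  simp

lemma PB_dd2 (l : ℕ) : PB 2 0 (dd2 l) := by
  have := PB.prod (p := 2) (Finset.range l) (fun _ => 0) (fun i => (X - C ((2 * i : ℤ) : ℚ)))
    fun i _ => PB_X_sub_C_int _
  simpa [dd2] using this

lemma dd2_comp (l : ℕ) :
    (dd2 l).comp (C 2 * X) = C ((2 : ℚ) ^ l * l.factorial) * D.bin l := by
  have h : (dd2 l).comp (C 2 * X) = C ((2 : ℚ) ^ l) * descPochhammer ℚ l := by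
    induction l with
    | zero => simp [dd2]
    | succ l ih =>
      have h1 : dd2 (l + 1) = dd2 l * (X - C ((2 * l : ℤ) : ℚ)) := by
        rw [dd2, Finset.prod_range_succ]; rfl
      rw [h1, mul_comp, ih, descPochhammer_succ_right, sub_comp, X_comp, C_comp, pow_succ, C_mul]
      have e : C (((2 * l : ℤ)) : ℚ) = C (2 : ℚ) * ((l : ℕ) : ℚ[X]) := by
        rw [← C_eq_natCast, ← C_mul]
        congr 1
        push_cast
        ring
      rw [e]
      ring
  rw [h, descPochhammer_eq_bin, C_mul, mul_assoc]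

/-- polynomials in `2s` -/
theorem N2' {V : ℚ[X]} (hV : PB 2 0 V) {d : ℕ} (hd : V.natDegree ≤ d) :
    ∃ a : ℕ → ℚ, (∀ l : ℕ, I2 ((l : ℤ) + padicValNat 2 l.factorial) (a l)) ∧
      V.comp (C 2 * X) = ∑ l ∈ Finset.range (d + 1), C (a l) * D.bin l := by
  obtain ⟨c, hc, h⟩ := expand dd2 dd2_monic dd2_natDegree PB_dd2 d V hd hV
  refine ⟨fun l => c l * ((2 : ℚ) ^ l * l.factorial), fun l => ?_, ?_⟩
  · have := (hc l).mul ((I2_two_pow l).mul (I2_nat _ l.factorial_ne_zero))
    simpa using this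
  · conv_lhs => rw [h]
    rw [← coe_compRingHom_apply, map_sum]
    refine Finset.sum_congr rfl fun l _ => ?_
    rw [coe_compRingHom_apply, mul_comp, C_comp, dd2_comp, C_mul (a := c l), mul_assoc]

lemma PB_comp_X_add_one {W : ℚ[X]} (hW : PB 2 0 W) : PB 2 0 (W.comp (X + 1)) := by
  rw [comp_eq_sum_left, Polynomial.sum]
  refine PB.sum _ _ fun k _ => ?_
  have h1 : PB 2 0 (X + 1 : ℚ[X]) := by
    have := PB_X_sub_C_int (-1)
    have e : (X - C ((-1 : ℤ) : ℚ)) = X + 1 := by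
      push_cast
      rw [C_neg, C_1, sub_neg_eq_add]
    rwa [e] at this
  have h2 : PB 2 0 ((X + 1 : ℚ[X]) ^ k) := by
    have := PB.prod (p := 2) (Finset.range k) (fun _ => 0) (fun _ => (X + 1 : ℚ[X])) fun _ _ => h1
    simpa using this
  have := (I2.coeff hW k).toPB.mul h2
  simpa using this

/-- **(N2)** -/
theorem N2 {W : ℚ[X]} (hW : PB 2 0 W) {d : ℕ} (hd : W.natDegree ≤ d) :
    ∃ a : ℕ → ℚ, (∀ l : ℕ, I2 ((l : ℤ) + padicValNat 2 l.factorial) (a l)) ∧
      (W.comp (C 2 * X)).comp (X + C (1 / 2)) = ∑ l ∈ Finset.range (d + 1), C (a l) * D.bin l := by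
  have h1 : (W.comp (X + 1)).natDegree ≤ d := by
    rw [natDegree_comp]
    have : (X + 1 : ℚ[X]).natDegree = 1 := natDegree_X_add_C (1 : ℚ)
    rw [this, mul_one]; exact hd
  obtain ⟨a, ha, h⟩ := N2' (PB_comp_X_add_one hW) h1
  refine ⟨a, ha, ?_⟩
  rw [← h, comp_assoc, comp_assoc]
  congr 1
  simp only [mul_comp, C_comp, X_comp, add_comp, one_comp]
  rw [mul_add, ← C_mul]
  norm_num

/-- `(y+1)(y-1)..(y+3-2l)` -/
noncomputable def od2 (l : ℕ) : ℚ[X] := ∏ i ∈ Finset.range l, (X - C ((2 * i - 1 : ℤ) : ℚ))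

lemma PB_od2 (l : ℕ) : PB 2 0 (od2 l) := by
  have := PB.prod (p := 2) (Finset.range l) (fun _ => 0) (fun i => (X - C ((2 * i - 1 : ℤ) : ℚ)))
    fun i _ => PB_X_sub_C_int _
  simpa [od2] using this

lemma od2_natDegree (l : ℕ) : (od2 l).natDegree = l := by
  rw [od2, natDegree_prod_of_monic _ _ fun _ _ => monic_X_sub_C _,
    Finset.sum_congr rfl fun _ _ => natDegree_X_sub_C _]
  simp

lemma bin_comp_half (l : ℕ) : (D.bin l).comp (X + C (1 / 2)) =
    C (((2 : ℚ) ^ l)⁻¹ * (l.factorial : ℚ)⁻¹) * (od2 l).comp (C 2 * X) := by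
  have h : (descPochhammer ℚ l).comp (X + C (1 / 2)) = C (((2 : ℚ) ^ l)⁻¹) * (od2 l).comp (C 2 * X) := by
    induction l with
    | zero => simp [od2]
    | succ l ih =>
      have h1 : od2 (l + 1) = od2 l * (X - C ((2 * l - 1 : ℤ) : ℚ)) := by
        rw [od2, Finset.prod_range_succ]; rfl
      rw [h1, mul_comp (od2 l), descPochhammer_succ_right, mul_comp, ih, sub_comp, sub_comp, X_comp,
        X_comp, C_comp]
      have e : ((l : ℕ) : ℚ[X]).comp (X + C (1 / 2)) = C (l : ℚ) := by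
        rw [← C_eq_natCast, C_comp]
      have e2 : (C ((2 : ℚ) ^ (l + 1))⁻¹ : ℚ[X]) = C (((2 : ℚ) ^ l)⁻¹) * C (1 / 2) := by
        rw [← C_mul]
        congr 1
        rw [pow_succ, mul_inv]
        norm_num
      have e3 : (X : ℚ[X]) + C (1 / 2) - C (l : ℚ) = C (1 / 2) * (C 2 * X - C ((2 * l - 1 : ℤ) : ℚ)) := by
        rw [mul_sub, ← mul_assoc, ← C_mul, ← C_mul]
        push_cast
        have : (1 / 2 : ℚ) * 2 = 1 := by norm_num
        rw [this, C_1, one_mul]
        have h2 : (1 / 2 : ℚ) * (2 * (l : ℚ) - 1) = l - 1 / 2 := by ring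
        rw [h2, C_sub]
        ring
      rw [e, e3, e2]
      ring
  rw [bin_eq, mul_comp, C_comp, h, ← mul_assoc, ← C_mul]
  congr 2
  ring

/-- **(N3)** -/
theorem N3 (l : ℕ) : ∃ a : ℕ → ℚ,
    (∀ i : ℕ, I2 ((i : ℤ) + padicValNat 2 i.factorial - l - padicValNat 2 l.factorial) (a i)) ∧
      (D.bin l).comp (X + C (1 / 2)) = ∑ i ∈ Finset.range (l + 1), C (a i) * D.bin i := by
  obtain ⟨a, ha, h⟩ := N2' (PB_od2 l) (d := l) (od2_natDegree l).le
  refine ⟨fun i => ((2 : ℚ) ^ l)⁻¹ * (l.factorial : ℚ)⁻¹ * a i, fun i => ?_, ?_⟩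
  · have := ((I2_two_pow_inv l).mul (I2_inv_nat _ l.factorial_ne_zero)).mul (ha i)
    refine this.mono ?_
    omega
  · rw [bin_comp_half, h, Finset.mul_sum]
    refine Finset.sum_congr rfl fun i _ => ?_
    rw [← mul_assoc, ← C_mul]

/-! ### Taylor coefficients of `bin l` at integers -/

lemma bin_succ_mul (l : ℕ) : C ((l : ℚ) + 1) * D.bin (l + 1) = D.bin l * (X - C (l : ℚ)) := by
  rw [bin_eq, bin_eq, descPochhammer_succ_right, ← C_eq_natCast, ← mul_assoc, ← C_mul,
    Nat.factorial_succ]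
  have : ((l : ℚ) + 1) * (((l + 1) * l.factorial : ℕ) : ℚ)⁻¹ = (l.factorial : ℚ)⁻¹ := by
    have h1 : (l.factorial : ℚ) ≠ 0 := by exact_mod_cast l.factorial_ne_zero
    have h2 : (l : ℚ) + 1 ≠ 0 := by positivity
    push_cast
    field_simp
  rw [this]
  ring

lemma bin_coeff_succ (l j : ℕ) : ((l : ℚ) + 1) * (D.bin (l + 1)).coeff (j + 1) =
    (D.bin l).coeff j - l * (D.bin l).coeff (j + 1) := by
  have := congrArg (fun P : ℚ[X] => P.coeff (j + 1)) (bin_succ_mul l)
  simp only [coeff_C_mul] at this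
  rw [this, mul_sub, coeff_sub, coeff_mul_X, coeff_mul_C]
  ring

lemma bin_coeff_zero (l : ℕ) : (D.bin l).coeff 0 = if l = 0 then 1 else 0 := by
  rw [coeff_zero_eq_eval_zero]
  have := bin_eval_nat l 0
  rw [Nat.cast_zero] at this
  rw [this]
  rcases l with _ | l
  · simp
  · simp

lemma bin_coeff_one (l : ℕ) : (D.bin (l + 1)).coeff 1 = (-1) ^ l / ((l : ℚ) + 1) := by
  induction l with
  | zero =>
    have h := bin_coeff_succ 0 0
    simp only [bin_coeff_zero, if_pos, Nat.cast_zero] at h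
    norm_num at h ⊢
    exact h
  | succ l ih =>
    have h := bin_coeff_succ (l + 1) 0
    rw [bin_coeff_zero, if_neg (by omega), zero_add, ih] at h
    have h2 : ((l + 1 : ℕ) : ℚ) + 1 ≠ 0 := by positivity
    have h3 : (l : ℚ) + 1 ≠ 0 := by positivity
    rw [eq_div_iff h2, mul_comm, h]
    push_cast
    field_simp
    ring

lemma bin_coeff_two (l : ℕ) : (D.bin (l + 1)).coeff 2 =
    (-1) ^ (l + 1) / ((l : ℚ) + 1) * ∑ i ∈ Finset.range l, ((i : ℚ) + 1)⁻¹ := by
  induction l with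
  | zero =>
    have h := bin_coeff_succ 0 1
    have h1 : (D.bin 0).coeff 1 = 0 := by
      simp [bin_eq, coeff_one]
    rw [h1] at h
    norm_num at h ⊢
    exact h
  | succ l ih =>
    have h := bin_coeff_succ (l + 1) 1
    rw [bin_coeff_one, ih] at h
    have h2 : ((l + 1 : ℕ) : ℚ) + 1 ≠ 0 := by positivity
    have h3 : (l : ℚ) + 1 ≠ 0 := by positivity
    rw [Finset.sum_range_succ]
    rw [div_mul_eq_mul_div, eq_div_iff h2, mul_comm, h]
    push_cast
    field_simp
    ring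

lemma I2_inv_of_le {n L : ℕ} (hn : n ≠ 0) (hL : n ≤ L) : I2 (-(Nat.log 2 L : ℤ)) ((n : ℚ)⁻¹) := by
  refine (I2_inv_nat n hn).mono ?_
  have h1 : padicValNat 2 n ≤ Nat.log 2 n := padicValNat_le_nat_log n
  have h2 : Nat.log 2 n ≤ Nat.log 2 L := Nat.log_mono_right hL
  omega

lemma I2_sign (n : ℕ) : I2 0 ((-1 : ℚ) ^ n) := by
  have := I2_int ((-1) ^ n)
  push_cast at this
  exact this

lemma bin_coeff_bound {l L : ℕ} (hl : l ≤ L) (j : ℕ) (hj : j ≤ 2) :
    I2 (-((j : ℤ) * (Nat.log 2 L + 1))) ((D.bin l).coeff j) := by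
  have hlog : (0 : ℤ) ≤ Nat.log 2 L := by positivity
  interval_cases j
  · rw [bin_coeff_zero]
    split_ifs
    · have := I2_int 1; push_cast at this; simpa using this
    · exact I2.zero _
  · rcases l with _ | l
    · have h1 : (D.bin 0).coeff 1 = 0 := by simp [bin_eq, coeff_one]
      rw [h1]; exact I2.zero _
    · rw [bin_coeff_one, div_eq_mul_inv]
      have := (I2_sign l).mul (I2_inv_of_le (n := l + 1) (by omega) hl)
      push_cast at this
      refine this.mono ?_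
      push_cast
      omega
  · rcases l with _ | l
    · have h1 : (D.bin 0).coeff 2 = 0 := by simp [bin_eq, coeff_one]
      rw [h1]; exact I2.zero _
    · rw [bin_coeff_two, div_eq_mul_inv]
      have h1 := (I2_sign (l + 1)).mul (I2_inv_of_le (n := l + 1) (by omega) hl)
      have h2 : I2 (-(Nat.log 2 L : ℤ)) (∑ i ∈ Finset.range l, ((i : ℚ) + 1)⁻¹) := by
        refine I2.sum _ _ fun i hi => ?_
        have hi' := Finset.mem_range.mp hi
        have := I2_inv_of_le (n := i + 1) (L := L) (by omega) (by omega)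
        push_cast at this
        exact this
      have := h1.mul h2
      push_cast at this
      refine this.mono ?_
      push_cast
      omega

lemma bin_comp_succ (l : ℕ) : (D.bin (l + 1)).comp (X + 1) = D.bin (l + 1) + D.bin l := by
  have hinj : ∀ P Q : ℚ[X], (∀ n : ℕ, P.eval (n : ℚ) = Q.eval (n : ℚ)) → P = Q := by
    intro P Q h
    apply Polynomial.eq_of_infinite_eval_eq
    refine Set.Infinite.mono (s := Set.range (fun n : ℕ => (n : ℚ))) ?_ ?_
    · rintro _ ⟨n, rfl⟩; exact h n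
    · exact Set.infinite_range_of_injective Nat.cast_injective
  apply hinj
  intro n
  rw [eval_comp, eval_add, eval_add, eval_X, eval_one, bin_eval_nat, bin_eval_nat]
  have h1 := bin_eval_nat (l + 1) (n + 1)
  push_cast at h1
  rw [h1, Nat.choose_succ_succ]
  push_cast
  ring

lemma gm_bin_succ (i : ℚ) (l : ℕ) :
    gm (i + 1) (D.bin (l + 1)) = gm i (D.bin (l + 1)) + gm i (D.bin l) := by
  have h : gm (i + 1) (D.bin (l + 1)) = gm i ((D.bin (l + 1)).comp (X + 1)) := by
    unfold gm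
    congr 1
    have e : (D.bin (l + 1)).comp (X + 1) = taylor 1 (D.bin (l + 1)) := by
      rw [taylor_apply, C_1]
    rw [e, taylor_taylor]
  rw [h, bin_comp_succ, gm_add]

/-- **(N4)** -/
theorem N4 (i : ℤ) (l j : ℕ) (hj : j ≤ 2) :
    I2 (-((j : ℤ) * (Nat.log 2 l + 1))) (PowerSeries.coeff j (gm (i : ℚ) (D.bin l))) := by
  have key : ∀ L : ℕ, ∀ i : ℤ, ∀ l ≤ L,
      I2 (-((j : ℤ) * (Nat.log 2 L + 1))) (PowerSeries.coeff j (gm (i : ℚ) (D.bin l))) := by
    intro L
    have h0 : ∀ i : ℤ, I2 (-((j : ℤ) * (Nat.log 2 L + 1)))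
        (PowerSeries.coeff j (gm (i : ℚ) (D.bin 0))) := by
      intro i
      have h1 : gm (i : ℚ) (D.bin 0) = 1 := by
        have : D.bin 0 = 1 := by simp [bin_eq]
        rw [this, gm_one]
      rw [h1, PowerSeries.coeff_one]
      split_ifs with h2
      · subst h2
        have := I2_int 1; push_cast at this; simpa using this
      · exact I2.zero _
    intro i
    induction i using Int.induction_on with
    | zero =>
      intro l hl
      have h1 : PowerSeries.coeff j (gm ((0 : ℤ) : ℚ) (D.bin l)) = (D.bin l).coeff j := by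
        rw [Int.cast_zero, gm, taylor_zero, Polynomial.coeff_coe]
      rw [h1]
      exact bin_coeff_bound hl j hj
    | succ i ih =>
      intro l hl
      rcases l with _ | l
      · exact h0 _
      · push_cast
        rw [gm_bin_succ, map_add]
        have h1 := ih (l + 1) hl
        have h2 := ih l (by omega)
        push_cast at h1 h2
        exact h1.add h2
    | pred i ih =>
      intro l
      induction l with
      | zero => intro _; exact h0 _
      | succ l ihl =>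
        intro hl
        have h1 := ih (l + 1) hl
        have h2 := ihl (by omega)
        have h3 := gm_bin_succ (((-(i : ℤ) - 1 : ℤ)) : ℚ) l
        have e : (((-(i : ℤ) - 1 : ℤ)) : ℚ) + 1 = ((-(i : ℤ) : ℤ) : ℚ) := by push_cast; ring
        rw [e] at h3
        have h4 : PowerSeries.coeff j (gm (((-(i : ℤ) - 1 : ℤ)) : ℚ) (D.bin (l + 1))) =
            PowerSeries.coeff j (gm ((-(i : ℤ) : ℤ) : ℚ) (D.bin (l + 1))) -
              PowerSeries.coeff j (gm (((-(i : ℤ) - 1 : ℤ)) : ℚ) (D.bin l)) := by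
          rw [h3, map_add]; ring
        rw [h4]
        exact h1.sub h2
  exact key l i l le_rfl

end Crest.Agent.R006.P6
end

-- ▼ part R006/P6DetA_784

/-!
# Row 6, block P6: entrywise valuations and the toll bound of the represented matrix (helper784)
-/

set_option autoImplicit false

namespace Crest.Agent.R006.P6

open Polynomial Crest.Agent.R006.NV Crest.Agent.R006.PsiInf Crest.Agent.R006.D
open Crest.Agent.R006.ProdBound481

/-! ### `I2` -/

lemma I2.intCast (z : ℤ) : I2 0 (z : ℚ) := by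
  unfold I2
  rw [neg_zero, zpow_zero]
  exact padicNorm.of_int z

lemma I2.natCast (n : ℕ) : I2 0 (n : ℚ) := by
  exact_mod_cast I2.intCast (n : ℤ)

lemma I2.one : I2 0 (1 : ℚ) := by exact_mod_cast I2.natCast 1

lemma I2.pb {v : ℤ} {x : ℚ} (h : I2 v x) : PB 2 v (C x) :=
  PB.C (by unfold I2 at h; exact_mod_cast h)


lemma I2.factorial (n : ℕ) : padicNorm 2 (n.factorial : ℚ) = (2 : ℚ) ^ (-lh n) := by
  rw [padicNorm.eq_zpow_of_nonzero (by positivity)]
  simp only [lh, padicValRat.of_nat, Nat.cast_ofNat]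

lemma I2.fac (n : ℕ) : I2 (lh n) (n.factorial : ℚ) := (I2.factorial n).le

lemma I2.facinv (n : ℕ) : I2 (-lh n) ((n.factorial : ℚ)⁻¹) := by
  unfold I2
  rw [padicNorm.eq_zpow_of_nonzero (by positivity)]
  simp only [lh, padicValRat.inv, padicValRat.of_nat, Nat.cast_ofNat]
  exact le_rfl

lemma lh_nonneg (l : ℕ) : 0 ≤ lh l := by unfold lh; positivity

lemma pb_X : PB 2 0 (X : ℚ[X]) := by
  intro k
  rw [coeff_X, neg_zero, zpow_zero]
  split_ifs
  · rw [padicNorm.one]
  · rw [padicNorm.zero]; exact zero_le_one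

/-! ### potentials -/

/-- row potentials -/
def rowPot (S : Shape) (u : ℕ) (P : Par ℤ) : Row → ℤ
  | (.Z i, j) => if 0 ≤ i then piG S u P i.toNat else if j < 2 then P.xT else min P.xT P.xQ
  | (.H i, j) => if 0 ≤ i then (if j < 2 then P.xTH else min P.xTH P.xQH)
      else piW P (-1 - i).toNat

/-- state potentials -/
def Dst (S : Shape) (u c : ℕ) (P : Par ℤ) : Tag → ℕ → ℤ
  | .R, l => if l < S.a1 * u then max P.xT P.xTH + 3 * ((S.B * u + c : ℕ) : ℤ) + 1 else lh l - P.r
  | .T, l => lh l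
  | .Q, l => lh l - P.s
  | .TH, l => l + lh l - P.h
  | .QH, l => l + lh l - P.h'

/-- tolls -/
def Sst (S : Shape) (u : ℕ) (P : Par ℤ) : Tag → ℕ → ℤ
  | .R, l => sR S u P l
  | .T, l => sT P l
  | .Q, l => sQ P l
  | .TH, l => sTH P l
  | .QH, l => sQH P l

/-- column potentials -/
def colPot (S : Shape) (u : ℕ) (P : Par ℤ) {nR nT nQ : ℕ} : Fin nR ⊕ Fin nT ⊕ Fin nQ → ℤ :=
  Sum.elim (fun j => eR S u P j) (Sum.elim (fun l => eT P l) (fun l => eQ P l))

lemma rowPot_le (S : Shape) (u : ℕ) (P : Par ℤ) (ρ : Row) :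
    rowPot S u P ρ ≤ max P.xT P.xTH := by
  rcases ρ with ⟨z | z, j⟩ <;> simp only [rowPot]
  · split_ifs
    · unfold piG
      split_ifs <;> omega
    · omega
    · omega
  · split_ifs
    · omega
    · omega
    · unfold piW
      omega

lemma Sst_nonneg (S : Shape) (u : ℕ) (P : Par ℤ) (t : Tag) (l : ℕ) : 0 ≤ Sst S u P t l := by
  cases t <;> simp only [Sst, sT, sR, sQ, sTH, sQH]
  · split_ifs
    · exact le_rfl
    · exact le_max_left _ _
  all_goals exact le_max_left _ _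

/-! ### the input on weights and Taylor coefficients -/

/-- leaf W and (N4) -/
structure Weights : Prop where
  homN : ∀ n : ℕ, I2 (-(3 * n : ℤ)) (PowerSeries.coeff 0 (HomZ n))
  homE : ∀ i : ℤ, i < 0 → ∀ j ≤ 2, PowerSeries.coeff j (HomZ i) = 0
  gamN : ∀ n : ℕ, I2 (-(4 * n : ℤ)) (PowerSeries.coeff 0 (GamZ (n : ℤ) : PowerSeries ℚ))
  gamE : ∀ i : ℤ, i < 0 → ∀ j ≤ 1, PowerSeries.coeff j (GamZ i : PowerSeries ℚ) = 0
  gamE2 : ∀ i : ℤ, i < 0 → I2 0 (PowerSeries.coeff 2 (GamZ i : PowerSeries ℚ))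
  gamH : ∀ i : ℤ, 0 ≤ i → ∀ j ≤ 1, PowerSeries.coeff j (GamH i) = 0
  gamH2 : ∀ i : ℤ, 0 ≤ i → I2 0 (PowerSeries.coeff 2 (GamH i))
  gamW : ∀ m : ℕ, I2 (-(4 * m : ℤ)) (PowerSeries.coeff 0 (GamH (-1 - m)))
  n4 : ∀ (i : ℤ) (j l : ℕ), j ≤ 2 → I2 (-(j * ((Nat.log 2 l : ℤ) + 1)))
    (PowerSeries.coeff j (gm (i : ℚ) (bin l)))

theorem weights : Weights where
  homN := Weights.I2_HomZ
  homE := fun _ hi _ hj => Weights.coeff_HomZ_neg hi hj
  gamN := Weights.I2_GamZ
  gamE := fun _ hi _ hj => Weights.coeff_GamZ_neg hi hj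
  gamE2 := fun _ hi => Weights.I2_GamZ_neg hi
  gamH := fun _ hi _ hj => Weights.coeff_GamH_nonneg hi hj
  gamH2 := fun _ hi => Weights.I2_GamH_nonneg hi
  gamW := Weights.I2_GamH_neg
  n4 := fun i j l hj => N4 i l j hj

/-- coefficient `0` of a product -/
lemma coeff0_mul (A B : PowerSeries ℚ) :
    PowerSeries.coeff 0 (A * B) = PowerSeries.coeff 0 A * PowerSeries.coeff 0 B := by
  simp

lemma coeff_mul_zero {A B : PowerSeries ℚ} {n : ℕ} (h : ∀ j ≤ n, PowerSeries.coeff j B = 0) :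
    PowerSeries.coeff n (A * B) = 0 := by
  rw [PowerSeries.coeff_mul]
  refine Finset.sum_eq_zero fun x hx => ?_
  rw [h x.2 (by have := Finset.HasAntidiagonal.mem_antidiagonal.mp hx; omega), mul_zero]

lemma coeff2_mul {A B : PowerSeries ℚ} (h : ∀ j ≤ 1, PowerSeries.coeff j B = 0) :
    PowerSeries.coeff 2 (A * B) = PowerSeries.coeff 0 A * PowerSeries.coeff 2 B := by
  rw [PowerSeries.coeff_mul]
  rw [Finset.sum_eq_single (0, 2)]
  · rintro ⟨a, b⟩ hx hne
    have h1 := Finset.HasAntidiagonal.mem_antidiagonal.mp hx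
    simp only at h1
    rcases (show b = 2 ∨ b ≤ 1 by omega) with h2 | h2
    · exact absurd (by rw [h2]; congr 1; omega) hne
    · rw [h b h2, mul_zero]
  · intro hx
    exact absurd (show ((0 : ℕ), (2 : ℕ)) ∈ Finset.HasAntidiagonal.antidiagonal 2 from
        Finset.HasAntidiagonal.mem_antidiagonal.mpr (by norm_num)) hx

lemma coeff0_gm (s : ℚ) (P : ℚ[X]) : PowerSeries.coeff 0 (gm s P) = P.eval s := by
  rw [gm, Polynomial.coeff_coe, taylor_coeff_zero]

end Crest.Agent.R006.P6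
namespace Crest.Agent.R006.P6.PB
end Crest.Agent.R006.P6.PB
private theorem rz_10c4f53fb2 : type_of% @_root_.Crest.Agent.R006.P6.Dst.eq_1 := @_root_.Crest.Agent.R006.P6.Dst.eq_1 -- L67
private theorem rz_24c24690c2 : type_of% @_root_.Crest.Agent.R006.P6.Sst.eq_1 := @_root_.Crest.Agent.R006.P6.Sst.eq_1 -- L75
private theorem rz_62f32511dc : type_of% @_root_.Crest.Agent.R006.P6.rowPot.eq_1 := @_root_.Crest.Agent.R006.P6.rowPot.eq_1 -- L61
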