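import Crest.Agent.R006.P6DetC_784

-- ▼ part R006/P6Rep_784
section

/-!
# Row 6, block P6: the representation of the matrix with the new `R`-basis (helper784)
-/

set_option autoImplicit false

namespace Crest.Agent.R006.P6

open Polynomial Crest.Agent.R006.NV Crest.Agent.R006.PsiInf Crest.Agent.R006.D
open Crest.Agent.R006.ProdBound481

/-! ### linearity -/

lemma gm_finset_sum {ι : Type*} (z : ℚ) (s : Finset ι) (f : ι → ℚ[X]) :
    gm z (∑ i ∈ s, f i) = ∑ i ∈ s, gm z (f i) := by
  classical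
  induction s using Finset.induction_on with
  | empty => simp [gm_zero]
  | insert a s ha ih => rw [Finset.sum_insert ha, Finset.sum_insert ha, gm_add, ih]

/-- the coefficient functional of a linear combination -/
lemma coeff_gm_sum (z : ℚ) (j : ℕ) (L : ℕ) (a : ℕ → ℚ) (f : ℕ → ℚ[X]) (φ : PowerSeries ℚ) :
    PowerSeries.coeff j (gm z (∑ l ∈ Finset.range L, C (a l) * f l) * φ) =
      ∑ l ∈ Finset.range L, a l * PowerSeries.coeff j (gm z (f l) * φ) := by
  rw [gm_finset_sum, Finset.sum_mul, map_sum]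
  refine Finset.sum_congr rfl fun l _ => ?_
  rw [gm_mul, gm_C, mul_assoc, PowerSeries.coeff_C_mul]

lemma coeff_gm_sum' (z : ℚ) (j : ℕ) (L : ℕ) (a : ℕ → ℚ) (f : ℕ → ℚ[X]) :
    PowerSeries.coeff j (gm z (∑ l ∈ Finset.range L, C (a l) * f l)) =
      ∑ l ∈ Finset.range L, a l * PowerSeries.coeff j (gm z (f l)) := by
  have := coeff_gm_sum z j L a f 1
  simpa only [mul_one] using this

lemma ent0_C_mul (a : ℚ) (R : ℚ[X]) (ρ : Row) : ent0 (C a * R) ρ = a * ent0 R ρ := by
  unfold ent0 tau
  have h : TR mu (C a * R) = C a * TR mu R := by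
    rw [← smul_eq_C_mul, ← smul_eq_C_mul, map_smul]
  rw [h, gm_mul, gm_mul, gm_C, mul_assoc, ← mul_sub, PowerSeries.coeff_C_mul]

lemma ent1_C_mul (a : ℚ) (R : ℚ[X]) (ρ : Row) : ent1 (C a * R) ρ = a * ent1 R ρ := by
  unfold ent1
  rw [gm_mul, gm_C, mul_assoc, PowerSeries.coeff_C_mul]

lemma gm_half (z : ℚ) (Q : ℚ[X]) : gm (z + 1 / 2) Q = gm z (Q.comp (X + C (1 / 2))) := by
  unfold gm
  have : Q.comp (X + C (1 / 2)) = taylor (1 / 2) Q := rfl
  rw [this, taylor_taylor, add_comm]

/-! ### the gauge -/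

/-- value of the scalar in front -/
noncomputable def kap0 (S : Shape) (u : ℕ) : ℚ :=
  ((2 : ℚ) ^ (S.i1 * u))⁻¹ * ((S.a1 * u).factorial : ℚ)⁻¹ * ((S.a2 * u).factorial : ℚ)⁻¹ *
    ((S.i1 * u).factorial : ℚ)⁻¹ * ((S.r1 * u).factorial : ℚ)⁻¹

/-- the part of the gauge which is evaluated -/
noncomputable def rho2 (S : Shape) (u : ℕ) : ℚ[X] :=
  descPochhammer ℚ (S.a2 * u) * (∏ m ∈ Finset.range (S.i1 * u), (C 2 * X + C ((2 * m + 1 : ℕ) : ℚ)))
    * ∏ m ∈ Finset.range (S.r1 * u), (X + C ((m + 1 : ℕ) : ℚ))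

lemma descPochhammer_comp (n : ℕ) (c : ℚ) : (descPochhammer ℚ n).comp (X + C c) =
    ∏ t ∈ Finset.range n, (X + C (c - t)) := by
  induction n with
  | zero => simp
  | succ n ih =>
    rw [descPochhammer_succ_right, mul_comp, ih, Finset.prod_range_succ]
    congr 1
    rw [sub_comp, X_comp, natCast_comp, C_sub, add_sub_assoc]
    simp

lemma bin_comp_r (n : ℕ) : (bin n).comp (X + C (n : ℚ)) =
    C ((n.factorial : ℚ)⁻¹) * ∏ m ∈ Finset.range n, (X + C ((m + 1 : ℕ) : ℚ)) := by
  rw [bin, mul_comp, C_comp, descPochhammer_comp, ← Finset.prod_range_reflect]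
  congr 1
  refine Finset.prod_congr rfl fun m hm => ?_
  have h1 : m < n := Finset.mem_range.mp hm
  rw [Nat.sub_sub, Nat.cast_sub (by omega)]
  congr 2
  push_cast
  ring

lemma bin_comp_i (n : ℕ) : (bin n).comp (X + C ((n : ℚ) - 1 / 2)) =
    C (((2 : ℚ) ^ n)⁻¹ * (n.factorial : ℚ)⁻¹) *
      ∏ m ∈ Finset.range n, (C 2 * X + C ((2 * m + 1 : ℕ) : ℚ)) := by
  rw [bin, mul_comp, C_comp, descPochhammer_comp, ← Finset.prod_range_reflect]
  have h : ∏ m ∈ Finset.range n, (C 2 * X + C ((2 * m + 1 : ℕ) : ℚ)) =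
      C ((2 : ℚ) ^ n) * ∏ m ∈ Finset.range n, (X + C (((m : ℚ) + 1 / 2))) := by
    rw [C_pow, ← Finset.card_range n, ← Finset.prod_const, Finset.card_range,
      ← Finset.prod_mul_distrib]
    refine Finset.prod_congr rfl fun m _ => ?_
    rw [mul_add, ← C_mul]
    congr 2
    push_cast
    ring
  rw [h, ← mul_assoc, ← C_mul]
  have h2 : ((2 : ℚ) ^ n)⁻¹ * (n.factorial : ℚ)⁻¹ * (2 : ℚ) ^ n = (n.factorial : ℚ)⁻¹ := by
    field_simp
  rw [h2]
  congr 1
  refine Finset.prod_congr rfl fun m hm => ?_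
  have h1 : m < n := Finset.mem_range.mp hm
  rw [Nat.sub_sub, Nat.cast_sub (by omega)]
  congr 2
  push_cast
  ring

lemma gauge_eq (S : Shape) (u : ℕ) :
    gauge S u * bin (S.a1 * u) = C (kap0 S u) * (rho2 S u * descPochhammer ℚ (S.a1 * u)) := by
  unfold D.gauge
  rw [bin_comp_r, bin_comp_i, rho2, kap0, bin, bin]
  simp only [C_mul]
  ring

lemma I2_kap0 (S : Shape) (u : ℕ) : I2 (-kap S u) (kap0 S u) := by
  have h := ((((I2_two_pow_inv (S.i1 * u)).mul (I2.facinv (S.a1 * u))).mul
    (I2.facinv (S.a2 * u))).mul (I2.facinv (S.i1 * u))).mul (I2.facinv (S.r1 * u))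
  refine h.mono ?_
  unfold kap
  omega

lemma PB_lin (a b : ℤ) : PB 2 0 (C (a : ℚ) * X + C (b : ℚ)) := by
  have h1 : PB 2 0 (C (a : ℚ)) := (I2.intCast a).pb
  have h2 : PB 2 0 (C (b : ℚ)) := (I2.intCast b).pb
  have h3 : PB 2 (0 + 0) (C (a : ℚ) * X) := h1.mul pb_X
  exact (h3.mono (by norm_num)).add h2

lemma PB.prod0 {ι : Type*} (s : Finset ι) (f : ι → ℚ[X]) (h : ∀ i ∈ s, PB 2 0 (f i)) :
    PB 2 0 (∏ i ∈ s, f i) := by
  have := PB.prod (p := 2) s (fun _ => 0) f h
  simpa using this

lemma PB_rho2 (S : Shape) (u : ℕ) : PB 2 0 (rho2 S u) := by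
  unfold rho2
  have h1 : PB 2 0 (∏ m ∈ Finset.range (S.i1 * u), (C 2 * X + C ((2 * m + 1 : ℕ) : ℚ))) :=
    PB.prod0 _ _ fun m _ => by
      have := PB_lin 2 ((2 * m + 1 : ℕ) : ℤ)
      push_cast at this ⊢
      exact this
  have h2 : PB 2 0 (∏ m ∈ Finset.range (S.r1 * u), (X + C ((m + 1 : ℕ) : ℚ))) :=
    PB.prod0 _ _ fun m _ => by
      have := PB_lin 1 ((m + 1 : ℕ) : ℤ)
      push_cast at this ⊢
      simpa using this
  have := ((PB_descPochhammer (S.a2 * u)).mul h1).mul h2
  simpa using this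

lemma rho2_eval (S : Shape) (u n : ℕ) :
    I2 (lh (S.a2 * u) + lh (S.r1 * u)) ((rho2 S u).eval (n : ℚ)) := by
  have h1 : I2 (lh (S.a2 * u)) ((descPochhammer ℚ (S.a2 * u)).eval (n : ℚ)) := by
    rw [descPochhammer_eval_eq_descFactorial, Nat.descFactorial_eq_factorial_mul_choose]
    push_cast
    have := (I2.fac (S.a2 * u)).mul (I2.natCast (n.choose (S.a2 * u)))
    simpa using this
  have h2 : I2 0 ((∏ m ∈ Finset.range (S.i1 * u),
      (C 2 * X + C ((2 * m + 1 : ℕ) : ℚ)) : ℚ[X]).eval (n : ℚ)) := by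
    have : (∏ m ∈ Finset.range (S.i1 * u),
      (C 2 * X + C ((2 * m + 1 : ℕ) : ℚ)) : ℚ[X]).eval (n : ℚ) =
      ((∏ m ∈ Finset.range (S.i1 * u), (2 * n + (2 * m + 1)) : ℕ) : ℚ) := by
      rw [eval_prod]
      push_cast
      refine Finset.prod_congr rfl fun m _ => ?_
      simp
    rw [this]
    exact I2.natCast _
  have h3 : I2 (lh (S.r1 * u)) ((∏ m ∈ Finset.range (S.r1 * u),
      (X + C ((m + 1 : ℕ) : ℚ)) : ℚ[X]).eval (n : ℚ)) := by
    have : (∏ m ∈ Finset.range (S.r1 * u), (X + C ((m + 1 : ℕ) : ℚ)) : ℚ[X]).eval (n : ℚ) =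
      (((S.r1 * u).factorial * (n + S.r1 * u).choose (S.r1 * u) : ℕ) : ℚ) := by
      rw [eval_prod, ← Nat.ascFactorial_eq_factorial_mul_choose, Nat.ascFactorial_eq_prod_range]
      push_cast
      refine Finset.prod_congr rfl fun m _ => ?_
      simp
      ring
    rw [this]
    push_cast
    have := (I2.fac (S.r1 * u)).mul (I2.natCast ((n + S.r1 * u).choose (S.r1 * u)))
    push_cast at this
    simpa using this
  have := (h1.mul h2).mul h3
  rw [rho2, eval_mul, eval_mul]
  simpa using this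

/-- the gauge vanishes at the `w`-sites -/
lemma rho2_zero (S : Shape) (u : ℕ) {i : ℤ} (hi : i < 0) (h : -i ≤ S.w * u) (hw : S.w ≤ S.i1) :
    (rho2 S u).eval ((i : ℚ) + 1 / 2) = 0 := by
  obtain ⟨m, rfl⟩ : ∃ m : ℕ, i = -1 - m := ⟨(-1 - i).toNat, by omega⟩
  have hm : m < S.i1 * u := by
    have : (m : ℤ) < S.w * u := by omega
    have h2 : m < S.w * u := by exact_mod_cast this
    exact h2.trans_le (Nat.mul_le_mul_right _ hw)
  rw [rho2, eval_mul, eval_mul, eval_prod]
  rw [Finset.prod_eq_zero (Finset.mem_range.mpr hm), mul_zero, zero_mul]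
  simp only [eval_add, eval_mul, eval_C, eval_X]
  push_cast
  ring

end Crest.Agent.R006.P6
end

-- ▼ part R006/P6RepB_784

/-!
# Row 6, block P6: existence of the representation (helper784)
-/

set_option autoImplicit false

namespace Crest.Agent.R006.P6

open Polynomial Crest.Agent.R006.NV Crest.Agent.R006.PsiInf Crest.Agent.R006.D
open Crest.Agent.R006.ProdBound481

lemma natDegree_le_sum {ι : Type*} [Fintype ι] (f : ι → ℚ[X]) (i : ι) (d : ℕ) :
    (f i).natDegree ≤ (∑ j, (f j).natDegree) + d :=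
  (Finset.single_le_sum (f := fun j => (f j).natDegree) (fun _ _ => Nat.zero_le _)
    (Finset.mem_univ i)).trans (Nat.le_add_right _ _)

lemma I2_beta (m : ℕ) : I2 (vb m) (beta m) := by
  have h := (I2_two_pow m).mul (I2.fac m)
  have h2 : I2 (-1) ((2 : ℚ)⁻¹) := by simpa using I2_two_pow_inv 1
  have := h.mul h2
  unfold beta
  rw [div_eq_mul_inv]
  refine this.mono ?_
  unfold vb lh
  omega

/-- main part of the entries -/
noncomputable def mainE {nR nT nQ : ℕ} (γ : ℚ) (ρ2 : ℚ[X]) (L : ℕ)
    (aR dR wR : Fin nR → ℕ → ℚ) (bb : ℕ → ℕ → ℚ) (ρ : Row) :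
    Fin nR ⊕ Fin nT ⊕ Fin nQ → ℚ[X] :=
  match ρ.1 with
  | .Z z => Sum.elim (fun j => (C γ - X) * C (∑ l ∈ Finset.range L, aR j l *
      PowerSeries.coeff ρ.2 (gm (z : ℚ) (ρ2 * bin l) * HomZ z)) +
      C (∑ l ∈ Finset.range L, dR j l * PowerSeries.coeff ρ.2 (gm (z : ℚ) (bin l))))
      (Sum.elim (fun l => C (PowerSeries.coeff ρ.2 (gm (z : ℚ) (bin l))))
        (fun l => C (PowerSeries.coeff ρ.2 (gm (z : ℚ) (bin l) * GamZ z))))
  | .H z => Sum.elim
      (fun j => C (∑ l ∈ Finset.range L, wR j l * PowerSeries.coeff ρ.2 (gm (z : ℚ) (bin l))))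
      (Sum.elim (fun l => C (∑ l' ∈ Finset.range L, bb l l' *
          PowerSeries.coeff ρ.2 (gm (z : ℚ) (bin l'))))
        (fun l => C (∑ l' ∈ Finset.range L, bb l l' *
          PowerSeries.coeff ρ.2 (gm (z : ℚ) (bin l') * GamH z))))

theorem Rep.of_main {nR nT nQ : ℕ}
    (M : Matrix (Fin nR ⊕ Fin nT ⊕ Fin nQ) (Fin nR ⊕ Fin nT ⊕ Fin nQ) ℚ[X])
    (r : Fin nR ⊕ Fin nT ⊕ Fin nQ → Row) (γ : ℚ) (ρ2 : ℚ[X]) (L : ℕ)
    (aR dR wR : Fin nR → ℕ → ℚ) (bb : ℕ → ℕ → ℚ) (hT : nT ≤ L) (hQ : nQ ≤ L) :
    Rep M r γ ρ2 L aR dR wR bb (fun i j => M i j - mainE γ ρ2 L aR dR wR bb (r i) j) where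
  LT := hT
  LQ := hQ
  zR i z hz j := by simp only [mainE, hz, Sum.elim_inl]; ring
  zT i z hz j := by simp only [mainE, hz, Sum.elim_inl, Sum.elim_inr]; ring
  zQ i z hz j := by simp only [mainE, hz, Sum.elim_inr]; ring
  hR i z hz j := by simp only [mainE, hz, Sum.elim_inl]; ring
  hT i z hz j := by simp only [mainE, hz, Sum.elim_inl, Sum.elim_inr]; ring
  hQ i z hz j := by simp only [mainE, hz, Sum.elim_inr]; ring

/-- the functions of the new basis, without the scalar -/
noncomputable def fN (S : Shape) (u j : ℕ) : ℚ[X] :=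
  rho2 S u * descPochhammer ℚ (S.a1 * u) * X ^ (j % 2)

lemma polN_eq (S : Shape) (u : ℕ) (g : ℕ → ℚ[X]) (j : ℕ) :
    polN S u g j = C (kap0 S u) * (fN S u j * g (j / 2)) := by
  rw [polN, gauge_eq, fN]
  ring

lemma PB_fN (S : Shape) (u j : ℕ) : PB 2 0 (fN S u j) := by
  have hX : PB 2 0 ((X : ℚ[X]) ^ (j % 2)) := by
    have := PB.prod0 (Finset.range (j % 2)) (fun _ => (X : ℚ[X])) (fun _ _ => pb_X)
    simpa using this
  have := ((PB_rho2 S u).mul (PB_descPochhammer (S.a1 * u))).mul hX
  simpa [fN] using this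

/-- **existence of the representation** -/
theorem exists_rep {g : ℕ → ℚ[X]} (hg : HTwo g) (hA1 : IntSites g) (hA2 : HalfSites g)
    (S : Shape) (hw : S.w ≤ S.i1) (u c : ℕ) (r : Col S u → Row)
    (hr : ∀ i, IsRow S u c (r i)) (Mb : ℕ) :
    ∃ (γ : ℚ) (L : ℕ) (aR dR wR : Fin (S.k * u) → ℕ → ℚ) (bb : ℕ → ℕ → ℚ)
      (err : Col S u → Col S u → ℚ[X]),
      Rep (MatN S u r (fun j => polN S u g j)) r γ (rho2 S u) L aR dR wR bb err ∧ I2 (-1) γ ∧
      (∀ j l, I2 (-kap S u + lh l) (aR j l)) ∧ (∀ j l, l < S.a1 * u → aR j l = 0) ∧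
      (∀ (j : Fin (S.k * u)) l, I2 (-kap S u + vb (j / 2) + lh l) (dR j l)) ∧
      (∀ (j : Fin (S.k * u)) (l : ℕ), I2 (-kap S u + vb (j / 2) + l + lh l) (wR j l)) ∧
      (∀ l i : ℕ, I2 (i + lh i - l - lh l) (bb l i)) ∧
      (∀ i j, PB 2 Mb (err i j)) := by
  classical
  set M0 : ℕ := Mb + (kap S u).toNat + (S.B * u + c) with hM0
  obtain ⟨γ, hγ, hD⟩ := hA1 M0
  choose D hDint hDv using fun j : Fin (S.k * u) => hD (j / 2) (fN S u j) (PB_fN S u j)
  choose W hWint hWv using fun j : Fin (S.k * u) => hA2 M0 (j / 2) (fN S u j) (PB_fN S u j)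
  -- the polynomials of the `R`-states
  set Pj : Fin (S.k * u) → ℚ[X] := fun j =>
    descPochhammer ℚ (S.a1 * u) * (X ^ ((j : ℕ) % 2) * g (j / 2)) with hPj
  have hPjint : ∀ j, PB 2 0 (Pj j) := by
    intro j
    have hX : PB 2 0 ((X : ℚ[X]) ^ ((j : ℕ) % 2)) := by
      have := PB.prod0 (Finset.range ((j : ℕ) % 2)) (fun _ => (X : ℚ[X])) (fun _ _ => pb_X)
      simpa using this
    have := (PB_descPochhammer (S.a1 * u)).mul (hX.mul (hg.int (j / 2)))
    simpa [hPj] using this
  set d : ℕ := (∑ j, (Pj j).natDegree) + (∑ j, (D j).natDegree) + (∑ j, (W j).natDegree)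
    + S.q * u + S.g * u with hd
  have hdP : ∀ j, (Pj j).natDegree ≤ d := fun j =>
    (natDegree_le_sum Pj j 0).trans (by omega)
  have hdD : ∀ j, (D j).natDegree ≤ d := fun j =>
    (natDegree_le_sum D j 0).trans (by omega)
  have hdW : ∀ j, (W j).natDegree ≤ d := fun j =>
    (natDegree_le_sum W j 0).trans (by omega)
  choose a ha haE using fun j => N1 (hPjint j) (hdP j)
  choose b hb hbE using fun j => N1 (hDint j) (hdD j)
  choose w hwv hwE using fun j => N2 (hWint j) (hdW j)
  choose n3 hn3 hn3E using fun l => N3 l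
  have hκ := I2_kap0 S u
  have hκ0 : 0 ≤ kap S u := by
    unfold kap
    have := lh_nonneg (S.a1 * u)
    have := lh_nonneg (S.a2 * u)
    have := lh_nonneg (S.i1 * u)
    have := lh_nonneg (S.r1 * u)
    omega
  have haz : ∀ j l, l < S.a1 * u → l ≤ d → a j l = 0 := by
    intro j l hl hld
    refine N1_zero (haE j) ?_ l hl hld
    intro n hn
    rw [hPj]
    simp only [eval_mul]
    rw [descPochhammer_eval_eq_descFactorial, Nat.descFactorial_eq_zero_iff_lt.mpr hn,
      Nat.cast_zero, zero_mul]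
  refine ⟨γ, d + 1, fun j l => if l < S.a1 * u then 0 else kap0 S u * a j l,
    fun j l => kap0 S u * beta (j / 2) * b j l, fun j l => kap0 S u * beta (j / 2) * w j l,
    fun l i => if i < l + 1 then n3 l i else 0, _,
    Rep.of_main _ r γ (rho2 S u) (d + 1) _ _ _ _ (by omega) (by omega), hγ, ?_, ?_, ?_, ?_, ?_, ?_⟩
  · intro j l
    dsimp only
    split_ifs
    · exact I2.zero _
    · exact hκ.mul (ha j l)
  · intro j l hl
    simp only [if_pos hl]
  · intro j l
    exact (hκ.mul (I2_beta _)).mul (hb j l)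
  · intro j l
    refine ((hκ.mul (I2_beta _)).mul (hwv j l)).mono ?_
    unfold lh
    omega
  · intro l i
    dsimp only
    split_ifs
    · exact hn3 l i
    · exact I2.zero _
  · -- the error
    intro i j
    have hri := hr i
    rcases hρ : r i with ⟨z | z, t⟩
    · -- integer sites
      rw [hρ] at hri
      have hrow : IntRow z t ∧ z ≤ (M0 : ℤ) := by
        rcases lt_or_ge z 0 with hz | hz
        · exact ⟨Or.inr ⟨hz, isRow_Z_neg hri hz⟩, by omega⟩
        · obtain ⟨h1, h2⟩ := isRow_Z_nonneg hri hz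
          exact ⟨Or.inl ⟨hz, h1⟩, by omega⟩
      rcases j with j | l | l
      · have h1 := hDv j z t hrow.1 hrow.2
        -- values of the `R`-part
        have e1 : ent1 (fN S u j * g (j / 2)) (Site.Z z, t) =
            ∑ l ∈ Finset.range (d + 1), a j l *
              PowerSeries.coeff t (gm (z : ℚ) (rho2 S u * bin l) * HomZ z) := by
          have e2 : fN S u j * g (j / 2) =
              ∑ l ∈ Finset.range (d + 1), C (a j l) * (rho2 S u * bin l) := by
            have e3 : fN S u j * g (j / 2) = rho2 S u * Pj j := by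
              simp only [fN, hPj]; ring
            rw [e3, haE j, Finset.mul_sum]
            refine Finset.sum_congr rfl fun l _ => ?_
            ring
          have e4 : ent1 (fN S u j * g (j / 2)) (Site.Z z, t) =
              PowerSeries.coeff t (gm (z : ℚ) (fN S u j * g (j / 2)) * HomZ z) := rfl
          rw [e4, e2, coeff_gm_sum]
        have e5 : PowerSeries.coeff t (gm (z : ℚ) (D j)) =
            ∑ l ∈ Finset.range (d + 1), b j l * PowerSeries.coeff t (gm (z : ℚ) (bin l)) := by
          conv_lhs => rw [hbE j]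
          rw [coeff_gm_sum']
        have e6 : ∑ l ∈ Finset.range (d + 1), (if l < S.a1 * u then 0 else kap0 S u * a j l) *
            PowerSeries.coeff t (gm (z : ℚ) (rho2 S u * bin l) * HomZ z) =
            kap0 S u * ent1 (fN S u j * g (j / 2)) (Site.Z z, t) := by
          rw [e1, Finset.mul_sum]
          refine Finset.sum_congr rfl fun l hl => ?_
          split_ifs with h2
          · rw [haz j l h2 (by have := Finset.mem_range.mp hl; omega)]
            ring
          · ring
        have e7 : ∑ l ∈ Finset.range (d + 1), kap0 S u * beta (j / 2) * b j l *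
            PowerSeries.coeff t (gm (z : ℚ) (bin l)) =
            kap0 S u * (beta (j / 2) * PowerSeries.coeff t (gm (z : ℚ) (D j))) := by
          rw [e5, Finset.mul_sum, Finset.mul_sum]
          refine Finset.sum_congr rfl fun l _ => ?_
          ring
        have e8 : MatN S u r (fun j => polN S u g j) i (Sum.inl j) -
            mainE (nT := S.q * u) (nQ := S.g * u) γ (rho2 S u) (d + 1) (fun j l => if l < S.a1 * u then 0 else kap0 S u * a j l)
              (fun j l => kap0 S u * beta (j / 2) * b j l)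
              (fun j l => kap0 S u * beta (j / 2) * w j l)
              (fun l i => if i < l + 1 then n3 l i else 0) (Site.Z z, t) (Sum.inl j) =
            C (kap0 S u * (ent0 (fN S u j * g (j / 2)) (Site.Z z, t)
              - γ * ent1 (fN S u j * g (j / 2)) (Site.Z z, t)
              - beta (j / 2) * PowerSeries.coeff t (gm (z : ℚ) (D j)))) := by
          simp only [MatN, Matrix.of_apply, Sum.elim_inl, mainE, entR]
          rw [e6, e7, polN_eq, hρ, ent0_C_mul, ent1_C_mul]
          simp only [C_sub, C_mul, C_add]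
          ring
        rw [e8]
        refine ((hκ.mul h1).pb).mono ?_
        omega
      · have e8 : MatN S u r (fun j => polN S u g j) i (Sum.inr (Sum.inl l)) -
            mainE (nT := S.q * u) (nQ := S.g * u) γ (rho2 S u) (d + 1) (fun j l => if l < S.a1 * u then 0 else kap0 S u * a j l)
              (fun j l => kap0 S u * beta (j / 2) * b j l)
              (fun j l => kap0 S u * beta (j / 2) * w j l)
              (fun l i => if i < l + 1 then n3 l i else 0) (Site.Z z, t)
              (Sum.inr (Sum.inl l)) = 0 := by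
          simp only [MatN, Matrix.of_apply, Sum.elim_inl, Sum.elim_inr, mainE, entry, hρ]
          exact sub_self _
        rw [e8]
        exact PB.zero _
      · have e8 : MatN S u r (fun j => polN S u g j) i (Sum.inr (Sum.inr l)) -
            mainE (nT := S.q * u) (nQ := S.g * u) γ (rho2 S u) (d + 1) (fun j l => if l < S.a1 * u then 0 else kap0 S u * a j l)
              (fun j l => kap0 S u * beta (j / 2) * b j l)
              (fun j l => kap0 S u * beta (j / 2) * w j l)
              (fun l i => if i < l + 1 then n3 l i else 0) (Site.Z z, t)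
              (Sum.inr (Sum.inr l)) = 0 := by
          simp only [MatN, Matrix.of_apply, Sum.elim_inr, mainE, entry, hρ]
          exact sub_self _
        rw [e8]
        exact PB.zero _
    · -- half-integer sites
      rw [hρ] at hri
      have e9 : ∀ l : ℕ, l ≤ d → ∀ φ : PowerSeries ℚ,
          ∑ l' ∈ Finset.range (d + 1), (if l' < l + 1 then n3 l l' else 0) *
            PowerSeries.coeff t (gm (z : ℚ) (bin l') * φ) =
          PowerSeries.coeff t (gm ((z : ℚ) + 1 / 2) (bin l) * φ) := by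
        intro l hl φ
        rw [gm_half, hn3E l, coeff_gm_sum]
        have h3 : Finset.range (l + 1) ⊆ Finset.range (d + 1) :=
          Finset.range_subset_range.mpr (by omega)
        rw [← Finset.sum_subset h3]
        · refine Finset.sum_congr rfl fun l' hl' => ?_
          rw [if_pos (Finset.mem_range.mp hl')]
        · intro l' _ hl'
          rw [if_neg (fun h => hl' (Finset.mem_range.mpr h)), zero_mul]
      rcases j with j | l | l
      · have hrow : HalfRow (fN S u j * g (j / 2)) z t := by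
          rcases lt_or_ge z 0 with hz | hz
          · obtain ⟨h1, h2⟩ := isRow_H_neg hri hz
            refine Or.inr ⟨hz, h1, ?_⟩
            rw [fN, eval_mul, eval_mul, eval_mul, rho2_zero S u hz h2 hw]
            ring
          · exact Or.inl ⟨hz, isRow_H_nonneg hri hz⟩
        have h1 := hWv j z t hrow
        have e5 : PowerSeries.coeff t (gm ((z : ℚ) + 1 / 2) ((W j).comp (C 2 * X))) =
            ∑ l ∈ Finset.range (d + 1), w j l * PowerSeries.coeff t (gm (z : ℚ) (bin l)) := by
          rw [gm_half, hwE j, coeff_gm_sum']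
        have e7 : ∑ l ∈ Finset.range (d + 1), kap0 S u * beta (j / 2) * w j l *
            PowerSeries.coeff t (gm (z : ℚ) (bin l)) =
            kap0 S u * (beta (j / 2) *
              PowerSeries.coeff t (gm ((z : ℚ) + 1 / 2) ((W j).comp (C 2 * X)))) := by
          rw [e5, Finset.mul_sum, Finset.mul_sum]
          refine Finset.sum_congr rfl fun l _ => ?_
          ring
        have e10 : ent1 (fN S u j * g (j / 2)) (Site.H z, t) = 0 := by
          simp only [ent1, psi1, mul_zero, map_zero]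
        have e8 : MatN S u r (fun j => polN S u g j) i (Sum.inl j) -
            mainE (nT := S.q * u) (nQ := S.g * u) γ (rho2 S u) (d + 1) (fun j l => if l < S.a1 * u then 0 else kap0 S u * a j l)
              (fun j l => kap0 S u * beta (j / 2) * b j l)
              (fun j l => kap0 S u * beta (j / 2) * w j l)
              (fun l i => if i < l + 1 then n3 l i else 0) (Site.H z, t) (Sum.inl j) =
            C (kap0 S u * (ent0 (fN S u j * g (j / 2)) (Site.H z, t)
              - beta (j / 2) *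
                PowerSeries.coeff t (gm ((z : ℚ) + 1 / 2) ((W j).comp (C 2 * X))))) := by
          simp only [MatN, Matrix.of_apply, Sum.elim_inl, mainE, entR]
          rw [e7, polN_eq, hρ, ent0_C_mul, ent1_C_mul, e10, mul_zero, C_0, mul_zero, sub_zero]
          simp only [C_sub, C_mul]
          ring
        rw [e8]
        refine ((hκ.mul h1).pb).mono ?_
        omega
      · have e8 : MatN S u r (fun j => polN S u g j) i (Sum.inr (Sum.inl l)) -
            mainE (nT := S.q * u) (nQ := S.g * u) γ (rho2 S u) (d + 1) (fun j l => if l < S.a1 * u then 0 else kap0 S u * a j l)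
              (fun j l => kap0 S u * beta (j / 2) * b j l)
              (fun j l => kap0 S u * beta (j / 2) * w j l)
              (fun l i => if i < l + 1 then n3 l i else 0) (Site.H z, t)
              (Sum.inr (Sum.inl l)) = 0 := by
          have e11 := e9 l (by have := l.2; omega) 1
          simp only [mul_one] at e11
          simp only [MatN, Matrix.of_apply, Sum.elim_inl, Sum.elim_inr, mainE, entry, hρ, e11]
          exact sub_self _
        rw [e8]
        exact PB.zero _
      · have e8 : MatN S u r (fun j => polN S u g j) i (Sum.inr (Sum.inr l)) -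
            mainE (nT := S.q * u) (nQ := S.g * u) γ (rho2 S u) (d + 1) (fun j l => if l < S.a1 * u then 0 else kap0 S u * a j l)
              (fun j l => kap0 S u * beta (j / 2) * b j l)
              (fun j l => kap0 S u * beta (j / 2) * w j l)
              (fun l i => if i < l + 1 then n3 l i else 0) (Site.H z, t)
              (Sum.inr (Sum.inr l)) = 0 := by
          have e11 := e9 l (by have := l.2; omega) (GamH z)
          simp only [MatN, Matrix.of_apply, Sum.elim_inr, mainE, entry, hρ, e11]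
          exact sub_self _
        rw [e8]
        exact PB.zero _

end Crest.Agent.R006.P6
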