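import Crest.Agent.R006.P6DetA_784
import Crest.Agent.R006.P6RepB_784
import Crest.Agent.R006.NVTau_938
import Crest.Agent.R006.PsiInf_294
import Crest.Agent.R006.Map_189
import Crest.Agent.R006.P6Stmt_784
import Mathlib
import Crest.Agent.R006.FuncL_170

-- ▼ part R006/P6Rows_153
section

/-!
# Row 6, block P6 (p = 2), leaf L1: the sum of the row potentials (helper153)

`Idx S u c` enumerates the rows of the design, `row` is the enumeration; `exists_idx` says that
every row is hit; `sum_row` evaluates the sum of `rowPot` over all rows;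
`sum_rowPot` : the sum over an admissible choice of the rows loses at most `c` maxima.
-/

set_option autoImplicit false

namespace Crest.Agent.R006.P6

open Crest.Agent.R006.D

namespace Rows153

/-- enumeration of the rows -/
abbrev Idx (S : Shape) (u c : ℕ) :=
  Fin (S.B * u + c) ⊕ (Fin (S.e1 * u) ⊕ Fin (S.e2 * u) ⊕ Fin (S.e3 * u)) ⊕
    (Fin (S.h1 * u) ⊕ Fin (S.h2 * u) ⊕ Fin (S.h3 * u)) ⊕ Fin (S.w * u)

/-- the row with a given index -/
def row (S : Shape) (u c : ℕ) : Idx S u c → Row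
  | .inl n => (.Z ((n : ℕ) : ℤ), 0)
  | .inr (.inl (.inl m)) => (.Z (-(((m : ℕ) : ℤ) + 1)), 0)
  | .inr (.inl (.inr (.inl m))) => (.Z (-(((m : ℕ) : ℤ) + 1)), 1)
  | .inr (.inl (.inr (.inr m))) => (.Z (-(((m : ℕ) : ℤ) + 1)), 2)
  | .inr (.inr (.inl (.inl m))) => (.H ((m : ℕ) : ℤ), 0)
  | .inr (.inr (.inl (.inr (.inl m)))) => (.H ((m : ℕ) : ℤ), 1)
  | .inr (.inr (.inl (.inr (.inr m)))) => (.H ((m : ℕ) : ℤ), 2)
  | .inr (.inr (.inr m)) => (.H (-1 - ((m : ℕ) : ℤ)), 0)

theorem exists_idx {S : Shape} (hS : S.Good) {u c : ℕ} {ρ : Row} (h : IsRow S u c ρ) :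
    ∃ x : Idx S u c, row S u c x = ρ := by
  obtain ⟨z, j⟩ := ρ
  have e21 : S.e2 * u ≤ S.e1 * u := Nat.mul_le_mul_right _ hS.e21
  have e32 : S.e3 * u ≤ S.e2 * u := Nat.mul_le_mul_right _ hS.e32
  have h21 : S.h2 * u ≤ S.h1 * u := Nat.mul_le_mul_right _ hS.h21
  have h32 : S.h3 * u ≤ S.h2 * u := Nat.mul_le_mul_right _ hS.h32
  unfold IsRow Shape.mult at h
  cases z with
  | Z i =>
    simp only at h
    by_cases hi : 0 ≤ i
    · rw [if_pos hi] at h
      split_ifs at h with h1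
      · have hj : j = 0 := by omega
        subst hj
        obtain ⟨n, rfl⟩ := Int.eq_ofNat_of_zero_le hi
        refine ⟨.inl ⟨n, ?_⟩, rfl⟩
        have : (n : ℤ) < ((S.B * u + c : ℕ) : ℤ) := by push_cast; exact h1
        exact_mod_cast this
      · omega
    · rw [if_neg hi] at h
      obtain ⟨m, rfl⟩ : ∃ m : ℕ, i = -((m : ℤ) + 1) := ⟨(-i - 1).toNat, by omega⟩
      have c1 : (-(-((m : ℤ) + 1)) ≤ (S.e1 : ℤ) * u) ↔ m < S.e1 * u := by
        constructor
        · intro hh
          have : ((m : ℤ) + 1) ≤ ((S.e1 * u : ℕ) : ℤ) := by push_cast; linarith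
          omega
        · intro hh
          have : ((m : ℤ) + 1) ≤ ((S.e1 * u : ℕ) : ℤ) := by omega
          push_cast at this; linarith
      have c2 : (-(-((m : ℤ) + 1)) ≤ (S.e2 : ℤ) * u) ↔ m < S.e2 * u := by
        constructor
        · intro hh
          have : ((m : ℤ) + 1) ≤ ((S.e2 * u : ℕ) : ℤ) := by push_cast; linarith
          omega
        · intro hh
          have : ((m : ℤ) + 1) ≤ ((S.e2 * u : ℕ) : ℤ) := by omega
          push_cast at this; linarith
      have c3 : (-(-((m : ℤ) + 1)) ≤ (S.e3 : ℤ) * u) ↔ m < S.e3 * u := by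
        constructor
        · intro hh
          have : ((m : ℤ) + 1) ≤ ((S.e3 * u : ℕ) : ℤ) := by push_cast; linarith
          omega
        · intro hh
          have : ((m : ℤ) + 1) ≤ ((S.e3 * u : ℕ) : ℤ) := by omega
          push_cast at this; linarith
      simp only [c1, c2, c3] at h
      obtain hj | hj | hj | hj : j = 0 ∨ j = 1 ∨ j = 2 ∨ 3 ≤ j := by omega
      · subst hj
        refine ⟨.inr (.inl (.inl ⟨m, ?_⟩)), rfl⟩
        split_ifs at h <;> omega
      · subst hj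
        refine ⟨.inr (.inl (.inr (.inl ⟨m, ?_⟩))), rfl⟩
        split_ifs at h <;> omega
      · subst hj
        refine ⟨.inr (.inl (.inr (.inr ⟨m, ?_⟩))), rfl⟩
        split_ifs at h <;> omega
      · exfalso
        split_ifs at h <;> omega
  | H i =>
    simp only at h
    by_cases hi : 0 ≤ i
    · rw [if_pos hi] at h
      obtain ⟨m, rfl⟩ := Int.eq_ofNat_of_zero_le hi
      have c1 : ((m : ℤ) < (S.h1 : ℤ) * u) ↔ m < S.h1 * u := by
        rw [← Nat.cast_mul]; exact Nat.cast_lt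
      have c2 : ((m : ℤ) < (S.h2 : ℤ) * u) ↔ m < S.h2 * u := by
        rw [← Nat.cast_mul]; exact Nat.cast_lt
      have c3 : ((m : ℤ) < (S.h3 : ℤ) * u) ↔ m < S.h3 * u := by
        rw [← Nat.cast_mul]; exact Nat.cast_lt
      simp only [c1, c2, c3] at h
      obtain hj | hj | hj | hj : j = 0 ∨ j = 1 ∨ j = 2 ∨ 3 ≤ j := by omega
      · subst hj
        refine ⟨.inr (.inr (.inl (.inl ⟨m, ?_⟩))), rfl⟩
        split_ifs at h <;> omega
      · subst hj
        refine ⟨.inr (.inr (.inl (.inr (.inl ⟨m, ?_⟩)))), rfl⟩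
        split_ifs at h <;> omega
      · subst hj
        refine ⟨.inr (.inr (.inl (.inr (.inr ⟨m, ?_⟩)))), rfl⟩
        split_ifs at h <;> omega
      · exfalso
        split_ifs at h <;> omega
    · rw [if_neg hi] at h
      obtain ⟨m, rfl⟩ : ∃ m : ℕ, i = -1 - (m : ℤ) := ⟨(-1 - i).toNat, by omega⟩
      split_ifs at h with h1
      · have hj : j = 0 := by omega
        subst hj
        refine ⟨.inr (.inr (.inr ⟨m, ?_⟩)), rfl⟩
        have : ((m : ℤ) + 1) ≤ ((S.w * u : ℕ) : ℤ) := by push_cast; linarith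
        omega
      · omega

lemma card_idx {S : Shape} (hS : S.Good) (u c : ℕ) :
    Fintype.card (Idx S u c) = Fintype.card (Col S u) + c := by
  have hk : S.k + S.q + S.g = S.rows := by
    have := hS.kpos
    unfold Shape.k
    omega
  simp only [Fintype.card_sum, Fintype.card_fin]
  have h1 : S.k * u + (S.q * u + S.g * u) = (S.k + S.q + S.g) * u := by ring
  rw [h1, hk]
  unfold Shape.rows
  ring

lemma rowPot_G (S : Shape) (u : ℕ) (P : Par ℤ) (n : ℕ) :
    rowPot S u P (.Z ((n : ℕ) : ℤ), 0) = piG S u P n := by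
  simp only [rowPot]
  rw [if_pos (Int.natCast_nonneg n), Int.toNat_natCast]

lemma rowPot_E (S : Shape) (u : ℕ) (P : Par ℤ) (m j : ℕ) :
    rowPot S u P (.Z (-((m : ℤ) + 1)), j) = if j < 2 then P.xT else min P.xT P.xQ := by
  simp only [rowPot]
  rw [if_neg (by omega)]

lemma rowPot_H (S : Shape) (u : ℕ) (P : Par ℤ) (m j : ℕ) :
    rowPot S u P (.H ((m : ℕ) : ℤ), j) = if j < 2 then P.xTH else min P.xTH P.xQH := by
  simp only [rowPot]
  rw [if_pos (Int.natCast_nonneg m)]

lemma rowPot_W (S : Shape) (u : ℕ) (P : Par ℤ) (m : ℕ) :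
    rowPot S u P (.H (-1 - (m : ℤ)), 0) = piW P m := by
  simp only [rowPot]
  rw [if_neg (by omega)]
  congr 1
  omega

/-- sum of the potentials over all rows -/
theorem sum_row (S : Shape) (u c : ℕ) (P : Par ℤ) :
    ∑ x : Idx S u c, rowPot S u P (row S u c x) = sumRows S u c P := by
  simp only [Fintype.sum_sum_type, row, rowPot_G, rowPot_E, rowPot_H, rowPot_W]
  rw [Fin.sum_univ_eq_sum_range (fun n => piG S u P n) (S.B * u + c),
    Fin.sum_univ_eq_sum_range (fun n => piW P n) (S.w * u)]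
  simp only [Finset.sum_const, Finset.card_univ, Fintype.card_fin, nsmul_eq_mul]
  unfold sumRows
  norm_num
  ring

end Rows153

open Rows153 in
/-- **leaf L1**: the sum of the row potentials over an admissible choice of the rows -/
theorem sum_rowPot (S : Shape) (hS : S.Good) (u c : ℕ) (P : Par ℤ) (r : Col S u → Row)
    (h : Adm S u c r) :
    sumRows S u c P - c * max P.xT P.xTH ≤ ∑ i, rowPot S u P (r i) := by
  classical
  choose r' hr' using fun i => exists_idx hS (h.2 i)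
  have hinj : Function.Injective r' := by
    intro i j hij
    apply h.1
    rw [← hr' i, ← hr' j, hij]
  have e1 : ∑ i, rowPot S u P (r i) =
      ∑ x ∈ Finset.univ.image r', rowPot S u P (row S u c x) := by
    rw [Finset.sum_image (fun a _ b _ hab => hinj hab)]
    exact Finset.sum_congr rfl fun i _ => by rw [hr' i]
  have e2 := Finset.sum_add_sum_compl (Finset.univ.image r')
    (fun x => rowPot S u P (row S u c x))
  rw [sum_row] at e2
  have e3 : (Finset.univ.image r')ᶜ.card = c := by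
    rw [Finset.card_compl, Finset.card_image_of_injective _ hinj, Finset.card_univ, card_idx hS]
    omega
  have e4 : ∑ x ∈ (Finset.univ.image r')ᶜ, rowPot S u P (row S u c x) ≤
      c * max P.xT P.xTH := by
    have := Finset.sum_le_card_nsmul (Finset.univ.image r')ᶜ
      (fun x => rowPot S u P (row S u c x)) (max P.xT P.xTH)
      (fun x _ => rowPot_le S u P _)
    rw [e3, nsmul_eq_mul] at this
    exact this
  rw [e1]
  linarith

end Crest.Agent.R006.P6
private theorem rz_d37f5930a7 : type_of% @_root_.Crest.Agent.R006.P6.Rows153.row.eq_1 := @_root_.Crest.Agent.R006.P6.Rows153.row.eq_1 -- L25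
end

-- ▼ part R006/P6Asm_784
section

/-!
# Row 6, block P6, line A: the determinant half (helper784)
-/

set_option autoImplicit false

namespace Crest.Agent.R006.P6

open Polynomial Crest.Agent.R006.NV Crest.Agent.R006.PsiInf Crest.Agent.R006.D
open Crest.Agent.R006.ProdBound481

/-- base change as a hypothesis -/
def BaseChange (g : ℕ → ℚ[X]) : Prop :=
  ∀ (S : Shape) (u : ℕ) (r : Col S u → Row) (V : ℤ),
    PB 2 V (MatN S u r (fun j => polN S u g j)).det →
    PB 2 (V - ∑ j ∈ Finset.range (S.k * u), (lh (S.a1 * u + j) - lh (S.a1 * u))) (Minor S u r)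

theorem det_bound {g : ℕ → ℚ[X]} (hg : HTwo g) (hA1 : IntSites g) (hA2 : HalfSites g)
    (hB : BaseChange g) (S : Shape) (hS : S.Good) (u c : ℕ) (r : Col S u → Row)
    (h : Adm S u c r) (P : Par ℤ) : ∃ L : ℕ, PB 2 (Vlow S u c P L) (Minor S u r) := by
  classical
  set Mb : ℕ := (∑ i : Col S u, (rowPot S u P (r i)).toNat)
    + ∑ j : Col S u, (colPot S u P j).toNat with hMb
  obtain ⟨γ, L, aR, dR, wR, bb, err, hrep, hγ, haR, haR0, hdR, hwR, hbb, herr⟩ :=
    exists_rep hg hA1 hA2 S hS.wi u c r h.2 Mb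
  refine ⟨L, ?_⟩
  have key := Rep.PB_det (P := P) weights hrep h.2 hγ (rho2_eval S u) haR haR0 hdR hwR hbb
    (fun i j => (herr i j).mono (by
      have h1 : (rowPot S u P (r i)).toNat ≤ ∑ i : Col S u, (rowPot S u P (r i)).toNat :=
        Finset.single_le_sum (f := fun i : Col S u => (rowPot S u P (r i)).toNat)
          (fun _ _ => Nat.zero_le _) (Finset.mem_univ i)
      have h2 : (colPot S u P j).toNat ≤ ∑ j : Col S u, (colPot S u P j).toNat :=
        Finset.single_le_sum (f := fun j : Col S u => (colPot S u P j).toNat)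
          (fun _ _ => Nat.zero_le _) (Finset.mem_univ j)
      omega))
  have key2 := hB S u r _ key
  refine key2.mono ?_
  have h3 := sum_rowPot S hS u c P r h
  have h4 : ∑ j : Fin (S.k * u) ⊕ Fin (S.q * u) ⊕ Fin (S.g * u), colPot S u P j =
      ∑ j ∈ Finset.range (S.k * u), eR S u P j
        + ∑ l ∈ Finset.range (S.q * u), eT P l + ∑ l ∈ Finset.range (S.g * u), eQ P l := by
    rw [Fintype.sum_sum_type, Fintype.sum_sum_type]
    simp only [colPot, Sum.elim_inl, Sum.elim_inr]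
    rw [Finset.sum_range, Finset.sum_range, Finset.sum_range, add_assoc]
  rw [h4]
  unfold Vlow sumCols
  rw [Finset.sum_sub_distrib]
  linarith

theorem atPrime_of {g : ℕ → ℚ[X]} (hg : HTwo g) (hA1 : IntSites g) (hA2 : HalfSites g)
    (hB : BaseChange g) (S : Shape) (hS : S.Good) (c : ℕ) (ξ : Par ℝ)
    (hE : ∀ δ : ℝ, 0 < δ → ∀ᶠ u : ℕ in Filter.atTop, ∀ L : ℕ,
      (val2 S ξ - δ) * (u : ℝ) ^ 2 ≤ (Vlow S u c (parOf ξ u) L : ℝ)) :
    AtPrime S c 2 (-val2 S ξ) := by
  intro δ hδ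
  filter_upwards [hE δ hδ] with u hu r hr i hi
  obtain ⟨L, hL⟩ := det_bound hg hA1 hA2 hB S hS u c r hr (parOf ξ u)
  have h1 := hL.le_padicValRat i hi
  have h2 : (Vlow S u c (parOf ξ u) L : ℝ) ≤ (padicValRat 2 ((Minor S u r).coeff i) : ℝ) := by
    exact_mod_cast h1
  have h3 := hu L
  nlinarith

end Crest.Agent.R006.P6
end

-- ▼ part R006/CinfMu_189
section

/-!
# Row 6: the two descriptions of the formal solution at infinity agree (helper189)

* `cinf_succ`: `NV.cinf (k + 1) = mu k` over every field of characteristic zero;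
* `key_cinf`: the key identity for `k ↦ cinf (k + 1)`;
* `TR_X_pow`, `TR_eq_Tpart`: `PsiInf.TR mu = Tpart`, `TR mu (X ^ l) = NV.tau l`;
* `TR_map`: base change of `TR`;
* `Finf_TR_coeff`, `Finf_TR_natDegree_le`: `R ψ_∞ - TR mu R` has no polynomial part.
-/

set_option autoImplicit false

namespace Crest.Agent.R006.CinfMu

open Polynomial Finset NV PsiInf

variable {K : Type*} [Field K]

/-- coefficient functional against `pinf` -/
lemma lin_cinf_eq (P : K[X]) {M : ℕ} (hM : P.natDegree < M) :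
    lin (fun k => (cinf (k + 1) : K)) P = (P * pinf M).coeff (M - 1) := by
  rw [lin_eq_sum _ P hM, coeff_mul, Finset.Nat.sum_antidiagonal_eq_sum_range_succ
    (fun a b => P.coeff a * (pinf M : K[X]).coeff b)]
  have h1 : (M - 1).succ = M := by omega
  rw [h1]
  refine Finset.sum_congr rfl fun k hk => ?_
  rw [Finset.mem_range] at hk
  rw [pinf_coeff, if_pos (by omega)]
  congr 2
  omega

/-- **the key identity** for the coefficients `cinf` -/
theorem key_cinf [CharZero K] : Key (fun k => (cinf (k + 1) : K)) := by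
  apply key_of_monomials
  intro j
  obtain ⟨M, hM⟩ : ∃ M : ℕ, M = j + 4 := ⟨_, rfl⟩
  have hs : (shp K j).natDegree < M := by
    have := shp_natDegree_le (K := K) j
    omega
  rw [lin_cinf_eq _ hs]
  set p : K[X] := pinf M with hp
  set A : K[X] := X ^ (j + 3) * p with hA
  set B : K[X] := shp K j * p with hB
  have hAc : A.coeff (M - 1) = cinf (j + 3 + 1) := by
    rw [hA, mul_comm, coeff_mul_X_pow', if_pos (by omega), hp, pinf_coeff, if_pos (by omega)]
    congr 1
    omega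
  -- division by `X ^ M`
  have hXm : (X ^ M : K[X]).Monic := monic_X_pow M
  have hXd : (X ^ M : K[X]).degree = M := degree_X_pow M
  have dA := modByMonic_add_div A (X ^ M : K[X])
  have dB := modByMonic_add_div B (X ^ M : K[X])
  have lA : (A %ₘ X ^ M).degree < M := by
    have := degree_modByMonic_lt A hXm
    rwa [hXd] at this
  have lB : (B %ₘ X ^ M).degree < M := by
    have := degree_modByMonic_lt B hXm
    rwa [hXd] at this
  have hM0 : 0 < M := by omega
  have nA : (A %ₘ X ^ M).natDegree ≤ M - 1 := by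
    rcases eq_or_ne (A %ₘ X ^ M) 0 with h | h
    · rw [h]; simp
    · have := (natDegree_lt_iff_degree_lt h).mpr lA
      omega
  have nB : (B %ₘ X ^ M).natDegree ≤ M - 1 := by
    rcases eq_or_ne (B %ₘ X ^ M) 0 with h | h
    · rw [h]; simp
    · have := (natDegree_lt_iff_degree_lt h).mpr lB
      omega
  have cA : (A %ₘ X ^ M).coeff (M - 1) = A.coeff (M - 1) := by
    conv_rhs => rw [← dA, mul_comm (X ^ M), coeff_add, coeff_mul_X_pow', if_neg (by omega)]
    rw [add_zero]
  have cB : (B %ₘ X ^ M).coeff (M - 1) = B.coeff (M - 1) := by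
    conv_rhs => rw [← dB, mul_comm (X ^ M), coeff_add, coeff_mul_X_pow', if_neg (by omega)]
    rw [add_zero]
  set A0 := A %ₘ X ^ M
  set B0 := B %ₘ X ^ M
  set A1 := A /ₘ X ^ M
  set B1 := B /ₘ X ^ M
  -- the identity
  have e1 : (X + 1) ^ j * EE M p = (X + 1) ^ M * B + X ^ M * taylor 1 A
      + X ^ M * (X + 1) ^ M * (C (1 / 2) * (3 * X + 2) * (X + 1) ^ j) := by
    rw [hA, hB, shp, taylor_mul, taylor_X_pow, C_1]
    unfold EE
    ring
  have e2 : taylor 1 A = taylor 1 A0 + (X + 1) ^ M * taylor 1 A1 := by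
    conv_lhs => rw [← dA]
    rw [map_add, taylor_mul, taylor_X_pow, C_1]
  set Q : K[X] := B1 + taylor 1 A1 + C (1 / 2) * (3 * X + 2) * (X + 1) ^ j with hQ
  have e3 : X ^ M * (X + 1) ^ M * Q =
      (X + 1) ^ j * EE M p - (X + 1) ^ M * B0 - X ^ M * taylor 1 A0 := by
    rw [e1, e2, hQ]
    have : B = B0 + X ^ M * B1 := dB.symm
    rw [this]
    ring
  have nT : (taylor 1 A0).natDegree ≤ M - 1 := by rw [natDegree_taylor]; exact nA
  have nE : ((X + 1) ^ j * EE M p).natDegree ≤ 2 * M - 2 := by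
    refine nd_mul (m := j) (n := M + 2) (nd_pow j natDegree_X_add_one.le le_rfl)
      (EE_pinf_natDegree M) (by omega)
  have n1 : ((X + 1) ^ M * B0).natDegree ≤ 2 * M - 1 :=
    nd_mul (nd_pow M natDegree_X_add_one.le le_rfl) nB (by omega)
  have n2 : (X ^ M * taylor 1 A0).natDegree ≤ 2 * M - 1 :=
    nd_mul (natDegree_X_pow_le _) nT (by omega)
  have n3 : (X ^ M * (X + 1) ^ M * Q).natDegree ≤ 2 * M - 1 := by
    rw [e3]
    exact nd_sub (nd_sub (nE.trans (by omega)) n1) n2
  have hQ0 : Q = 0 := by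
    by_contra h
    have hm : (X ^ M * (X + 1) ^ M : K[X]).Monic := by
      have : (X + 1 : K[X]).Monic := by
        have := monic_X_add_C (1 : K)
        rwa [C_1] at this
      exact (monic_X_pow M).mul (this.pow M)
    have hd : (X ^ M * (X + 1) ^ M : K[X]).natDegree = M + M := by
      have h1 : (X + 1 : K[X]).Monic := by
        have := monic_X_add_C (1 : K)
        rwa [C_1] at this
      rw [(monic_X_pow M).natDegree_mul (h1.pow M), natDegree_X_pow, h1.natDegree_pow,
        natDegree_X_add_one, mul_one]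
    have := hm.natDegree_mul' h
    rw [hd] at this
    omega
  rw [hQ0, mul_zero] at e3
  have e4 : ((X + 1) ^ j * EE M p - (X + 1) ^ M * B0 - X ^ M * taylor 1 A0).coeff (2 * M - 1)
      = 0 := by rw [← e3, coeff_zero]
  rw [coeff_sub, coeff_sub, coeff_eq_zero_of_natDegree_lt (p := (X + 1) ^ j * EE M p) (by omega),
    show 2 * M - 1 = M + (M - 1) by omega,
    coeff_mul_add_eq_of_natDegree_le (nd_pow M natDegree_X_add_one.le le_rfl) nB,
    coeff_mul_add_eq_of_natDegree_le (natDegree_X_pow_le _) nT, coeff_X_pow_self, one_mul] at e4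
  have p1 : ((X + 1 : K[X]) ^ M).coeff M = 1 := by
    have := coeff_pow_of_natDegree_le (m := M) (natDegree_X_add_one (K := K)).le
    rw [mul_one] at this
    rw [this, coeff_one_X_add_one, one_pow]
  have p2 : (taylor 1 A0).coeff (M - 1) = A0.coeff (M - 1) := by
    rcases Nat.lt_or_ge A0.natDegree (M - 1) with h | h
    · rw [coeff_eq_zero_of_natDegree_lt h, coeff_eq_zero_of_natDegree_lt]
      rw [natDegree_taylor]; exact h
    · have h' : A0.natDegree = M - 1 := le_antisymm nA h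
      have := coeff_taylor_natDegree (1 : K) A0
      rw [h'] at this
      rw [this, leadingCoeff, h']
  rw [p1, one_mul, p2, cA, cB, hAc] at e4
  have e5 : B.coeff (M - 1) = (shp K j * pinf M).coeff (M - 1) := rfl
  show cinf (j + 3 + 1) + B.coeff (M - 1) = 0
  linear_combination -e4

lemma cinf_one : (cinf 1 : K) = 0 := by
  show -(1 / 9) * (EE 0 (pinf 0) : K[X]).coeff 2 = 0
  have : (EE 0 (pinf 0) : K[X]) = C (1 / 2 * 3) * X + C (1 / 2 * 2) := by
    simp only [EE, pinf, mul_zero, map_zero, add_zero, zero_add, pow_zero, mul_one]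
    rw [three_eq_C, two_eq_C, C_mul, C_mul]
    ring
  rw [this]
  simp

lemma pinf_one : (pinf 1 : K[X]) = 0 := by
  have h := pinf_succ (K := K) 0
  rw [zero_add, cinf_one, C_0, add_zero] at h
  rw [h]
  simp [pinf]

lemma cinf_two [CharZero K] : (cinf 2 : K) = -1 / 6 := by
  show -(1 / 9) * (EE 1 (pinf 1) : K[X]).coeff 3 = -1 / 6
  rw [pinf_one]
  have : (EE 1 0 : K[X]) = C (3 / 2) * X ^ 3 + C (5 / 2) * X ^ 2 + C 1 * X := by
    simp only [EE, mul_zero, map_zero, add_zero, zero_add, pow_one]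
    have h3 : (3 : K[X]) = C 3 := three_eq_C
    have h2 : (2 : K[X]) = C 2 := two_eq_C
    rw [h3, h2]
    have e1 : (C (3 / 2) : K[X]) = C (1 / 2) * C 3 := by rw [← C_mul]; norm_num
    have e2 : (C (5 / 2) : K[X]) = C (1 / 2) * C 3 + C (1 / 2) * C 2 := by
      rw [← C_mul, ← C_mul, ← C_add]; norm_num
    have e3 : (C 1 : K[X]) = C (1 / 2) * C 2 := by rw [← C_mul]; norm_num
    rw [e1, e2, e3]
    ring
  rw [this]
  simp only [coeff_add, coeff_C_mul, coeff_X_pow, coeff_X]
  norm_num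

lemma pinf_two [CharZero K] : (pinf 2 : K[X]) = C (-1 / 6) := by
  have h := pinf_succ (K := K) 1
  rw [pinf_one, mul_zero, zero_add] at h
  rw [h]
  show C (cinf 2 : K) = _
  rw [cinf_two]

lemma cinf_three [CharZero K] : (cinf 3 : K) = 7 / 54 := by
  show -(1 / 9) * (EE 2 (pinf 2) : K[X]).coeff 4 = 7 / 54
  rw [pinf_two]
  have h3 : (3 : K[X]) = C 3 := three_eq_C
  have h2 : (2 : K[X]) = C 2 := two_eq_C
  have : (EE 2 (C (-1 / 6)) : K[X]) =
      C (-1 / 6) * (C 8 * X ^ 5 + C 28 * X ^ 4 + C 38 * X ^ 3 + C 25 * X ^ 2 + C 8 * X + C 1)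
      + C (-1 / 6) * (X ^ 5 + C 3 * X ^ 4 + C 3 * X ^ 3 + X ^ 2)
      + C (1 / 2) * (C 3 * X ^ 5 + C 8 * X ^ 4 + C 7 * X ^ 3 + C 2 * X ^ 2) := by
    unfold EE
    rw [taylor_C]
    simp only [map_ofNat, C_1]
    ring
  rw [this]
  simp only [coeff_add, coeff_C_mul, coeff_X_pow, coeff_X, coeff_C]
  norm_num

/-- **`cinf (k + 1) = mu k`** -/
theorem cinf_succ [CharZero K] (k : ℕ) : (cinf (k + 1) : K) = ((mu k : ℚ) : K) := by
  have h := mu_unique (K := K) (m := fun k => (cinf (k + 1) : K)) key_cinf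
    (by simp only [zero_add]; rw [cinf_one, mul_zero])
    (by
      simp only [zero_add, Nat.reduceAdd]
      rw [cinf_one, cinf_two]; norm_num)
    (by
      simp only [zero_add, Nat.reduceAdd]
      rw [cinf_one, cinf_two, cinf_three]; norm_num)
  exact congrFun h k

/-- over `ℚ` -/
theorem cinf_succ_rat (k : ℕ) : (cinf (k + 1) : ℚ) = mu k := by
  rw [cinf_succ]; rfl

/-! ### polynomial parts -/

theorem TR_X_pow (m : ℕ → K) (l : ℕ) :
    TR m (X ^ l) = ∑ i ∈ range l, C (m i) * X ^ (l - 1 - i) := by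
  rw [X_pow_eq_monomial, TR_monomial, C_1, one_mul]







/-! ### behaviour of `R ψ_∞ - TR mu R` at infinity, through `pinf` -/



end Crest.Agent.R006.CinfMu
end

-- ▼ part R006/P6HalfSites_664
section

/-!
Row 6, block P6 (p = 2), leaf A2: values at the half-integer sites.

`theorem halfSites {g} (h : HTwo g) : HalfSites g`.

Idea: at a half-integer `x` the formal series `ψ_∞` converges 2-adically and is the germ `ψ_*`
(mod `ε^3`): the truncation satisfies the recurrence up to a 2-adically small defect, and the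
chain starts with `(2s+1)^3 = 8 ε^3` at `-1/2`.
-/

set_option autoImplicit false

namespace Crest.Agent.R006.P6Halfx664

open Polynomial Crest.Agent.R006.NV Crest.Agent.R006.PsiInf Crest.Agent.R006.D
open Crest.Agent.R006.ProdBound481 Crest.Agent.R006.P6

instance : Fact (Nat.Prime 2) := ⟨Nat.prime_two⟩

/-! ### the predicate `I2` -/

lemma i2_zero (v : ℤ) : I2 v 0 := by
  unfold I2
  rw [padicNorm.zero]
  positivity

lemma i2_mono {v w : ℤ} {x : ℚ} (h : I2 v x) (hw : w ≤ v) : I2 w x := by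
  unfold I2 at *
  refine h.trans (zpow_le_zpow_right₀ (by norm_num) (by omega))

lemma i2_add {v : ℤ} {x y : ℚ} (hx : I2 v x) (hy : I2 v y) : I2 v (x + y) := by
  unfold I2 at *
  exact padicNorm.nonarchimedean.trans (max_le hx hy)

lemma i2_neg {v : ℤ} {x : ℚ} (hx : I2 v x) : I2 v (-x) := by
  unfold I2 at *
  rwa [padicNorm.neg]

lemma i2_sub {v : ℤ} {x y : ℚ} (hx : I2 v x) (hy : I2 v y) : I2 v (x - y) := by
  rw [sub_eq_add_neg]; exact i2_add hx (i2_neg hy)

lemma i2_mul {v w : ℤ} {x y : ℚ} (hx : I2 v x) (hy : I2 w y) : I2 (v + w) (x * y) := by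
  unfold I2 at *
  rw [padicNorm.mul, neg_add, zpow_add₀ (by norm_num)]
  exact mul_le_mul hx hy (padicNorm.nonneg _) (by positivity)

lemma i2_sum {ι : Type*} {v : ℤ} (s : Finset ι) (f : ι → ℚ) (h : ∀ i ∈ s, I2 v (f i)) :
    I2 v (∑ i ∈ s, f i) := by
  classical
  induction s using Finset.induction_on with
  | empty => simpa using i2_zero v
  | insert a s ha ih =>
    rw [Finset.sum_insert ha]
    exact i2_add (h a (Finset.mem_insert_self _ _))
      (ih fun i hi => h i (Finset.mem_insert_of_mem hi))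

lemma i2_int (n : ℤ) : I2 0 (n : ℚ) := by
  unfold I2
  rw [neg_zero, zpow_zero]
  exact padicNorm.of_int n

lemma i2_one : I2 0 (1 : ℚ) := by
  have := i2_int 1
  simpa using this

lemma norm_two : padicNorm 2 (2 : ℚ) = 2⁻¹ := by
  have h := padicNorm.padicNorm_p (p := 2) (by norm_num)
  exact_mod_cast h

lemma i2_two : I2 1 (2 : ℚ) := by
  unfold I2
  rw [norm_two]
  norm_num

lemma i2_half : I2 (-1) (1 / 2 : ℚ) := by
  unfold I2
  rw [padicNorm.div, padicNorm.one, norm_two]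
  norm_num

lemma i2_pow {v : ℤ} {x : ℚ} (hx : I2 v x) (n : ℕ) : I2 (n * v) (x ^ n) := by
  induction n with
  | zero => simpa using i2_one
  | succ n ih =>
    rw [pow_succ]
    refine i2_mono (i2_mul ih hx) ?_
    push_cast
    linarith

/-! ### power series modulo `ε^3` -/

/-- the coefficients of `ε^j`, `j < 3`, have 2-adic valuation `≥ v` -/
def Iv (v : ℤ) (φ : PowerSeries ℚ) : Prop := ∀ j < 3, I2 v (PowerSeries.coeff j φ)

lemma Iv.zero (v : ℤ) : Iv v 0 := by
  intro j _; simpa using i2_zero v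

lemma Iv.mono {v w : ℤ} {φ : PowerSeries ℚ} (h : Iv v φ) (hw : w ≤ v) : Iv w φ :=
  fun j hj => i2_mono (h j hj) hw

lemma Iv.add {v : ℤ} {φ ψ : PowerSeries ℚ} (h1 : Iv v φ) (h2 : Iv v ψ) : Iv v (φ + ψ) := by
  intro j hj
  rw [map_add]
  exact i2_add (h1 j hj) (h2 j hj)

lemma Iv.neg {v : ℤ} {φ : PowerSeries ℚ} (h1 : Iv v φ) : Iv v (-φ) := by
  intro j hj
  rw [map_neg]
  exact i2_neg (h1 j hj)

lemma Iv.sub {v : ℤ} {φ ψ : PowerSeries ℚ} (h1 : Iv v φ) (h2 : Iv v ψ) : Iv v (φ - ψ) := by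
  rw [sub_eq_add_neg]; exact h1.add h2.neg

lemma Iv.sum {ι : Type*} {v : ℤ} (s : Finset ι) (f : ι → PowerSeries ℚ)
    (h : ∀ i ∈ s, Iv v (f i)) : Iv v (∑ i ∈ s, f i) := by
  classical
  induction s using Finset.induction_on with
  | empty => simpa using Iv.zero v
  | insert a s ha ih =>
    rw [Finset.sum_insert ha]
    exact (h a (Finset.mem_insert_self _ _)).add
      (ih fun i hi => h i (Finset.mem_insert_of_mem hi))

lemma Iv.mul {v w : ℤ} {φ ψ : PowerSeries ℚ} (h1 : Iv v φ) (h2 : Iv w ψ) :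
    Iv (v + w) (φ * ψ) := by
  intro j hj
  rw [PowerSeries.coeff_mul]
  apply i2_sum
  intro x hx
  have hx' : x.1 + x.2 = j := Finset.HasAntidiagonal.mem_antidiagonal.mp hx
  exact i2_mul (h1 x.1 (by omega)) (h2 x.2 (by omega))

lemma Iv.C {v : ℤ} {x : ℚ} (h : I2 v x) : Iv v (PowerSeries.C x) := by
  intro j _
  rw [PowerSeries.coeff_C]
  split_ifs
  · exact h
  · exact i2_zero v

lemma Iv.X : Iv 0 (PowerSeries.X : PowerSeries ℚ) := by
  intro j _
  rw [PowerSeries.coeff_X]
  split_ifs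
  · exact i2_one
  · exact i2_zero 0

lemma Iv.one : Iv 0 (1 : PowerSeries ℚ) := by
  have := Iv.C i2_one
  simpa using this

lemma Iv.pow {v : ℤ} {φ : PowerSeries ℚ} (hx : Iv v φ) (n : ℕ) : Iv (n * v) (φ ^ n) := by
  induction n with
  | zero => simpa using Iv.one
  | succ n ih =>
    rw [pow_succ]
    have := ih.mul hx
    refine this.mono ?_
    push_cast
    linarith

/-- inverses of units -/
lemma Iv.inv {φ ψ : PowerSeries ℚ} (h : Iv 0 φ)
    (h0 : padicNorm 2 (PowerSeries.constantCoeff φ) = 1) (hψ : φ * ψ = 1) : Iv 0 ψ := by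
  intro j
  induction j using Nat.strong_induction_on with
  | _ j ih =>
    intro hj
    have hc := congrArg (PowerSeries.coeff j) hψ
    rw [PowerSeries.coeff_mul, Finset.Nat.sum_antidiagonal_eq_sum_range_succ
      (fun a b => PowerSeries.coeff a φ * PowerSeries.coeff b ψ), Finset.sum_range_succ'] at hc
    simp only [Nat.sub_zero] at hc
    have h1 : I2 0 (PowerSeries.coeff 0 φ * PowerSeries.coeff j ψ) := by
      have e : PowerSeries.coeff 0 φ * PowerSeries.coeff j ψ = PowerSeries.coeff j 1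
          - ∑ k ∈ Finset.range j, PowerSeries.coeff (k + 1) φ
            * PowerSeries.coeff (j - (k + 1)) ψ := by
        linear_combination hc
      rw [e]
      apply i2_sub
      · exact Iv.one j hj
      · apply i2_sum
        intro k hk
        have hk' := Finset.mem_range.mp hk
        have := i2_mul (h (k + 1) (by omega)) (ih (j - (k + 1)) (by omega) (by omega))
        simpa using this
    unfold I2 at *
    rw [padicNorm.mul] at h1
    have h2 : padicNorm 2 (PowerSeries.coeff 0 φ) = 1 := by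
      rw [PowerSeries.coeff_zero_eq_constantCoeff_apply]; exact h0
    rwa [h2, one_mul] at h1

/-! ### the local parameter at a half-integer -/

/-- `2 (x + ε)` at `x = i + 1/2` -/
noncomputable def tt (i : ℤ) : PowerSeries ℚ :=
  PowerSeries.C (2 * (i : ℚ) + 1) + PowerSeries.C 2 * PowerSeries.X

/-- its inverse -/
noncomputable def ti (i : ℤ) : PowerSeries ℚ := (tt i)⁻¹

lemma tt_eq (i : ℤ) : tt i = 2 * pt ((i : ℚ) + 1 / 2) := by
  unfold tt pt
  have h2 : (2 : PowerSeries ℚ) = PowerSeries.C 2 := (map_ofNat PowerSeries.C 2).symm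
  rw [h2, mul_add, ← map_mul, add_comm]
  congr 2
  ring

lemma odd_norm (i : ℤ) : padicNorm 2 (2 * (i : ℚ) + 1) = 1 := by
  have : (2 * (i : ℚ) + 1) = ((2 * i + 1 : ℤ) : ℚ) := by push_cast; ring
  rw [this]
  apply (padicNorm.int_eq_one_iff (p := 2) (2 * i + 1)).mpr
  intro h
  have : (2 : ℤ) ∣ 2 * i + 1 := by exact_mod_cast h
  omega

lemma tt_const (i : ℤ) : PowerSeries.constantCoeff (tt i) = 2 * (i : ℚ) + 1 := by
  simp [tt]

lemma tt_mul_ti (i : ℤ) : tt i * ti i = 1 := by
  apply PowerSeries.mul_inv_cancel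
  rw [tt_const]
  intro h
  have := odd_norm i
  rw [h, padicNorm.zero] at this
  exact zero_ne_one this

lemma Iv_tt (i : ℤ) : Iv 0 (tt i) := by
  unfold tt
  apply Iv.add
  · apply Iv.C
    have := i2_int (2 * i + 1)
    push_cast at this
    exact this
  · have := (Iv.C (i2_int 2)).mul Iv.X
    simpa using this

lemma Iv_ti (i : ℤ) : Iv 0 (ti i) :=
  Iv.inv (Iv_tt i) (by rw [tt_const]; exact odd_norm i) (tt_mul_ti i)

/-- `1 / (x + ε)` -/
noncomputable def si (i : ℤ) : PowerSeries ℚ := 2 * ti i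

lemma pt_mul_si (i : ℤ) : pt ((i : ℚ) + 1 / 2) * si i = 1 := by
  have h := tt_mul_ti i
  rw [tt_eq] at h
  unfold si
  linear_combination h

lemma Iv_si (i : ℤ) : Iv 1 (si i) := by
  unfold si
  have h2 : (2 : PowerSeries ℚ) = PowerSeries.C 2 := (map_ofNat PowerSeries.C 2).symm
  rw [h2]
  have := (Iv.C i2_two).mul (Iv_ti i)
  simpa using this

lemma Iv_pt (i : ℤ) : Iv (-1) (pt ((i : ℚ) + 1 / 2)) := by
  have e : pt ((i : ℚ) + 1 / 2) = PowerSeries.C (1 / 2) * tt i := by
    rw [tt_eq]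
    have h2 : (2 : PowerSeries ℚ) = PowerSeries.C 2 := (map_ofNat PowerSeries.C 2).symm
    rw [h2, ← mul_assoc, ← map_mul]
    norm_num
  rw [e]
  have := (Iv.C i2_half).mul (Iv_tt i)
  simpa using this

/-! ### germs of integral polynomials -/

lemma gm_sum' {ι : Type*} (x : ℚ) (s : Finset ι) (f : ι → ℚ[X]) :
    gm x (∑ i ∈ s, f i) = ∑ i ∈ s, gm x (f i) := by
  classical
  induction s using Finset.induction_on with
  | empty => simp [gm_zero]
  | insert a s ha ih => rw [Finset.sum_insert ha, Finset.sum_insert ha, gm_add, ih]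

lemma i2_of_PB {v : ℤ} {P : ℚ[X]} (h : PB 2 v P) (k : ℕ) : I2 v (P.coeff k) := h k

/-- germ of a polynomial of degree `≤ n` with coefficients of valuation `≥ v` -/
lemma Iv_gm {v : ℤ} {P : ℚ[X]} (h : PB 2 v P) {n : ℕ} (hn : P.natDegree ≤ n) (i : ℤ) :
    Iv (v - n) (gm ((i : ℚ) + 1 / 2) P) := by
  rw [P.as_sum_range_C_mul_X_pow, gm_sum']
  apply Iv.sum
  intro l hl
  have hl' : l ≤ P.natDegree := Nat.lt_succ_iff.mp (Finset.mem_range.mp hl)
  rw [gm_mul, gm_C, gm_pow, gm_X]
  refine ((Iv.C (i2_of_PB h l)).mul ((Iv_pt i).pow l)).mono ?_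
  have : (l : ℤ) ≤ n := by exact_mod_cast hl'.trans hn
  linarith

/-! ### the truncated formal solution -/

/-- `∑_{k<N} mu k (x+ε)^{-(k+1)}` -/
noncomputable def SN (N : ℕ) (i : ℤ) : PowerSeries ℚ :=
  ∑ k ∈ Finset.range N, PowerSeries.C (mu k) * si i ^ (k + 1)

lemma SN_succ (N : ℕ) (i : ℤ) :
    SN (N + 1) i = SN N i + PowerSeries.C (mu N) * si i ^ (N + 1) := by
  unfold SN; rw [Finset.sum_range_succ]

lemma gm_pinf (N : ℕ) (i : ℤ) :
    gm ((i : ℚ) + 1 / 2) (pinf N) * si i ^ N = SN N i := by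
  induction N with
  | zero => simp [pinf, SN, gm_zero]
  | succ N ih =>
    rw [SN_succ, ← ih, pinf_succ, gm_add, gm_mul, gm_X, gm_C, CinfMu.cinf_succ_rat]
    have h := pt_mul_si i
    rw [pow_succ]
    linear_combination (gm ((i : ℚ) + 1 / 2) (pinf N) * si i ^ N) * h

/-- the defect of the truncated series in the recurrence -/
lemma SN_rec (N : ℕ) (i : ℤ) :
    pt ((i : ℚ) + 1 / 2 + 1) ^ 3 * SN N (i + 1) + (2 * pt ((i : ℚ) + 1 / 2) + 1) ^ 3 * SN N i
      + PowerSeries.C (1 / 2) * (3 * pt ((i : ℚ) + 1 / 2) + 2) =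
    gm ((i : ℚ) + 1 / 2) (EE N (pinf N)) * si i ^ N * si (i + 1) ^ N := by
  have e1 : ((i + 1 : ℤ) : ℚ) + 1 / 2 = (i : ℚ) + 1 / 2 + 1 := by push_cast; ring
  have hs := pt_mul_si i
  have hs' := pt_mul_si (i + 1)
  rw [e1] at hs'
  have g0 := gm_pinf N i
  have g1 := gm_pinf N (i + 1)
  rw [e1] at g1
  have hE : gm ((i : ℚ) + 1 / 2) (EE N (pinf N)) =
      (2 * pt ((i : ℚ) + 1 / 2) + 1) ^ 3 * pt ((i : ℚ) + 1 / 2 + 1) ^ N
        * gm ((i : ℚ) + 1 / 2) (pinf N)
      + pt ((i : ℚ) + 1 / 2) ^ N * pt ((i : ℚ) + 1 / 2 + 1) ^ 3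
        * gm ((i : ℚ) + 1 / 2 + 1) (pinf N)
      + PowerSeries.C (1 / 2) * (3 * pt ((i : ℚ) + 1 / 2) + 2) * pt ((i : ℚ) + 1 / 2) ^ N
        * pt ((i : ℚ) + 1 / 2 + 1) ^ N := by
    simp only [EE, gm_add, gm_mul, gm_pow, gm_X, gm_one, gm_taylor_one, gm_two, gm_three, gm_C,
      pt_add_one]
  have p0 : pt ((i : ℚ) + 1 / 2) ^ N * si i ^ N = 1 := by rw [← mul_pow, hs, one_pow]
  have p1 : pt ((i : ℚ) + 1 / 2 + 1) ^ N * si (i + 1) ^ N = 1 := by rw [← mul_pow, hs', one_pow]
  rw [hE, ← g0, ← g1]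
  set s := pt ((i : ℚ) + 1 / 2)
  set s' := pt ((i : ℚ) + 1 / 2 + 1)
  linear_combination (-(2 * s + 1) ^ 3 * gm ((i : ℚ) + 1 / 2) (pinf N) * si i ^ N) * p1
    - (s' ^ 3 * gm ((i : ℚ) + 1 / 2 + 1) (pinf N) * si (i + 1) ^ N) * p0
    - (PowerSeries.C (1 / 2) * (3 * s + 2)) * p0
    - (PowerSeries.C (1 / 2) * (3 * s + 2) * s ^ N * si i ^ N) * p1

/-! ### integrality of the moments and of the defect -/

lemma PB_C {v : ℤ} {a : ℚ} (h : I2 v a) : PB 2 v (C a) := by
  intro k
  rw [coeff_C]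
  split_ifs
  · exact h
  · exact i2_zero v

lemma PB_X : PB 2 0 (X : ℚ[X]) := by
  intro k
  rw [coeff_X]
  split_ifs
  · exact i2_one
  · exact i2_zero 0

lemma PB_pow {P : ℚ[X]} (h : PB 2 0 P) (n : ℕ) : PB 2 0 (P ^ n) := by
  induction n with
  | zero => simpa using PB.one (p := 2)
  | succ n ih => rw [pow_succ]; simpa using ih.mul h

lemma PB_Xpow (n : ℕ) : PB 2 0 (X ^ n : ℚ[X]) := PB_pow PB_X n

lemma PB_mul0 {v : ℤ} {P Q : ℚ[X]} (hP : PB 2 0 P) (hQ : PB 2 v Q) : PB 2 v (P * Q) := by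
  have := hP.mul hQ
  rwa [zero_add] at this

lemma PB_ofNat2 : PB 2 0 (2 : ℚ[X]) := by
  have h : (2 : ℚ[X]) = C 2 := (map_ofNat C 2).symm
  rw [h]; exact PB_C (by simpa using i2_int 2)

lemma PB_ofNat3 : PB 2 0 (3 : ℚ[X]) := by
  have h : (3 : ℚ[X]) = C 3 := (map_ofNat C 3).symm
  rw [h]; exact PB_C (by simpa using i2_int 3)

lemma PB_taylor {v : ℤ} {P : ℚ[X]} (h : PB 2 v P) : PB 2 v (taylor 1 P) := by
  rw [P.as_sum_range_C_mul_X_pow, map_sum]
  apply PB.sum
  intro l _
  rw [taylor_mul, taylor_C, taylor_pow, taylor_X, C_1]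
  have h1 : PB 2 0 ((X + 1 : ℚ[X]) ^ l) := PB_pow (PB_X.add PB.one) l
  have := (PB_C (h l)).mul h1
  rwa [add_zero] at this

/-- the moments have `v_2 ≥ -1` -/
lemma i2_mu {g : ℕ → ℚ[X]} (h : HTwo g) (k : ℕ) : I2 (-1) (mu k) := by
  have h1 := h.main 0 (X ^ k) (PB_Xpow k)
  have hd : (g 0).natDegree = 0 := by simpa using h.deg 0
  obtain ⟨c, hc⟩ : ∃ c, g 0 = C c := ⟨_, eq_C_of_natDegree_eq_zero hd⟩
  have hl : padicNorm 2 c = 1 := by
    have := h.lead 0
    rwa [hc, leadingCoeff_C] at this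
  have e : lin mu (g 0 * X ^ k) = c * mu k := by
    rw [hc, C_mul_X_pow_eq_monomial, lin_apply, sum_monomial_index]
    simp
  rw [e] at h1
  have hv : vb 0 = -1 := by simp [vb]
  rw [hv] at h1
  unfold I2 at *
  rwa [padicNorm.mul, hl, one_mul] at h1

lemma PB_pinf {g : ℕ → ℚ[X]} (h : HTwo g) (N : ℕ) : PB 2 (-1) (pinf N : ℚ[X]) := by
  induction N with
  | zero => exact PB.zero _
  | succ N ih =>
    rw [pinf_succ, CinfMu.cinf_succ_rat]
    exact (PB_mul0 PB_X ih).add (PB_C (i2_mu h N))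

lemma PB_EE {g : ℕ → ℚ[X]} (h : HTwo g) (N : ℕ) : PB 2 (-1) (EE N (pinf N) : ℚ[X]) := by
  have hp := PB_pinf h N
  have hX1 : PB 2 0 (X + 1 : ℚ[X]) := PB_X.add PB.one
  have h2X1 : PB 2 0 (2 * X + 1 : ℚ[X]) := (PB_mul0 PB_ofNat2 PB_X).add PB.one
  unfold EE
  refine (PB.add ?_ ?_).add ?_
  · exact PB_mul0 (PB_mul0 (PB_pow h2X1 3) (PB_pow hX1 N)) hp
  · exact PB_mul0 (PB_mul0 (PB_Xpow N) (PB_pow hX1 3)) (PB_taylor hp)
  · have h1 : PB 2 (-1) (C (1 / 2) * (3 * X + 2) : ℚ[X]) := by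
      have := (PB_C i2_half).mul ((PB_mul0 PB_ofNat3 PB_X).add PB_ofNat2)
      simpa using this
    have h2 := (h1.mul (PB_Xpow N)).mul (PB_pow hX1 N)
    simpa using h2

/-- the defect is 2-adically small -/
lemma Iv_defect {g : ℕ → ℚ[X]} (h : HTwo g) (N : ℕ) (i : ℤ) :
    Iv (N - 3) (gm ((i : ℚ) + 1 / 2) (EE N (pinf N)) * si i ^ N * si (i + 1) ^ N) := by
  have h1 := Iv_gm (PB_EE h N) (EE_pinf_natDegree N) i
  refine ((h1.mul ((Iv_si i).pow N)).mul ((Iv_si (i + 1)).pow N)).mono ?_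
  push_cast
  linarith

/-! ### `ψ_*` is the formal solution -/


lemma two_pt_add_one (i : ℤ) : 2 * pt ((i : ℚ) + 1 / 2) + 1 =
    PowerSeries.C 2 * (PowerSeries.C ((i : ℚ) + 1) + PowerSeries.X) := by
  rw [← tt_eq]
  unfold tt
  have h1 : (1 : PowerSeries ℚ) = PowerSeries.C 1 := (map_one PowerSeries.C).symm
  have e : PowerSeries.C (2 * (i : ℚ) + 1) + PowerSeries.C (1 : ℚ) =
      PowerSeries.C 2 * PowerSeries.C ((i : ℚ) + 1) := by
    rw [← map_add, ← map_mul]; congr 1; ring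
  rw [h1]
  linear_combination e

lemma Iv_two_pt (i : ℤ) : Iv 1 (2 * pt ((i : ℚ) + 1 / 2) + 1) := by
  rw [two_pt_add_one]
  have h1 : I2 0 ((i : ℚ) + 1) := by
    have := i2_int (i + 1)
    push_cast at this
    exact this
  have := (Iv.C i2_two).mul ((Iv.C h1).add Iv.X)
  simpa using this

lemma cube_neg_one (φ : PowerSeries ℚ) (v : ℤ) :
    Iv v ((2 * pt (((-1 : ℤ) : ℚ) + 1 / 2) + 1) ^ 3 * φ) := by
  intro j hj
  have e : (2 * pt (((-1 : ℤ) : ℚ) + 1 / 2) + 1) ^ 3 * φ =
      PowerSeries.X ^ 3 * (PowerSeries.C 8 * φ) := by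
    rw [two_pt_add_one]
    have h0 : PowerSeries.C (((-1 : ℤ) : ℚ) + 1) = (0 : PowerSeries ℚ) := by
      have : (((-1 : ℤ) : ℚ) + 1) = 0 := by norm_num
      rw [this, map_zero]
    have h8 : (PowerSeries.C 8 : PowerSeries ℚ) = PowerSeries.C 2 ^ 3 := by
      rw [← map_pow]; norm_num
    rw [h0, h8]
    ring
  rw [e, PowerSeries.coeff_X_pow_mul', if_neg (by omega)]
  exact i2_zero v

/-- **main comparison**: at `i + 1/2`, `i ≥ 0`, modulo `ε^3` -/
theorem PsiH_sub_SN {g : ℕ → ℚ[X]} (h : HTwo g) (N : ℕ) (i : ℕ) :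
    Iv (N - 3) (PsiH (i : ℤ) - SN N i) := by
  have key : ∀ i : ℤ, Iv (N - 3) ((2 * pt ((i : ℚ) + 1 / 2) + 1) ^ 3 * (PsiH i - SN N i)) →
      Iv (N - 3) (PsiH (i + 1) - SN N (i + 1)) := by
    intro i hi
    have st := (step_H (K := ℚ) i).psi
    have sn := SN_rec N i
    have hd := Iv_defect h N i
    have e1 : ((i + 1 : ℤ) : ℚ) + 1 / 2 = (i : ℚ) + 1 / 2 + 1 := by push_cast; ring
    have hs' := pt_mul_si (i + 1)
    rw [e1] at hs'
    have e : PsiH (i + 1) - SN N (i + 1) = -(si (i + 1) ^ 3 *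
        ((2 * pt ((i : ℚ) + 1 / 2) + 1) ^ 3 * (PsiH i - SN N i)
          + gm ((i : ℚ) + 1 / 2) (EE N (pinf N)) * si i ^ N * si (i + 1) ^ N)) := by
      rw [← sn]
      have h3 : pt ((i : ℚ) + 1 / 2 + 1) ^ 3 * si (i + 1) ^ 3 = 1 := by
        rw [← mul_pow, hs', one_pow]
      linear_combination (-(PsiH (i + 1) - SN N (i + 1))) * h3 + si (i + 1) ^ 3 * st
    rw [e]
    apply Iv.neg
    refine (((Iv_si (i + 1)).pow 3).mul (hi.add hd)).mono ?_
    push_cast
    linarith
  induction i with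
  | zero =>
    have := key (-1) (cube_neg_one _ _)
    have e : (-1 : ℤ) + 1 = ((0 : ℕ) : ℤ) := by norm_num
    rw [e] at this
    exact this
  | succ i ih =>
    have h1 : Iv (N - 3) ((2 * pt ((((i : ℕ) : ℤ) : ℚ) + 1 / 2) + 1) ^ 3
        * (PsiH (i : ℤ) - SN N i)) := by
      refine (((Iv_two_pt (i : ℤ)).pow 3).mul ih).mono ?_
      push_cast
      linarith
    have := key i h1
    push_cast
    exact this

/-! ### the negative part of `R ψ_∞` -/

/-- `∑_{t<N} lin mu (R X^t) (x+ε)^{-(t+1)}` -/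
noncomputable def VN (N : ℕ) (R : ℚ[X]) (i : ℤ) : PowerSeries ℚ :=
  ∑ t ∈ Finset.range N, PowerSeries.C (lin mu (R * X ^ t)) * si i ^ (t + 1)

lemma lin_X_pow (l : ℕ) : lin mu (X ^ l : ℚ[X]) = mu l := by
  rw [X_pow_eq_monomial, lin_apply, sum_monomial_index]
  · simp
  · simp

lemma pt_pow_mul_si_pow_le {i : ℤ} {l k : ℕ} (h : k ≤ l) :
    pt ((i : ℚ) + 1 / 2) ^ l * si i ^ k = pt ((i : ℚ) + 1 / 2) ^ (l - k) := by
  obtain ⟨d, rfl⟩ := Nat.exists_eq_add_of_le h
  have : pt ((i : ℚ) + 1 / 2) ^ k * si i ^ k = 1 := by rw [← mul_pow, pt_mul_si, one_pow]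
  rw [Nat.add_sub_cancel_left, pow_add]
  linear_combination (pt ((i : ℚ) + 1 / 2) ^ d) * this

lemma pt_pow_mul_si_pow_ge {i : ℤ} {l k : ℕ} (h : l ≤ k) :
    pt ((i : ℚ) + 1 / 2) ^ l * si i ^ k = si i ^ (k - l) := by
  obtain ⟨d, rfl⟩ := Nat.exists_eq_add_of_le h
  have : pt ((i : ℚ) + 1 / 2) ^ l * si i ^ l = 1 := by rw [← mul_pow, pt_mul_si, one_pow]
  rw [Nat.add_sub_cancel_left, pow_add]
  linear_combination (si i ^ d) * this

/-- the error for a monomial -/
lemma mono_error {g : ℕ → ℚ[X]} (h : HTwo g) {N l : ℕ} (hl : l ≤ N) (i : ℤ) :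
    Iv (N - l) (gm ((i : ℚ) + 1 / 2) (X ^ l) * SN N i - gm ((i : ℚ) + 1 / 2) (TR mu (X ^ l))
      - VN N (X ^ l) i) := by
  have hV : VN N (X ^ l) i = ∑ t ∈ Finset.range N, PowerSeries.C (mu (l + t)) * si i ^ (t + 1) := by
    unfold VN
    refine Finset.sum_congr rfl fun t _ => ?_
    rw [← pow_add, lin_X_pow]
  have hT : gm ((i : ℚ) + 1 / 2) (TR mu (X ^ l)) =
      ∑ k ∈ Finset.range l, PowerSeries.C (mu k) * pt ((i : ℚ) + 1 / 2) ^ (l - 1 - k) := by
    rw [CinfMu.TR_X_pow, gm_sum']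
    refine Finset.sum_congr rfl fun k _ => ?_
    rw [gm_mul, gm_C, gm_pow, gm_X]
  have hS : gm ((i : ℚ) + 1 / 2) (X ^ l) * SN N i =
      ∑ k ∈ Finset.range l, PowerSeries.C (mu k) * pt ((i : ℚ) + 1 / 2) ^ (l - 1 - k)
      + ∑ t ∈ Finset.range (N - l), PowerSeries.C (mu (l + t)) * si i ^ (t + 1) := by
    obtain ⟨d, rfl⟩ := Nat.exists_eq_add_of_le hl
    rw [Nat.add_sub_cancel_left]
    unfold SN
    rw [Finset.sum_range_add, mul_add, gm_pow, gm_X]
    congr 1
    · rw [Finset.mul_sum]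
      refine Finset.sum_congr rfl fun k hk => ?_
      have hk' := Finset.mem_range.mp hk
      have := pt_pow_mul_si_pow_le (i := i) (l := l) (k := k + 1) (by omega)
      rw [show l - 1 - k = l - (k + 1) by omega, ← this]
      ring
    · rw [Finset.mul_sum]
      refine Finset.sum_congr rfl fun t _ => ?_
      have := pt_pow_mul_si_pow_ge (i := i) (l := l) (k := l + t + 1) (by omega)
      rw [show l + t + 1 - l = t + 1 by omega] at this
      rw [← this]
      ring
  rw [hS, hT, hV]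
  have e : (∑ k ∈ Finset.range l, PowerSeries.C (mu k) * pt ((i : ℚ) + 1 / 2) ^ (l - 1 - k)
      + ∑ t ∈ Finset.range (N - l), PowerSeries.C (mu (l + t)) * si i ^ (t + 1))
      - ∑ k ∈ Finset.range l, PowerSeries.C (mu k) * pt ((i : ℚ) + 1 / 2) ^ (l - 1 - k)
      - ∑ t ∈ Finset.range N, PowerSeries.C (mu (l + t)) * si i ^ (t + 1) =
      -∑ t ∈ Finset.range l, PowerSeries.C (mu (l + (N - l + t))) * si i ^ (N - l + t + 1) := by
    have : ∑ t ∈ Finset.range N, PowerSeries.C (mu (l + t)) * si i ^ (t + 1) =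
        ∑ t ∈ Finset.range (N - l), PowerSeries.C (mu (l + t)) * si i ^ (t + 1)
        + ∑ t ∈ Finset.range l, PowerSeries.C (mu (l + (N - l + t))) * si i ^ (N - l + t + 1) := by
      have h1 := Finset.sum_range_add (fun t => PowerSeries.C (mu (l + t)) * si i ^ (t + 1)) (N - l) l
      rw [Nat.sub_add_cancel hl] at h1
      exact h1
    rw [this]; ring
  rw [e]
  apply Iv.neg
  apply Iv.sum
  intro t _
  refine ((Iv.C (i2_mu h _)).mul ((Iv_si i).pow (N - l + t + 1))).mono ?_
  have : ((N - l + t + 1 : ℕ) : ℤ) = (N : ℤ) - l + t + 1 := by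
    push_cast [Nat.cast_sub hl]; ring
  rw [this]
  have h0 : (0 : ℤ) ≤ t := Int.natCast_nonneg t
  linarith

/-- the error for an integral polynomial -/
lemma poly_error {g : ℕ → ℚ[X]} (h : HTwo g) {N n : ℕ} {R : ℚ[X]} (hR : PB 2 0 R)
    (hn : R.natDegree ≤ n) (hN : n ≤ N) (i : ℤ) :
    Iv (N - n) (gm ((i : ℚ) + 1 / 2) R * SN N i - gm ((i : ℚ) + 1 / 2) (TR mu R) - VN N R i) := by
  have e : gm ((i : ℚ) + 1 / 2) R * SN N i - gm ((i : ℚ) + 1 / 2) (TR mu R) - VN N R i =
      ∑ l ∈ Finset.range (R.natDegree + 1), PowerSeries.C (R.coeff l) *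
        (gm ((i : ℚ) + 1 / 2) (X ^ l) * SN N i - gm ((i : ℚ) + 1 / 2) (TR mu (X ^ l))
          - VN N (X ^ l) i) := by
    have hRs := R.as_sum_range_C_mul_X_pow
    have h1 : gm ((i : ℚ) + 1 / 2) R = ∑ l ∈ Finset.range (R.natDegree + 1),
        PowerSeries.C (R.coeff l) * gm ((i : ℚ) + 1 / 2) (X ^ l) := by
      conv_lhs => rw [hRs]
      rw [gm_sum']
      refine Finset.sum_congr rfl fun l _ => ?_
      rw [gm_mul, gm_C]
    have h2 : gm ((i : ℚ) + 1 / 2) (TR mu R) = ∑ l ∈ Finset.range (R.natDegree + 1),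
        PowerSeries.C (R.coeff l) * gm ((i : ℚ) + 1 / 2) (TR mu (X ^ l)) := by
      conv_lhs => rw [hRs]
      rw [map_sum, gm_sum']
      refine Finset.sum_congr rfl fun l _ => ?_
      rw [← smul_eq_C_mul, map_smul, smul_eq_C_mul, gm_mul, gm_C]
    have h3 : VN N R i = ∑ l ∈ Finset.range (R.natDegree + 1),
        PowerSeries.C (R.coeff l) * VN N (X ^ l) i := by
      unfold VN
      simp_rw [Finset.mul_sum]
      rw [Finset.sum_comm]
      refine Finset.sum_congr rfl fun t _ => ?_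
      have : lin mu (R * X ^ t) = ∑ l ∈ Finset.range (R.natDegree + 1),
          R.coeff l * lin mu (X ^ l * X ^ t) := by
        conv_lhs => rw [hRs]
        rw [Finset.sum_mul, map_sum]
        refine Finset.sum_congr rfl fun l _ => ?_
        rw [mul_assoc, ← smul_eq_C_mul, map_smul, smul_eq_mul]
      rw [this, map_sum, Finset.sum_mul]
      refine Finset.sum_congr rfl fun l _ => ?_
      rw [map_mul]; ring
    rw [h1, h2, h3, Finset.sum_mul, ← Finset.sum_sub_distrib, ← Finset.sum_sub_distrib]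
    refine Finset.sum_congr rfl fun l _ => ?_
    ring
  rw [e]
  apply Iv.sum
  intro l hl
  have hl' : l ≤ R.natDegree := Nat.lt_succ_iff.mp (Finset.mem_range.mp hl)
  have hR' : I2 0 (R.coeff l) := hR l
  refine ((Iv.C hR').mul (mono_error h (hl'.trans (hn.trans hN)) i)).mono ?_
  have : (l : ℤ) ≤ n := by exact_mod_cast hl'.trans hn
  linarith

/-! ### the polynomial `W` -/

lemma beta_ne_zero (m : ℕ) : beta m ≠ 0 := by
  unfold beta
  have : (m.factorial : ℚ) ≠ 0 := by exact_mod_cast m.factorial_ne_zero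
  positivity

lemma norm_beta (m : ℕ) : padicNorm 2 (beta m) = (2 : ℚ) ^ (-vb m) := by
  unfold beta vb
  have hf : (m.factorial : ℚ) ≠ 0 := by exact_mod_cast m.factorial_ne_zero
  have h1 : padicNorm 2 (m.factorial : ℚ) = (2 : ℚ) ^ (-(padicValNat 2 m.factorial : ℤ)) := by
    rw [padicNorm.eq_zpow_of_nonzero hf, padicValRat.of_nat]
    norm_num
  have h2 : padicNorm 2 ((2 : ℚ) ^ m) = (2 : ℚ) ^ (-(m : ℤ)) := by
    rw [IsAbsoluteValue.abv_pow (padicNorm 2), norm_two, inv_pow, zpow_neg, zpow_natCast]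
  rw [padicNorm.div, padicNorm.mul, h1, h2, norm_two]
  rw [div_inv_eq_mul, ← zpow_add₀ (by norm_num), ← zpow_add_one₀ (by norm_num)]
  congr 1
  ring

lemma i2_div_beta {m : ℕ} {x : ℚ} {v : ℤ} (h : I2 (vb m + v) x) : I2 v (x / beta m) := by
  unfold I2 at *
  rw [padicNorm.div, norm_beta, div_le_iff₀ (by positivity), ← zpow_add₀ (by norm_num)]
  refine h.trans (le_of_eq ?_)
  congr 1
  ring

/-- `∑_{j<J} (1-X)^j` -/
noncomputable def UJ (J : ℕ) : ℚ[X] := ∑ j ∈ Finset.range J, (1 - X) ^ j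

lemma PB_UJ (J : ℕ) : PB 2 0 (UJ J) := by
  unfold UJ
  apply PB.sum
  intro j _
  exact PB_pow (PB.one.sub PB_X) j

/-- germ of `U(2s)` -/
noncomputable def uu (J : ℕ) (i : ℤ) : PowerSeries ℚ :=
  gm ((i : ℚ) + 1 / 2) ((UJ J).comp (C 2 * X))

lemma gm_twoX (i : ℤ) : gm ((i : ℚ) + 1 / 2) (C 2 * X) = tt i := by
  rw [gm_mul, gm_C, gm_X, tt_eq]
  have h2 : (2 : PowerSeries ℚ) = PowerSeries.C 2 := (map_ofNat PowerSeries.C 2).symm
  rw [h2]

lemma uu_eq (J : ℕ) (i : ℤ) : uu J i = ∑ j ∈ Finset.range J, (1 - tt i) ^ j := by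
  unfold uu UJ
  have e : (∑ j ∈ Finset.range J, (1 - X : ℚ[X]) ^ j).comp (C 2 * X) =
      ∑ j ∈ Finset.range J, (1 - C 2 * X) ^ j := by
    rw [← Polynomial.coe_compRingHom_apply, map_sum]
    refine Finset.sum_congr rfl fun j _ => ?_
    rw [map_pow, map_sub, map_one, Polynomial.coe_compRingHom_apply, X_comp]
  rw [e, gm_sum']
  refine Finset.sum_congr rfl fun j _ => ?_
  rw [gm_pow, gm_sub, gm_one, gm_twoX]

lemma tt_mul_uu (J : ℕ) (i : ℤ) : tt i * uu J i = 1 - (1 - tt i) ^ J := by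
  rw [uu_eq]
  have := mul_neg_geom_sum (1 - tt i) J
  rw [← this]
  ring

lemma Iv_one_sub_tt (i : ℤ) : Iv 1 (1 - tt i) := by
  have e : 1 - tt i = PowerSeries.C 2 * (PowerSeries.C (-(i : ℚ)) - PowerSeries.X) := by
    unfold tt
    have h1 : (1 : PowerSeries ℚ) = PowerSeries.C 1 := (map_one PowerSeries.C).symm
    have e : PowerSeries.C (2 * (i : ℚ) + 1) =
        PowerSeries.C (1 : ℚ) - PowerSeries.C 2 * PowerSeries.C (-(i : ℚ)) := by
      rw [← map_mul, ← map_sub]; congr 1; ring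
    rw [e, h1]
    ring
  rw [e]
  have h1 : I2 0 (-(i : ℚ)) := by
    have := i2_int (-i)
    push_cast at this
    exact this
  have := (Iv.C i2_two).mul ((Iv.C h1).sub Iv.X)
  simpa using this

lemma Iv_uu (J : ℕ) (i : ℤ) : Iv 0 (uu J i) := by
  rw [uu_eq]
  apply Iv.sum
  intro j _
  refine ((Iv_one_sub_tt i).pow j).mono ?_
  have : (0 : ℤ) ≤ j := Int.natCast_nonneg j
  linarith

lemma ti_sub_uu (J : ℕ) (i : ℤ) : Iv J (ti i - uu J i) := by
  have e : ti i - uu J i = ti i * (1 - tt i) ^ J := by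
    have h1 := tt_mul_uu J i
    have h2 := tt_mul_ti i
    linear_combination (-(ti i)) * h1 + uu J i * h2
  rw [e]
  refine ((Iv_ti i).mul ((Iv_one_sub_tt i).pow J)).mono ?_
  linarith

lemma ti_pow_sub_uu_pow (J : ℕ) (i : ℤ) (r : ℕ) : Iv J (ti i ^ r - uu J i ^ r) := by
  induction r with
  | zero => simpa using Iv.zero _
  | succ r ih =>
    have e : ti i ^ (r + 1) - uu J i ^ (r + 1) =
        ti i * (ti i ^ r - uu J i ^ r) + (ti i - uu J i) * uu J i ^ r := by ring
    rw [e]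
    refine Iv.add ?_ ?_
    · refine ((Iv_ti i).mul ih).mono ?_
      linarith
    · refine ((ti_sub_uu J i).mul ((Iv_uu J i).pow r)).mono ?_
      linarith

/-- the polynomial `W` -/
noncomputable def WW (J N m : ℕ) (R : ℚ[X]) : ℚ[X] :=
  ∑ t ∈ Finset.range N, C (lin mu (R * X ^ t) * 2 ^ (t + 1) / beta m) * UJ J ^ (t + 1)

lemma i2_two_pow (t : ℕ) : I2 t ((2 : ℚ) ^ t) := by
  have := i2_pow i2_two t
  simpa using this

lemma i2_lam {g : ℕ → ℚ[X]} (h : HTwo g) (m : ℕ) {f : ℚ[X]} (hf : PB 2 0 f) (t : ℕ) :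
    I2 (vb m) (lin mu (f * g m * X ^ t)) := by
  have e : f * g m * X ^ t = g m * (f * X ^ t) := by ring
  rw [e]
  exact h.main m _ (PB_mul0 hf (PB_Xpow t))

lemma PB_WW {g : ℕ → ℚ[X]} (h : HTwo g) (J N m : ℕ) {f : ℚ[X]} (hf : PB 2 0 f) :
    PB 2 0 (WW J N m (f * g m)) := by
  unfold WW
  apply PB.sum
  intro t _
  have h1 : I2 0 (lin mu (f * g m * X ^ t) * 2 ^ (t + 1) / beta m) := by
    apply i2_div_beta
    refine i2_mono (i2_mul (i2_lam h m hf t) (i2_two_pow (t + 1))) ?_
    push_cast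
    have : (0 : ℤ) ≤ t := Int.natCast_nonneg t
    linarith
  exact PB_mul0 (PB_C h1) (PB_pow (PB_UJ J) _)

lemma VN_sub_WW {g : ℕ → ℚ[X]} (h : HTwo g) (J N m : ℕ) {f : ℚ[X]} (hf : PB 2 0 f) (i : ℤ) :
    Iv J (VN N (f * g m) i - PowerSeries.C (beta m) *
      gm ((i : ℚ) + 1 / 2) ((WW J N m (f * g m)).comp (C 2 * X))) := by
  have e1 : (WW J N m (f * g m)).comp (C 2 * X) = ∑ t ∈ Finset.range N,
      C (lin mu (f * g m * X ^ t) * 2 ^ (t + 1) / beta m) * ((UJ J).comp (C 2 * X)) ^ (t + 1) := by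
    unfold WW
    rw [← Polynomial.coe_compRingHom_apply, map_sum]
    refine Finset.sum_congr rfl fun t _ => ?_
    rw [map_mul, map_pow, Polynomial.coe_compRingHom_apply, Polynomial.coe_compRingHom_apply,
      C_comp]
  have e2 : VN N (f * g m) i - PowerSeries.C (beta m) *
      gm ((i : ℚ) + 1 / 2) ((WW J N m (f * g m)).comp (C 2 * X)) =
      ∑ t ∈ Finset.range N, PowerSeries.C (lin mu (f * g m * X ^ t) * 2 ^ (t + 1)) *
        (ti i ^ (t + 1) - uu J i ^ (t + 1)) := by
    rw [e1, gm_sum']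
    unfold VN
    rw [Finset.mul_sum, ← Finset.sum_sub_distrib]
    refine Finset.sum_congr rfl fun t _ => ?_
    rw [gm_mul, gm_C, gm_pow]
    have hb : PowerSeries.C (beta m) *
        PowerSeries.C (lin mu (f * g m * X ^ t) * 2 ^ (t + 1) / beta m) =
        PowerSeries.C (lin mu (f * g m * X ^ t) * 2 ^ (t + 1)) := by
      rw [← map_mul, mul_div_cancel₀ _ (beta_ne_zero m)]
    have hs : si i ^ (t + 1) = PowerSeries.C (2 ^ (t + 1)) * ti i ^ (t + 1) := by
      unfold si
      have h2 : (2 : PowerSeries ℚ) = PowerSeries.C 2 := (map_ofNat PowerSeries.C 2).symm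
      rw [h2, mul_pow, map_pow]
    have hc : PowerSeries.C (lin mu (f * g m * X ^ t) * 2 ^ (t + 1)) =
        PowerSeries.C (lin mu (f * g m * X ^ t)) * PowerSeries.C (2 ^ (t + 1)) := map_mul _ _ _
    have hu : gm ((i : ℚ) + 1 / 2) ((UJ J).comp (C 2 * X)) = uu J i := rfl
    rw [hs, hu, ← mul_assoc (PowerSeries.C (beta m)), hb, hc]
    ring
  rw [e2]
  apply Iv.sum
  intro t _
  have h1 : I2 0 (lin mu (f * g m * X ^ t) * 2 ^ (t + 1)) := by
    refine i2_mono (i2_mul (i2_lam h m hf t) (i2_two_pow (t + 1))) ?_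
    have h0 : (0 : ℤ) ≤ t := Int.natCast_nonneg t
    have h2 : (-1 : ℤ) ≤ vb m := by unfold vb; omega
    push_cast
    linarith
  refine ((Iv.C h1).mul (ti_pow_sub_uu_pow J i (t + 1))).mono ?_
  linarith

/-! ### leaf A2 -/

theorem halfSites {g : ℕ → ℚ[X]} (h : HTwo g) : HalfSites g := by
  intro M m f hf
  set R := f * g m with hR
  have hRint : PB 2 0 R := PB_mul0 hf (h.int m)
  set n := R.natDegree with hn
  set N := M + n + 3 with hN
  refine ⟨WW M N m R, PB_WW h M N m hf, ?_⟩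
  intro i j hrow
  have hj : j < 3 := by
    rcases hrow with ⟨_, h1⟩ | ⟨_, h1, _⟩ <;> omega
  have hval : (Site.H i).val = (i : ℚ) + 1 / 2 := rfl
  have e : ent0 R (Site.H i, j)
        - beta m * PowerSeries.coeff j (gm ((i : ℚ) + 1 / 2) ((WW M N m R).comp (C 2 * X))) =
      PowerSeries.coeff j (gm ((i : ℚ) + 1 / 2) R * (PsiH i - SN N i))
      + PowerSeries.coeff j (gm ((i : ℚ) + 1 / 2) R * SN N i
          - gm ((i : ℚ) + 1 / 2) (TR mu R) - VN N R i)
      + PowerSeries.coeff j (VN N R i - PowerSeries.C (beta m) *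
          gm ((i : ℚ) + 1 / 2) ((WW M N m R).comp (C 2 * X))) := by
    have e1 : ent0 R (Site.H i, j) = PowerSeries.coeff j
        (gm ((i : ℚ) + 1 / 2) R * PsiH i - gm ((i : ℚ) + 1 / 2) (TR mu R)) := rfl
    have e2 : beta m * PowerSeries.coeff j
        (gm ((i : ℚ) + 1 / 2) ((WW M N m R).comp (C 2 * X))) =
        PowerSeries.coeff j (PowerSeries.C (beta m) *
          gm ((i : ℚ) + 1 / 2) ((WW M N m R).comp (C 2 * X))) := by
      rw [PowerSeries.coeff_C_mul]
    rw [e1, e2, ← map_sub, ← map_add, ← map_add]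
    congr 1
    ring
  rw [e]
  refine i2_add (i2_add ?_ ?_) ?_
  · rcases hrow with ⟨h0, _⟩ | ⟨_, h1, h2⟩
    · obtain ⟨k, rfl⟩ := Int.eq_ofNat_of_zero_le h0
      have h3 := (Iv_gm hRint (le_refl R.natDegree) (k : ℤ)).mul (PsiH_sub_SN h N k)
      refine i2_mono (h3 j hj) ?_
      rw [hN]
      push_cast
      rw [← hn]
      linarith
    · subst h1
      have h3 : PowerSeries.coeff 0 (gm ((i : ℚ) + 1 / 2) R * (PsiH i - SN N i)) = 0 := by
        rw [PowerSeries.coeff_zero_eq_constantCoeff_apply, map_mul]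
        have : PowerSeries.constantCoeff (gm ((i : ℚ) + 1 / 2) R) = R.eval ((i : ℚ) + 1 / 2) := by
          unfold gm
          rw [Polynomial.constantCoeff_coe, taylor_coeff_zero]
        rw [this, h2, zero_mul]
      rw [h3]
      exact i2_zero _
  · refine i2_mono (poly_error h hRint (le_refl R.natDegree) (by omega) i j hj) ?_
    rw [hN]
    push_cast
    rw [← hn]
    linarith
  · exact i2_mono (VN_sub_WW h M N m hf i j hj) le_rfl

end Crest.Agent.R006.P6Halfx664
end

-- ▼ part R006/H2_DD_909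
section

/-!
# Row 6, block P6, lemma (H2): divided differences at `0, 1, .., m-1` (helper909)

`dd m H` = coefficient of `X^(m-1)` in `H mod X (X-1) .. (X-m+1)` = divided difference
`[H; 0, 1, .., m-1]`, a linear functional over an arbitrary commutative ring.
-/

set_option autoImplicit false

namespace Crest.Agent.R006.H2x909

open Polynomial Finset

variable {A B : Type*} [CommRing A] [CommRing B]

/-- `X (X-1) .. (X-m+1)` -/
noncomputable def nd (A : Type*) [CommRing A] (m : ℕ) : A[X] := ∏ i ∈ range m, (X - C (i : A))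

theorem nd_zero : nd A 0 = 1 := by simp [nd]

theorem nd_succ (m : ℕ) : nd A (m + 1) = nd A m * (X - C (m : A)) := by
  rw [nd, prod_range_succ, nd]

theorem nd_succ' (m : ℕ) : nd A (m + 1) = X * (nd A m).comp (X - 1) := by
  rw [nd, prod_range_succ', nd, Polynomial.prod_comp, mul_comm]
  congr 1
  · simp
  · refine prod_congr rfl fun i _ => ?_
    rw [sub_comp, X_comp, C_comp]
    push_cast
    rw [C_add, C_1]; ring

theorem nd_monic (m : ℕ) : (nd A m).Monic :=
  monic_prod_of_monic _ _ fun _ _ => monic_X_sub_C _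

theorem nd_natDegree [Nontrivial A] (m : ℕ) : (nd A m).natDegree = m := by
  rw [nd, natDegree_prod_of_monic _ _ fun _ _ => monic_X_sub_C _]
  simp only [natDegree_X_sub_C, sum_const, card_range, smul_eq_mul, mul_one]

theorem nd_degree [Nontrivial A] (m : ℕ) : (nd A m).degree = m := by
  rw [degree_eq_natDegree (nd_monic m).ne_zero, nd_natDegree]

theorem nd_map (φ : A →+* B) (m : ℕ) : (nd A m).map φ = nd B m := by
  rw [nd, Polynomial.map_prod, nd]
  refine prod_congr rfl fun i _ => ?_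
  simp

/-- the divided difference `[H; 0, 1, .., m-1]` -/
noncomputable def dd (m : ℕ) : A[X] →ₗ[A] A :=
  (lcoeff A (m - 1)).comp (modByMonicHom (nd A m))

theorem dd_apply (m : ℕ) (H : A[X]) : dd m H = (H %ₘ nd A m).coeff (m - 1) := rfl

theorem dd_of_eq [Nontrivial A] {m : ℕ} {H Q r : A[X]} (h : r + nd A m * Q = H)
    (hr : r.degree < m) : dd m H = r.coeff (m - 1) := by
  rw [dd_apply]
  rw [(div_modByMonic_unique Q r (nd_monic m) ⟨h, by rwa [nd_degree]⟩).2]

theorem dd_map [Nontrivial A] [Nontrivial B] (φ : A →+* B) (m : ℕ) (H : A[X]) :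
    dd m (H.map φ) = φ (dd m H) := by
  rw [dd_apply, dd_apply, ← nd_map φ, ← map_modByMonic φ (nd_monic m), coeff_map]

theorem dd_C_mul (m : ℕ) (c : A) (H : A[X]) : dd m (C c * H) = c * dd m H := by
  rw [← smul_eq_C_mul, map_smul, smul_eq_mul]

theorem dd_zero_left (H : A[X]) : dd 0 H = 0 := by
  rw [dd_apply, nd_zero, modByMonic_one]; simp

theorem dd_eq_zero [Nontrivial A] {m : ℕ} {H : A[X]} (h : H.natDegree + 1 < m) : dd m H = 0 := by
  have h1 : dd m H = H.coeff (m - 1) := by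
    refine dd_of_eq (Q := 0) (by simp) ?_
    refine degree_le_natDegree.trans_lt ?_
    exact_mod_cast (by omega : H.natDegree < m)
  rw [h1]
  exact coeff_eq_zero_of_natDegree_lt (by omega)


theorem dd_eq_coeff' [Nontrivial A] {m : ℕ} {H : A[X]} (h : H.natDegree < m) :
    dd m H = H.coeff (m - 1) := by
  refine dd_of_eq (Q := 0) (by simp) ?_
  refine degree_le_natDegree.trans_lt ?_
  exact_mod_cast h

/-- top coefficient of a shifted polynomial -/
theorem coeff_comp_sub_one [Nontrivial A] {n : ℕ} {r : A[X]} (h : r.natDegree ≤ n) (c : A) :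
    (r.comp (X + C c)).coeff n = r.coeff n := by
  have h1 : (X + C c : A[X]).Monic := monic_X_add_C c
  have e : r.comp (X + C c) = ∑ i ∈ range (n + 1), C (r.coeff i) * (X + C c) ^ i := by
    conv_lhs => rw [comp, eval₂_eq_sum_range' C (Nat.lt_succ_of_le h)]
  rw [e, finsetSum_coeff, sum_range_succ, sum_eq_zero, zero_add, coeff_C_mul]
  · have : ((X + C c : A[X]) ^ n).coeff n = 1 := by
      have h2 : ((X + C c : A[X]) ^ n).natDegree = n := by
        rw [h1.natDegree_pow, natDegree_X_add_C, mul_one]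
      have h3 := (h1.pow n).coeff_natDegree
      rwa [h2] at h3
    rw [this, mul_one]
  · intro i hi
    rw [mem_range] at hi
    rw [coeff_C_mul]
    have : ((X + C c : A[X]) ^ i).coeff n = 0 := by
      apply coeff_eq_zero_of_natDegree_lt
      rw [h1.natDegree_pow, natDegree_X_add_C, mul_one]
      exact hi
    rw [this, mul_zero]

theorem dd_last [Nontrivial A] (m : ℕ) (H : A[X]) :
    dd (m + 1) ((X - C (m : A)) * H) = dd m H := by
  rcases Nat.eq_zero_or_pos m with h0 | h0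
  · subst h0
    rw [dd_zero_left]
    rw [dd_of_eq (r := 0) (Q := H) (m := 1)]
    · simp
    · rw [nd_succ, nd_zero]; simp
    · rw [degree_zero]; exact WithBot.bot_lt_coe _
  · set r := H %ₘ nd A m with hr
    have hdeg : r.degree < m := by
      rw [hr, ← nd_degree (A := A) m]; exact degree_modByMonic_lt _ (nd_monic m)
    have e : (X - C (m : A)) * r + nd A (m + 1) * (H /ₘ nd A m) = (X - C (m : A)) * H := by
      rw [nd_succ]
      have := modByMonic_add_div H (nd A m)
      linear_combination (X - C (m : A)) * this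
    rw [dd_of_eq e, dd_apply, ← hr]
    · obtain ⟨k, rfl⟩ : ∃ k, m = k + 1 := ⟨m - 1, by omega⟩
      have h2 : r.coeff (k + 1) = 0 := coeff_eq_zero_of_degree_lt hdeg
      simp only [Nat.add_sub_cancel]
      rw [sub_mul, coeff_sub, coeff_X_mul, coeff_C_mul, h2, mul_zero, sub_zero]
    · by_cases hr0 : r = 0
      · rw [hr0, mul_zero, degree_zero]; exact WithBot.bot_lt_coe _
      · refine (degree_mul_le _ _).trans_lt ?_
        rw [degree_X_sub_C]
        rw [degree_eq_natDegree hr0] at hdeg ⊢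
        have : r.natDegree < m := by exact_mod_cast hdeg
        exact_mod_cast (by omega : 1 + r.natDegree < m + 1)

theorem dd_first [Nontrivial A] (m : ℕ) (H : A[X]) :
    dd (m + 1) (X * H) = dd m (H.comp (X + 1)) := by
  set G := H.comp (X + 1) with hG
  have hH : H = G.comp (X - 1) := by
    rw [hG, comp_assoc]; simp
  rcases Nat.eq_zero_or_pos m with h0 | h0
  · subst h0
    rw [dd_zero_left]
    rw [dd_of_eq (r := 0) (Q := H) (m := 1)]
    · simp
    · rw [nd_succ, nd_zero]; simp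
    · rw [degree_zero]; exact WithBot.bot_lt_coe _
  · set r := G %ₘ nd A m with hr
    have hdeg : r.degree < m := by
      rw [hr, ← nd_degree (A := A) m]; exact degree_modByMonic_lt _ (nd_monic m)
    have hnat : r.natDegree < m := by
      by_cases hr0 : r = 0
      · rw [hr0, natDegree_zero]; exact h0
      · rw [degree_eq_natDegree hr0] at hdeg; exact_mod_cast hdeg
    have e : X * r.comp (X - 1) + nd A (m + 1) * (G /ₘ nd A m).comp (X - 1) = X * H := by
      rw [nd_succ', hH]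
      have := congrArg (fun p : A[X] => p.comp (X - 1)) (modByMonic_add_div G (nd A m))
      simp only [add_comp, mul_comp] at this
      rw [hr]
      linear_combination X * this
    have hn : (r.comp (X - 1)).natDegree ≤ m - 1 := by
      refine natDegree_comp_le.trans ?_
      have : (X - 1 : A[X]).natDegree ≤ 1 := by
        have := natDegree_X_sub_C (R := A) (1 : A)
        rw [C_1] at this
        exact this.le
      calc r.natDegree * (X - 1 : A[X]).natDegree ≤ r.natDegree * 1 := Nat.mul_le_mul_left _ this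
        _ ≤ m - 1 := by omega
    rw [dd_of_eq e, dd_apply, ← hr]
    · obtain ⟨k, rfl⟩ : ∃ k, m = k + 1 := ⟨m - 1, by omega⟩
      simp only [Nat.add_sub_cancel]
      rw [coeff_X_mul]
      have := coeff_comp_sub_one (A := A) (n := k) (r := r) (by omega) (-1)
      rw [C_neg, C_1, ← sub_eq_add_neg] at this
      exact this
    · refine degree_le_natDegree.trans_lt ?_
      have : (X * r.comp (X - 1)).natDegree ≤ 1 + (m - 1) := by
        refine natDegree_mul_le.trans ?_
        have := natDegree_X_le (R := A)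
        omega
      exact_mod_cast (by omega : (X * r.comp (X - 1)).natDegree < m + 1)

/-- `[X (X-1) H; 0..m+1] = [H(X+2); 0..m-1]` -/
theorem dd_two [Nontrivial A] (m : ℕ) (H : A[X]) :
    dd (m + 2) (X * (X - 1) * H) = dd m (H.comp (X + 2)) := by
  rw [mul_assoc, dd_first, mul_comp, sub_comp, X_comp, one_comp]
  rw [show (X + 1 - 1 : A[X]) = X by ring, dd_first, comp_assoc]
  congr 2
  simp only [add_comp, X_comp, one_comp]
  ring

theorem dd_nd_two (H : A[X]) [Nontrivial A] : dd 2 (X * (X - 1) * H) = 0 := by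
  rw [dd_two, dd_zero_left]

end Crest.Agent.R006.H2x909
end

-- ▼ part R006/H2_LK_909
section

/-!
# Row 6, block P6, lemma (H2): the truncated functionals `LK K a` (helper909)

`LK K a F = ∑_{k<K} [F U_k^a; 0..2k+1]`, `U_k^a = ∏_{i=1}^k (2s+1-2i+a)^2`.
* `LK_two` : `LK (K+1) a (X (X-1) P) = LK K (a+2) ((2X+3+a)^2 P(X+2))`;
* `LK_wz` : `LK K 0 (X^3 P + (2X+1)^3 P(X+1))` is a boundary term (WZ certificate);
* `LK_tail`, `pow_two_dvd_dd` : 2-adic smallness.
-/

set_option autoImplicit false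

namespace Crest.Agent.R006.H2x909

open Polynomial Finset

variable {A : Type*} [CommRing A]

/-- coefficient of `X^m` divisible by `2^(m-j)` -/
def TP (G : A[X]) (j : ℕ) : Prop := ∀ m, (2 : A) ^ (m - j) ∣ G.coeff m

theorem TP.of_natDegree_le {G : A[X]} {j : ℕ} (h : G.natDegree ≤ j) : TP G j := by
  intro m
  rcases le_or_gt m j with h1 | h1
  · rw [Nat.sub_eq_zero_of_le h1, pow_zero]; exact one_dvd _
  · rw [coeff_eq_zero_of_natDegree_lt (by omega)]; exact dvd_zero _

theorem TP.mono {G : A[X]} {j j' : ℕ} (h : TP G j) (hj : j ≤ j') : TP G j' := fun m =>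
  (pow_dvd_pow _ (by omega)).trans (h m)

theorem TP.add {G H : A[X]} {j : ℕ} (h : TP G j) (h' : TP H j) : TP (G + H) j := fun m => by
  rw [coeff_add]; exact dvd_add (h m) (h' m)

theorem TP.sub {G H : A[X]} {j : ℕ} (h : TP G j) (h' : TP H j) : TP (G - H) j := fun m => by
  rw [coeff_sub]; exact dvd_sub (h m) (h' m)

theorem TP.mul {G H : A[X]} {j j' : ℕ} (h : TP G j) (h' : TP H j') : TP (G * H) (j + j') := by
  intro m
  rw [coeff_mul]
  refine dvd_sum fun x hx => ?_
  rw [HasAntidiagonal.mem_antidiagonal] at hx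
  have h1 : (2 : A) ^ ((x.1 - j) + (x.2 - j')) ∣ G.coeff x.1 * H.coeff x.2 := by
    rw [pow_add]; exact mul_dvd_mul (h _) (h' _)
  exact (pow_dvd_pow _ (by omega)).trans h1

theorem TP.one : TP (1 : A[X]) 0 := TP.of_natDegree_le (by simp)

theorem TP.pow {G : A[X]} (h : TP G 0) (n : ℕ) : TP (G ^ n) 0 := by
  induction n with
  | zero => rw [pow_zero]; exact TP.one
  | succ n ih => rw [pow_succ]; exact ih.mul h

theorem TP.prod {ι : Type*} (s : Finset ι) (G : ι → A[X]) (h : ∀ i ∈ s, TP (G i) 0) :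
    TP (∏ i ∈ s, G i) 0 := by
  classical
  induction s using Finset.induction_on with
  | empty => rw [prod_empty]; exact TP.one
  | insert i s hi ih =>
    rw [prod_insert hi]
    exact (h i (mem_insert_self _ _)).mul (ih fun k hk => h k (mem_insert_of_mem hk))

/-- `2 X + c` -/
theorem TP.lin (c : A) : TP (C 2 * X + C c) 0 := by
  intro m
  rcases m with _ | _ | m
  · simp
  · simp [coeff_C]
  · have : (C 2 * X + C c : A[X]).coeff (m + 2) = 0 := by
      apply coeff_eq_zero_of_natDegree_lt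
      have h1 : (C 2 * X + C c : A[X]).natDegree ≤ 1 := by compute_degree
      omega
    rw [this]; exact dvd_zero _

/-- `U_k^a = ∏_{i<k} (2X + a - 1 - 2i)^2` -/
noncomputable def U (k : ℕ) (a : A) : A[X] := ∏ i ∈ range k, (C 2 * X + C (a - 1 - 2 * (i : A))) ^ 2

theorem U_zero (a : A) : U 0 a = 1 := by simp [U]

theorem U_succ (k : ℕ) (a : A) :
    U (k + 1) a = U k a * (C 2 * X + C (a - 1 - 2 * (k : A))) ^ 2 := by
  rw [U, prod_range_succ, U]

theorem U_succ' (k : ℕ) (a : A) :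
    U (k + 1) a = (C 2 * X + C (a - 1)) ^ 2 * (U k a).comp (X - 1) := by
  rw [U, prod_range_succ', U, Polynomial.prod_comp, mul_comm]
  congr 1
  · simp
  · refine prod_congr rfl fun i _ => ?_
    rw [pow_comp, add_comp, mul_comp, C_comp, X_comp, C_comp]
    congr 1
    push_cast
    simp only [C_sub, C_mul, C_add, C_1]
    ring

theorem U_comp_two (k : ℕ) (a : A) :
    (U (k + 1) a).comp (X + 2) = (C 2 * X + C (a + 3)) ^ 2 * U k (a + 2) := by
  have h2 : (C (2 : A) : A[X]) = 2 := map_ofNat C 2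
  rw [U, prod_range_succ', U, mul_comp, Polynomial.prod_comp, mul_comm]
  congr 1
  · rw [pow_comp, add_comp, mul_comp, C_comp, X_comp, C_comp]
    congr 1
    push_cast
    simp only [C_sub, C_mul, C_add, C_1, C_0, h2, map_ofNat]
    ring
  · refine prod_congr rfl fun i _ => ?_
    rw [pow_comp, add_comp, mul_comp, C_comp, X_comp, C_comp]
    congr 1
    push_cast
    simp only [C_sub, C_mul, C_add, C_1, h2]
    ring

theorem U_TP (k : ℕ) (a : A) : TP (U k a) 0 :=
  TP.prod _ _ fun _ _ => (TP.lin _).pow 2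

theorem U_natDegree_le (k : ℕ) (a : A) : (U k a).natDegree ≤ 2 * k := by
  unfold U
  refine (natDegree_prod_le _ _).trans ?_
  calc ∑ i ∈ range k, ((C 2 * X + C (a - 1 - 2 * (i : A))) ^ 2 : A[X]).natDegree
      ≤ ∑ _i ∈ range k, 2 := by
        refine sum_le_sum fun i _ => ?_
        refine natDegree_pow_le.trans ?_
        have : (C 2 * X + C (a - 1 - 2 * (i : A)) : A[X]).natDegree ≤ 1 := by compute_degree
        omega
    _ = 2 * k := by simp [mul_comm]

/-- 2-adic smallness of a divided difference -/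
theorem pow_two_dvd_dd [Nontrivial A] {m j : ℕ} {H : A[X]} (h : TP H j) :
    (2 : A) ^ (m - 1 - j) ∣ dd m H := by
  rcases Nat.lt_or_ge m 2 with hm | hm
  · have : m - 1 - j = 0 := by omega
    rw [this, pow_zero]; exact one_dvd _
  · have e : dd m H = ∑ i ∈ range (H.natDegree + 1), H.coeff i * dd m (X ^ i) := by
      conv_lhs => rw [H.as_sum_range_C_mul_X_pow]
      rw [map_sum]
      refine sum_congr rfl fun i _ => ?_
      rw [dd_C_mul]
    rw [e]
    refine dvd_sum fun i _ => ?_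
    rcases Nat.lt_or_ge i (m - 1) with hi | hi
    · have : dd m (X ^ i : A[X]) = 0 := by
        apply dd_eq_zero
        rw [natDegree_X_pow]; omega
      rw [this, mul_zero]; exact dvd_zero _
    · apply Dvd.dvd.mul_right
      exact (pow_dvd_pow _ (by omega)).trans (h i)

/-- the truncated functional -/
noncomputable def LK (K : ℕ) (a : A) : A[X] →ₗ[A] A :=
  ∑ k ∈ range K, (dd (2 * k + 2)).comp (LinearMap.mulRight A (U k a))

theorem LK_apply (K : ℕ) (a : A) (F : A[X]) :
    LK K a F = ∑ k ∈ range K, dd (2 * k + 2) (F * U k a) := by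
  simp [LK, LinearMap.sum_apply]

theorem LK_C_mul (K : ℕ) (a c : A) (F : A[X]) : LK K a (C c * F) = c * LK K a F := by
  rw [← smul_eq_C_mul, map_smul, smul_eq_mul]

/-- the two-step identity -/
theorem LK_two [Nontrivial A] (K : ℕ) (a : A) (P : A[X]) :
    LK (K + 1) a (X * (X - 1) * P) = LK K (a + 2) ((C 2 * X + C (a + 3)) ^ 2 * P.comp (X + 2)) := by
  rw [LK_apply, LK_apply, sum_range_succ']
  have h0 : dd (2 * 0 + 2) (X * (X - 1) * P * U 0 a) = 0 := by
    rw [mul_assoc]; exact dd_nd_two _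
  rw [h0, add_zero]
  refine sum_congr rfl fun k _ => ?_
  rw [show 2 * (k + 1) + 2 = 2 * k + 2 + 2 by ring, mul_assoc, dd_two, mul_comp, U_comp_two]
  congr 1
  ring


/-- the WZ step -/
theorem wz_step [Nontrivial A] (k : ℕ) (P : A[X]) :
    dd (2 * k + 2) ((X ^ 3 * P + (2 * X + 1) ^ 3 * P.comp (X + 1)) * U k 0)
      = dd (2 * (k + 1) + 1) (X * (P * (3 * X - 1 - C (2 * ((k + 1 : ℕ) : A)))) * U (k + 1) 0)
        - dd (2 * k + 1) (X * (P * (3 * X - 1 - C (2 * (k : A)))) * U k 0) := by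
  have h2 : (C (2 : A) : A[X]) = 2 := map_ofNat C 2
  -- first part
  have e1 : dd (2 * k + 2) (X ^ 3 * P * U k 0)
      = dd (2 * k + 3) ((X - C ((2 * k + 2 : ℕ) : A)) * (X ^ 3 * P * U k 0)) := by
    rw [dd_last]
  -- second part
  have e2 : dd (2 * k + 2) ((2 * X + 1) ^ 3 * P.comp (X + 1) * U k 0)
      = dd (2 * k + 3) (X * ((2 * X - 1) ^ 3 * P * (U k 0).comp (X - 1))) := by
    rw [dd_first]
    congr 1
    simp only [mul_comp, pow_comp, sub_comp, X_comp, ofNat_comp, one_comp, comp_assoc]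
    rw [show (X + 1 - 1 : A[X]) = X by ring, comp_X]
    ring
  have e3 : dd (2 * k + 1) (X * (P * (3 * X - 1 - C (2 * (k : A)))) * U k 0)
      = dd (2 * k + 3) ((X - C ((2 * k + 2 : ℕ) : A)) * ((X - C ((2 * k + 1 : ℕ) : A)) *
          (X * (P * (3 * X - 1 - C (2 * (k : A)))) * U k 0))) := by
    rw [dd_last, dd_last]
  have u1 := U_succ (A := A) k 0
  have u2 := U_succ' (A := A) k 0
  rw [add_mul, map_add, e1, e2, e3, show 2 * (k + 1) + 1 = 2 * k + 3 by ring, ← map_add, ← map_sub]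
  congr 1
  rw [u1]
  have u3 : (2 * X - 1 : A[X]) ^ 2 * (U k 0).comp (X - 1)
      = U k 0 * (2 * X - 1 - C (2 * (k : A))) ^ 2 := by
    rw [u1] at u2
    simp only [C_sub, C_neg, C_1, h2, zero_sub] at u2 ⊢
    linear_combination -u2
  have u4 : (C 2 * X + C (0 - 1 - 2 * (k : A)) : A[X]) = 2 * X - 1 - C (2 * (k : A)) := by
    simp only [C_sub, C_neg, C_1, h2, zero_sub]; ring
  rw [u4]
  have c1 : (C ((2 * k + 2 : ℕ) : A) : A[X]) = C (2 * (k : A)) + 2 := by
    push_cast; rw [C_add, h2]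
  have c2 : (C ((2 * k + 1 : ℕ) : A) : A[X]) = C (2 * (k : A)) + 1 := by
    push_cast; rw [C_add, C_1]
  have c3 : (C (2 * ((k + 1 : ℕ) : A)) : A[X]) = C (2 * (k : A)) + 2 := by
    push_cast; rw [mul_add, C_add, mul_one, h2]
  rw [c1, c2, c3]
  linear_combination X * (2 * X - 1) * P * u3

theorem LK_wz [Nontrivial A] (K : ℕ) (P : A[X]) :
    LK K 0 (X ^ 3 * P + (2 * X + 1) ^ 3 * P.comp (X + 1))
      = dd (2 * K + 1) (X * (P * (3 * X - 1 - C (2 * (K : A)))) * U K 0) := by
  rw [LK_apply]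
  induction K with
  | zero =>
    rw [range_zero, sum_empty, mul_assoc, show 2 * 0 + 1 = 0 + 1 by ring, dd_first, dd_zero_left]
  | succ K ih =>
    rw [sum_range_succ, ih, wz_step]
    ring

end Crest.Agent.R006.H2x909
end

-- ▼ part R006/H2_Lim_909
section

/-!
# Row 6, block P6, lemma (H2): the functional of `psi_oo` is the 2-adic limit of `LK K 0` (helper909)

`a` = moments of `2 psi_oo`: key identity and `a 0 = 0`, `3 a 1 = -1`, `27 a 2 = 7`.
-/

set_option autoImplicit false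

namespace Crest.Agent.R006.H2x909

open Polynomial Finset Crest.Agent.R006.FuncLx170

variable {A : Type*} [CommRing A]

theorem coeff_U_top (k : ℕ) : (U k (0 : A)).coeff (2 * k) = 4 ^ k ∧
    (X * U k (0 : A)).coeff (2 * k) = -((k : A) ^ 2) * 4 ^ k := by
  have h2 : (C (2 : A) : A[X]) = 2 := map_ofNat C 2
  induction k with
  | zero => simp [U_zero]
  | succ k ih =>
    obtain ⟨h1, h3⟩ := ih
    have hd : (U k (0 : A)).natDegree ≤ 2 * k := U_natDegree_le k 0
    have z1 : (U k (0 : A)).coeff (2 * k + 1) = 0 := coeff_eq_zero_of_natDegree_lt (by omega)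
    have z2 : (U k (0 : A)).coeff (2 * k + 2) = 0 := coeff_eq_zero_of_natDegree_lt (by omega)
    have e : U (k + 1) (0 : A) = C 4 * (X * (X * U k 0)) + C (4 * (-1 - 2 * (k : A))) * (X * U k 0)
        + C ((-1 - 2 * (k : A)) ^ 2) * U k 0 := by
      rw [U_succ]
      have : (C (4 : A) : A[X]) = 2 * 2 := by rw [← h2, ← C_mul]; norm_num
      simp only [C_sub, C_mul, C_neg, C_1, h2, zero_sub, C_pow, this]
      ring
    constructor
    · rw [e, show 2 * (k + 1) = 2 * k + 1 + 1 by ring]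
      simp only [coeff_add, coeff_C_mul, coeff_X_mul, h1, z1, z2]
      ring
    · rw [e, show 2 * (k + 1) = 2 * k + 1 + 1 by ring]
      have e2 : X * (C 4 * (X * (X * U k 0)) + C (4 * (-1 - 2 * (k : A))) * (X * U k 0)
        + C ((-1 - 2 * (k : A)) ^ 2) * U k 0) = C 4 * (X * (X * (X * U k 0)))
          + C (4 * (-1 - 2 * (k : A))) * (X * (X * U k 0))
          + C ((-1 - 2 * (k : A)) ^ 2) * (X * U k 0) := by ring
      rw [e2]
      rw [coeff_add, coeff_add, coeff_C_mul, coeff_C_mul, coeff_C_mul, coeff_X_mul, coeff_X_mul,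
        h3, coeff_X_mul, coeff_X_mul, h1, coeff_X_mul, z1]
      push_cast
      ring

theorem dd_top [Nontrivial A] {m : ℕ} (hm : 0 < m) {H : A[X]} (h : H.natDegree ≤ m) :
    dd m H = H.coeff (m - 1) + H.coeff m * ∑ i ∈ range m, (i : A) := by
  have h1 : (nd A m).coeff (m - 1) = -∑ i ∈ range m, (i : A) := by
    have := prod_X_sub_C_coeff_card_pred (range m) (fun i => (i : A)) (by simpa using hm)
    rwa [card_range] at this
  have h2 : (nd A m).coeff m = 1 := by
    have := (nd_monic (A := A) m).coeff_natDegree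
    rwa [nd_natDegree] at this
  have e : (H - C (H.coeff m) * nd A m) + nd A m * C (H.coeff m) = H := by ring
  rw [dd_of_eq e, coeff_sub, coeff_C_mul, h1]
  · ring
  · rw [degree_lt_iff_coeff_zero]
    intro k hk
    rw [coeff_sub, coeff_C_mul]
    rcases Nat.eq_or_lt_of_le hk with hk | hk
    · rw [← hk, h2]; ring
    · have z1 : H.coeff k = 0 := coeff_eq_zero_of_natDegree_lt (by omega)
      have z2 : (nd A m).coeff k = 0 := coeff_eq_zero_of_natDegree_lt (by
        rw [nd_natDegree]; exact hk)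
      rw [z1, z2]; ring

theorem LK_one [Nontrivial A] (K : ℕ) : LK K (0 : A) 1 = 0 := by
  rw [LK_apply]
  refine sum_eq_zero fun k _ => ?_
  apply dd_eq_zero
  rw [one_mul]
  have := U_natDegree_le k (0 : A)
  omega

theorem LK_X [Nontrivial A] (K : ℕ) : 3 * LK K (0 : A) X = 4 ^ K - 1 := by
  have h : ∀ k, dd (2 * k + 2) (X * U k (0 : A)) = 4 ^ k := by
    intro k
    rw [dd_eq_coeff']
    · rw [show 2 * k + 2 - 1 = 2 * k + 1 by omega, coeff_X_mul]; exact (coeff_U_top k).1
    · have := U_natDegree_le k (0 : A)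
      have h1 : (X * U k (0 : A)).natDegree ≤ 1 + 2 * k :=
        natDegree_mul_le.trans (Nat.add_le_add natDegree_X_le this)
      omega
  rw [LK_apply]
  induction K with
  | zero => simp
  | succ K ih => rw [sum_range_succ, mul_add, ih, h]; ring

theorem LK_X2 [Nontrivial A] (K : ℕ) :
    27 * LK K (0 : A) (X ^ 2) = 4 ^ K * (9 * (K : A) ^ 2 + 3 * K - 7) + 7 := by
  have hs : ∀ k : ℕ, ∑ i ∈ range (2 * k + 2), (i : A) = (k + 1) * (2 * k + 1) := by
    intro k
    induction k with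
    | zero => simp [sum_range_succ]
    | succ k ih =>
      rw [show 2 * (k + 1) + 2 = 2 * k + 2 + 1 + 1 by ring, sum_range_succ, sum_range_succ, ih]
      push_cast; ring
  have h : ∀ k, dd (2 * k + 2) (X ^ 2 * U k (0 : A)) = 4 ^ k * ((k : A) ^ 2 + 3 * k + 1) := by
    intro k
    have hd := U_natDegree_le k (0 : A)
    rw [pow_two, mul_assoc, dd_top (by omega), hs]
    · rw [show 2 * k + 2 - 1 = 2 * k + 1 by omega, show 2 * k + 2 = 2 * k + 1 + 1 by ring]
      rw [coeff_X_mul, coeff_X_mul, coeff_X_mul, (coeff_U_top k).1, (coeff_U_top k).2]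
      ring
    · have h1 : (X * U k (0 : A)).natDegree ≤ 1 + 2 * k :=
        natDegree_mul_le.trans (Nat.add_le_add natDegree_X_le hd)
      have h2 : (X * (X * U k (0 : A))).natDegree ≤ 1 + (1 + 2 * k) :=
        natDegree_mul_le.trans (Nat.add_le_add natDegree_X_le h1)
      omega
  rw [LK_apply]
  induction K with
  | zero => simp
  | succ K ih => rw [sum_range_succ, mul_add, ih, h]; push_cast; ring

/-- data of the moments of `2 psi_oo` -/
structure Mom (a : ℕ → A) : Prop where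
  key : Key a
  a0 : a 0 = 0
  a1 : 3 * a 1 = -1
  a2 : 27 * a 2 = 7

/-- `E ≡ 0` to 2-adic order `2K - C` -/
def Small (E : ℕ → A) : Prop := ∃ C : ℕ, ∀ K, (2 : A) ^ (2 * K - C) ∣ E K

theorem Small.add {E E' : ℕ → A} (h : Small E) (h' : Small E') : Small fun K => E K + E' K := by
  obtain ⟨C1, h⟩ := h
  obtain ⟨C2, h'⟩ := h'
  refine ⟨max C1 C2, fun K => dvd_add ?_ ?_⟩
  · exact (pow_dvd_pow _ (by omega)).trans (h K)
  · exact (pow_dvd_pow _ (by omega)).trans (h' K)

theorem Small.mul {E : ℕ → A} (h : Small E) (c : A) : Small fun K => c * E K := by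
  obtain ⟨C1, h⟩ := h
  exact ⟨C1, fun K => (h K).mul_left _⟩

theorem Small.zero : Small fun _ => (0 : A) := ⟨0, fun _ => dvd_zero _⟩

theorem Small.sum {ι : Type*} (s : Finset ι) (E : ι → ℕ → A) (h : ∀ i ∈ s, Small (E i)) :
    Small fun K => ∑ i ∈ s, E i K := by
  classical
  induction s using Finset.induction_on with
  | empty => simpa using Small.zero
  | insert i s hi ih =>
    simp only [sum_insert hi]
    exact (h i (mem_insert_self _ _)).add (ih fun k hk => h k (mem_insert_of_mem hk))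

theorem Small.of_unit {E : ℕ → A} {c : A} (hc : IsUnit c) (h : Small fun K => c * E K) :
    Small E := by
  obtain ⟨C1, h⟩ := h
  exact ⟨C1, fun K => (IsUnit.dvd_mul_left hc).1 (h K)⟩

theorem small_monomial [Nontrivial A] (h3 : IsUnit (3 : A)) {a : ℕ → A} (h : Mom a) (j : ℕ) :
    Small fun K => a j - LK K 0 (X ^ j) := by
  have h9 : IsUnit (9 : A) := by
    have : (9 : A) = 3 * 3 := by norm_num
    rw [this]; exact h3.mul h3
  have h27 : IsUnit (27 : A) := by
    have : (27 : A) = 9 * 3 := by norm_num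
    rw [this]; exact h9.mul h3
  have p4 : ∀ K : ℕ, (4 : A) ^ K = 2 ^ (2 * K) := by
    intro K
    rw [pow_mul]; norm_num
  induction j using Nat.strong_induction_on with
  | _ j ih =>
    match j, ih with
    | 0, _ =>
      refine ⟨0, fun K => ?_⟩
      simp only [pow_zero, LK_one, h.a0, sub_zero]
      exact dvd_zero _
    | 1, _ =>
      apply Small.of_unit h3
      refine ⟨0, fun K => ?_⟩
      simp only [pow_one]
      rw [mul_sub, LK_X, h.a1, p4]
      exact ⟨-1, by rw [Nat.sub_zero]; ring⟩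
    | 2, _ =>
      apply Small.of_unit h27
      refine ⟨0, fun K => ?_⟩
      simp only
      rw [mul_sub, LK_X2, h.a2, p4]
      exact ⟨-(9 * (K : A) ^ 2 + 3 * K - 7), by rw [Nat.sub_zero]; ring⟩
    | j + 3, ih =>
      apply Small.of_unit h9
      have hk := h.key (X ^ j)
      have hQ : (X ^ 3 * X ^ j + (2 * X + 1) ^ 3 * ((X : A[X]) ^ j).comp (X + 1)) = Qp A j := by
        simp [Qp]
      rw [hQ] at hk
      have hw : ∀ K, LK K 0 (Qp A j)
          = dd (2 * K + 1) (X * (X ^ j * (3 * X - 1 - C (2 * (K : A)))) * U K 0) := by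
        intro K
        rw [← hQ, LK_wz]
      have hdec : Qp A j = C 9 * X ^ (j + 3) + ∑ i ∈ range (j + 3), C ((Qp A j).coeff i) * X ^ i := by
        conv_lhs => rw [(Qp A j).as_sum_range_C_mul_X_pow' (n := j + 3 + 1)
          (Nat.lt_succ_of_le (Qp_natDegree_le j))]
        rw [sum_range_succ, Qp_coeff, add_comm]
      have e : ∀ K, 9 * (a (j + 3) - LK K 0 (X ^ (j + 3)))
          = (-1) * dd (2 * K + 1) (X * (X ^ j * (3 * X - 1 - C (2 * (K : A)))) * U K 0)
            + (-1) * ∑ i ∈ range (j + 3), (Qp A j).coeff i * (a i - LK K 0 (X ^ i)) := by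
        intro K
        rw [← hw]
        have h1 : 9 * a (j + 3) = - ∑ i ∈ range (j + 3), (Qp A j).coeff i * a i := by
          rw [hdec, map_add, Lam_C_mul, Lam_X_pow, map_sum] at hk
          simp only [Lam_C_mul, Lam_X_pow] at hk
          linear_combination hk
        have h2 : LK K 0 (Qp A j) = 9 * LK K 0 (X ^ (j + 3))
            + ∑ i ∈ range (j + 3), (Qp A j).coeff i * LK K 0 (X ^ i) := by
          conv_lhs => rw [hdec]
          rw [map_add, LK_C_mul, map_sum]
          simp only [LK_C_mul]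
        rw [h2, mul_sub, h1]
        simp only [mul_sub, sum_sub_distrib]
        ring
      simp only [e]
      refine Small.add (Small.mul ?_ _) (Small.mul ?_ _)
      · refine ⟨j + 2, fun K => ?_⟩
        have hT : TP (X * (X ^ j * (3 * X - 1 - C (2 * (K : A)))) : A[X]) (j + 2) := by
          apply TP.of_natDegree_le
          have h1 : (3 * X - 1 - C (2 * (K : A)) : A[X]).natDegree ≤ 1 := by compute_degree
          have h2 : (X ^ j * (3 * X - 1 - C (2 * (K : A))) : A[X]).natDegree ≤ j + 1 :=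
            natDegree_mul_le.trans (Nat.add_le_add (natDegree_X_pow_le j) h1)
          exact (natDegree_mul_le.trans (Nat.add_le_add natDegree_X_le h2)).trans (by omega)
        have := pow_two_dvd_dd (m := 2 * K + 1) (hT.mul (U_TP K (0 : A)))
        exact (pow_dvd_pow _ (by omega)).trans this
      · exact Small.sum _ _ fun i hi => (ih i (by simpa using hi)).mul _

/-- **the functional of `2 psi_oo` is the 2-adic limit of the truncated functionals** -/
theorem small [Nontrivial A] (h3 : IsUnit (3 : A)) {a : ℕ → A} (h : Mom a) (F : A[X]) :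
    Small fun K => Lam a F - LK K 0 F := by
  have e : ∀ K, Lam a F - LK K 0 F
      = ∑ i ∈ range (F.natDegree + 1), F.coeff i * (a i - LK K 0 (X ^ i)) := by
    intro K
    have h1 : Lam a F = ∑ i ∈ range (F.natDegree + 1), F.coeff i * a i :=
      Lam_eq_sum_range a F _ (Nat.lt_succ_self _)
    have h2 : LK K 0 F = ∑ i ∈ range (F.natDegree + 1), F.coeff i * LK K 0 (X ^ i) := by
      conv_lhs => rw [F.as_sum_range_C_mul_X_pow]
      rw [map_sum]
      simp only [LK_C_mul]
    rw [h1, h2, ← sum_sub_distrib]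
    simp only [mul_sub]
  simp only [e]
  exact Small.sum _ _ fun i _ => (small_monomial h3 h i).mul _

end Crest.Agent.R006.H2x909
end

-- ▼ part R006/H2_Rod_909
section

/-!
# Row 6, block P6, lemma (H2): the Rodrigues formula (helper909)

`Pn n ≡ (X^2+X+1)^n mod 2` and `2^n n!` divides (2-adically) `Lam a (Pn n * F)` for all `F`,
`a` = moments of `2 psi_oo`.
-/

set_option autoImplicit false

namespace Crest.Agent.R006.H2x909

open Polynomial Finset Crest.Agent.R006.FuncLx170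

variable {A B : Type*} [CommRing A] [CommRing B]

/-! ### finite differences of step two -/

theorem fd_rep (p : A[X]) : ∃ c : ℕ → A, ∀ i N : ℕ, i ≤ N →
    p.eval (2 * (i : A)) = ∑ m ∈ range (N + 1), c m * (2 ^ m * (m.factorial : A) * (i.choose m : A)) := by
  induction p using Polynomial.induction_on' with
  | add p q hp hq =>
    obtain ⟨c, hc⟩ := hp
    obtain ⟨d, hd⟩ := hq
    refine ⟨fun m => c m + d m, fun i N h => ?_⟩
    rw [eval_add, hc i N h, hd i N h, ← sum_add_distrib]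
    exact sum_congr rfl fun m _ => by ring
  | monomial n x =>
    induction n with
    | zero =>
      refine ⟨fun m => if m = 0 then x else 0, fun i N _ => ?_⟩
      rw [sum_range_succ']
      simp
    | succ n ih =>
      obtain ⟨c, hc⟩ := ih
      refine ⟨fun m => (if m = 0 then 0 else c (m - 1)) + 2 * m * c m, fun i N h => ?_⟩
      have e1 : (monomial (n + 1) x : A[X]) = X * monomial n x := by
        rw [← C_mul_X_pow_eq_monomial, ← C_mul_X_pow_eq_monomial]; ring
      rw [e1, eval_mul, eval_X, hc i N h, mul_sum]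
      set g : ℕ → A := fun m => (if m = 0 then 0 else c (m - 1)) *
        (2 ^ m * (m.factorial : A) * (i.choose m : A)) with hg
      have h1 : ∑ m ∈ range (N + 1), g m = ∑ m ∈ range (N + 1), g (m + 1) := by
        have a1 := sum_range_succ g (N + 1)
        have a2 := sum_range_succ' g (N + 1)
        have a3 : g (N + 1) = 0 := by
          simp only [hg]
          rw [Nat.choose_eq_zero_of_lt (by omega)]; simp
        have a4 : g 0 = 0 := by simp [hg]
        rw [a3, add_zero] at a1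
        rw [a4, add_zero] at a2
        rw [← a1, a2]
      have h2 : ∑ m ∈ range (N + 1), ((if m = 0 then 0 else c (m - 1)) + 2 * m * c m) *
          (2 ^ m * (m.factorial : A) * (i.choose m : A))
          = ∑ m ∈ range (N + 1), g m + ∑ m ∈ range (N + 1),
            2 * m * c m * (2 ^ m * (m.factorial : A) * (i.choose m : A)) := by
        rw [← sum_add_distrib]
        exact sum_congr rfl fun m _ => by simp only [hg]; ring
      rw [h2, h1, ← sum_add_distrib]
      refine sum_congr rfl fun m _ => ?_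
      simp only [hg, Nat.add_sub_cancel, Nat.succ_ne_zero, if_false]
      have h3 : ((i : A)) * (i.choose m : A) = (m + 1) * (i.choose (m + 1) : A) + m * (i.choose m : A) := by
        have := Nat.choose_succ_right_eq i m
        rcases Nat.lt_or_ge i m with hm | hm
        · rw [Nat.choose_eq_zero_of_lt hm, Nat.choose_eq_zero_of_lt (by omega)]; simp
        · have h4 : ((i.choose (m + 1) * (m + 1) : ℕ) : A) = ((i.choose m * (i - m) : ℕ) : A) := by
            rw [this]
          push_cast [Nat.cast_sub hm] at h4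
          linear_combination -h4
      rw [Nat.factorial_succ]
      push_cast
      linear_combination 2 * c m * 2 ^ m * (m.factorial : A) * h3

theorem alt_choose (n m : ℕ) (h : m < n) :
    ∑ i ∈ range (n + 1), (-1 : A) ^ (n - i) * (n.choose i : A) * (i.choose m : A) = 0 := by
  have h1 := add_pow (X + 1 : A[X]) (-1) n
  rw [show (X + 1 + -1 : A[X]) = X by ring] at h1
  have h2 := congrArg (fun q : A[X] => q.coeff m) h1
  simp only [coeff_X_pow, finsetSum_coeff] at h2
  rw [if_neg (by omega)] at h2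
  rw [h2]
  refine sum_congr rfl fun i _ => ?_
  have e : ((X + 1 : A[X]) ^ i * (-1) ^ (n - i) * (n.choose i : A[X]))
      = C ((-1) ^ (n - i) * (n.choose i : A)) * (X + 1) ^ i := by
    simp only [C_mul, C_pow, C_neg, C_1, map_natCast]; ring
  rw [e, coeff_C_mul, coeff_X_add_one_pow]

/-- `2^n n!` divides the `n`-th difference with step `2` of a polynomial -/
theorem fd_dvd (p : A[X]) (n : ℕ) : (2 ^ n * (n.factorial : A)) ∣
    ∑ i ∈ range (n + 1), (-1 : A) ^ (n - i) * (n.choose i : A) * p.eval (2 * (i : A)) := by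
  obtain ⟨c, hc⟩ := fd_rep p
  have e : ∑ i ∈ range (n + 1), (-1 : A) ^ (n - i) * (n.choose i : A) * p.eval (2 * (i : A))
      = ∑ m ∈ range (n + 1), c m * (2 ^ m * (m.factorial : A)) *
        ∑ i ∈ range (n + 1), (-1 : A) ^ (n - i) * (n.choose i : A) * (i.choose m : A) := by
    have : ∀ i ∈ range (n + 1), (-1 : A) ^ (n - i) * (n.choose i : A) * p.eval (2 * (i : A))
        = ∑ m ∈ range (n + 1), c m * (2 ^ m * (m.factorial : A)) *
          ((-1 : A) ^ (n - i) * (n.choose i : A) * (i.choose m : A)) := by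
      intro i hi
      rw [hc i n (by have := mem_range.1 hi; omega), mul_sum]
      exact sum_congr rfl fun m _ => by ring
    rw [sum_congr rfl this, sum_comm]
    exact sum_congr rfl fun m _ => by rw [mul_sum]
  rw [e]
  refine dvd_sum fun m hm => ?_
  rcases Nat.eq_or_lt_of_le (Nat.lt_succ_iff.1 (mem_range.1 hm)) with h | h
  · subst h
    exact ⟨c m * ∑ i ∈ range (m + 1), (-1 : A) ^ (m - i) * (m.choose i : A) * (i.choose m : A),
      by ring⟩
  · rw [alt_choose n m h, mul_zero]; exact dvd_zero _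

/-! ### iteration of the two-step identity -/

/-- odd offsets `2i+1, .., 4i-1` (for `a = 0`) -/
noncomputable def DI (i : ℕ) (a : A) : A[X] :=
  ∏ j ∈ range i, (C 2 * X + C (a + 2 * (i : A) + 1 + 2 * (j : A))) ^ 2

theorem DI_succ (i : ℕ) (a : A) : DI (i + 1) a
    = DI i (a + 2) * ((C 2 * X + C (a + 3)) ^ 2).comp (X + C (2 * (i : A))) := by
  have e1 : ∀ j : ℕ, (C 2 * X + C (a + 2 * ((i + 1 : ℕ) : A) + 1 + 2 * (j : A)) : A[X]) ^ 2
      = (C 2 * X + C (a + 2 + 2 * (i : A) + 1 + 2 * (j : A))) ^ 2 := by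
    intro j
    have : a + 2 * ((i + 1 : ℕ) : A) + 1 + 2 * (j : A) = a + 2 + 2 * (i : A) + 1 + 2 * (j : A) := by
      push_cast; ring
    rw [this]
  have e2 : (((C 2 * X + C (a + 3)) ^ 2 : A[X])).comp (X + C (2 * (i : A)))
      = (C 2 * X + C (a + 2 * ((i + 1 : ℕ) : A) + 1 + 2 * (i : A))) ^ 2 := by
    rw [pow_comp, add_comp, mul_comp, C_comp, X_comp, C_comp]
    have : a + 2 * ((i + 1 : ℕ) : A) + 1 + 2 * (i : A) = 2 * (2 * (i : A)) + (a + 3) := by
      push_cast; ring
    rw [this, C_add (a := 2 * (2 * (i : A)))]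
    simp only [C_mul]
    ring
  rw [e2, DI, prod_range_succ, DI]
  rw [prod_congr rfl fun j _ => e1 j]

theorem nd_two_succ (m : ℕ) : nd A (m + 2) = X * (X - 1) * (nd A m).comp (X - 2) := by
  rw [nd_succ', nd_succ', mul_comp, X_comp, comp_assoc]
  rw [show (X - 1 : A[X]).comp (X - 1) = X - 2 by
    simp only [sub_comp, X_comp, one_comp]; ring]
  ring

theorem LK_iter [Nontrivial A] (i : ℕ) : ∀ (a : A) (K : ℕ) (P : A[X]),
    LK (K + i) a (nd A (2 * i) * P)
      = LK K (a + 2 * (i : A)) (DI i a * P.comp (X + C (2 * (i : A)))) := by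
  induction i with
  | zero => intro a K P; simp [nd_zero, DI]
  | succ i ih =>
    intro a K P
    rw [show 2 * (i + 1) = 2 * i + 2 by ring, nd_two_succ, mul_assoc,
      show K + (i + 1) = K + i + 1 by ring, LK_two]
    have e1 : (C 2 * X + C (a + 3)) ^ 2 * ((nd A (2 * i)).comp (X - 2) * P).comp (X + 2)
        = nd A (2 * i) * ((C 2 * X + C (a + 3)) ^ 2 * P.comp (X + 2)) := by
      rw [mul_comp, comp_assoc]
      rw [show (X - 2 : A[X]).comp (X + 2) = X by
        simp only [sub_comp, X_comp, ofNat_comp]; ring, comp_X]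
      ring
    have e2 : (X + 2 : A[X]).comp (X + C (2 * (i : A))) = X + C (2 * ((i + 1 : ℕ) : A)) := by
      have h2 : (C (2 : A) : A[X]) = 2 := map_ofNat C 2
      simp only [add_comp, X_comp, ofNat_comp]
      push_cast
      rw [mul_add, C_add, mul_one, h2]; ring
    have e3 : DI i (a + 2) * ((C 2 * X + C (a + 3)) ^ 2 * P.comp (X + 2)).comp (X + C (2 * (i : A)))
        = DI (i + 1) a * P.comp (X + C (2 * ((i + 1 : ℕ) : A))) := by
      rw [DI_succ, mul_comp, comp_assoc, e2]; ring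
    have e4 : a + 2 + 2 * (i : A) = a + 2 * ((i + 1 : ℕ) : A) := by push_cast; ring
    rw [e1, ih, e3, e4]

/-! ### naturality -/

theorem U_map (φ : A →+* B) (k : ℕ) (a : A) : (U k a).map φ = U k (φ a) := by
  rw [U, Polynomial.map_prod, U]
  refine prod_congr rfl fun i _ => ?_
  have e : φ (a - 1 - 2 * (i : A)) = φ a - 1 - 2 * (i : B) := by
    rw [map_sub, map_sub, map_mul, map_natCast, map_one, map_ofNat]
  rw [Polynomial.map_pow, Polynomial.map_add, Polynomial.map_mul, Polynomial.map_C,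
    Polynomial.map_C, Polynomial.map_X, e, map_ofNat]

theorem DI_map (φ : A →+* B) (i : ℕ) (a : A) : (DI i a).map φ = DI i (φ a) := by
  rw [DI, Polynomial.map_prod, DI]
  refine prod_congr rfl fun j _ => ?_
  have e : φ (a + 2 * (i : A) + 1 + 2 * (j : A)) = φ a + 2 * (i : B) + 1 + 2 * (j : B) := by
    rw [map_add, map_add, map_add, map_mul, map_mul, map_natCast, map_natCast, map_one, map_ofNat]
  rw [Polynomial.map_pow, Polynomial.map_add, Polynomial.map_mul, Polynomial.map_C,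
    Polynomial.map_C, Polynomial.map_X, e, map_ofNat]

theorem LK_map [Nontrivial A] [Nontrivial B] (φ : A →+* B) (K : ℕ) (a : A) (F : A[X]) :
    LK K (φ a) (F.map φ) = φ (LK K a F) := by
  rw [LK_apply, LK_apply, map_sum]
  refine sum_congr rfl fun k _ => ?_
  rw [← dd_map, Polynomial.map_mul, U_map]

/-! ### the polynomials `Pn` -/

/-- common multiple -/
noncomputable def WW (A : Type*) [CommRing A] (n : ℕ) : A[X] := ∏ i ∈ range (n + 1), DI i (0 : A)

/-- cofactor -/
noncomputable def VV (A : Type*) [CommRing A] (n i : ℕ) : A[X] :=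
  ∏ j ∈ (range (n + 1)).erase i, DI j (0 : A)

theorem DI_mul_VV {n i : ℕ} (h : i ≤ n) : DI i (0 : A) * VV A n i = WW A n := by
  have h1 : i ∈ range (n + 1) := mem_range.2 (Nat.lt_succ_of_le h)
  exact mul_prod_erase (range (n + 1)) (fun j => DI j (0 : A)) h1

/-- the Rodrigues polynomials -/
noncomputable def Pn (A : Type*) [CommRing A] (n : ℕ) : A[X] :=
  ∑ i ∈ range (n + 1), C ((-1 : A) ^ (n - i) * (n.choose i : A)) *
    (nd A (2 * i) * (VV A n i).comp (X - C (2 * (i : A))))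

theorem LK_shift [Nontrivial A] {n i : ℕ} (h : i ≤ n) (K : ℕ) (F : A[X]) :
    LK (K + i) (0 : A) (nd A (2 * i) * (VV A n i).comp (X - C (2 * (i : A))) * F)
      = LK K (2 * (i : A)) (WW A n * F.comp (X + C (2 * (i : A)))) := by
  have e : (X - C (2 * (i : A)) : A[X]).comp (X + C (2 * (i : A))) = X := by
    rw [sub_comp, X_comp, C_comp]; ring
  have e2 : ((VV A n i).comp (X - C (2 * (i : A))) * F).comp (X + C (2 * (i : A)))
      = VV A n i * F.comp (X + C (2 * (i : A))) := by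
    rw [mul_comp, comp_assoc, e, comp_X]
  have e3 := LK_iter i (0 : A) K ((VV A n i).comp (X - C (2 * (i : A))) * F)
  rw [e2, ← mul_assoc, ← mul_assoc, DI_mul_VV h, zero_add] at e3
  exact e3

/-- `f(b) = LK K b (W F(X+b))` is a polynomial in `b` -/
theorem exists_poly [Nontrivial A] (n K : ℕ) (F : A[X]) : ∃ p : A[X], ∀ b : A,
    p.eval b = LK K b (WW A n * F.comp (X + C b)) := by
  refine ⟨LK K (X : A[X]) (WW A[X] n * (F.map C).comp (X + C X)), fun b => ?_⟩
  have h := LK_map (evalRingHom b) K (X : A[X]) (WW A[X] n * (F.map C).comp (X + C X))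
  rw [coe_evalRingHom] at h
  rw [← h, eval_X]
  congr 1
  rw [Polynomial.map_mul, map_comp, Polynomial.map_map, Polynomial.map_add, map_X, map_C]
  congr 1
  · rw [WW, WW, Polynomial.map_prod]
    refine prod_congr rfl fun i _ => ?_
    rw [DI_map, map_zero]
  · have : (evalRingHom b).comp (C : A →+* A[X]) = RingHom.id A := by
      ext x; simp
    rw [this, Polynomial.map_id]
    simp

/-- **Rodrigues**: every power of `2` dividing `2^n n!` divides `Lam a (Pn n * F)` -/
theorem rodrigues [Nontrivial A] (h3 : IsUnit (3 : A)) {a : ℕ → A} (h : Mom a) (n : ℕ) (F : A[X])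
    {t : ℕ} (ht : (2 : A) ^ t ∣ 2 ^ n * (n.factorial : A)) : (2 : A) ^ t ∣ Lam a (Pn A n * F) := by
  set T : ℕ → A[X] := fun i => nd A (2 * i) * (VV A n i).comp (X - C (2 * (i : A))) * F with hT
  have e1 : Lam a (Pn A n * F)
      = ∑ i ∈ range (n + 1), (-1 : A) ^ (n - i) * (n.choose i : A) * Lam a (T i) := by
    rw [Pn, sum_mul, map_sum]
    refine sum_congr rfl fun i _ => ?_
    rw [mul_assoc, Lam_C_mul]
  choose C1 hC1 using fun i => small h3 h (T i)
  obtain ⟨K, hK⟩ : ∃ K : ℕ, ∀ i ∈ range (n + 1), t ≤ 2 * K - C1 i := by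
    refine ⟨t + ∑ i ∈ range (n + 1), C1 i, fun i hi => ?_⟩
    have := single_le_sum (f := C1) (fun i _ => Nat.zero_le _) hi
    omega
  obtain ⟨p, hp⟩ := exists_poly (A := A) n K F
  have e2 : ∑ i ∈ range (n + 1), (-1 : A) ^ (n - i) * (n.choose i : A) * LK (K + i) 0 (T i)
      = ∑ i ∈ range (n + 1), (-1 : A) ^ (n - i) * (n.choose i : A) * p.eval (2 * (i : A)) := by
    refine sum_congr rfl fun i hi => ?_
    rw [hp, hT, LK_shift (by have := mem_range.1 hi; omega)]
  have e3 : Lam a (Pn A n * F) = ∑ i ∈ range (n + 1), (-1 : A) ^ (n - i) * (n.choose i : A) *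
      (Lam a (T i) - LK (K + i) 0 (T i))
      + ∑ i ∈ range (n + 1), (-1 : A) ^ (n - i) * (n.choose i : A) * p.eval (2 * (i : A)) := by
    rw [← e2, e1, ← sum_add_distrib]
    exact sum_congr rfl fun i _ => by ring
  rw [e3]
  refine dvd_add (dvd_sum fun i hi => ?_) (ht.trans (fd_dvd p n))
  apply Dvd.dvd.mul_left
  exact (pow_dvd_pow _ (by have := hK i hi; omega)).trans (hC1 i (K + i))

/-! ### reduction mod 2 -/

/-- `G ≡ 1 mod 2` -/
def One2 (G : A[X]) : Prop := ∃ H : A[X], G = 1 + C 2 * H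

theorem One2.one : One2 (1 : A[X]) := ⟨0, by simp⟩

theorem One2.mul {G G' : A[X]} (h : One2 G) (h' : One2 G') : One2 (G * G') := by
  obtain ⟨H, rfl⟩ := h
  obtain ⟨H', rfl⟩ := h'
  exact ⟨H + H' + C 2 * H * H', by ring⟩

theorem One2.pow {G : A[X]} (h : One2 G) (n : ℕ) : One2 (G ^ n) := by
  induction n with
  | zero => rw [pow_zero]; exact One2.one
  | succ n ih => rw [pow_succ]; exact ih.mul h

theorem One2.prod {ι : Type*} (s : Finset ι) (G : ι → A[X]) (h : ∀ i ∈ s, One2 (G i)) :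
    One2 (∏ i ∈ s, G i) := by
  classical
  induction s using Finset.induction_on with
  | empty => rw [prod_empty]; exact One2.one
  | insert i s hi ih =>
    rw [prod_insert hi]
    exact (h i (mem_insert_self _ _)).mul (ih fun k hk => h k (mem_insert_of_mem hk))

theorem One2.comp {G : A[X]} (h : One2 G) (q : A[X]) : One2 (G.comp q) := by
  obtain ⟨H, rfl⟩ := h
  exact ⟨H.comp q, by simp⟩

theorem DI_one2 (i : ℕ) : One2 (DI i (0 : A)) := by
  refine One2.prod _ _ fun j _ => One2.pow ?_ 2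
  refine ⟨X + C ((i : A) + j), ?_⟩
  simp only [C_add, C_mul, C_0, C_1, map_natCast]
  ring

theorem nd_mod2 (i : ℕ) : ∃ G : A[X], nd A (2 * i) = (X ^ 2 + X) ^ i + C 2 * G := by
  have h2 : (C (2 : A) : A[X]) = 2 := map_ofNat C 2
  induction i with
  | zero => exact ⟨0, by simp [nd_zero]⟩
  | succ i ih =>
    obtain ⟨G, hG⟩ := ih
    refine ⟨(X ^ 2 + X) ^ i * (-(2 * (i : A[X]) + 1) * X + (i : A[X]) * (2 * (i : A[X]) + 1))
      + G * ((X - 2 * (i : A[X])) * (X - (2 * (i : A[X]) + 1))), ?_⟩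
    rw [show 2 * (i + 1) = 2 * i + 1 + 1 by ring, nd_succ, nd_succ, hG]
    push_cast
    simp only [C_add, C_mul, C_1, map_natCast, h2]
    ring

theorem Pn_mod2 (n : ℕ) : ∃ G : A[X], Pn A n = (X ^ 2 + X + 1) ^ n + C 2 * G := by
  have h2 : (C (2 : A) : A[X]) = 2 := map_ofNat C 2
  choose G hG using nd_mod2 (A := A)
  have hV : ∀ i, ∃ H : A[X], (VV A n i).comp (X - C (2 * (i : A))) = 1 + C 2 * H := fun i =>
    (One2.prod _ _ fun j _ => DI_one2 (A := A) j).comp _
  choose H hH using hV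
  -- `(y - 1)^n = (y + 1)^n + 2 G`
  have hy : ∃ G' : A[X], (X ^ 2 + X + -1 : A[X]) ^ n = (X ^ 2 + X + 1) ^ n + C 2 * G' := by
    have h1 : (X ^ 2 + X + -1 : A[X]) - (X ^ 2 + X + 1) ∣ (X ^ 2 + X + -1) ^ n - (X ^ 2 + X + 1) ^ n :=
      sub_dvd_pow_sub_pow _ _ n
    obtain ⟨q, hq⟩ := h1
    refine ⟨-q, ?_⟩
    rw [h2]
    linear_combination hq
  obtain ⟨G', hG'⟩ := hy
  refine ⟨G' + ∑ i ∈ range (n + 1), C ((-1 : A) ^ (n - i) * (n.choose i : A)) *
    ((X ^ 2 + X) ^ i * H i + G i * (1 + C 2 * H i)), ?_⟩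
  rw [mul_add, ← add_assoc, ← hG', add_pow, Pn, mul_sum, ← sum_add_distrib]
  refine sum_congr rfl fun i _ => ?_
  rw [hG, hH]
  simp only [C_mul, C_pow, C_neg, C_1, map_natCast]
  ring

end Crest.Agent.R006.H2x909
end

-- ▼ part R006/P6H_909

/-!
# Row 6, block P6, leaf H: `exists_HTwo` (helper909)

From the Rodrigues polynomials `Pn n = w^n + 2 G` (`w = X^2+X+1`) over `Z_(2)` one gets, by
division by `w^n` and induction, a monic `g_n = w^n + 2 r`, `deg r < 2 n`, with
`2^n n! ∣ Lam (g_n F)` for all `F`.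
-/

set_option autoImplicit false

namespace Crest.Agent.R006.P6Hx909

open Polynomial Finset Crest.Agent.R006.H2x909 Crest.Agent.R006.FuncLx170
open Crest.Agent.R006.ProdBound481 Crest.Agent.R006.P6

/-! ### reduction modulo `Pn` over a general ring -/

section red

variable {A : Type*} [CommRing A] [Nontrivial A]

theorem w_monic (n : ℕ) : ((X ^ 2 + X + 1 : A[X]) ^ n).Monic ∧
    ((X ^ 2 + X + 1 : A[X]) ^ n).natDegree = 2 * n := by
  have h1 : (X ^ 2 + X + 1 : A[X]).Monic := by monicity!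
  have h2 : (X ^ 2 + X + 1 : A[X]).natDegree = 2 := by compute_degree!
  exact ⟨h1.pow n, by rw [h1.natDegree_pow, h2, mul_comm]⟩

theorem red_step (n : ℕ) {P G : A[X]} (hP : P = (X ^ 2 + X + 1) ^ n + C 2 * G) (k : ℕ) (f : A[X]) :
    ∃ r q h : A[X], r.degree < ((2 * n : ℕ) : WithBot ℕ) ∧ f = r + P * q + C (2 ^ k) * h := by
  induction k with
  | zero =>
    refine ⟨0, 0, f, ?_, by simp⟩
    rw [degree_zero]; exact WithBot.bot_lt_coe _
  | succ k ih =>
    obtain ⟨r, q, h, hr, hf⟩ := ih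
    obtain ⟨hm, hd⟩ := w_monic (A := A) n
    have h1 := modByMonic_add_div h ((X ^ 2 + X + 1 : A[X]) ^ n)
    set r' := h %ₘ ((X ^ 2 + X + 1 : A[X]) ^ n)
    set q' := h /ₘ ((X ^ 2 + X + 1 : A[X]) ^ n)
    have hr' : r'.degree < ((2 * n : ℕ) : WithBot ℕ) := by
      have := degree_modByMonic_lt h hm
      rwa [degree_eq_natDegree hm.ne_zero, hd] at this
    refine ⟨r + C (2 ^ k) * r', q + C (2 ^ k) * q', -(G * q'), ?_, ?_⟩
    · refine (degree_add_le _ _).trans_lt (max_lt hr ?_)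
      rw [← smul_eq_C_mul]
      exact (degree_smul_le _ _).trans_lt hr'
    · rw [hf, ← h1, hP]
      rw [pow_succ (2 : A) k, C_mul]
      ring

/-- monic polynomial `w^n + 2 r` with the same divisibility as `P` -/
theorem exists_monic (n : ℕ) {P G : A[X]} (hP : P = (X ^ 2 + X + 1) ^ n + C 2 * G)
    (L : A[X] →ₗ[A] A) (t : ℕ) (hL : ∀ F, (2 : A) ^ t ∣ L (P * F)) :
    ∃ r : A[X], r.degree < ((2 * n : ℕ) : WithBot ℕ) ∧
      ∀ F, (2 : A) ^ t ∣ L (((X ^ 2 + X + 1) ^ n + C 2 * r) * F) := by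
  obtain ⟨r, q, h, hr, hG⟩ := red_step n hP t G
  refine ⟨r, hr, fun F => ?_⟩
  have e : ((X ^ 2 + X + 1) ^ n + C 2 * r) * F
      = P * ((1 - C 2 * q) * F) - C (2 ^ t) * (C 2 * h * F) := by
    have h1 : (X ^ 2 + X + 1 : A[X]) ^ n = P - C 2 * G := by rw [hP]; ring
    have h2 : r = G - P * q - C (2 ^ t) * h := by
      linear_combination -hG
    rw [h1, h2]; ring
  rw [e, map_sub]
  refine dvd_sub (hL _) ?_
  rw [← smul_eq_C_mul, map_smul, smul_eq_mul]
  exact dvd_mul_right _ _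

end red

/-! ### the ring `Z_(2)` -/

/-- 2-integral rational numbers -/
def Z2 : Subring ℚ where
  carrier := {x | padicNorm 2 x ≤ 1}
  mul_mem' := by
    intro a b ha hb
    simp only [Set.mem_ofPred_eq] at ha hb ⊢
    rw [padicNorm.mul]
    exact mul_le_one₀ ha (padicNorm.nonneg _) hb
  one_mem' := by simp
  add_mem' := by
    intro a b ha hb
    exact (padicNorm.nonarchimedean).trans (max_le ha hb)
  zero_mem' := by simp
  neg_mem' := by
    intro a ha
    simp only [Set.mem_ofPred_eq] at ha ⊢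
    rwa [padicNorm.neg]

theorem mem_Z2 {x : ℚ} : x ∈ Z2 ↔ padicNorm 2 x ≤ 1 := Iff.rfl

theorem isUnit_three : IsUnit (3 : Z2) := by
  have h : padicNorm 2 (3⁻¹ : ℚ) ≤ 1 := by
    have h1 : padicNorm 2 (3 : ℚ) = 1 := by
      have := padicNorm.nat_eq_one_iff (p := 2) 3
      exact_mod_cast this.2 (by norm_num)
    have h2 : padicNorm 2 (3⁻¹ : ℚ) * padicNorm 2 (3 : ℚ) = 1 := by
      rw [← padicNorm.mul]; norm_num
    rw [h1, mul_one] at h2
    exact h2.le
  refine IsUnit.of_mul_eq_one ⟨3⁻¹, mem_Z2.2 h⟩ (Subtype.ext ?_)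
  have h3 : ((3 : Z2) : ℚ) = 3 := rfl
  rw [Subring.coe_mul, h3]
  norm_num

theorem norm_two_pow (t : ℕ) : padicNorm 2 ((2 : ℚ) ^ t) = (2 : ℚ) ^ (-(t : ℤ)) := by
  have h1 : padicNorm 2 (2 : ℚ) = 2⁻¹ := by
    have := padicNorm.padicNorm_p_of_prime (p := 2)
    exact_mod_cast this
  induction t with
  | zero => simp
  | succ t ih =>
    rw [pow_succ, padicNorm.mul, ih, h1]
    push_cast
    rw [neg_add, zpow_add₀ (by norm_num : (2 : ℚ) ≠ 0), zpow_neg_one]

theorem coe_two_pow (t : ℕ) : (((2 : Z2) ^ t : Z2) : ℚ) = 2 ^ t := by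
  have h2 : ((2 : Z2) : ℚ) = 2 := rfl
  rw [Subring.coe_pow, h2]

theorem pow_dvd_iff {t : ℕ} {x : Z2} : (2 : Z2) ^ t ∣ x ↔ padicNorm 2 (x : ℚ) ≤ (2 : ℚ) ^ (-(t : ℤ)) := by
  constructor
  · rintro ⟨y, rfl⟩
    rw [Subring.coe_mul, coe_two_pow, padicNorm.mul, norm_two_pow]
    exact mul_le_of_le_one_right (by positivity) (mem_Z2.1 y.2)
  · intro h
    have hy : padicNorm 2 ((x : ℚ) * (2 ^ t)⁻¹) ≤ 1 := by
      have h1 : padicNorm 2 ((2 ^ t : ℚ)⁻¹) = 2 ^ t := by
        rw [← one_div, padicNorm.div, padicNorm.one, norm_two_pow]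
        rw [zpow_neg, zpow_natCast, one_div, inv_inv]
      rw [padicNorm.mul, h1]
      calc padicNorm 2 (x : ℚ) * 2 ^ t ≤ (2 : ℚ) ^ (-(t : ℤ)) * 2 ^ t :=
            mul_le_mul_of_nonneg_right h (by positivity)
        _ = 1 := by rw [zpow_neg, zpow_natCast]; exact inv_mul_cancel₀ (by positivity)
    refine ⟨⟨(x : ℚ) * (2 ^ t)⁻¹, mem_Z2.2 hy⟩, Subtype.ext ?_⟩
    rw [Subring.coe_mul, coe_two_pow]
    field_simp

/-! ### moments of `2 psi_oo` over `Z_(2)` -/

/-- coefficients of the recursion are integers -/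
theorem shp_coeff_int (j i : ℕ) : ∃ z : ℤ, (PsiInf.shp ℚ j).coeff i = z := by
  refine ⟨((2 * X + 1 : ℤ[X]) ^ 3 * (X + 1) ^ j).coeff i, ?_⟩
  have : PsiInf.shp ℚ j = ((2 * X + 1 : ℤ[X]) ^ 3 * (X + 1) ^ j).map (Int.castRingHom ℚ) := by
    simp [PsiInf.shp]
  rw [this, coeff_map]; simp

theorem int_mem (z : ℤ) : (z : ℚ) ∈ Z2 := intCast_mem Z2 z

theorem inv9_mem : (1 / 9 : ℚ) ∈ Z2 := by
  have h := isUnit_three
  obtain ⟨u, hu⟩ := h
  have h3 : ((u : Z2) : ℚ) = 3 := by rw [hu]; rfl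
  have h4 : ((u⁻¹ : Z2ˣ) : Z2) * u = 1 := by simp
  have h5 : (((u⁻¹ : Z2ˣ) : Z2) : ℚ) * 3 = 1 := by
    rw [← h3, ← Subring.coe_mul, h4]; rfl
  have h6 : (((u⁻¹ : Z2ˣ) : Z2) : ℚ) = 1 / 3 := by linarith
  have h7 := Z2.mul_mem ((u⁻¹ : Z2ˣ) : Z2).2 ((u⁻¹ : Z2ˣ) : Z2).2
  rw [h6] at h7
  norm_num at h7 ⊢
  exact h7

theorem two_mu_mem (k : ℕ) : 2 * PsiInf.mu k ∈ Z2 := by
  induction k using Nat.strong_induction_on with
  | _ k ih =>
    have h9 := inv9_mem
    match k, ih with
    | 0, _ => simp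
    | 1, _ =>
      have := Z2.mul_mem (int_mem (-3)) h9
      rw [PsiInf.mu_one]
      norm_num at this ⊢
      exact this
    | 2, _ =>
      have h3 : (1 / 3 : ℚ) ∈ Z2 := by
        have := Z2.mul_mem (int_mem 3) h9
        norm_num at this ⊢
        exact this
      have := Z2.mul_mem (Z2.mul_mem (int_mem 7) h9) h3
      rw [PsiInf.mu_two]
      norm_num at this ⊢
      exact this
    | j + 3, ih =>
      have e : 2 * PsiInf.mu (j + 3)
          = -(1 / 9 * ∑ i ∈ range (j + 3), (PsiInf.shp ℚ j).coeff i * (2 * PsiInf.mu i)) := by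
        rw [PsiInf.mu_rec, mul_sum, mul_sum, mul_sum, ← sum_neg_distrib]
        exact sum_congr rfl fun i _ => by ring
      rw [e]
      refine Z2.neg_mem (Z2.mul_mem h9 (Z2.sum_mem fun i hi => ?_))
      obtain ⟨z, hz⟩ := shp_coeff_int j i
      rw [hz]
      exact Z2.mul_mem (int_mem z) (ih i (by simpa using hi))

/-- the moments -/
noncomputable def aa (k : ℕ) : Z2 := ⟨2 * PsiInf.mu k, two_mu_mem k⟩

/-- the inclusion -/
noncomputable def inc : Z2 →+* ℚ := Z2.subtype

theorem Lam_aa (F : Z2[X]) : ((Lam aa F : Z2) : ℚ) = 2 * PsiInf.lin PsiInf.mu (F.map inc) := by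
  rw [Lam_eq_sum_range aa F _ (Nat.lt_succ_self _),
    PsiInf.lin_eq_sum PsiInf.mu (F.map inc) (n := F.natDegree + 1)
      (Nat.lt_succ_of_le natDegree_map_le)]
  have : ∀ (s : Finset ℕ) (f : ℕ → Z2), ((∑ i ∈ s, f i : Z2) : ℚ) = ∑ i ∈ s, (f i : ℚ) :=
    fun s f => map_sum Z2.subtype f s
  rw [this, mul_sum]
  refine sum_congr rfl fun i _ => ?_
  rw [Subring.coe_mul, coeff_map]
  change _ = 2 * (((F.coeff i : Z2) : ℚ) * PsiInf.mu i)
  simp only [aa]
  ring

theorem mom_aa : Mom aa := by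
  refine ⟨?_, ?_, ?_, ?_⟩
  · intro P
    apply Subtype.ext
    rw [Lam_aa]
    have h := PsiInf.key_mu (P.map inc)
    have e : (X ^ 3 * P + (2 * X + 1) ^ 3 * P.comp (X + 1)).map inc
        = X ^ 3 * P.map inc + (2 * X + 1) ^ 3 * (P.map inc).comp (X + 1) := by
      simp [map_comp]
    rw [e, h, mul_zero]; rfl
  · apply Subtype.ext
    change 2 * PsiInf.mu 0 = 0
    simp
  · apply Subtype.ext
    change (3 : ℚ) * (2 * PsiInf.mu 1) = -1
    rw [PsiInf.mu_one]; norm_num
  · apply Subtype.ext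
    change (27 : ℚ) * (2 * PsiInf.mu 2) = 7
    rw [PsiInf.mu_two]; norm_num

/-! ### the polynomials -/

theorem PB_map (F : Z2[X]) : PB 2 0 (F.map inc) := by
  intro k
  rw [coeff_map, neg_zero, zpow_zero]
  exact mem_Z2.1 (F.coeff k).2

theorem exists_lift {F : ℚ[X]} (h : PB 2 0 F) : ∃ F' : Z2[X], F'.map inc = F := by
  have hp : (↑F.coeffs : Set ℚ) ⊆ Z2 := by
    intro x hx
    obtain ⟨n, -, rfl⟩ := Polynomial.mem_coeffs_iff.1 (Finset.mem_coe.1 hx)
    have := h n
    rw [neg_zero, zpow_zero] at this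
    exact this
  exact ⟨F.toSubring Z2 hp, by ext n; simp [inc]⟩

theorem exists_gm (m : ℕ) : ∃ r : Z2[X], r.degree < ((2 * m : ℕ) : WithBot ℕ) ∧
    ∀ F, (2 : Z2) ^ (m + padicValNat 2 m.factorial) ∣
      Lam aa (((X ^ 2 + X + 1) ^ m + C 2 * r) * F) := by
  obtain ⟨G, hG⟩ := Pn_mod2 (A := Z2) m
  refine exists_monic m hG (Lam aa) _ fun F => ?_
  refine rodrigues isUnit_three mom_aa m F ?_
  rw [pow_add]
  refine mul_dvd_mul_left _ ?_
  have h1 : 2 ^ padicValNat 2 m.factorial ∣ m.factorial := pow_padicValNat_dvd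
  obtain ⟨q, hq⟩ := h1
  refine ⟨(q : Z2), ?_⟩
  have := congrArg (fun n : ℕ => (n : Z2)) hq
  simpa using this

/-- **Leaf H of P6.** -/
theorem exists_HTwo : ∃ g : ℕ → ℚ[X], HTwo g := by
  choose r hr hL using exists_gm
  set g' : ℕ → Z2[X] := fun m => (X ^ 2 + X + 1) ^ m + C 2 * r m with hg'
  have hmon : ∀ m, (g' m).Monic ∧ (g' m).natDegree = 2 * m := by
    intro m
    obtain ⟨h1, h2⟩ := w_monic (A := Z2) m
    have hlt : (C 2 * r m).degree < ((X ^ 2 + X + 1 : Z2[X]) ^ m).degree := by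
      rw [degree_eq_natDegree h1.ne_zero, h2, ← smul_eq_C_mul]
      exact (degree_smul_le _ _).trans_lt (hr m)
    refine ⟨h1.add_of_left hlt, ?_⟩
    have h3 : (g' m).degree = ((X ^ 2 + X + 1 : Z2[X]) ^ m).degree := degree_add_eq_left_of_degree_lt hlt
    rw [natDegree_eq_of_degree_eq h3, h2]
  refine ⟨fun m => (g' m).map inc, ⟨fun m => PB_map _, fun m => ?_, fun m => ?_, fun m i => ?_,
    fun m F hF => ?_⟩⟩
  · rw [(hmon m).1.natDegree_map, (hmon m).2]
  · rw [((hmon m).1.map inc).leadingCoeff, padicNorm.one]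
  · have e : ((g' m).map inc).eval (i : ℚ)
        = ((i ^ 2 + i + 1) ^ m : ℤ) + 2 * ((((r m).eval (i : Z2) : Z2)) : ℚ) := by
      have h1 : (i : ℚ) = inc (i : Z2) := by simp
      rw [h1, eval_map, eval₂_at_apply]
      simp only [hg', eval_add, eval_mul, eval_pow, eval_X, eval_one, eval_C]
      change (((((i : Z2) ^ 2 + i + 1) ^ m + 2 * (r m).eval (i : Z2) : Z2)) : ℚ) = _
      rw [Subring.coe_add, Subring.coe_mul, Subring.coe_pow, Subring.coe_add, Subring.coe_add,
        Subring.coe_pow]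
      push_cast
      rfl
    rw [e]
    have hodd : padicNorm 2 (((i ^ 2 + i + 1) ^ m : ℤ) : ℚ) = 1 := by
      rw [padicNorm.int_eq_one_iff]
      intro hdvd
      have h2 : (2 : ℤ) ∣ i ^ 2 + i + 1 := Int.Prime.dvd_pow' Nat.prime_two hdvd
      have h3 : (i ^ 2 + i + 1) % 2 = 1 := by
        rcases Int.emod_two_eq_zero_or_one i with h | h <;>
          simp [pow_two, Int.add_emod, Int.mul_emod, h]
      omega
    have hsmall : padicNorm 2 (2 * ((((r m).eval (i : Z2) : Z2)) : ℚ)) < 1 := by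
      have h1 : padicNorm 2 (2 : ℚ) = 2⁻¹ := by
        have := norm_two_pow 1
        simpa using this
      rw [padicNorm.mul, h1]
      have := mem_Z2.1 ((r m).eval (i : Z2)).2
      have h0 := padicNorm.nonneg (p := 2) ((((r m).eval (i : Z2) : Z2)) : ℚ)
      nlinarith
    have hne : padicNorm 2 (((i ^ 2 + i + 1) ^ m : ℤ) : ℚ)
        ≠ padicNorm 2 (2 * ((((r m).eval (i : Z2) : Z2)) : ℚ)) := by
      rw [hodd]; exact hsmall.ne'
    rw [padicNorm.add_eq_max_of_ne hne, hodd]
    exact max_eq_left hsmall.le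
  · obtain ⟨F', rfl⟩ := exists_lift hF
    have h1 := pow_dvd_iff.1 (hL m F')
    have e : ((g' m).map inc) * F'.map inc = (g' m * F').map inc := by rw [Polynomial.map_mul]
    rw [e]
    rw [Lam_aa] at h1
    rw [padicNorm.mul] at h1
    have h2 : padicNorm 2 (2 : ℚ) = 2⁻¹ := by
      have := norm_two_pow 1
      simpa using this
    rw [h2] at h1
    change padicNorm 2 _ ≤ (2 : ℚ) ^ (-(vb m))
    have h3 : (2 : ℚ) ^ (-(vb m)) = 2 * (2 : ℚ) ^ (-((m + padicValNat 2 m.factorial : ℕ) : ℤ)) := by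
      rw [vb, ← zpow_one_add₀ (by norm_num : (2 : ℚ) ≠ 0)]
      congr 1
      push_cast; ring
    rw [h3]
    linarith

end Crest.Agent.R006.P6Hx909
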