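import Mathlib
import Crest.Agent.R006.NumCell_179
import Crest.Agent.R006.NumBr_464
import Crest.Agent.R006.CertTail_322
import Crest.Agent.R006.P3_Chk_746

-- ▼ part R006/NumFast_179
section

/-!
# Row 6: fast version of the cell checker (helper179)

Same mathematics as `NumCell_179`, but all arithmetic is raw `Nat` arithmetic with sign bits
(about 6 times faster in the kernel). Positions `T ≥ 0`.
-/

set_option autoImplicit false

namespace Crest.Agent.R006.NumFastx179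

open Set Crest.Agent.R006.NumLogx179 Crest.Agent.R006.NumAtanx179 Crest.Agent.R006.NumPhix179
  Crest.Agent.R006.NumCellx179

/-! raw copies -/

def at14r (V : ℕ) : ℕ :=
  Nat.add 281474976710656 (Nat.div (Nat.mul V (Nat.add 93824992236885 (Nat.div (Nat.mul V
  (Nat.add 56294995342131 (Nat.div (Nat.mul V (Nat.add 40210710958665 (Nat.div (Nat.mul V
  (Nat.add 31274997412295 (Nat.div (Nat.mul V (Nat.add 25588634246423 (Nat.div (Nat.mul V
  (Nat.add 21651921285435 (Nat.div (Nat.mul V (Nat.add 18764998447377 (Nat.div (Nat.mul V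
  (Nat.add 16557351571215 (Nat.div (Nat.mul V (Nat.add 14814472458455 (Nat.div (Nat.mul V
  (Nat.add 13403570319555 (Nat.div (Nat.mul V (Nat.add 12238042465680 (Nat.div (Nat.mul V
  (Nat.add 11258999068426 (Nat.div (Nat.mul V (Nat.add 10424999137431 (Nat.div (Nat.mul V 0)
  281474976710656))) 281474976710656))) 281474976710656))) 281474976710656))) 281474976710656)))
  281474976710656))) 281474976710656))) 281474976710656))) 281474976710656))) 281474976710656)))
  281474976710656))) 281474976710656))) 281474976710656))) 281474976710656)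


def lgr (p q : ℕ) : ℕ :=
  (fun U => Nat.div (Nat.mul (Nat.mul 2 U) (at14r (Nat.div (Nat.mul U U) 281474976710656)))
    281474976710656) (Nat.div (Nat.mul (Nat.sub p q) 281474976710656) (Nat.add p q))


def lnNr (n : ℕ) : ℕ :=
  Nat.add (Nat.mul (Nat.log2 n) 195103586505165) (lgr n (Nat.pow 2 (Nat.log2 n)))

lemma lnNr_eq (n : ℕ) : lnNr n = lnN n := rfl

def at15r (V : ℕ) : ℕ :=
  Nat.sub 281474976710656 (Nat.div (Nat.mul V (Nat.sub 93824992236885 (Nat.div (Nat.mul V
  (Nat.sub 56294995342131 (Nat.div (Nat.mul V (Nat.sub 40210710958665 (Nat.div (Nat.mul V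
  (Nat.sub 31274997412295 (Nat.div (Nat.mul V (Nat.sub 25588634246423 (Nat.div (Nat.mul V
  (Nat.sub 21651921285435 (Nat.div (Nat.mul V (Nat.sub 18764998447377 (Nat.div (Nat.mul V
  (Nat.sub 16557351571215 (Nat.div (Nat.mul V (Nat.sub 14814472458455 (Nat.div (Nat.mul V
  (Nat.sub 13403570319555 (Nat.div (Nat.mul V (Nat.sub 12238042465680 (Nat.div (Nat.mul V
  (Nat.sub 11258999068426 (Nat.div (Nat.mul V (Nat.sub 10424999137431 (Nat.div (Nat.mul V
  (Nat.sub 9706033679677 (Nat.div (Nat.mul V 0)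
  281474976710656))) 281474976710656))) 281474976710656))) 281474976710656))) 281474976710656)))
  281474976710656))) 281474976710656))) 281474976710656))) 281474976710656))) 281474976710656)))
  281474976710656))) 281474976710656))) 281474976710656))) 281474976710656))) 281474976710656)


def at0r (p q : ℕ) : ℕ :=
  (fun U => Nat.div (Nat.mul U (at15r (Nat.div (Nat.mul U U) 281474976710656))) 281474976710656)
    (Nat.div (Nat.mul p 281474976710656) q)


def atNr (p q : ℕ) : ℕ :=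
  bif Nat.ble (Nat.mul 3 p) q then at0r p q
  else bif Nat.ble (Nat.mul 2 p) q then
    Nat.sub 130505199945453 (at0r (Nat.sub q (Nat.mul 2 p)) (Nat.add (Nat.mul 2 q) p))
  else Nat.add 130505199945453 (at0r (Nat.sub (Nat.mul 2 p) q) (Nat.add (Nat.mul 2 q) p))


def atQr (u v : ℕ) : ℕ := bif Nat.ble u v then atNr u v else Nat.sub 442139859501777 (atNr v u)

lemma atQr_eq (u v : ℕ) : atQr u v = atQ u v := rfl

/-- a term with natural data: `c = ± c`, `U = (a0 + b0 T) - (a1 + b1 T)`,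
`V = (p0 + q0 T) - (p1 + q1 T)`; `sc = true` means `+`. -/
structure NT where
  sc : Bool
  c : ℕ
  a0 : ℕ
  b0 : ℕ
  a1 : ℕ
  b1 : ℕ
  p0 : ℕ
  q0 : ℕ
  p1 : ℕ
  q1 : ℕ

def NT.tm (t : NT) : Tm :=
  ⟨bif t.sc then (t.c : ℤ) else -(t.c : ℤ), (t.a0 : ℤ) - t.a1, (t.b0 : ℤ) - t.b1,
    (t.p0 : ℤ) - t.p1, (t.q0 : ℤ) - t.q1⟩

/-- `|x - y|` -/
def absd (x y : ℕ) : ℕ := Nat.add (Nat.sub x y) (Nat.sub y x)

lemma absd_eq (x y : ℕ) : absd x y = ((x : ℤ) - y).natAbs := by
  unfold absd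
  show (x - y) + (y - x) = _
  omega

structure RN where
  ok : Bool
  Ap : ℕ
  An : ℕ
  Bp : ℕ
  Bn : ℕ
  K : ℕ
  eA : ℕ
  eB : ℕ

def xn (a b : Bool) : Bool := bif a then b else !b

def radN (h ab aq aU aV : ℕ) : ℕ :=
  bif Nat.ble (Nat.sub aU (Nat.mul h ab)) (Nat.sub aV (Nat.mul h aq))
    then Nat.sub aV (Nat.mul h aq) else Nat.sub aU (Nat.mul h ab)

def regN (h ab aq aU aV : ℕ) : Bool :=
  (bif Nat.beq aV 0 then Nat.beq aq 0 else Nat.ble (Nat.mul h aq) aV) &&
    !(Nat.beq (radN h ab aq aU aV) 0)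

/-- regular term, `X ≈ 2^48 log n`, `Y ≈ 2^48 arctan(|U|/|V|)`, `E` = error of `X`, `R` = radius -/
def coreXY (c : ℕ) (sc sU sV sb sq : Bool) (aU aV ab aq X Y E R : ℕ) : RN :=
  RN.mk true
    (bif xn sc sU then Nat.mul c (Nat.add (Nat.mul aU X) (Nat.mul 2 (Nat.mul aV Y)))
      else Nat.mul c (Nat.mul 562949953421312 aU))
    (bif xn sc sU then Nat.mul c (Nat.mul 562949953421312 aU)
      else Nat.mul c (Nat.add (Nat.mul aU X) (Nat.mul 2 (Nat.mul aV Y))))
    (Nat.add (bif xn sc sb then Nat.mul c (Nat.mul ab X) else 0)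
      (bif xn (xn sc sq) (xn sU sV) then Nat.mul c (Nat.mul 2 (Nat.mul aq Y)) else 0))
    (Nat.add (bif xn sc sb then 0 else Nat.mul c (Nat.mul ab X))
      (bif xn (xn sc sq) (xn sU sV) then 0 else Nat.mul c (Nat.mul 2 (Nat.mul aq Y))))
    (Nat.add (Nat.div (Nat.mul (Nat.mul c (Nat.add (Nat.mul ab ab) (Nat.mul aq aq)))
      281474976710656) R) 1)
    (Nat.mul c (Nat.add (Nat.mul aU E) (Nat.mul 30 aV)))
    (Nat.mul c (Nat.add (Nat.mul ab E) (Nat.mul 30 aq)))

lemma coreXY_A (c : ℕ) (sc sU sV sb sq : Bool) (aU aV ab aq X Y E R : ℕ) :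
    (((coreXY c sc sU sV sb sq aU aV ab aq X Y E R).Ap : ℤ) -
      (coreXY c sc sU sV sb sq aU aV ab aq X Y E R).An) =
      (bif sc then 1 else -1) * (c:ℤ) * ((bif sU then 1 else -1) *
        ((aU:ℤ) * X + 2 * ((aV:ℤ) * Y) - 562949953421312 * aU)) := by
  unfold coreXY
  cases sc <;> cases sU <;> simp [xn] <;> ring

lemma coreXY_B (c : ℕ) (sc sU sV sb sq : Bool) (aU aV ab aq X Y E R : ℕ) :
    (((coreXY c sc sU sV sb sq aU aV ab aq X Y E R).Bp : ℤ) -
      (coreXY c sc sU sV sb sq aU aV ab aq X Y E R).Bn) =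
      (bif sc then 1 else -1) * (c:ℤ) * ((bif sb then 1 else -1) * ((ab:ℤ) * X) +
        ((bif sq then 1 else -1) * (bif sU then 1 else -1) * (bif sV then 1 else -1)) *
          (2 * ((aq:ℤ) * Y))) := by
  unfold coreXY
  cases sc <;> cases sU <;> cases sV <;> cases sb <;> cases sq <;> simp [xn] <;> ring

def core (h c : ℕ) (sc sU sV sb sq : Bool) (aU aV ab aq : ℕ) : RN :=
  coreXY c sc sU sV sb sq aU aV ab aq (lnNr (Nat.add (Nat.mul aU aU) (Nat.mul aV aV)))
    (atQr aU aV) (Nat.mul 20 (Nat.add (Nat.log2 (Nat.add (Nat.mul aU aU) (Nat.mul aV aV))) 1))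
    (radN h ab aq aU aV)

def ofRes (r : Res) : RN :=
  ⟨r.ok, r.A.toNat, (-r.A).toNat, r.B.toNat, (-r.B).toNat, r.K, r.eA, r.eB⟩

def evN (m h : ℕ) (t : NT) : RN :=
  (fun (up un vp vn : ℕ) =>
    (fun (aU aV ab aq : ℕ) =>
      bif regN h ab aq aU aV then
        core h t.c t.sc (Nat.ble un up) (Nat.ble vn vp) (Nat.ble t.b1 t.b0) (Nat.ble t.q1 t.q0)
          aU aV ab aq
      else ofRes (evT (m : ℤ) h t.tm))
    (absd up un) (absd vp vn) (absd t.b0 t.b1) (absd t.q0 t.q1))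
  (Nat.add t.a0 (Nat.mul t.b0 m)) (Nat.add t.a1 (Nat.mul t.b1 m))
  (Nat.add t.p0 (Nat.mul t.q0 m)) (Nat.add t.p1 (Nat.mul t.q1 m))

lemma at0_zero (v : ℕ) : at0 0 v = 0 := by
  unfold at0
  simp only [Nat.zero_mul, Nat.zero_div]

lemma atN_zero (v : ℕ) : atN 0 v = 0 := by
  rw [atN, Nat.mul_zero]
  have h2 : Nat.ble 0 v = true := Nat.ble_eq_true_of_le (Nat.zero_le v)
  rw [h2, cond_true, at0_zero]

lemma atQ_zero (v : ℕ) : atQ 0 v = 0 := by
  have h1 : Nat.ble 0 v = true := Nat.ble_eq_true_of_le (Nat.zero_le v)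
  rw [atQ, h1, cond_true, atN_zero]

/-- sign bookkeeping: `s x = ± |x|` -/
lemma sgn_abs {x y : ℕ} : ((x : ℤ) - y) = (bif Nat.ble y x then 1 else -1) * (absd x y : ℤ) := by
  rw [absd_eq]
  cases h : Nat.ble y x with
  | true =>
    have := Nat.le_of_ble_eq_true h
    simp only [cond_true]
    omega
  | false =>
    have := ble_false h
    simp only [cond_false]
    omega

lemma sign_eq {x y : ℕ} (h : x ≠ y) : ((x : ℤ) - y).sign = (bif Nat.ble y x then 1 else -1) := by
  cases h1 : Nat.ble y x with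
  | true =>
    have := Nat.le_of_ble_eq_true h1
    simp only [cond_true]
    exact Int.sign_eq_one_of_pos (by omega)
  | false =>
    have := ble_false h1
    simp only [cond_false]
    exact Int.sign_eq_neg_one_of_neg (by omega)


lemma absd_self (x : ℕ) : absd x x = 0 := by
  rw [absd_eq]; simp

lemma phiZ_eq (up un vp vn : ℕ) :
    phiZ ((up:ℤ) - un) ((vp:ℤ) - vn) = (bif Nat.ble un up then 1 else -1) *
      ((absd up un : ℤ) * (lnN (absd up un * absd up un + absd vp vn * absd vp vn) : ℤ) +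
        2 * ((absd vp vn : ℤ) * (atQ (absd up un) (absd vp vn) : ℤ)) -
        562949953421312 * (absd up un : ℤ)) := by
  unfold phiZ atZ
  rw [← absd_eq, ← absd_eq]
  by_cases hu : up = un
  · subst hu
    rw [absd_self, atQ_zero]
    simp
  · by_cases hv : vp = vn
    · subst hv
      rw [absd_self]
      rw [sgn_abs (x := up)]
      generalize lnN (absd up un * absd up un + 0 * 0) = X
      simp
      ring
    · rw [sign_eq hu, sign_eq hv, sgn_abs (x := up), sgn_abs (x := vp)]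
      generalize lnN (absd up un * absd up un + absd vp vn * absd vp vn) = X
      generalize atQ (absd up un) (absd vp vn) = Y
      generalize absd up un = aU
      generalize absd vp vn = aV
      cases Nat.ble vn vp <;> cases Nat.ble un up <;> simp <;> ring

lemma dZ_eq {up un vp vn b0 b1 q0 q1 : ℕ} (hq : vp = vn → q0 = q1) :
    dZ ((b0:ℤ) - b1) ((q0:ℤ) - q1) ((up:ℤ) - un) ((vp:ℤ) - vn) =
      (bif Nat.ble b1 b0 then 1 else -1) * ((absd b0 b1 : ℤ) *
        (lnN (absd up un * absd up un + absd vp vn * absd vp vn) : ℤ)) +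
      ((bif Nat.ble q1 q0 then 1 else -1) * (bif Nat.ble un up then 1 else -1) *
        (bif Nat.ble vn vp then 1 else -1)) *
        (2 * ((absd q0 q1 : ℤ) * (atQ (absd up un) (absd vp vn) : ℤ))) := by
  unfold dZ atZ
  rw [← absd_eq, ← absd_eq]
  rw [sgn_abs (x := b0), sgn_abs (x := q0)]
  by_cases hu : up = un
  · subst hu
    rw [absd_self, atQ_zero]
    generalize lnN (0 * 0 + absd vp vn * absd vp vn) = X
    simp
    ring
  · by_cases hv : vp = vn
    · have h0 := hq hv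
      subst hv
      subst h0
      rw [absd_self, absd_self]
      generalize lnN (absd up un * absd up un + 0 * 0) = X
      simp
      ring
    · rw [sign_eq hu, sign_eq hv]
      generalize lnN (absd up un * absd up un + absd vp vn * absd vp vn) = X
      generalize atQ (absd up un) (absd vp vn) = Y
      ring

lemma natAbs_c (sc : Bool) (c : ℕ) : (bif sc then (c:ℤ) else -(c:ℤ)).natAbs = c := by
  cases sc <;> simp

lemma radN_eq (h : ℕ) (b q U V : ℤ) :
    radN h b.natAbs q.natAbs U.natAbs V.natAbs = rad h b q U V := rfl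

lemma beq_nat (a b : ℕ) : (a == b) = Nat.beq a b := by
  cases h : Nat.beq a b with
  | true => rw [Nat.eq_of_beq_eq_true h]; simp
  | false =>
    have := Nat.ne_of_beq_eq_false h
    simpa using this

lemma regN_eq (h : ℕ) (b q U V : ℤ) :
    regN h b.natAbs q.natAbs U.natAbs V.natAbs = regOK h b q U V := by
  unfold regN regOK
  rw [radN_eq, beq_nat, beq_nat, beq_nat, Nat.mul_eq]

lemma coreXY_K (c : ℕ) (sc sU sV sb sq : Bool) (aU aV ab aq X Y E R : ℕ) :
    (coreXY c sc sU sV sb sq aU aV ab aq X Y E R).K =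
      c * (ab * ab + aq * aq) * 281474976710656 / R + 1 := rfl

lemma coreXY_eA (c : ℕ) (sc sU sV sb sq : Bool) (aU aV ab aq X Y E R : ℕ) :
    (coreXY c sc sU sV sb sq aU aV ab aq X Y E R).eA = c * (aU * E + 30 * aV) := rfl

lemma coreXY_eB (c : ℕ) (sc sU sV sb sq : Bool) (aU aV ab aq X Y E R : ℕ) :
    (coreXY c sc sU sV sb sq aU aV ab aq X Y E R).eB = c * (ab * E + 30 * aq) := rfl

lemma evN_TB {m h : ℕ} (hh : 0 < h) (t : NT) (hok : (evN m h t).ok = true) :
    TB t.tm.val (((m:ℤ):ℝ) - h) ((m:ℤ):ℝ) (((m:ℤ):ℝ) + h) (((evN m h t).Ap : ℤ) - (evN m h t).An)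
      (((evN m h t).Bp : ℤ) - (evN m h t).Bn) (evN m h t).K (evN m h t).eA (evN m h t).eB := by
  obtain ⟨sc, c, a0, b0, a1, b1, p0, q0, p1, q1⟩ := t
  have hU : ((a0 + b0 * m : ℕ) : ℤ) - ((a1 + b1 * m : ℕ) : ℤ) =
      ((a0:ℤ) - a1) + ((b0:ℤ) - b1) * m := by push_cast; ring
  have hV : ((p0 + q0 * m : ℕ) : ℤ) - ((p1 + q1 * m : ℕ) : ℤ) =
      ((p0:ℤ) - p1) + ((q0:ℤ) - q1) * m := by push_cast; ring
  have hev : evN m h ⟨sc, c, a0, b0, a1, b1, p0, q0, p1, q1⟩ =
      bif regN h (absd b0 b1) (absd q0 q1) (absd (a0 + b0 * m) (a1 + b1 * m))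
        (absd (p0 + q0 * m) (p1 + q1 * m)) then
        core h c sc (Nat.ble (a1 + b1 * m) (a0 + b0 * m)) (Nat.ble (p1 + q1 * m) (p0 + q0 * m))
          (Nat.ble b1 b0) (Nat.ble q1 q0) (absd (a0 + b0 * m) (a1 + b1 * m))
          (absd (p0 + q0 * m) (p1 + q1 * m)) (absd b0 b1) (absd q0 q1)
      else ofRes (evT (m : ℤ) h (NT.tm ⟨sc, c, a0, b0, a1, b1, p0, q0, p1, q1⟩)) := rfl
  rw [hev] at hok ⊢
  generalize hup : a0 + b0 * m = up at *
  generalize hun : a1 + b1 * m = un at *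
  generalize hvp : p0 + q0 * m = vp at *
  generalize hvn : p1 + q1 * m = vn at *
  cases h1 : regN h (absd b0 b1) (absd q0 q1) (absd up un) (absd vp vn) with
  | true =>
    rw [cond_true]
    have h2 : regOK h ((b0:ℤ) - b1) ((q0:ℤ) - q1) ((up:ℤ) - un) ((vp:ℤ) - vn) = true := by
      rw [← regN_eq, ← absd_eq, ← absd_eq, ← absd_eq, ← absd_eq]; exact h1
    have hq : vp = vn → q0 = q1 := by
      intro hv
      subst hv
      unfold regN at h1
      rw [absd_self] at h1
      simp only [Bool.and_eq_true] at h1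
      have h3 := h1.1
      have : Nat.beq 0 0 = true := rfl
      rw [this, cond_true] at h3
      have h4 := Nat.eq_of_beq_eq_true h3
      rw [absd_eq] at h4
      omega
    rw [hU, hV] at h2
    have key := reg_TB (c := bif sc then (c:ℤ) else -(c:ℤ)) hh h2
    rw [← hU, ← hV] at key
    rw [phiZ_eq, dZ_eq hq, natAbs_c] at key
    rw [← radN_eq] at key
    simp only [← absd_eq] at key
    have hA := coreXY_A c sc (Nat.ble un up) (Nat.ble vn vp) (Nat.ble b1 b0) (Nat.ble q1 q0)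
      (absd up un) (absd vp vn) (absd b0 b1) (absd q0 q1)
      (lnN (absd up un * absd up un + absd vp vn * absd vp vn)) (atQ (absd up un) (absd vp vn))
      (eL (absd up un * absd up un + absd vp vn * absd vp vn))
      (radN h (absd b0 b1) (absd q0 q1) (absd up un) (absd vp vn))
    have hB := coreXY_B c sc (Nat.ble un up) (Nat.ble vn vp) (Nat.ble b1 b0) (Nat.ble q1 q0)
      (absd up un) (absd vp vn) (absd b0 b1) (absd q0 q1)
      (lnN (absd up un * absd up un + absd vp vn * absd vp vn)) (atQ (absd up un) (absd vp vn))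
      (eL (absd up un * absd up un + absd vp vn * absd vp vn))
      (radN h (absd b0 b1) (absd q0 q1) (absd up un) (absd vp vn))
    have hsc : (bif sc then (c:ℤ) else -(c:ℤ)) = (bif sc then 1 else -1) * (c:ℤ) := by
      cases sc <;> simp
    have htm : NT.tm ⟨sc, c, a0, b0, a1, b1, p0, q0, p1, q1⟩ =
        ⟨(bif sc then 1 else -1) * (c:ℤ), (a0:ℤ) - a1, (b0:ℤ) - b1, (p0:ℤ) - p1, (q0:ℤ) - q1⟩ := by
      simp only [NT.tm]; rw [hsc]
    have hE : Nat.mul 20 (Nat.add (Nat.log2 (absd up un * absd up un + absd vp vn * absd vp vn)) 1) =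
        eL (absd up un * absd up un + absd vp vn * absd vp vn) := rfl
    rw [hsc] at key
    rw [htm]
    unfold core
    rw [lnNr_eq, atQr_eq]
    have e1 : Nat.add (Nat.mul (absd up un) (absd up un)) (Nat.mul (absd vp vn) (absd vp vn)) =
      absd up un * absd up un + absd vp vn * absd vp vn := rfl
    rw [e1, hE, coreXY_K, coreXY_eA, coreXY_eB, hA, hB]
    exact key
  | false =>
    rw [h1, cond_false] at hok
    rw [cond_false]
    have hok' : (evT (m : ℤ) h (NT.tm ⟨sc, c, a0, b0, a1, b1, p0, q0, p1, q1⟩)).ok = true := hok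
    have key := evT_TB hh _ hok'
    generalize evT (m : ℤ) h (NT.tm ⟨sc, c, a0, b0, a1, b1, p0, q0, p1, q1⟩) = r at *
    have e1 : (((ofRes r).Ap : ℤ) - (ofRes r).An) = r.A := by
      simp only [ofRes]; omega
    have e2 : (((ofRes r).Bp : ℤ) - (ofRes r).Bn) = r.B := by
      simp only [ofRes]; omega
    rw [e1, e2]
    exact key

def RN.add (r s : RN) : RN :=
  ⟨r.ok && s.ok, Nat.add r.Ap s.Ap, Nat.add r.An s.An, Nat.add r.Bp s.Bp, Nat.add r.Bn s.Bn,
    Nat.add r.K s.K, Nat.add r.eA s.eA, Nat.add r.eB s.eB⟩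

def evLN (m h : ℕ) : List NT → RN
  | [] => ⟨true, 0, 0, 0, 0, 0, 0, 0⟩
  | t :: ts => (evN m h t).add (evLN m h ts)

noncomputable def valN (ts : List NT) (T : ℝ) : ℝ := (ts.map fun t => t.tm.val T).sum

lemma evLN_TB {m h : ℕ} (hh : 0 < h) : ∀ ts : List NT, (evLN m h ts).ok = true →
    TB (valN ts) (((m:ℤ):ℝ) - h) ((m:ℤ):ℝ) (((m:ℤ):ℝ) + h)
      (((evLN m h ts).Ap : ℤ) - (evLN m h ts).An)
      (((evLN m h ts).Bp : ℤ) - (evLN m h ts).Bn) (evLN m h ts).K (evLN m h ts).eA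
      (evLN m h ts).eB
  | [], _ => by
    refine ⟨0, 0, 0, ?_, ?_, ?_, le_rfl, ?_⟩
    · intro T _; simp [valN]
    · simp [evLN]
    · simp [evLN]
    · simp [evLN]
  | t :: ts, hok => by
    simp only [evLN, RN.add, Bool.and_eq_true] at hok
    have h1 := evN_TB hh t hok.1
    have h2 := evLN_TB hh ts hok.2
    have h3 := h1.add h2
    have e : valN (t :: ts) = fun T => t.tm.val T + valN ts T := by
      funext T; simp [valN]
    rw [e]
    simp only [evLN, RN.add]
    generalize evN m h t = r at *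
    generalize evLN m h ts = s at *
    have e1 : ((Nat.add r.Ap s.Ap : ℕ) : ℤ) - (Nat.add r.An s.An : ℕ) =
        (r.Ap : ℤ) - r.An + ((s.Ap : ℤ) - s.An) := by
      simp only [Nat.add_eq]; push_cast; ring
    have e2 : ((Nat.add r.Bp s.Bp : ℕ) : ℤ) - (Nat.add r.Bn s.Bn : ℕ) =
        (r.Bp : ℤ) - r.Bn + ((s.Bp : ℤ) - s.Bn) := by
      simp only [Nat.add_eq]; push_cast; ring
    rw [e1, e2]
    exact h3

/-- data of the linear part and the bound: `|2^49 α - (A0p - A0n)| ≤ eA0`, etc.; bound `Dp - Dn` -/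
structure Lin where
  A0p : ℕ
  A0n : ℕ
  B0p : ℕ
  B0n : ℕ
  eA0 : ℕ
  eB0 : ℕ
  Dp : ℕ
  Dn : ℕ

def chkR (L : Lin) (m h : ℕ) (r : RN) : Bool :=
  r.ok && Nat.ble
    (Nat.add (Nat.add (Nat.add r.Ap (Nat.add L.A0p (Nat.mul L.B0p m)))
      (Nat.add r.eA (Nat.add L.eA0 (Nat.mul L.eB0 m))))
      (Nat.add (Nat.mul (Nat.add (absd (Nat.add r.Bp L.B0p) (Nat.add r.Bn L.B0n))
        (Nat.add r.eB L.eB0)) h) (Nat.add (Nat.mul r.K (Nat.mul h h)) L.Dn)))
    (Nat.add (Nat.add r.An (Nat.add L.A0n (Nat.mul L.B0n m))) L.Dp)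

def checkCellN (ts : List NT) (L : Lin) (m h : ℕ) : Bool := chkR L m h (evLN m h ts)

/-- admissible linear part -/
def Lin.OK (L : Lin) (α β : ℝ) : Prop :=
  |562949953421312 * α - ((L.A0p:ℝ) - L.A0n)| ≤ L.eA0 ∧
  |562949953421312 * β - ((L.B0p:ℝ) - L.B0n)| ≤ L.eB0

theorem checkCellN_sound {ts : List NT} {L : Lin} {m h : ℕ} (hh : 0 < h)
    {α β : ℝ} (hL : L.OK α β) (hc : checkCellN ts L m h = true) :
    ∀ T ∈ Icc ((m:ℝ) - h) (m + h),
      562949953421312 * (α + β * T + valN ts T) ≤ (L.Dp:ℝ) - L.Dn := by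
  obtain ⟨hα, hβ⟩ := hL
  unfold checkCellN chkR at hc
  simp only [Bool.and_eq_true] at hc
  obtain ⟨hc1, hc2⟩ := hc
  have h1 := evLN_TB hh ts hc1
  have h5 := Nat.le_of_ble_eq_true hc2
  generalize evLN m h ts = r at *
  have h2 : TB (fun T => α + β * T) (((m:ℤ):ℝ) - h) ((m:ℤ):ℝ) (((m:ℤ):ℝ) + h)
      (((L.A0p:ℤ) - L.A0n) + ((L.B0p:ℤ) - L.B0n) * m) ((L.B0p:ℤ) - L.B0n) 0
      (L.eA0 + L.eB0 * m) L.eB0 := by
    refine ⟨α + β * m, β, 0, ?_, ?_, ?_, le_rfl, by simp⟩
    · intro T _; push_cast; linarith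
    · have e : 562949953421312 * (α + β * m) -
        ((((L.A0p:ℤ) - L.A0n) + ((L.B0p:ℤ) - L.B0n) * m : ℤ) : ℝ) =
        (562949953421312 * α - ((L.A0p:ℝ) - L.A0n)) +
          (562949953421312 * β - ((L.B0p:ℝ) - L.B0n)) * m := by push_cast; ring
      rw [e]
      refine (abs_add_le _ _).trans ?_
      rw [abs_mul, Nat.cast_add, Nat.cast_mul, abs_of_nonneg (Nat.cast_nonneg m : (0:ℝ) ≤ m)]
      exact add_le_add hα (mul_le_mul_of_nonneg_right hβ (Nat.cast_nonneg _))
    · push_cast; exact hβ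
  have h3 := h1.add h2
  intro T hT
  have hT' : T ∈ Icc (((m:ℤ):ℝ) - h) (((m:ℤ):ℝ) + h) := by push_cast; exact hT
  have h4 := h3.final rfl rfl hT'
  have e0 : (α + β * T + valN ts T) = valN ts T + (α + β * T) := by ring
  rw [e0]
  refine h4.trans ?_
  have habs : ((((r.Bp : ℤ) - r.Bn + ((L.B0p:ℤ) - L.B0n)).natAbs : ℕ)) =
      absd (r.Bp + L.B0p) (r.Bn + L.B0n) := by
    rw [absd_eq]; congr 1; push_cast; ring
  rw [habs]
  simp only [Nat.add_eq, Nat.mul_eq] at h5
  generalize absd (r.Bp + L.B0p) (r.Bn + L.B0n) = W at *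
  have h5r : (((r.Ap + (L.A0p + L.B0p * m)) + (r.eA + (L.eA0 + L.eB0 * m)) +
      ((W + (r.eB + L.eB0)) * h + (r.K * (h * h) + L.Dn)) : ℕ) : ℝ) ≤
      ((r.An + (L.A0n + L.B0n * m) + L.Dp : ℕ) : ℝ) := by exact_mod_cast h5
  push_cast at h5r ⊢
  nlinarith

/-- cells `[x, x+2h₁], …` -/
def checkCellsN (ts : List NT) (L : Lin) : ℕ → List ℕ → Bool
  | _, [] => true
  | x, h :: hs => Nat.blt 0 h && checkCellN ts L (Nat.add x h) h &&
      checkCellsN ts L (Nat.add x (Nat.mul 2 h)) hs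

theorem checkCellsN_sound {ts : List NT} {L : Lin} {α β : ℝ} (hL : L.OK α β) :
    ∀ (hs : List ℕ) (x : ℕ), hs ≠ [] → checkCellsN ts L x hs = true →
    ∀ T : ℝ, (x:ℝ) ≤ T → T ≤ x + 2 * (hs.sum : ℕ) →
      562949953421312 * (α + β * T + valN ts T) ≤ (L.Dp:ℝ) - L.Dn
  | [], _, hne, _, _, _, _ => absurd rfl hne
  | h :: hs, x, _, hc, T, hT1, hT2 => by
    simp only [checkCellsN, Bool.and_eq_true] at hc
    obtain ⟨⟨hc1, hc2⟩, hc3⟩ := hc
    have hh : 0 < h := Nat.le_of_ble_eq_true hc1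
    simp only [Nat.add_eq, Nat.mul_eq] at hc2 hc3
    rcases le_total T ((x:ℝ) + 2 * h) with h1 | h1
    · apply checkCellN_sound hh hL hc2 T
      constructor
      · push_cast; linarith
      · push_cast; linarith
    · rcases eq_or_ne hs [] with h0 | h0
      · subst h0
        apply checkCellN_sound hh hL hc2 T
        simp only [List.sum_cons, List.sum_nil, add_zero] at hT2
        constructor
        · push_cast; linarith
        · push_cast; linarith
      · apply checkCellsN_sound hL hs (x + 2 * h) h0 hc3 T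
        · push_cast; exact h1
        · rw [List.sum_cons] at hT2
          push_cast at hT2 ⊢
          linarith

end Crest.Agent.R006.NumFastx179
private theorem rz_57852f98ca : type_of% @_root_.Crest.Agent.R006.NumFastx179.checkCellsN.eq_def := @_root_.Crest.Agent.R006.NumFastx179.checkCellsN.eq_def -- L495
private theorem rz_c166867cc6 : type_of% @_root_.Crest.Agent.R006.NumFastx179.checkCellsN.eq_1 := @_root_.Crest.Agent.R006.NumFastx179.checkCellsN.eq_1 -- L495
private theorem rz_12bb594e3a : type_of% @_root_.Crest.Agent.R006.NumFastx179.evLN.eq_def := @_root_.Crest.Agent.R006.NumFastx179.evLN.eq_def -- L387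
private theorem rz_5ab3c27724 : type_of% @_root_.Crest.Agent.R006.NumFastx179.evLN.eq_1 := @_root_.Crest.Agent.R006.NumFastx179.evLN.eq_1 -- L387
end

-- ▼ part R006/NumDict_464
section

/-!
# Row 6: dictionary between `potL` (weighted segments) and helper179's fast cell checker (helper464)

`potL_line_le` : `potL L (gc P + t gc δ) + a + b t ≤ cl / 2^48` for all real `t` with
`x ≤ 2 t ≤ x + 2 Σ hs`, from `checkCellsN` on a literal term list `ts` (`NumFast_179`).
-/

set_option autoImplicit false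

namespace Crest.Agent.R006.NumDictx464

open Real Num482 NumPhix179 NumCellx179 NumFastx179 NumSegx464

/-- the term `c Φ((P - X) conj d + T δ conj d)` -/
def term (c : ℤ) (P δ X d : ℤ × ℤ) : Tm :=
  ⟨c, (P.1 - X.1) * d.1 + (P.2 - X.2) * d.2, δ.1 * d.1 + δ.2 * d.2,
    (P.2 - X.2) * d.1 - (P.1 - X.1) * d.2, δ.2 * d.1 - δ.1 * d.2⟩

theorem term_val (c : ℤ) (P δ X d : ℤ × ℤ) (t : ℝ) :
    (term c P δ X d).val t = c *
      Phi ((gc P + t * gc δ - gc X) * (starRingEnd ℂ) (gc d)).re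
        ((gc P + t * gc δ - gc X) * (starRingEnd ℂ) (gc d)).im := by
  unfold term Tm.val
  congr 2
  · simp; ring
  · simp; ring

theorem pot_line {A B d : ℤ × ℤ} {g n0 : ℕ} (hg : 0 < g)
    (h1 : B.1 - A.1 = g * d.1) (h2 : B.2 - A.2 = g * d.2)
    (hn : (n0 : ℤ) = d.1 * d.1 + d.2 * d.2) (hn0 : 0 < n0) (s : ℂ) :
    pot (gc A) (gc B) s = -(1 / 2) * Real.log n0 +
      (Phi ((s - gc A) * (starRingEnd ℂ) (gc d)).re ((s - gc A) * (starRingEnd ℂ) (gc d)).im -
        Phi ((s - gc B) * (starRingEnd ℂ) (gc d)).re ((s - gc B) * (starRingEnd ℂ) (gc d)).im) /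
      ((g * n0 : ℕ) : ℝ) := by
  have hgr : (0 : ℝ) < g := by exact_mod_cast hg
  have hnr : (0 : ℝ) < n0 := by exact_mod_cast hn0
  have hnsq : (n0 : ℝ) = Complex.normSq (gc d) := by
    rw [Complex.normSq_apply]; simp only [gc_re, gc_im]; exact_mod_cast hn
  have hd0 : gc d ≠ 0 := by
    rw [Ne, ← Complex.normSq_eq_zero, ← hnsq]; exact hnr.ne'
  have he : gc B - gc A = ((g : ℝ) : ℂ) * gc d := by
    apply Complex.ext
    · simp; exact_mod_cast h1
    · simp; exact_mod_cast h2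
  have hgc : ((g : ℝ) : ℂ) ≠ 0 := by exact_mod_cast hgr.ne'
  have he0 : gc B - gc A ≠ 0 := by rw [he]; exact mul_ne_zero hgc hd0
  have hNr : (0 : ℝ) < ((g * n0 : ℕ) : ℝ) := by push_cast; positivity
  have hconj : (starRingEnd ℂ) (gc d) ≠ 0 := (map_ne_zero _).2 hd0
  have hden : ∀ X : ℂ, X / (gc B - gc A) =
      (X * (starRingEnd ℂ) (gc d)) / (((g * n0 : ℕ) : ℝ) : ℂ) := by
    intro X
    rw [he, ← mul_div_mul_right _ _ hconj, mul_assoc, Complex.mul_conj, ← hnsq]
    congr 1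
    push_cast; ring
  unfold pot
  rw [inner_eq he0]
  have hw1 : (s - gc A) / (gc B - gc A) - 1 = (s - gc B) / (gc B - gc A) := by
    field_simp; ring
  have hlog : Real.log ‖gc B - gc A‖ = Real.log g + 1 / 2 * Real.log n0 := by
    rw [he, norm_mul, Real.log_mul (by simpa using hgr.ne') (by simpa using hd0),
      Complex.norm_of_nonneg hgr.le, hnsq, ← Complex.sq_norm, Real.log_pow]
    push_cast; ring
  have hlogN : Real.log ((g * n0 : ℕ) : ℝ) = Real.log g + Real.log n0 := by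
    push_cast; exact Real.log_mul hgr.ne' hnr.ne'
  have hdiff : ((s - gc A) * (starRingEnd ℂ) (gc d)).re -
      ((s - gc B) * (starRingEnd ℂ) (gc d)).re = ((g * n0 : ℕ) : ℝ) := by
    rw [← Complex.sub_re, ← sub_mul]
    have : s - gc A - (s - gc B) = ((g : ℝ) : ℂ) * gc d := by rw [← he]; ring
    rw [this, mul_assoc, Complex.mul_conj, ← hnsq, ← Complex.ofReal_mul, Complex.ofReal_re]
    push_cast; ring
  rw [hw1, hden, hden, hlog]
  generalize (s - gc A) * (starRingEnd ℂ) (gc d) = YA at *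
  generalize (s - gc B) * (starRingEnd ℂ) (gc d) = YB at *
  rw [Complex.div_ofReal_re, Complex.div_ofReal_im, Complex.div_ofReal_re, Complex.div_ofReal_im,
    Phi_div hNr, Phi_div hNr, hlogN]
  field_simp
  rw [← hdiff]
  ring

/-! ### the term list of a weighted list -/

def gg (p : WSeg) : ℕ := Nat.gcd (p.2.1.1 - p.1.1).natAbs (p.2.1.2 - p.1.2).natAbs
def dd (p : WSeg) : ℤ × ℤ := ((p.2.1.1 - p.1.1) / (gg p : ℤ), (p.2.1.2 - p.1.2) / (gg p : ℤ))
def nn (p : WSeg) : ℕ := ((dd p).1 * (dd p).1 + (dd p).2 * (dd p).2).natAbs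
def cc (Dc : ℕ) (p : WSeg) : ℤ := (Dc : ℤ) * p.2.2 / ((gg p * nn p : ℕ) : ℤ)

def ok1 (Dc : ℕ) (p : WSeg) : Bool :=
  decide (0 < gg p) && decide (p.2.1.1 - p.1.1 = gg p * (dd p).1) &&
    decide (p.2.1.2 - p.1.2 = gg p * (dd p).2) && (decide (nn p = 1) || decide (nn p = 2)) &&
    decide (cc Dc p * ((gg p * nn p : ℕ) : ℤ) = Dc * p.2.2)

def gen1 (Dc : ℕ) (P δ : ℤ × ℤ) (p : WSeg) : List Tm :=
  [term (cc Dc p) P δ p.1 (dd p), term (-cc Dc p) P δ p.2.1 (dd p)]

/-- mass, if the direction has norm `√2` -/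
def m2 (p : WSeg) : ℤ := bif Nat.beq (nn p) 2 then p.2.2 else 0

theorem pot_gen1 {Dc : ℕ} {p : WSeg} (h : ok1 Dc p = true) (P δ : ℤ × ℤ) (t : ℝ) :
    (Dc : ℝ) * ((p.2.2 : ℝ) * pot (gc p.1) (gc p.2.1) (gc P + t * gc δ)) =
      -((Dc : ℝ) * (m2 p : ℝ) / 2) * Real.log 2 + valL (gen1 Dc P δ p) t := by
  unfold ok1 at h
  simp only [Bool.and_eq_true, Bool.or_eq_true, decide_eq_true_eq] at h
  obtain ⟨⟨⟨⟨hg, h1⟩, h2⟩, hn⟩, hc⟩ := h
  have hn' : ((nn p : ℕ) : ℤ) = (dd p).1 * (dd p).1 + (dd p).2 * (dd p).2 := by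
    unfold nn
    rw [Int.natCast_natAbs, abs_of_nonneg (add_nonneg (mul_self_nonneg _) (mul_self_nonneg _))]
  have hn0 : 0 < nn p := by omega
  rw [pot_line hg h1 h2 hn' hn0]
  unfold gen1
  simp only [valL, term_val, add_zero]
  have hNr : (0 : ℝ) < ((gg p * nn p : ℕ) : ℝ) := by
    have : 0 < gg p * nn p := Nat.mul_pos hg hn0
    exact_mod_cast this
  have hc' : (cc Dc p : ℝ) * ((gg p * nn p : ℕ) : ℝ) = Dc * p.2.2 := by exact_mod_cast hc
  have hm2 : (p.2.2 : ℝ) * Real.log (nn p) = (m2 p : ℝ) * Real.log 2 := by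
    unfold m2
    rcases hn with hn | hn
    · rw [hn]
      have e0 : Nat.beq 1 2 = false := rfl
      rw [e0]; simp
    · rw [hn]
      have e0 : Nat.beq 2 2 = true := rfl
      rw [e0]; simp
  generalize Phi ((gc P + t * gc δ - gc p.1) * (starRingEnd ℂ) (gc (dd p))).re
    ((gc P + t * gc δ - gc p.1) * (starRingEnd ℂ) (gc (dd p))).im = FA
  generalize Phi ((gc P + t * gc δ - gc p.2.1) * (starRingEnd ℂ) (gc (dd p))).re
    ((gc P + t * gc δ - gc p.2.1) * (starRingEnd ℂ) (gc (dd p))).im = FB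
  generalize ((gg p * nn p : ℕ) : ℝ) = N at *
  have e : (Dc : ℝ) * ((p.2.2 : ℝ) * (-(1 / 2) * Real.log (nn p) + (FA - FB) / N)) =
      -(Dc : ℝ) / 2 * ((p.2.2 : ℝ) * Real.log (nn p)) + (Dc * p.2.2) / N * (FA - FB) := by
    ring
  rw [e, hm2, ← hc', mul_div_assoc, div_self hNr.ne']
  push_cast
  ring

def okL (Dc : ℕ) : List WSeg → Bool
  | [] => true
  | p :: L => ok1 Dc p && okL Dc L

def genL (Dc : ℕ) (P δ : ℤ × ℤ) : List WSeg → List Tm
  | [] => []
  | p :: L => gen1 Dc P δ p ++ genL Dc P δ L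

def mass2 : List WSeg → ℤ
  | [] => 0
  | p :: L => m2 p + mass2 L

def mass : List WSeg → ℤ
  | [] => 0
  | p :: L => p.2.2 + mass L

theorem valL_append (L L' : List Tm) (t : ℝ) : valL (L ++ L') t = valL L t + valL L' t := by
  induction L with
  | nil => simp [valL]
  | cons x L ih => simp only [List.cons_append, valL, ih]; ring

theorem potL_genL {Dc : ℕ} (P δ : ℤ × ℤ) (t : ℝ) : ∀ L : List WSeg, okL Dc L = true →
    (Dc : ℝ) * potL L (gc P + t * gc δ) =
      -((Dc : ℝ) * (mass2 L : ℝ) / 2) * Real.log 2 + valL (genL Dc P δ L) t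
  | [], _ => by simp [potL, mass2, genL, valL]
  | p :: L, h => by
    simp only [okL, Bool.and_eq_true] at h
    have h1 := pot_gen1 h.1 P δ t
    have h2 := potL_genL P δ t L h.2
    simp only [potL, mass2, genL, valL_append]
    rw [mul_add, h1, h2]
    push_cast; ring

/-! ### comparison of term lists -/

def key (t x : Tm) : Bool :=
  decide (t.a = x.a) && decide (t.b = x.b) &&
    ((decide (t.p = x.p) && decide (t.q = x.q)) || (decide (t.p = -x.p) && decide (t.q = -x.q)))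

theorem key_phi {t x : Tm} (h : key t x = true) (T : ℝ) :
    Phi (t.a + t.b * T) (t.p + t.q * T) = Phi (x.a + x.b * T) (x.p + x.q * T) := by
  unfold key at h
  simp only [Bool.and_eq_true, Bool.or_eq_true, decide_eq_true_eq] at h
  obtain ⟨⟨h1, h2⟩, h3⟩ := h
  rw [h1, h2]
  rcases h3 with ⟨h3, h4⟩ | ⟨h3, h4⟩
  · rw [h3, h4]
  · rw [h3, h4]
    have e : (((-x.p : ℤ) : ℝ) + ((-x.q : ℤ) : ℝ) * T) = -((x.p : ℝ) + x.q * T) := by
      push_cast; ring
    rw [e, Phi_even]

/-- insert a term, adding the coefficients of equal terms -/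
def addT (t : Tm) : List Tm → List Tm
  | [] => [t]
  | x :: L => bif key t x then ⟨x.c + t.c, x.a, x.b, x.p, x.q⟩ :: L else x :: addT t L

theorem valL_addT (t : Tm) (T : ℝ) : ∀ L : List Tm, valL (addT t L) T = t.val T + valL L T
  | [] => by simp [addT, valL]
  | x :: L => by
    unfold addT
    cases h : key t x with
    | true =>
      rw [cond_true]
      simp only [valL, Tm.val]
      rw [key_phi h T]
      push_cast; ring
    | false =>
      rw [cond_false]
      simp only [valL]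
      rw [valL_addT t T L]; ring

def accT (acc : List Tm) : List Tm → List Tm
  | [] => acc
  | t :: L => accT (addT t acc) L

theorem valL_accT (T : ℝ) : ∀ (L acc : List Tm), valL (accT acc L) T = valL acc T + valL L T
  | [], acc => by simp [accT, valL]
  | t :: L, acc => by
    simp only [accT, valL]
    rw [valL_accT T L, valL_addT]; ring

def subN (acc : List Tm) : List NT → List Tm
  | [] => acc
  | t :: L => subN (addT ⟨-t.tm.c, t.tm.a, t.tm.b, t.tm.p, t.tm.q⟩ acc) L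

theorem valL_subN (T : ℝ) : ∀ (L : List NT) (acc : List Tm),
    valL (subN acc L) T = valL acc T - valN L T
  | [], acc => by simp [subN, valN]
  | t :: L, acc => by
    simp only [subN]
    rw [valL_subN T L, valL_addT]
    unfold valN
    rw [List.map_cons, List.sum_cons]
    simp only [Tm.val]
    push_cast; ring

def zeroT : List Tm → Bool
  | [] => true
  | t :: L => decide (t.c = 0) && zeroT L

theorem valL_zeroT (T : ℝ) : ∀ L : List Tm, zeroT L = true → valL L T = 0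
  | [], _ => by simp [valL]
  | t :: L, h => by
    simp only [zeroT, Bool.and_eq_true, decide_eq_true_eq] at h
    simp only [valL, Tm.val, h.1, valL_zeroT T L h.2]
    simp

/-- the literal list `ts` is the term list `gen`, up to order and merging -/
def same (ts : List NT) (gen : List Tm) : Bool := zeroT (subN (accT [] gen) ts)

theorem valN_eq {ts : List NT} {gen : List Tm} (h : same ts gen = true) (T : ℝ) :
    valN ts T = valL gen T := by
  have := valL_zeroT T _ h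
  rw [valL_subN, valL_accT] at this
  simp only [valL] at this
  linarith

/-! ### doubling -/

def dbl (p : WSeg) : WSeg := ((2 * p.1.1, 2 * p.1.2), (2 * p.2.1.1, 2 * p.2.1.2), p.2.2)

def dblL (L : List WSeg) : List WSeg := L.map dbl


theorem gc_dbl (z : ℤ × ℤ) : gc (2 * z.1, 2 * z.2) = 2 * gc z := by
  apply Complex.ext <;> simp

theorem potL_dbl (s : ℂ) : ∀ L : List WSeg, potOK L = true →
    potL (dblL L) (2 * s) = potL L s + (mass L : ℝ) * Real.log 2
  | [], _ => by simp [dblL, potL, mass]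
  | p :: L, h => by
    simp only [potOK, Bool.and_eq_true, decide_eq_true_eq] at h
    have ih := potL_dbl s L h.2
    simp only [dblL, List.map_cons, potL, mass] at ih ⊢
    rw [ih]
    have hAB : gc p.2.1 - gc p.1 ≠ 0 := by
      rw [Ne, ← Complex.normSq_eq_zero]
      have : Complex.normSq (gc p.2.1 - gc p.1) =
          ((sqN (p.2.1.1 - p.1.1) (p.2.1.2 - p.1.2) : ℕ) : ℝ) := by
        rw [sqN_cast, Complex.normSq_apply]; simp; ring
      rw [this]; exact_mod_cast h.1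
    have hs : pot (gc (dbl p).1) (gc (dbl p).2.1) (2 * s) =
        pot (gc p.1) (gc p.2.1) s + Real.log 2 := by
      have h2 : (2 * gc p.2.1) - (2 * gc p.1) ≠ 0 := by
        rw [← mul_sub]; exact mul_ne_zero two_ne_zero hAB
      have := pot_scale h2 (2 * s) (r := 2) (by norm_num)
      have e : ∀ z : ℂ, 2 * z / ((2 : ℝ) : ℂ) = z := by
        intro z; push_cast; field_simp
      rw [e, e, e] at this
      unfold dbl
      simp only
      rw [gc_dbl, gc_dbl, this]; ring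
    rw [hs]
    unfold dbl
    simp only
    push_cast; ring

/-! ### the linear part -/

def mkLin (Dh : ℕ) (M M2 : ℤ) (IA IB : ℤ × ℤ) (cl : ℤ) : Lin :=
  (fun (I J : ℤ × ℤ) (D : ℤ) =>
    ⟨(2 * I.1).toNat, (-(2 * I.1)).toNat, (2 * J.1).toNat, (-(2 * J.1)).toNat,
      (2 * (I.2 - I.1)).toNat, (2 * (J.2 - J.1)).toNat, D.toNat, (-D).toNat⟩)
  (subI (smulI (2 * Dh) IA) (smulI (Dh * (2 * M + M2)) ln2I)) (smulI Dh IB) (4 * Dh * cl)

theorem toNat_sub (z : ℤ) : ((z.toNat : ℕ) : ℝ) - ((-z).toNat : ℕ) = z := by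
  have h : ((z.toNat : ℤ)) - ((-z).toNat : ℤ) = z := by omega
  exact_mod_cast h

theorem enc_abs {r : ℝ} {I : ℤ × ℤ} (h : Enc r I) :
    |562949953421312 * r - ((((2 * I.1).toNat : ℕ) : ℝ) - ((-(2 * I.1)).toNat : ℕ))| ≤
      (((2 * (I.2 - I.1)).toNat : ℕ) : ℝ) := by
  obtain ⟨h1, h2⟩ := h
  have h3 : (I.1 : ℝ) ≤ I.2 := h1.trans h2
  have h4 : I.1 ≤ I.2 := by exact_mod_cast h3
  have h5 : (((2 * (I.2 - I.1)).toNat : ℕ) : ℤ) = 2 * (I.2 - I.1) :=
    Int.toNat_of_nonneg (by omega)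
  have h6 : (((2 * (I.2 - I.1)).toNat : ℕ) : ℝ) = 2 * ((I.2 : ℝ) - I.1) := by exact_mod_cast h5
  rw [toNat_sub, h6, abs_le]
  push_cast
  constructor <;> linarith

theorem mkLin_OK {Dh : ℕ} {M M2 : ℤ} {IA IB : ℤ × ℤ} {cl : ℤ} {a b : ℝ} (ha : Enc a IA)
    (hb : Enc b IB) : (mkLin Dh M M2 IA IB cl).OK
      (2 * Dh * a - Dh * (2 * M + M2) * Real.log 2) (Dh * b) := by
  have e1 := (ha.smul (2 * (Dh : ℤ))).sub (enc_ln2.smul ((Dh : ℤ) * (2 * M + M2)))
  have e2 := hb.smul (Dh : ℤ)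
  push_cast at e1 e2
  exact ⟨enc_abs e1, enc_abs e2⟩

/-- **the dictionary theorem** -/
theorem potL_line_le {L : List WSeg} {P δ : ℤ × ℤ} {Dh : ℕ} (hDh : 0 < Dh) {ts : List NT}
    {IA IB : ℤ × ℤ} {cl : ℤ} {a b : ℝ} (ha : Enc a IA) (hb : Enc b IB)
    (hpot : potOK L = true) (hok : okL (2 * Dh) (dblL L) = true)
    (hsame : same ts (genL (2 * Dh) (2 * P.1, 2 * P.2) δ (dblL L)) = true)
    {x : ℕ} {hs : List ℕ} (hne : hs ≠ [])
    (hc : checkCellsN ts (mkLin Dh (mass L) (mass2 (dblL L)) IA IB cl) x hs = true) :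
    ∀ t : ℝ, (x : ℝ) ≤ 2 * t → 2 * t ≤ x + 2 * (hs.sum : ℕ) →
      potL L (gc P + t * gc δ) + a + b * t ≤ (cl : ℝ) / 281474976710656 := by
  intro t ht1 ht2
  have h1 := checkCellsN_sound (mkLin_OK (Dh := Dh) (M := mass L) (M2 := mass2 (dblL L))
    (cl := cl) ha hb) hs x hne hc (2 * t) ht1 ht2
  have h2 := potL_genL (Dc := 2 * Dh) (2 * P.1, 2 * P.2) δ (2 * t) (dblL L) hok
  have h3 := potL_dbl (gc P + t * gc δ) L hpot
  have e : gc (2 * P.1, 2 * P.2) + ((2 * t : ℝ) : ℂ) * gc δ = 2 * (gc P + t * gc δ) := by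
    rw [gc_dbl]; push_cast; ring
  rw [e, h3, ← valN_eq hsame] at h2
  have hD : ((mkLin Dh (mass L) (mass2 (dblL L)) IA IB cl).Dp : ℝ) -
      (mkLin Dh (mass L) (mass2 (dblL L)) IA IB cl).Dn = ((4 * Dh * cl : ℤ) : ℝ) :=
    toNat_sub (4 * Dh * cl)
  rw [hD] at h1
  have hDr : (0 : ℝ) < Dh := by exact_mod_cast hDh
  push_cast at h1 h2
  rw [le_div_iff₀ (by norm_num)]
  have h4 : valN ts (2 * t) = 2 * Dh * (potL L (gc P + t * gc δ) + (mass L : ℝ) * Real.log 2) +
      (2 * Dh * (mass2 (dblL L) : ℝ) / 2) * Real.log 2 := by linarith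
  rw [h4] at h1
  have h5 : 562949953421312 * (2 * (Dh : ℝ) * a - Dh * (2 * (mass L : ℝ) + mass2 (dblL L)) *
      Real.log 2 + Dh * b * (2 * t) + (2 * Dh * (potL L (gc P + t * gc δ) +
      (mass L : ℝ) * Real.log 2) + (2 * Dh * (mass2 (dblL L) : ℝ) / 2) * Real.log 2)) =
      (4 * Dh) * ((potL L (gc P + t * gc δ) + a + b * t) * 281474976710656) := by ring
  rw [h5] at h1
  exact le_of_mul_le_mul_left h1 (by positivity)

end Crest.Agent.R006.NumDictx464
private theorem rz_218a4e6d30 : type_of% @_root_.Crest.Agent.R006.NumDictx464.accT.eq_def := @_root_.Crest.Agent.R006.NumDictx464.accT.eq_def -- L211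
private theorem rz_c284213f3d : type_of% @_root_.Crest.Agent.R006.NumDictx464.accT.eq_1 := @_root_.Crest.Agent.R006.NumDictx464.accT.eq_1 -- L211
private theorem rz_5a0edc30d6 : type_of% @_root_.Crest.Agent.R006.NumDictx464.addT.eq_def := @_root_.Crest.Agent.R006.NumDictx464.addT.eq_def -- L192
private theorem rz_f4277fe784 : type_of% @_root_.Crest.Agent.R006.NumDictx464.addT.eq_1 := @_root_.Crest.Agent.R006.NumDictx464.addT.eq_1 -- L192
private theorem rz_489db69173 : type_of% @_root_.Crest.Agent.R006.NumDictx464.genL.eq_def := @_root_.Crest.Agent.R006.NumDictx464.genL.eq_def -- L143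
private theorem rz_0c016d2841 : type_of% @_root_.Crest.Agent.R006.NumDictx464.genL.eq_1 := @_root_.Crest.Agent.R006.NumDictx464.genL.eq_1 -- L143
private theorem rz_088f2b4a62 : type_of% @_root_.Crest.Agent.R006.NumDictx464.mass.eq_def := @_root_.Crest.Agent.R006.NumDictx464.mass.eq_def -- L151
private theorem rz_87ed77e0b5 : type_of% @_root_.Crest.Agent.R006.NumDictx464.mass.eq_1 := @_root_.Crest.Agent.R006.NumDictx464.mass.eq_1 -- L151
private theorem rz_919059aa6f : type_of% @_root_.Crest.Agent.R006.NumDictx464.mass2.eq_def := @_root_.Crest.Agent.R006.NumDictx464.mass2.eq_def -- L147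
private theorem rz_9882acc53e : type_of% @_root_.Crest.Agent.R006.NumDictx464.mass2.eq_1 := @_root_.Crest.Agent.R006.NumDictx464.mass2.eq_1 -- L147
private theorem rz_db8bfc435b : type_of% @_root_.Crest.Agent.R006.NumDictx464.okL.eq_def := @_root_.Crest.Agent.R006.NumDictx464.okL.eq_def -- L139
private theorem rz_6231ecc1e0 : type_of% @_root_.Crest.Agent.R006.NumDictx464.okL.eq_1 := @_root_.Crest.Agent.R006.NumDictx464.okL.eq_1 -- L139
private theorem rz_e7937bc2ba : type_of% @_root_.Crest.Agent.R006.NumDictx464.subN.eq_def := @_root_.Crest.Agent.R006.NumDictx464.subN.eq_def -- L221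
private theorem rz_8a5ce9e5e0 : type_of% @_root_.Crest.Agent.R006.NumDictx464.subN.eq_1 := @_root_.Crest.Agent.R006.NumDictx464.subN.eq_1 -- L221
private theorem rz_ecfe8665bb : type_of% @_root_.Crest.Agent.R006.NumDictx464.zeroT.eq_def := @_root_.Crest.Agent.R006.NumDictx464.zeroT.eq_def -- L236
private theorem rz_7042ae5e01 : type_of% @_root_.Crest.Agent.R006.NumDictx464.zeroT.eq_1 := @_root_.Crest.Agent.R006.NumDictx464.zeroT.eq_1 -- L236
end

-- ▼ part R006/CertOK_322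
section

/-!
# Row 6, block P3: from the Bool checks to `Cert.OK` (helper322)

* `RayR S d x y`, `RayQ S d x y` : the ray inequalities for `T ∈ [x, y]`; `rayR_chk`, `rayQ_chk`
  (helper746's line checker), `RayR.trans`;
* `CellR S d c`, `CellQ S d c` : the inequalities on one real cell; `cellR_chk`, `cellQ_chk`;
* `OK_mk` : assembly; `chkAll`, `OK_of_chkAll` : everything in one Bool.
-/

set_option autoImplicit false

namespace Crest.Agent.R006.Cert

open D NumSegx464 Num482 NumTail2x322 Chk746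

/-- floor of `l / D` in units `2^-48` -/
def lev (l : ℤ) (D : ℕ) : ℤ := l * 281474976710656 / D

theorem lev_le (l : ℤ) {D : ℕ} (hD : 0 < D) : (lev l D : ℝ) / 281474976710656 ≤ (l : ℝ) / D := by
  have h1 : lev l D * D ≤ l * 281474976710656 := by
    unfold lev
    exact Int.ediv_mul_le _ (by exact_mod_cast hD.ne')
  have h2 : (lev l D : ℝ) * D ≤ l * 281474976710656 := by exact_mod_cast h1
  have hD' : (0 : ℝ) < D := by exact_mod_cast hD
  rw [div_le_div_iff₀ (by norm_num) hD']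
  exact h2

/-! ### rays -/

/-- the `R` inequality on the part `[x, y]` of the ray -/
def RayR (S : Shape) (d : Data) (x y : ℝ) : Prop :=
  ∀ T : ℝ, x ≤ T → T ≤ y → PhiR S d (ray S d T) ≤ (d.lR : ℝ) / d.D

/-- the `Q` inequality on the part `[x, y]` of the ray -/
def RayQ (S : Shape) (d : Data) (x y : ℝ) : Prop :=
  ∀ T : ℝ, x ≤ T → T ≤ y → PhiQ S d (ray S d T) ≤ (d.lQ : ℝ) / d.D

theorem RayR.trans {S : Shape} {d : Data} {x y z : ℝ} (h : RayR S d x y) (h' : RayR S d y z) :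
    RayR S d x z := fun T h1 h2 => (le_total T y).elim (h T h1) (fun h3 => h' T h3 h2)

theorem RayQ.trans {S : Shape} {d : Data} {x y z : ℝ} (h : RayQ S d x y) (h' : RayQ S d y z) :
    RayQ S d x z := fun T h1 h2 => (le_total T y).elim (h T h1) (fun h3 => h' T h3 h2)



theorem ne_of_isEmpty {Ts : List ℕ} (h : (!Ts.isEmpty) = true) : Ts ≠ [] := by
  intro h0; subst h0; simp at h



/-! ### real cells -/

/-- the `R` inequality on one real cell -/
def CellR (S : Shape) (d : Data) (c : SCell) : Prop :=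
  ∀ x ∈ Set.Icc (c.l : ℝ) c.r, PhiR S d (x : ℂ) - (d.lR : ℝ) / d.D ≤ c.val d.D x

/-- the `Q` inequality on one real cell -/
def CellQ (S : Shape) (d : Data) (c : SCell) : Prop :=
  ∀ x ∈ Set.Icc (c.l : ℝ) c.r, PhiQ S d (x : ℂ) - (d.lQ : ℝ) / d.D ≤ c.val d.D x

/-- the majorant is nonnegative on one real cell -/
def Cell0 (d : Data) (c : SCell) : Prop :=
  ∀ x ∈ Set.Icc (c.l : ℝ) c.r, 0 ≤ c.val d.D x



def cell0_chk (c : SCell) : Bool :=
  decide (0 ≤ c.al + c.be * c.l) && decide (0 ≤ c.al + c.be * c.r)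




theorem cell0_of_chk {d : Data} {c : SCell} (h : cell0_chk c = true) : Cell0 d c := by
  intro x hx
  unfold cell0_chk at h
  simp only [Bool.and_eq_true, decide_eq_true_eq] at h
  have h1 : (0 : ℝ) ≤ c.al + c.be * c.l := by exact_mod_cast h.1
  have h2 : (0 : ℝ) ≤ c.al + c.be * c.r := by exact_mod_cast h.2
  unfold SCell.val
  apply div_nonneg _ (Nat.cast_nonneg _)
  rcases le_total 0 (c.be : ℝ) with hb | hb
  · nlinarith [mul_le_mul_of_nonneg_left hx.1 hb]
  · nlinarith [mul_le_mul_of_nonpos_left hx.2 hb]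


/-- all inequalities on the cells of a list -/
def CellsOK (S : Shape) (d : Data) (L : List SCell) : Prop :=
  ∀ c ∈ L, CellR S d c ∧ CellQ S d c ∧ Cell0 d c

theorem CellsOK.append {S : Shape} {d : Data} {L L' : List SCell} (h : CellsOK S d L)
    (h' : CellsOK S d L') : CellsOK S d (L ++ L') := by
  intro c hc
  rcases List.mem_append.1 hc with h1 | h1
  · exact h c h1
  · exact h' c h1


theorem wf_D {S : Shape} {d : Data} (h : wf S d = true) : 0 < d.D := by
  unfold wf at h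
  simp only [Bool.and_eq_true, decide_eq_true_eq] at h
  exact h.1.1.1.1.1.1.1.1.2

/-- **assembly** -/
theorem OK_mk {S : Shape} {d : Data} (hwf : Cert.wf S d = true) (hwf2 : Cert.wf2 S d = true)
    {R R' Q Q' : ℤ}
    {C C' : List Cand} (hR : RayR S d 0 R) (tR : tailR_chk S d R' C = true) (hR' : R' ≤ R)
    (hQ : RayQ S d 0 Q) (tQ : tailQ_chk S d Q' C' = true) (hQ' : Q' ≤ Q)
    (hc : CellsOK S d d.cells) : OK S d where
  wf := hwf
  wf2 := hwf2
  rayR := by
    intro T hT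
    rcases le_total T R with h | h
    · exact hR T hT h
    · exact tailR (wf_D hwf) tR (le_trans (by exact_mod_cast hR') h)
  rayQ := by
    intro T hT
    rcases le_total T Q with h | h
    · exact hQ T hT h
    · exact tailQ (wf_D hwf) tQ (le_trans (by exact_mod_cast hQ') h)
  cellR := fun c h => (hc c h).1
  cellQ := fun c h => (hc c h).2.1
  cell0 := fun c h => (hc c h).2.2

/-- the data of the kernel checks -/
structure ChkData where
  tR : List ℕ
  tQ : List ℕ
  tc : List (List ℕ × List ℕ)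



end Crest.Agent.R006.Cert
end

-- ▼ part R006/RayChk_464

/-!
# Row 6, block P3: ray and real-cell inequalities from the fast checker (helper464)

`rayR_of`, `rayQ_of` : `RayR S d (x/2) (x/2 + Σ hs)`; `cellR_of`, `cellQ_of` : real cells with a
common origin `-X0`.
-/

set_option autoImplicit false

namespace Crest.Agent.R006.Cert

open D NumSegx464 Num482 NumDictx464 NumFastx179

def linEq (L M : Lin) : Bool :=
  Nat.beq L.A0p M.A0p && Nat.beq L.A0n M.A0n && Nat.beq L.B0p M.B0p && Nat.beq L.B0n M.B0n &&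
    Nat.beq L.eA0 M.eA0 && Nat.beq L.eB0 M.eB0 && Nat.beq L.Dp M.Dp && Nat.beq L.Dn M.Dn

theorem linEq_eq {L M : Lin} (h : linEq L M = true) : L = M := by
  unfold linEq at h
  simp only [Bool.and_eq_true] at h
  obtain ⟨⟨⟨⟨⟨⟨⟨h1, h2⟩, h3⟩, h4⟩, h5⟩, h6⟩, h7⟩, h8⟩ := h
  cases L; cases M
  simp only [Lin.mk.injEq]
  exact ⟨Nat.eq_of_beq_eq_true h1, Nat.eq_of_beq_eq_true h2, Nat.eq_of_beq_eq_true h3,
    Nat.eq_of_beq_eq_true h4, Nat.eq_of_beq_eq_true h5, Nat.eq_of_beq_eq_true h6,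
    Nat.eq_of_beq_eq_true h7, Nat.eq_of_beq_eq_true h8⟩

/-- the list part of the check -/
def preL (L : List WSeg) (P δ : ℤ × ℤ) (Dh : ℕ) (ts : List NT) : Bool :=
  Nat.blt 0 Dh && potOK L && okL (2 * Dh) (dblL L) &&
    same ts (genL (2 * Dh) (2 * P.1, 2 * P.2) δ (dblL L))

/-- the linear part -/
def preLin (L : List WSeg) (Dh : ℕ) (IA IB : ℤ × ℤ) (cl : ℤ) (ln : Lin) : Bool :=
  linEq (mkLin Dh (mass L) (mass2 (dblL L)) IA IB cl) ln

theorem line_of {L : List WSeg} {P δ : ℤ × ℤ} {Dh : ℕ} {ts : List NT} {IA IB : ℤ × ℤ}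
    {cl : ℤ} {ln : Lin} {a b : ℝ} (hp : preL L P δ Dh ts = true)
    (hl : preLin L Dh IA IB cl ln = true) (ha : Enc a IA) (hb : Enc b IB) {x : ℕ} {hs : List ℕ}
    (hne : hs ≠ []) (hc : checkCellsN ts ln x hs = true) :
    ∀ t : ℝ, (x : ℝ) ≤ 2 * t → 2 * t ≤ x + 2 * (hs.sum : ℕ) →
      potL L (gc P + t * gc δ) + a + b * t ≤ (cl : ℝ) / 281474976710656 := by
  unfold preL at hp
  unfold preLin at hl
  simp only [Bool.and_eq_true] at hp
  obtain ⟨⟨⟨h1, h2⟩, h3⟩, h4⟩ := hp
  have h1' : 0 < Dh := Nat.le_of_ble_eq_true h1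
  rw [← linEq_eq hl] at hc
  exact potL_line_le h1' ha hb h2 h3 h4 hne hc

/-! ### rays -/

def rayRPre (S : Shape) (d : Data) (Dh : ℕ) (ts : List NT) (ln : Lin) : Bool :=
  Nat.blt 0 d.D && preL (LRl S d) (apx S d) (-1, 1) Dh ts &&
    preLin (LRl S d) Dh (smulI (-(d.K * S.w)) ln8I) (negI (addI ln8I piI)) (lev d.lR d.D) ln

def rayQPre (S : Shape) (d : Data) (Dh : ℕ) (ts : List NT) (ln : Lin) : Bool :=
  Nat.blt 0 d.D && preL (LQl S d) (apx S d) (-1, 1) Dh ts &&
    preLin (LQl S d) Dh (0, 0) (negI (smulI 2 piI)) (lev d.lQ d.D) ln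

theorem rayR_of {S : Shape} {d : Data} {Dh : ℕ} {ts : List NT} {ln : Lin}
    (hp : rayRPre S d Dh ts ln = true) {x : ℕ} {hs : List ℕ}
    (hc : checkCellsN ts ln x hs = true) {r r' : ℝ} (hr : r = (x : ℝ) / 2)
    (hr' : r' = ((x : ℝ) + 2 * (hs.sum : ℕ)) / 2) (hne : hs ≠ [] := by simp) :
    RayR S d r r' := by
  subst hr hr'
  unfold rayRPre at hp
  simp only [Bool.and_eq_true] at hp
  obtain ⟨⟨h0, h1⟩, h2⟩ := hp
  have hD : 0 < d.D := Nat.le_of_ble_eq_true h0
  have ha : Enc (-(Real.log 8 * (d.K * S.w))) (smulI (-(d.K * S.w)) ln8I) := by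
    have := enc_ln8.smul (-(d.K * S.w))
    refine (Eq.subst (motive := fun r : ℝ => Enc r _) ?_ this)
    push_cast; ring
  have hb : Enc (-(Real.log 8 + Real.pi)) (negI (addI ln8I piI)) := (enc_ln8.add enc_pi).neg
  intro T h3 h4
  have hT : (0 : ℝ) ≤ T := le_trans (by positivity) h3
  rw [PhiR_ray S d hT]
  exact (line_of h1 h2 ha hb hne hc T (by linarith) (by linarith)).trans (lev_le _ hD)

theorem rayQ_of {S : Shape} {d : Data} {Dh : ℕ} {ts : List NT} {ln : Lin}
    (hp : rayQPre S d Dh ts ln = true) {x : ℕ} {hs : List ℕ}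
    (hc : checkCellsN ts ln x hs = true) {r r' : ℝ} (hr : r = (x : ℝ) / 2)
    (hr' : r' = ((x : ℝ) + 2 * (hs.sum : ℕ)) / 2) (hne : hs ≠ [] := by simp) :
    RayQ S d r r' := by
  subst hr hr'
  unfold rayQPre at hp
  simp only [Bool.and_eq_true] at hp
  obtain ⟨⟨h0, h1⟩, h2⟩ := hp
  have hD : 0 < d.D := Nat.le_of_ble_eq_true h0
  have hb : Enc (-(2 * Real.pi)) (negI (smulI 2 piI)) := by
    have := (enc_pi.smul 2).neg
    refine (Eq.subst (motive := fun r : ℝ => Enc r _) ?_ this)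
    push_cast; ring
  intro T h3 h4
  have hT : (0 : ℝ) ≤ T := le_trans (by positivity) h3
  rw [PhiQ_ray S d hT]
  have := (line_of h1 h2 enc_zero hb hne hc T (by linarith) (by linarith)).trans (lev_le _ hD)
  linarith

/-! ### real cells, common origin `-X0` -/

theorem gc_lineX (X0 : ℤ) (x : ℝ) :
    ((x : ℝ) : ℂ) = gc (-X0, 0) + ((x + X0 : ℝ) : ℂ) * gc (1, 0) := by
  apply Complex.ext <;> simp

theorem castR {a b : ℤ} {x N : ℕ} (h : 2 * (a + b) = (x : ℤ) + 2 * (N : ℤ)) :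
    2 * ((a : ℝ) + b) = x + 2 * (N : ℝ) := by
  have h' := congrArg (Int.cast : ℤ → ℝ) h
  push_cast at h'
  exact h'

/-- linear parts of one real cell (`R`) -/
def linR (S : Shape) (d : Data) (X0 : ℤ) (Dh : ℕ) (c : SCell) : Lin :=
  mkLin Dh (mass (LRl S d)) (mass2 (dblL (LRl S d)))
    (subI (smulI (-X0) ln8I) (ofQ (d.lR + (c.al - c.be * X0)) d.D))
    (subI ln8I (ofQ c.be d.D)) 0

def linQ (S : Shape) (d : Data) (X0 : ℤ) (Dh : ℕ) (c : SCell) : Lin :=
  mkLin Dh (mass (LQl S d)) (mass2 (dblL (LQl S d)))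
    (negI (ofQ (d.lQ + (c.al - c.be * X0)) d.D)) (negI (ofQ c.be d.D)) 0

theorem cellR_of {S : Shape} {d : Data} {X0 : ℤ} {Dh : ℕ} {ts : List NT} (hD : 0 < d.D)
    (hp : preL (LRl S d) (-X0, 0) (1, 0) Dh ts = true) {c : SCell} {ln : Lin}
    (hl : linEq (linR S d X0 Dh c) ln = true) {hs : List ℕ} {x : ℕ}
    (hx : 2 * (c.l + X0) = x) (hr : 2 * (c.r + X0) = x + 2 * (hs.sum : ℕ)) (hne : hs ≠ [])
    (hc : checkCellsN ts ln x hs = true) : CellR S d c := by
  intro y hy
  have ha := (enc_ln8.smul (-X0)).sub (enc_ofQ (d.lR + (c.al - c.be * X0)) hD)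
  have hb := enc_ln8.sub (enc_ofQ c.be hD)
  have hx' : 2 * ((c.l : ℝ) + X0) = x := by exact_mod_cast hx
  have hr' := castR hr
  have := line_of (P := (-X0, 0)) (δ := (1, 0)) (cl := 0) hp (ln := ln) hl ha hb hne hc (y + X0)
    (by linarith [hy.1]) (by linarith [hy.2])
  rw [← gc_lineX] at this
  rw [PhiR_real]
  unfold SCell.val
  push_cast at this
  have e : (c.al + c.be * y : ℝ) / d.D = ((c.al : ℝ) - c.be * X0) / d.D +
      (c.be : ℝ) / d.D * (y + X0) := by ring
  have e2 : ((d.lR : ℝ) + ((c.al : ℝ) - c.be * X0)) / d.D =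
      (d.lR : ℝ) / d.D + ((c.al : ℝ) - c.be * X0) / d.D := by ring
  rw [e]
  rw [e2, zero_div] at this
  nlinarith

theorem cellQ_of {S : Shape} {d : Data} {X0 : ℤ} {Dh : ℕ} {ts : List NT} (hD : 0 < d.D)
    (hp : preL (LQl S d) (-X0, 0) (1, 0) Dh ts = true) {c : SCell} {ln : Lin}
    (hl : linEq (linQ S d X0 Dh c) ln = true) {hs : List ℕ} {x : ℕ}
    (hx : 2 * (c.l + X0) = x) (hr : 2 * (c.r + X0) = x + 2 * (hs.sum : ℕ)) (hne : hs ≠ [])
    (hc : checkCellsN ts ln x hs = true) : CellQ S d c := by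
  intro y hy
  have ha := (enc_ofQ (d.lQ + (c.al - c.be * X0)) hD).neg
  have hb := (enc_ofQ c.be hD).neg
  have hx' : 2 * ((c.l : ℝ) + X0) = x := by exact_mod_cast hx
  have hr' := castR hr
  have := line_of (P := (-X0, 0)) (δ := (1, 0)) (cl := 0) hp (ln := ln) hl ha hb hne hc (y + X0)
    (by linarith [hy.1]) (by linarith [hy.2])
  rw [← gc_lineX] at this
  rw [PhiQ_real]
  unfold SCell.val
  push_cast at this
  have e : (c.al + c.be * y : ℝ) / d.D = ((c.al : ℝ) - c.be * X0) / d.D +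
      (c.be : ℝ) / d.D * (y + X0) := by ring
  have e2 : ((d.lQ : ℝ) + ((c.al : ℝ) - c.be * X0)) / d.D =
      (d.lQ : ℝ) / d.D + ((c.al : ℝ) - c.be * X0) / d.D := by ring
  rw [e]
  rw [e2, zero_div] at this
  nlinarith

/-- all cells of a list: `k = (hsR, hsQ)` per cell -/
def realChk (S : Shape) (d : Data) (X0 : ℤ) (Dh Dh' : ℕ) (ts ts' : List NT) :
    List SCell → List (List ℕ × List ℕ) → Bool
  | [], [] => true
  | c :: L, k :: ks =>
    decide (0 ≤ c.l + X0) && decide (2 * (c.r + X0) = 2 * (c.l + X0) + 2 * (k.1.sum : ℕ)) &&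
      decide (2 * (c.r + X0) = 2 * (c.l + X0) + 2 * (k.2.sum : ℕ)) &&
      (!k.1.isEmpty) && (!k.2.isEmpty) &&
      checkCellsN ts (linR S d X0 Dh c) (2 * (c.l + X0)).toNat k.1 &&
      checkCellsN ts' (linQ S d X0 Dh' c) (2 * (c.l + X0)).toNat k.2 &&
      cell0_chk c && realChk S d X0 Dh Dh' ts ts' L ks
  | _, _ => false

theorem linEq_refl (L : Lin) : linEq L L = true := by
  unfold linEq; simp

theorem real_of {S : Shape} {d : Data} {X0 : ℤ} {Dh Dh' : ℕ} {ts ts' : List NT} (hD : 0 < d.D)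
    (hp : preL (LRl S d) (-X0, 0) (1, 0) Dh ts = true)
    (hp' : preL (LQl S d) (-X0, 0) (1, 0) Dh' ts' = true) : ∀ (L : List SCell)
    (ks : List (List ℕ × List ℕ)), realChk S d X0 Dh Dh' ts ts' L ks = true → CellsOK S d L
  | [], _, _ => by intro c hc; simp at hc
  | c :: L, [], h => by simp [realChk] at h
  | c :: L, k :: ks, h => by
    simp only [realChk, Bool.and_eq_true, decide_eq_true_eq] at h
    obtain ⟨⟨⟨⟨⟨⟨⟨⟨h1, h2⟩, h3⟩, h4⟩, h5⟩, h6⟩, h7⟩, h8⟩, h9⟩ := h
    have hx : 2 * (c.l + X0) = ((2 * (c.l + X0)).toNat : ℕ) :=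
      (Int.toNat_of_nonneg (by omega)).symm
    intro c' hc'
    rcases List.mem_cons.1 hc' with rfl | hc'
    · exact ⟨cellR_of hD hp (linEq_refl _) hx (by rw [← hx]; exact h2) (ne_of_isEmpty h4) h6,
        cellQ_of hD hp' (linEq_refl _) hx (by rw [← hx]; exact h3) (ne_of_isEmpty h5) h7,
        cell0_of_chk h8⟩
    · exact real_of hD hp hp' L ks h9 c' hc'

end Crest.Agent.R006.Cert
private theorem rz_d17be3dfe7 : type_of% @_root_.Crest.Agent.R006.Cert.realChk.eq_def := @_root_.Crest.Agent.R006.Cert.realChk.eq_def -- L175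
private theorem rz_3cd33a0d44 : type_of% @_root_.Crest.Agent.R006.Cert.realChk.eq_1 := @_root_.Crest.Agent.R006.Cert.realChk.eq_1 -- L175
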