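import Crest.Agent.R006.EntR1_724
import Crest.Agent.R006.Defs
import Crest.Agent.R006.PsiJ4_576
import Crest.Agent.R006.LamR_724

-- ▼ part R006/EntR2_724
section

/-!
Row 6 (helper724): the `R`-entries of `Defs.lean` as `mu`-functionals, part 2 (the chains).
-/

set_option autoImplicit false

namespace Crest.Agent.R006.Base724

open Polynomial Filter Topology
open Crest.Agent.R006.NV Crest.Agent.R006.Germ724 Crest.Agent.R006.PsiInf

/-- base change of power series -/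
noncomputable abbrev mp (a : PowerSeries ℚ) : PowerSeries ℂ := PowerSeries.map (algebraMap ℚ ℂ) a

lemma mp_pt (s : ℚ) : mp (pt s) = pt (s : ℂ) := by
  unfold mp pt
  rw [map_add, PowerSeries.map_X, PowerSeries.map_C]
  simp



lemma const_two_pt (s : ℂ) : PowerSeries.constantCoeff (2 * pt s + 1) = 2 * s + 1 := by
  rw [map_add, map_mul, pt_const, map_one, map_ofNat]

lemma dvd_of_unit_mul {k : ℕ} {u a : PowerSeries ℂ} (hu : PowerSeries.constantCoeff u ≠ 0)
    (h : (PowerSeries.X : PowerSeries ℂ) ^ k ∣ u * a) : (PowerSeries.X : PowerSeries ℂ) ^ k ∣ a := by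
  have e : a = u⁻¹ * (u * a) := by
    rw [← mul_assoc, PowerSeries.inv_mul_cancel _ hu, one_mul]
  rw [e]
  exact Dvd.dvd.mul_left h _

/-! ### the integer chain -/

lemma HomZ_step (i : ℤ) : pt ((i : ℚ) + 1) ^ 3 * D.HomZ (i + 1) +
    (2 * pt (i : ℚ) + 1) ^ 3 * D.HomZ i = 0 := by
  apply bi_step (K := ℚ) (a := fun i => pt ((i : ℚ) + 1) ^ 3)
    (b := fun i => (2 * pt (i : ℚ) + 1) ^ 3) (c := fun _ => 0)
  · intro i hi
    rw [map_pow, constantCoeff_pt]
    apply pow_ne_zero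
    have : ((i + 1 : ℤ) : ℚ) ≠ 0 := by
      exact_mod_cast (by omega : (i + 1 : ℤ) ≠ 0)
    push_cast at this
    exact this
  · intro i hi
    rw [map_pow, map_add, map_mul, constantCoeff_pt, constantCoeff_two, map_one]
    apply pow_ne_zero
    have : ((2 * i + 1 : ℤ) : ℚ) ≠ 0 := by
      exact_mod_cast (by omega : (2 * i + 1 : ℤ) ≠ 0)
    push_cast at this
    exact this

/-- complex germ of the integer chain at `X = G` -/
noncomputable def PC (i : ℤ) : PowerSeries ℂ :=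
  mp (PsiZ 0 i) - PowerSeries.C (Psi724.G : ℂ) * mp (D.HomZ i)

lemma PC_zero : PC 0 = -PowerSeries.C (Psi724.G : ℂ) := by
  unfold PC
  have h1 : PsiZ (0 : ℚ) 0 = PowerSeries.C 0 := PsiZ_zero 0
  have h2 : D.HomZ 0 = 1 := rfl
  rw [h1, h2]
  simp [mp]

lemma PC_step (i : ℤ) : pt ((i : ℂ) + 1) ^ 3 * PC (i + 1) + (2 * pt (i : ℂ) + 1) ^ 3 * PC i =
    -(PowerSeries.C (1 / 2) * (3 * pt (i : ℂ) + 2)) := by
  have h1 := congrArg mp ((step_Z (0 : ℚ) i).psi)
  have h2 := congrArg mp (HomZ_step i)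
  have e1 : mp (pt ((i : ℚ) + 1)) = pt ((i : ℂ) + 1) := by
    rw [mp_pt]; push_cast; rfl
  have e2 : mp (pt (i : ℚ)) = pt (i : ℂ) := by
    rw [mp_pt]; push_cast; rfl
  have e3 : mp (PowerSeries.C (1 / 2 : ℚ)) = PowerSeries.C (1 / 2 : ℂ) := by
    simp [mp]
  simp only [mp, map_add, map_mul, map_pow, map_neg, map_one, map_ofNat, map_zero] at h1 h2 e1 e2 e3
  rw [e1, e2, e3] at h1
  rw [e1, e2] at h2
  unfold PC
  simp only [mp]
  linear_combination h1 - PowerSeries.C (Psi724.G : ℂ) * h2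

lemma off_int (i : ℤ) : Off (i : ℂ) := by
  intro l e
  unfold site at e
  have h : (2 * (i + l) + 1 : ℤ) = 0 := by
    have : ((2 * (i + l) + 1 : ℤ) : ℂ) = 0 := by
      push_cast
      linear_combination -2 * e
    exact_mod_cast this
  omega

lemma den_add_one (z : ℂ) : den (z + 1) = 2 * pt z + 1 := by
  unfold den
  rw [← pt_add_one]; ring

lemma rhs_add_one (z : ℂ) : rhs (z + 1) = -(PowerSeries.C (1 / 2) * (3 * pt z + 2)) := by
  unfold rhs
  rw [← pt_add_one]; ring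

lemma Adm.diff_step {K0 : PowerSeries ℂ} (h : Adm K0) (i : ℤ) :
    (PowerSeries.X : PowerSeries ℂ) ^ 3 ∣
      pt ((i : ℂ) + 1) ^ 3 * (MZ K0 ((i + 1 : ℤ) : ℂ) - PC (i + 1)) +
        (2 * pt (i : ℂ) + 1) ^ 3 * (MZ K0 (i : ℂ) - PC i) := by
  have e1 : ((i + 1 : ℤ) : ℂ) = (i : ℂ) + 1 := by push_cast; ring
  have h1 := h.MZ_step (z := (i : ℂ) + 1) (by rw [← e1]; exact off_int _)
    (by rw [add_sub_cancel_right]; exact off_int _)
  rw [den_add_one, rhs_add_one, add_sub_cancel_right, ← PC_step] at h1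
  rw [e1]
  have e : pt ((i : ℂ) + 1) ^ 3 * (MZ K0 ((i : ℂ) + 1) - PC (i + 1)) +
        (2 * pt (i : ℂ) + 1) ^ 3 * (MZ K0 (i : ℂ) - PC i) =
      pt ((i : ℂ) + 1) ^ 3 * MZ K0 ((i : ℂ) + 1) + (2 * pt (i : ℂ) + 1) ^ 3 * MZ K0 (i : ℂ) -
        (pt ((i : ℂ) + 1) ^ 3 * PC (i + 1) + (2 * pt (i : ℂ) + 1) ^ 3 * PC i) := by ring
  rw [e]
  exact h1

/-- integers `≥ 0`: constant terms agree -/
theorem Adm.nonneg_chain {K0 : PowerSeries ℂ} (h : Adm K0) (n : ℕ) :
    (PowerSeries.X : PowerSeries ℂ) ^ 1 ∣ MZ K0 ((n : ℤ) : ℂ) - PC n := by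
  induction n with
  | zero =>
    rw [pow_one, PowerSeries.X_dvd_iff, map_sub]
    have e0 : PowerSeries.constantCoeff (MZ K0 (((0 : ℕ) : ℤ) : ℂ)) = E K0 0 (-1) := by
      rw [← PowerSeries.coeff_zero_eq_constantCoeff_apply, MZ_coeff]
      simp
    have e1 : PC ((0 : ℕ) : ℤ) = -PowerSeries.C (Psi724.G : ℂ) := PC_zero
    rw [e0, e1, h.phi_zero]
    simp
  | succ n ih =>
    have h1 := (dvd_trans (pow_dvd_pow _ (by norm_num : 1 ≤ 3)) (h.diff_step (n : ℤ)))
    have h2 : (PowerSeries.X : PowerSeries ℂ) ^ 1 ∣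
        pt (((n : ℤ) : ℂ) + 1) ^ 3 * (MZ K0 (((n : ℤ) + 1 : ℤ) : ℂ) - PC ((n : ℤ) + 1)) := by
      have := (dvd_add_left (Dvd.dvd.mul_left ih ((2 * pt ((n : ℤ) : ℂ) + 1) ^ 3))).mp h1
      exact this
    have e : ((n + 1 : ℕ) : ℤ) = (n : ℤ) + 1 := by push_cast; ring
    rw [e]
    refine dvd_of_unit_mul ?_ h2
    rw [map_pow, pt_const]
    apply pow_ne_zero
    have : (((n : ℤ) + 1 : ℤ) : ℂ) ≠ 0 := by exact_mod_cast (by omega : ((n : ℤ) + 1 : ℤ) ≠ 0)
    push_cast at this ⊢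
    exact this

/-- negative integers: 2-jets agree -/
theorem Adm.neg_chain {K0 : PowerSeries ℂ} (h : Adm K0) (n : ℕ) :
    (PowerSeries.X : PowerSeries ℂ) ^ 3 ∣ MZ K0 ((-(n : ℤ) - 1 : ℤ) : ℂ) - PC (-(n : ℤ) - 1) := by
  have hunit : ∀ i : ℤ, PowerSeries.constantCoeff ((2 * pt (i : ℂ) + 1) ^ 3) ≠ 0 := by
    intro i
    rw [map_pow, const_two_pt]
    apply pow_ne_zero
    have : ((2 * i + 1 : ℤ) : ℂ) ≠ 0 := by exact_mod_cast (by omega : (2 * i + 1 : ℤ) ≠ 0)
    push_cast at this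
    exact this
  induction n with
  | zero =>
    have h1 := h.diff_step (-1)
    have e0 : ((-1 : ℤ) : ℂ) + 1 = 0 := by push_cast; ring
    rw [e0] at h1
    have e1 : (pt (0 : ℂ)) = PowerSeries.X := by unfold pt; simp
    rw [e1] at h1
    have h2 := (dvd_add_right (Dvd.intro _ rfl :
      (PowerSeries.X : PowerSeries ℂ) ^ 3 ∣
        PowerSeries.X ^ 3 * (MZ K0 ((-1 + 1 : ℤ) : ℂ) - PC (-1 + 1)))).mp h1
    have h3 := dvd_of_unit_mul (hunit (-1)) h2
    simpa using h3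
  | succ n ih =>
    have h1 := h.diff_step (-(n : ℤ) - 2)
    have e0 : (-(n : ℤ) - 2 + 1 : ℤ) = -(n : ℤ) - 1 := by ring
    rw [e0] at h1
    have h2 := (dvd_add_right (Dvd.dvd.mul_left ih (pt (((-(n : ℤ) - 2 : ℤ) : ℂ) + 1) ^ 3))).mp h1
    have h3 := dvd_of_unit_mul (hunit _) h2
    have e : -((n + 1 : ℕ) : ℤ) - 1 = -(n : ℤ) - 2 := by push_cast; ring
    rw [e]
    exact h3

/-! ### the star chain -/

/-- germ of the jump at `l + 1/2` -/
noncomputable def Kr (K0 : PowerSeries ℂ) : ℕ → PowerSeries ℂ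
  | 0 => -8 * (pt (1 / 2 : ℂ) ^ 3)⁻¹ * K0
  | l + 1 => -(den ((l : ℂ) + 3 / 2) ^ 3) * (pt ((l : ℂ) + 3 / 2) ^ 3)⁻¹ * Kr K0 l

lemma pt_cube_unit {z : ℂ} (hz : z ≠ 0) : PowerSeries.constantCoeff (pt z ^ 3) ≠ 0 := by
  rw [map_pow, pt_const]; exact pow_ne_zero _ hz

lemma half_ne : (1 / 2 : ℂ) ≠ 0 := by norm_num

lemma Kr_zero_eq (K0 : PowerSeries ℂ) : pt (1 / 2 : ℂ) ^ 3 * Kr K0 0 = -8 * K0 := by
  have h := PowerSeries.mul_inv_cancel _ (pt_cube_unit half_ne)
  show pt (1 / 2 : ℂ) ^ 3 * (-8 * (pt (1 / 2 : ℂ) ^ 3)⁻¹ * K0) = -8 * K0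
  linear_combination (-8 * K0) * h

lemma nat_half_ne (l : ℕ) : (l : ℂ) + 3 / 2 ≠ 0 := by
  intro h
  have : ((2 * l + 3 : ℕ) : ℂ) = 0 := by push_cast; linear_combination 2 * h
  have : (2 * l + 3 : ℕ) = 0 := by exact_mod_cast this
  omega

lemma Kr_succ_eq (K0 : PowerSeries ℂ) (l : ℕ) : pt ((l : ℂ) + 3 / 2) ^ 3 * Kr K0 (l + 1) +
    den ((l : ℂ) + 3 / 2) ^ 3 * Kr K0 l = 0 := by
  have h := PowerSeries.mul_inv_cancel _ (pt_cube_unit (nat_half_ne l))
  show pt ((l : ℂ) + 3 / 2) ^ 3 * (-(den ((l : ℂ) + 3 / 2) ^ 3) * (pt ((l : ℂ) + 3 / 2) ^ 3)⁻¹ *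
    Kr K0 l) + _ = 0
  linear_combination (-(den ((l : ℂ) + 3 / 2) ^ 3) * Kr K0 l) * h

lemma off_half (l : ℕ) : Off ((l : ℂ) + 1 / 2) := by
  apply site_ne_of_re
  have h : ((l : ℂ) + 1 / 2).re = l + 1 / 2 := by simp
  rw [h]
  have : (0 : ℝ) ≤ l := Nat.cast_nonneg l
  linarith

/-- key identity at `z = 1/2` -/
lemma key_half (K0 : PowerSeries ℂ) (j : ℕ) (hj : j ≤ 2) :
    mu K0 (fun s => s ^ 3 * (s - 1 / 2) ^ (-1 - (j : ℤ))) + 8 * E K0 (-(1 / 2)) (2 - (j : ℤ)) =
      -8 * PowerSeries.coeff j K0 := by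
  have hoff : Off (1 / 2 : ℂ) := by
    have := off_half 0
    simpa using this
  set Q : ℂ → ℂ := fun s => 8 * (s + 1 / 2) ^ (2 - j) with hQ
  have hQg : Good Q := ((Good.id.add (Good.const (1 / 2))).pow (2 - j)).smul 8
  have hTQ : ∀ z : ℂ, T Q z = PowerSeries.C 8 * pt (z + 1 / 2) ^ (2 - j) := by
    intro z
    have hid : AnalyticAt ℂ (fun s : ℂ => s) z := analyticAt_id
    have h1 : AnalyticAt ℂ (fun s : ℂ => s + 1 / 2) z := hid.fun_add analyticAt_const
    rw [hQ, T_mul analyticAt_const (h1.fun_pow _), T_const, T_pow h1,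
      T_add hid analyticAt_const, T_id, T_const]
    unfold pt
    rw [map_add]; ring
  have h := key (Good.zpow hoff (-1 - (j : ℤ))) hQg (fun l => ?_) K0
  · rw [hTQ, site_zero] at h
    have e1 : pt (-(1 / 2) + 1 / 2 : ℂ) = PowerSeries.X := by unfold pt; simp
    rw [e1] at h
    have e2 : PowerSeries.coeff 2 (K0 * (PowerSeries.C 8 * PowerSeries.X ^ (2 - j))) =
        8 * PowerSeries.coeff j K0 := by
      have : K0 * (PowerSeries.C 8 * PowerSeries.X ^ (2 - j)) =
          PowerSeries.C 8 * (K0 * PowerSeries.X ^ (2 - j)) := by ring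
      rw [this, PowerSeries.coeff_C_mul, PowerSeries.coeff_mul_X_pow', if_pos (by omega)]
      congr 3
      omega
    rw [e2] at h
    have e3 : mu K0 Q = 8 * E K0 (-(1 / 2)) (2 - (j : ℤ)) := by
      unfold E
      rw [hQ]
      have h4 : (fun s : ℂ => (s - -(1 / 2)) ^ (2 - (j : ℤ))) = fun s => (s + 1 / 2) ^ (2 - j) := by
        ext s
        have : (2 - (j : ℤ)) = ((2 - j : ℕ) : ℤ) := by omega
        rw [this, zpow_natCast, sub_neg_eq_add]
      rw [h4]
      exact mu_smul ((Good.id.add (Good.const (1 / 2))).pow (2 - j)) 8 K0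
    rw [e3] at h
    rw [h]; ring
  · rw [hTQ, site_succ]
    have h1 : T (fun s : ℂ => (s - 1 / 2) ^ (-1 - (j : ℤ))) (site l) = (pt (site l - 1 / 2))⁻¹ ^ (1 + j) := by
      have e : (fun s : ℂ => (s - 1 / 2) ^ (-1 - (j : ℤ))) = fun s => ((s - 1 / 2)⁻¹) ^ (1 + j) := by
        ext s
        rw [inv_pow, ← zpow_natCast, ← zpow_neg]
        congr 1
        push_cast; ring
      have ha : AnalyticAt ℂ (fun s : ℂ => (s - 1 / 2)⁻¹) (site l) :=
        (analyticAt_sub _ _).fun_inv (sub_ne_zero.mpr (hoff l))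
      rw [e, T_pow ha, T_inv_sub (hoff l)]
    rw [h1]
    have h2 : pt (site l - 1 + 1 / 2) = pt (site l - 1 / 2) := by congr 1; ring
    have h3 : den (site l) = PowerSeries.C 2 * pt (site l - 1 / 2) := by
      unfold den pt
      have : (2 : PowerSeries ℂ) = PowerSeries.C (2 : ℂ) := (map_ofNat PowerSeries.C 2).symm
      rw [this, map_sub, mul_add, mul_add, mul_sub, ← map_mul, ← map_mul]
      norm_num
      ring
    rw [h2, h3]
    set P := pt (site l - 1 / 2)
    have hP : PowerSeries.constantCoeff P ≠ 0 := by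
      rw [pt_const]; exact sub_ne_zero.mpr (hoff l)
    have hinv := PowerSeries.mul_inv_cancel P hP
    have h8 : (PowerSeries.C (2 : ℂ)) ^ 3 = PowerSeries.C 8 := by
      rw [← map_pow]; norm_num
    rw [mul_pow, h8, mul_assoc]
    congr 1
    have e5 : P ^ 3 = P ^ (2 - j) * P ^ (1 + j) := by
      rw [← pow_add]; congr 1; omega
    rw [e5, mul_assoc, ← mul_pow, hinv, one_pow, mul_one]

theorem Adm.star_zero {K0 : PowerSeries ℂ} (h : Adm K0) :
    (PowerSeries.X : PowerSeries ℂ) ^ 3 ∣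
      pt (1 / 2 : ℂ) ^ 3 * (MZ K0 (1 / 2) - Kr K0 0) - rhs (1 / 2) := by
  have e0 : pt (1 / 2 : ℂ) ^ 3 * (MZ K0 (1 / 2) - Kr K0 0) - rhs (1 / 2) =
      pt (1 / 2 : ℂ) ^ 3 * MZ K0 (1 / 2) + 8 * K0 - rhs (1 / 2) := by
    have := Kr_zero_eq K0
    linear_combination -this
  rw [e0, X3_dvd_iff]
  obtain ⟨r0, r1, r2⟩ := rhs_coeffs (1 / 2)
  obtain ⟨p0, p1, p2⟩ := cube_coeffs (1 / 2) 1
  rw [← pt_eq] at p0 p1 p2
  have hoff : Off (1 / 2 : ℂ) := by
    have := off_half 0
    simpa using this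
  have k0 := key_half K0 0 (by norm_num)
  have k1 := key_half K0 1 (by norm_num)
  have k2 := key_half K0 2 (by norm_num)
  rw [mu_cubic hoff] at k0 k1 k2
  norm_num at k0 k1 k2
  simp only [E_zero, E_one, E_two, h.m0, h.m1, h.m2] at k0 k1 k2
  have h8 : (8 : PowerSeries ℂ) = PowerSeries.C (8 : ℂ) := (map_ofNat PowerSeries.C 8).symm
  rw [h8]
  refine ⟨?_, ?_, ?_⟩
  · rw [map_sub, map_add, coeff_zero_mul, PowerSeries.coeff_C_mul, p0, r0, MZ_coeff]
    norm_num
    linear_combination k0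
  · rw [map_sub, map_add, coeff_one_mul, PowerSeries.coeff_C_mul, p0, p1, r1, MZ_coeff, MZ_coeff]
    norm_num
    linear_combination k1
  · rw [map_sub, map_add, coeff_two_mul, PowerSeries.coeff_C_mul, p0, p1, p2, r2, MZ_coeff,
      MZ_coeff, MZ_coeff]
    norm_num
    linear_combination k2

/-- complex germ of the star chain at `l + 1/2` -/
noncomputable def PH (l : ℕ) : PowerSeries ℂ := mp (PsiH (l : ℤ))

lemma PH_zero_step : pt (1 / 2 : ℂ) ^ 3 * PH 0 = rhs (1 / 2) := by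
  have h1 := congrArg mp ((step_H0 (K := ℚ) 0).psi)
  have h0 : (PsiH0 (0 : ℤ) : PowerSeries ℚ) = 0 := PsiH0_zero
  rw [h0, mul_zero, add_zero] at h1
  have e1 : mp (pt (((0 : ℤ) : ℚ) - 1 / 2 + 1)) = pt (1 / 2 : ℂ) := by
    rw [mp_pt]; congr 1; push_cast; norm_num
  have e2 : mp (pt (((0 : ℤ) : ℚ) - 1 / 2)) = pt (-(1 / 2) : ℂ) := by
    rw [mp_pt]; congr 1; push_cast; norm_num
  have e3 : mp (PowerSeries.C (1 / 2 : ℚ)) = PowerSeries.C (1 / 2 : ℂ) := by
    simp [mp]
  simp only [mp, map_add, map_mul, map_pow, map_neg, map_ofNat] at h1 e1 e2 e3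
  rw [e1, e2, e3] at h1
  unfold PH PsiH mp
  have e4 : ((0 : ℕ) : ℤ) + 1 = 0 + 1 := by norm_num
  rw [e4, h1]
  have := rhs_add_one (-(1 / 2) : ℂ)
  have e5 : (-(1 / 2) + 1 : ℂ) = 1 / 2 := by norm_num
  rw [e5] at this
  rw [this]

lemma PH_succ_step (l : ℕ) : pt ((l : ℂ) + 3 / 2) ^ 3 * PH (l + 1) +
    den ((l : ℂ) + 3 / 2) ^ 3 * PH l = rhs ((l : ℂ) + 3 / 2) := by
  have h1 := congrArg mp ((step_H (K := ℚ) (l : ℤ)).psi)
  have e1 : mp (pt (((l : ℤ) : ℚ) + 1 / 2 + 1)) = pt ((l : ℂ) + 3 / 2) := by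
    rw [mp_pt]; congr 1; push_cast; ring
  have e2 : mp (pt (((l : ℤ) : ℚ) + 1 / 2)) = pt ((l : ℂ) + 1 / 2) := by
    rw [mp_pt]; congr 1; push_cast; ring
  have e3 : mp (PowerSeries.C (1 / 2 : ℚ)) = PowerSeries.C (1 / 2 : ℂ) := by
    simp [mp]
  simp only [mp, map_add, map_mul, map_pow, map_neg, map_one, map_ofNat] at h1 e1 e2 e3
  rw [e1, e2, e3] at h1
  unfold PH mp
  have e4 : ((l + 1 : ℕ) : ℤ) = (l : ℤ) + 1 := by push_cast; ring
  have e5 := rhs_add_one ((l : ℂ) + 1 / 2)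
  have e6 := den_add_one ((l : ℂ) + 1 / 2)
  have e7 : ((l : ℂ) + 1 / 2 + 1) = (l : ℂ) + 3 / 2 := by ring
  rw [e7] at e5 e6
  rw [e4, e5, e6]
  exact h1

/-- star nodes: 2-jets of `MZ - Kr` agree with the star chain -/
theorem Adm.star_chain {K0 : PowerSeries ℂ} (h : Adm K0) (l : ℕ) :
    (PowerSeries.X : PowerSeries ℂ) ^ 3 ∣ (MZ K0 ((l : ℂ) + 1 / 2) - Kr K0 l) - PH l := by
  induction l with
  | zero =>
    have h1 := h.star_zero
    rw [← PH_zero_step, ← mul_sub] at h1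
    have := dvd_of_unit_mul (pt_cube_unit half_ne) h1
    simpa using this
  | succ l ih =>
    have e1 : (((l + 1 : ℕ) : ℂ) + 1 / 2) = (l : ℂ) + 3 / 2 := by push_cast; ring
    have e2 : ((l : ℂ) + 3 / 2 - 1) = (l : ℂ) + 1 / 2 := by ring
    have h1 := h.MZ_step (z := (l : ℂ) + 3 / 2) (by rw [← e1]; exact off_half _)
      (by rw [e2]; exact off_half _)
    rw [e2, ← PH_succ_step] at h1
    rw [e1]
    have h2 := Kr_succ_eq K0 l
    have h3 : (PowerSeries.X : PowerSeries ℂ) ^ 3 ∣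
        pt ((l : ℂ) + 3 / 2) ^ 3 * ((MZ K0 ((l : ℂ) + 3 / 2) - Kr K0 (l + 1)) - PH (l + 1)) +
        den ((l : ℂ) + 3 / 2) ^ 3 * ((MZ K0 ((l : ℂ) + 1 / 2) - Kr K0 l) - PH l) := by
      have e : pt ((l : ℂ) + 3 / 2) ^ 3 * ((MZ K0 ((l : ℂ) + 3 / 2) - Kr K0 (l + 1)) - PH (l + 1)) +
        den ((l : ℂ) + 3 / 2) ^ 3 * ((MZ K0 ((l : ℂ) + 1 / 2) - Kr K0 l) - PH l) =
        pt ((l : ℂ) + 3 / 2) ^ 3 * MZ K0 ((l : ℂ) + 3 / 2) +
          den ((l : ℂ) + 3 / 2) ^ 3 * MZ K0 ((l : ℂ) + 1 / 2) -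
          (pt ((l : ℂ) + 3 / 2) ^ 3 * PH (l + 1) + den ((l : ℂ) + 3 / 2) ^ 3 * PH l) := by
        linear_combination -h2
      rw [e]
      exact h1
    have h4 := (dvd_add_left (Dvd.dvd.mul_left ih (den ((l : ℂ) + 3 / 2) ^ 3))).mp h3
    exact dvd_of_unit_mul (pt_cube_unit (nat_half_ne l)) h4

end Crest.Agent.R006.Base724
end

-- ▼ part R006/Link_724
section

/-!
Row 6 (helper724): the discrete weights `K` are the Laurent germs of helper576's jump `J v`.

* `K_JJ : K (K0J v) l = T (U l * P v) (ce l)`;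
* `L_eq_term : L v l f = term (K0J v) f l`;
* `adm_vv : Adm (K0J vv)`;
* `Jst v l` analytic near `l + 1/2`, equal to `J v` off the point, `T (Jst v l) = Kr (K0J v) l`.
-/

set_option autoImplicit false

namespace Crest.Agent.R006.Base724

open Polynomial Filter Topology
open Crest.Agent.R006.NV Crest.Agent.R006.Germ724

lemma ce_eq_site (l : ℕ) : PsiJ.ce l = site l := rfl

/-- `(s - ce l)^3 J v s` -/
noncomputable def UP (v : Fin 3 → ℂ) (l : ℕ) (s : ℂ) : ℂ := PsiJ.U l s * PsiJ.P v s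

lemma UP_differentiableAt (v : Fin 3 → ℂ) (l : ℕ) {s : ℂ} (hs : ‖s - site l‖ ≤ 1 / 4) :
    DifferentiableAt ℂ (UP v l) s :=
  (PsiJ.U_differentiableAt l hs).mul (PsiJ.P_differentiable v s)

lemma UP_analyticAt (v : Fin 3 → ℂ) (l : ℕ) : AnalyticAt ℂ (UP v l) (site l) := by
  apply DifferentiableOn.analyticAt (s := Metric.ball (site l) (1 / 4))
  · intro s hs
    rw [Metric.mem_ball, dist_eq_norm] at hs
    exact (UP_differentiableAt v l hs.le).differentiableWithinAt
  · exact Metric.ball_mem_nhds _ (by norm_num)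

/-- germs of `(s - ce l)^3 J v s` -/
noncomputable def KJ (v : Fin 3 → ℂ) (l : ℕ) : PowerSeries ℂ := T (UP v l) (site l)

/-- starting weight -/
noncomputable def K0J (v : Fin 3 → ℂ) : PowerSeries ℂ := KJ v 0

lemma UP_rec (v : Fin 3 → ℂ) (l : ℕ) {s : ℂ} (hs : s ≠ site l) (h0 : s ≠ 0) (h1 : s ≠ 1 / 2) :
    (2 * s - 1) ^ 3 * UP v (l + 1) (s - 1) = -(s ^ 3 * UP v l s) := by
  have h := PsiJ.J_rec v h0 h1
  have e1 := PsiJ.J_eq v l hs
  have hs1 : s - 1 ≠ site (l + 1) := by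
    rw [site_succ]; intro h; exact hs (sub_left_injective h)
  have e2 := PsiJ.J_eq v (l + 1) hs1
  rw [e1, e2] at h
  have e3 : s - 1 - PsiJ.ce (l + 1) = s - PsiJ.ce l := by
    rw [PsiJ.ce_succ]; ring
  rw [e3] at h
  have hne : (s - PsiJ.ce l) ^ 3 ≠ 0 := pow_ne_zero _ (sub_ne_zero.mpr hs)
  unfold UP
  rw [mul_div_assoc', neg_mul, mul_div_assoc', ← neg_div, div_left_inj' hne] at h
  linear_combination h


lemma site_ne_zero (l : ℕ) : site l ≠ 0 := by
  intro h
  have := congrArg Complex.re h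
  rw [re_site] at this
  have hl : (0 : ℝ) ≤ l := Nat.cast_nonneg l
  simp at this
  linarith

lemma site_ne_half (l : ℕ) : site l ≠ 1 / 2 := by
  intro h
  have := congrArg Complex.re h
  rw [re_site] at this
  have hl : (0 : ℝ) ≤ l := Nat.cast_nonneg l
  have e : ((1 / 2 : ℂ)).re = 1 / 2 := by norm_num
  rw [e] at this
  linarith

lemma T_two_mul_sub_one (z : ℂ) : T (fun s => 2 * s - 1) z = den z := by
  have hid : AnalyticAt ℂ (fun s : ℂ => s) z := analyticAt_id
  have h0 : AnalyticAt ℂ (fun s : ℂ => 2 * s) z := analyticAt_const.fun_mul hid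
  rw [T_sub h0 analyticAt_const, T_mul analyticAt_const hid, T_const, T_const, T_id, map_ofNat,
    map_one]
  rfl

lemma analyticAt_two_mul_sub_one (z : ℂ) : AnalyticAt ℂ (fun s : ℂ => 2 * s - 1) z := by
  have hid : AnalyticAt ℂ (fun s : ℂ => s) z := analyticAt_id
  exact (analyticAt_const.fun_mul hid).fun_sub analyticAt_const

lemma KJ_step (v : Fin 3 → ℂ) (l : ℕ) :
    den (site l) ^ 3 * KJ v (l + 1) = -(pt (site l) ^ 3 * KJ v l) := by
  have hid : AnalyticAt ℂ (fun s : ℂ => s) (site l) := analyticAt_id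
  have hU := UP_analyticAt v l
  have hU1 : AnalyticAt ℂ (fun s => UP v (l + 1) (s + -1)) (site l) := by
    have h1 : AnalyticAt ℂ (UP v (l + 1)) (site l + -1) := by
      have := UP_analyticAt v (l + 1)
      rw [site_succ] at this
      exact this
    exact AnalyticAt.fun_comp h1 (hid.fun_add analyticAt_const)
  have hA : AnalyticAt ℂ (fun s => (2 * s - 1) ^ 3 * UP v (l + 1) (s + -1)) (site l) :=
    ((analyticAt_two_mul_sub_one _).fun_pow 3).fun_mul hU1
  have hB : AnalyticAt ℂ (fun s => -(s ^ 3 * UP v l s)) (site l) :=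
    ((hid.fun_pow 3).fun_mul hU).fun_neg
  have hfr : ∀ᶠ s in 𝓝[≠] (site l), (2 * s - 1) ^ 3 * UP v (l + 1) (s + -1) =
      -(s ^ 3 * UP v l s) := by
    have c1 : ∀ᶠ s in 𝓝[≠] (site l), s ≠ 0 :=
      eventually_nhdsWithin_of_eventually_nhds (isOpen_ne.mem_nhds (site_ne_zero l))
    have c2 : ∀ᶠ s in 𝓝[≠] (site l), s ≠ 1 / 2 :=
      eventually_nhdsWithin_of_eventually_nhds (isOpen_ne.mem_nhds (site_ne_half l))
    filter_upwards [c1, c2, self_mem_nhdsWithin] with s h0 h1 h2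
    have := UP_rec v l h2 h0 h1
    rw [← sub_eq_add_neg]
    exact this
  have hev := (hA.frequently_eq_iff_eventually_eq hB).mp hfr.frequently
  have hT := T_congr hev
  rw [T_mul ((analyticAt_two_mul_sub_one _).fun_pow 3) hU1, T_pow (analyticAt_two_mul_sub_one _),
    T_two_mul_sub_one, T_neg, T_mul (hid.fun_pow 3) hU, T_pow hid, T_id,
    T_shift (UP v (l + 1)) (site l) (-1)] at hT
  unfold KJ
  rw [site_succ, sub_eq_add_neg]
  exact hT

lemma den_site_unit (l : ℕ) : PowerSeries.constantCoeff (den (site l) ^ 3) ≠ 0 := by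
  rw [map_pow, den_const]
  exact pow_ne_zero _ (site_den_ne l)

theorem K_K0J (v : Fin 3 → ℂ) (l : ℕ) : K (K0J v) l = KJ v l := by
  induction l with
  | zero => rfl
  | succ l ih =>
    have h1 := K_step (K0J v) l
    have h2 := KJ_step v l
    rw [ih, ← h2] at h1
    have hu := PowerSeries.inv_mul_cancel _ (den_site_unit l)
    calc K (K0J v) (l + 1) = ((den (site l) ^ 3)⁻¹ * den (site l) ^ 3) * K (K0J v) (l + 1) := by
          rw [hu, one_mul]
      _ = (den (site l) ^ 3)⁻¹ * (den (site l) ^ 3 * K (K0J v) (l + 1)) := by ring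
      _ = (den (site l) ^ 3)⁻¹ * (den (site l) ^ 3 * KJ v (l + 1)) := by rw [h1]
      _ = ((den (site l) ^ 3)⁻¹ * den (site l) ^ 3) * KJ v (l + 1) := by ring
      _ = KJ v (l + 1) := by rw [hu, one_mul]

/-- the circle functional is the discrete one -/
theorem L_eq_term (v : Fin 3 → ℂ) (l : ℕ) {f : ℂ → ℂ}
    (hf : DifferentiableOn ℂ f (Metric.closedBall (site l) (1 / 4))) :
    PsiJ.L v l f = term (K0J v) f l := by
  have hfa : AnalyticAt ℂ f (site l) :=
    hf.analyticAt (Metric.closedBall_mem_nhds _ (by norm_num))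
  have hd : DifferentiableOn ℂ (fun s => UP v l s * f s) (Metric.closedBall (site l) (1 / 4)) := by
    intro s hs
    have hs' : ‖s - site l‖ ≤ 1 / 4 := by rwa [Metric.mem_closedBall, dist_eq_norm] at hs
    exact (UP_differentiableAt v l hs').differentiableWithinAt.mul (hf s hs)
  have hc := circle_eq (by norm_num : (0 : ℝ) < 1 / 4) hd 2
  unfold PsiJ.L PsiJ.Lr term
  rw [K_K0J]
  have e1 : (∮ s in C(PsiJ.ce l, 1 / 4), PsiJ.J v s * f s) =
      ∮ w in C(site l, 1 / 4), UP v l w * f w / (w - site l) ^ (2 + 1) := by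
    apply circleIntegral.integral_congr (by norm_num)
    intro s hs
    have hne : s ≠ PsiJ.ce l := by
      rintro rfl
      simp at hs
    simp only
    rw [PsiJ.J_eq v l hne]
    unfold UP
    rw [ce_eq_site]
    ring
  rw [e1, hc, T_mul (UP_analyticAt v l) hfa]
  have hpi : (2 * (Real.pi : ℂ) * Complex.I) ≠ 0 := Complex.two_pi_I_ne_zero
  rw [← mul_assoc, inv_mul_cancel₀ hpi, one_mul]
  rfl

lemma mom_K0J (v : Fin 3 → ℂ) (k : ℕ) : mom (K0J v) k = -PsiJ.M v k := by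
  unfold mom mu PsiJ.M
  congr 1
  refine tsum_congr fun l => ?_
  rw [L_eq_term v l ((differentiable_pow k).differentiableOn)]

theorem adm_vv : Adm (K0J PsiJ.vv) := by
  constructor
  · rw [mom_K0J, PsiJ.M_zero, neg_zero]
  · rw [mom_K0J, PsiJ.M_one]; norm_num
  · rw [mom_K0J, PsiJ.M_two]

/-- `mu` as a sum of circle integrals -/
theorem hasSum_L (v : Fin 3 → ℂ) {f : ℂ → ℂ} (hf : Good f)
    (hd : ∀ l, DifferentiableOn ℂ f (Metric.closedBall (site l) (1 / 4))) :
    HasSum (fun l => PsiJ.L v l f) (-mu (K0J v) f) := by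
  have h := hf.hasSum (K0J v)
  refine h.congr_fun ?_ |> fun x => x
  intro l
  exact L_eq_term v l (hd l)

end Crest.Agent.R006.Base724
end

-- ▼ part R006/Link2_724
section

/-!
Row 6 (helper724): the jump `J v` near the star points `l + 1/2`.

`Jst v l` is holomorphic on `‖s - (l+1/2)‖ ≤ 1/4`, equal to `J v` off the centre, with Taylor germ
`Kr (K0J v) l` at the centre; circle form of the star term.
-/

set_option autoImplicit false

namespace Crest.Agent.R006.Base724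

open Polynomial Filter Topology
open Crest.Agent.R006.NV Crest.Agent.R006.Germ724

/-- `J v` near `l + 1/2`, with the removable singularity removed -/
noncomputable def Jst (v : Fin 3 → ℂ) : ℕ → ℂ → ℂ
  | 0 => fun s => -8 * UP v 0 (s - 1) / s ^ 3
  | l + 1 => fun s => -((2 * s - 1) ^ 3) * Jst v l (s - 1) / s ^ 3

/-- star point -/
noncomputable def star (l : ℕ) : ℂ := (l : ℂ) + 1 / 2

lemma star_succ (l : ℕ) : star (l + 1) = star l + 1 := by
  unfold star; push_cast; ring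

lemma re_star (l : ℕ) : (star l).re = l + 1 / 2 := by
  unfold star; simp

lemma ne_of_near {l : ℕ} {s a : ℂ} (hs : ‖s - star l‖ ≤ 1 / 4) (ha : a.re + 1 / 4 < l + 1 / 2) :
    s ≠ a := by
  rintro rfl
  have h1 : |(s - star l).re| ≤ 1 / 4 := (Complex.abs_re_le_norm _).trans hs
  rw [Complex.sub_re, re_star] at h1
  have := (abs_le.mp h1).1
  linarith

lemma near_pred {l : ℕ} {s : ℂ} (hs : ‖s - star (l + 1)‖ ≤ 1 / 4) : ‖(s - 1) - star l‖ ≤ 1 / 4 := by
  rw [star_succ] at hs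
  have e : (s - 1) - star l = s - (star l + 1) := by ring
  rw [e]; exact hs

lemma near_zero {s : ℂ} (hs : ‖s - star 0‖ ≤ 1 / 4) : ‖(s - 1) - site 0‖ ≤ 1 / 4 := by
  have e : (s - 1) - site 0 = s - star 0 := by
    rw [site_zero]; unfold star; push_cast; ring
  rw [e]; exact hs

lemma ne_zero_near {l : ℕ} {s : ℂ} (hs : ‖s - star l‖ ≤ 1 / 4) : s ≠ 0 := by
  apply ne_of_near hs
  have : (0 : ℝ) ≤ l := Nat.cast_nonneg l
  simp
  linarith

lemma Jst_differentiableAt (v : Fin 3 → ℂ) (l : ℕ) {s : ℂ} (hs : ‖s - star l‖ ≤ 1 / 4) :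
    DifferentiableAt ℂ (Jst v l) s := by
  induction l generalizing s with
  | zero =>
    have h0 : s ≠ 0 := ne_zero_near hs
    have h1 : DifferentiableAt ℂ (fun s => UP v 0 (s - 1)) s := by
      have h2 : DifferentiableAt ℂ (UP v 0) (s - 1) := UP_differentiableAt v 0 (near_zero hs)
      exact DifferentiableAt.comp s h2 (differentiableAt_id.sub_const 1)
    unfold Jst
    exact (h1.const_mul (-8)).div (differentiableAt_id.pow 3) (pow_ne_zero 3 h0)
  | succ l ih =>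
    have h0 : s ≠ 0 := ne_zero_near hs
    have h1 : DifferentiableAt ℂ (fun s => Jst v l (s - 1)) s :=
      DifferentiableAt.comp s (ih (near_pred hs)) (differentiableAt_id.sub_const 1)
    unfold Jst
    refine DifferentiableAt.div ?_ (differentiableAt_id.pow 3) (pow_ne_zero 3 h0)
    refine DifferentiableAt.mul ?_ h1
    exact ((((differentiableAt_id.const_mul 2).sub_const 1)).pow 3).neg

lemma Jst_eq (v : Fin 3 → ℂ) (l : ℕ) {s : ℂ} (hs : ‖s - star l‖ ≤ 1 / 4) (hne : s ≠ star l) :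
    PsiJ.J v s = Jst v l s := by
  induction l generalizing s with
  | zero =>
    have h0 : s ≠ 0 := ne_zero_near hs
    have h1 : s ≠ 1 / 2 := by
      intro h; apply hne; rw [h]; unfold star; simp
    have hr := PsiJ.J_rec v h0 h1
    have hs1 : s - 1 ≠ site 0 := by
      rw [site_zero]; intro h; apply h1; linear_combination h
    rw [PsiJ.J_eq v 0 hs1] at hr
    have e : s - 1 - PsiJ.ce 0 = s - 1 / 2 := by
      rw [ce_eq_site, site_zero]; ring
    rw [e] at hr
    have h2 : s - 1 / 2 ≠ 0 := sub_ne_zero.mpr h1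
    have h3 : (2 * s - 1) ^ 3 * (PsiJ.U 0 (s - 1) * PsiJ.P v (s - 1) / (s - 1 / 2) ^ 3) =
        8 * UP v 0 (s - 1) := by
      have : (2 * s - 1) = 2 * (s - 1 / 2) := by ring
      rw [this]
      unfold UP
      generalize s - 1 / 2 = t at h2
      generalize PsiJ.U 0 (s - 1) * PsiJ.P v (s - 1) = A
      field_simp
      ring
    rw [h3] at hr
    show PsiJ.J v s = -8 * UP v 0 (s - 1) / s ^ 3
    rw [eq_div_iff (pow_ne_zero 3 h0)]
    linear_combination hr
  | succ l ih =>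
    have h0 : s ≠ 0 := ne_zero_near hs
    have h1 : s ≠ 1 / 2 := by
      apply ne_of_near hs
      have : (0 : ℝ) ≤ l := Nat.cast_nonneg l
      have e : ((1 / 2 : ℂ)).re = 1 / 2 := by norm_num
      rw [e]; push_cast; linarith
    have hr := PsiJ.J_rec v h0 h1
    rw [ih (near_pred hs) (by
      intro h; apply hne; rw [star_succ, ← h]; ring)] at hr
    show PsiJ.J v s = -((2 * s - 1) ^ 3) * Jst v l (s - 1) / s ^ 3
    rw [eq_div_iff (pow_ne_zero 3 h0)]
    linear_combination hr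

lemma Jst_analyticAt (v : Fin 3 → ℂ) (l : ℕ) : AnalyticAt ℂ (Jst v l) (star l) := by
  apply DifferentiableOn.analyticAt (s := Metric.ball (star l) (1 / 4))
  · intro s hs
    rw [Metric.mem_ball, dist_eq_norm] at hs
    exact (Jst_differentiableAt v l hs.le).differentiableWithinAt
  · exact Metric.ball_mem_nhds _ (by norm_num)

lemma star_ne_zero (l : ℕ) : star l ≠ 0 := ne_zero_near (l := l) (by simp)

theorem T_Jst (v : Fin 3 → ℂ) (l : ℕ) : T (Jst v l) (star l) = Kr (K0J v) l := by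
  have hid : ∀ z : ℂ, AnalyticAt ℂ (fun s : ℂ => s) z := fun z => analyticAt_id
  induction l with
  | zero =>
    have hU : AnalyticAt ℂ (fun s => UP v 0 (s + -1)) (star 0) := by
      have h1 : AnalyticAt ℂ (UP v 0) (star 0 + -1) := by
        have := UP_analyticAt v 0
        have e : star 0 + -1 = site 0 := by rw [site_zero]; unfold star; push_cast; ring
        rw [e]; exact this
      exact AnalyticAt.fun_comp h1 ((hid _).fun_add analyticAt_const)
    have e : Jst v 0 = fun s => (-8 * UP v 0 (s + -1)) / s ^ 3 := by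
      ext s; rfl
    rw [e, T_div (analyticAt_const.fun_mul hU) ((hid _).fun_pow 3) (pow_ne_zero 3 (star_ne_zero 0)),
      T_mul analyticAt_const hU, T_const, T_pow (hid _), T_id, T_shift (UP v 0) (star 0) (-1)]
    have e1 : star 0 + -1 = site 0 := by rw [site_zero]; unfold star; push_cast; ring
    have e2 : star 0 = 1 / 2 := by unfold star; simp
    rw [e1, e2]
    show PowerSeries.C (-8) * T (UP v 0) (site 0) * (pt (1 / 2) ^ 3)⁻¹ =
      -8 * (pt (1 / 2 : ℂ) ^ 3)⁻¹ * K0J v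
    have h8 : PowerSeries.C (-8 : ℂ) = -8 := by
      rw [map_neg, map_ofNat]
    rw [h8]
    unfold K0J KJ
    ring
  | succ l ih =>
    have hJ : AnalyticAt ℂ (fun s => Jst v l (s + -1)) (star (l + 1)) := by
      have h1 : AnalyticAt ℂ (Jst v l) (star (l + 1) + -1) := by
        have := Jst_analyticAt v l
        have e : star (l + 1) + -1 = star l := by rw [star_succ]; ring
        rw [e]; exact this
      exact AnalyticAt.fun_comp h1 ((hid _).fun_add analyticAt_const)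
    have hd := ((analyticAt_two_mul_sub_one (star (l + 1))).fun_pow 3)
    have e : Jst v (l + 1) = fun s => (-((2 * s - 1) ^ 3) * Jst v l (s + -1)) / s ^ 3 := by
      ext s; rfl
    rw [e, T_div (hd.fun_neg.fun_mul hJ) ((hid _).fun_pow 3)
      (pow_ne_zero 3 (star_ne_zero (l + 1))), T_mul hd.fun_neg hJ, T_neg,
      T_pow (analyticAt_two_mul_sub_one _), T_two_mul_sub_one, T_pow (hid _), T_id,
      T_shift (Jst v l) (star (l + 1)) (-1)]
    have e1 : star (l + 1) + -1 = star l := by rw [star_succ]; ring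
    have e2 : star (l + 1) = (l : ℂ) + 3 / 2 := by unfold star; push_cast; ring
    rw [e1, ih, e2]
    show -den ((l : ℂ) + 3 / 2) ^ 3 * Kr (K0J v) l * (pt ((l : ℂ) + 3 / 2) ^ 3)⁻¹ =
      -(den ((l : ℂ) + 3 / 2) ^ 3) * (pt ((l : ℂ) + 3 / 2) ^ 3)⁻¹ * Kr (K0J v) l
    ring

/-- circle form of a star term -/
theorem circle_star (v : Fin 3 → ℂ) (l n : ℕ) {h : ℂ → ℂ} {r : ℝ} (hr : 0 < r) (hr' : r ≤ 1 / 4)
    (hh : DifferentiableOn ℂ h (Metric.closedBall (star l) r)) :
    (∮ s in C(star l, r), PsiJ.J v s * (h s / (s - star l) ^ (n + 1))) =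
      2 * Real.pi * Complex.I * PowerSeries.coeff n (Kr (K0J v) l * T h (star l)) := by
  have hha : AnalyticAt ℂ h (star l) := hh.analyticAt (Metric.closedBall_mem_nhds _ hr)
  have hd : DifferentiableOn ℂ (fun s => Jst v l s * h s) (Metric.closedBall (star l) r) := by
    intro s hs
    have hs' : ‖s - star l‖ ≤ 1 / 4 := by
      rw [Metric.mem_closedBall, dist_eq_norm] at hs; linarith
    exact (Jst_differentiableAt v l hs').differentiableWithinAt.mul (hh s hs)
  have hc := circle_eq hr hd n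
  rw [T_mul (Jst_analyticAt v l) hha, T_Jst] at hc
  rw [← hc]
  apply circleIntegral.integral_congr hr.le
  intro s hs
  have hs' : ‖s - star l‖ = r := by rwa [Metric.mem_sphere, dist_eq_norm] at hs
  have hne : s ≠ star l := by
    rintro rfl
    simp at hs'
    linarith
  simp only
  rw [Jst_eq v l (by rw [hs']; exact hr') hne]
  ring

end Crest.Agent.R006.Base724
private theorem rz_acde1f5926 : type_of% @_root_.Crest.Agent.R006.Base724.Jst.eq_def := @_root_.Crest.Agent.R006.Base724.Jst.eq_def -- L18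
end

-- ▼ part R006/EntR3_724
section

/-!
Row 6 (helper724): the `R`-entries of `Defs.lean` as `mu`-functionals, part 3 (final form).

`entC R ρ = ent0 R ρ - G ent1 R ρ` (the value at `X = G`).

* `entC_nonneg`  : row `(Z n, 0)`, `n ≥ 0`;
* `entC_neg`     : row `(Z (-m-1), j)`, `j ≤ 2`;
* `entC_star`    : row `(H l, j)`, `l ≥ 0`, `j ≤ 2`;
* `entC_w`       : row `(H (-l-1), 0)`, `R(-1/2-l) = 0`.
-/

set_option autoImplicit false

namespace Crest.Agent.R006.Base724

open Polynomial Filter Topology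
open Crest.Agent.R006.NV Crest.Agent.R006.Germ724 Crest.Agent.R006.PsiInf








lemma coeff_eq_of_dvd {k j : ℕ} (hj : j < k) {g a b c : PowerSeries ℂ}
    (h : (PowerSeries.X : PowerSeries ℂ) ^ k ∣ a - b) :
    PowerSeries.coeff j (g * b - c) = PowerSeries.coeff j (g * a - c) := by
  have h1 : (PowerSeries.X : PowerSeries ℂ) ^ k ∣ g * (a - b) := Dvd.dvd.mul_left h _
  have h2 := (PowerSeries.X_pow_dvd_iff.mp h1) j hj
  have e : g * a - c = (g * b - c) + g * (a - b) := by ring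
  rw [e, map_add, h2, add_zero]

variable {K0 : PowerSeries ℂ}





end Crest.Agent.R006.Base724
namespace Crest.Agent.R006.Base724.Adm
end Crest.Agent.R006.Base724.Adm
end

-- ▼ part R006/RepR_724

/-!
Row 6 (helper724): REP, `R`-side. For a finite set `A` of sites of `Defs.lean` with
multiplicities `m` (`≤ 1` at integers `≥ 0` and at negative half-integers, `≤ 3` otherwise) and
`pc R = (∏_{w-sites} (X - z)) R'`, `deg P < ∑ m`:

`lam P (entries of R at X = G) = - ∑_l L vv l f - ∑_{stars} (2πi)⁻¹ ∮_{C(z,1/4)} J vv f`,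
`f = R' P / NS'`, `NS' = ∏_{not w} (X - z)^m`.
-/

set_option autoImplicit false

namespace Crest.Agent.R006.Base724

open Polynomial Filter Topology
open Crest.Agent.R006.NV Crest.Agent.R006.Germ724

/-! ### positions of sites -/

/-- doubled position -/
def dbl : D.Site → ℤ
  | .Z i => 2 * i
  | .H i => 2 * i + 1

lemma dbl_inj : Function.Injective dbl := by
  rintro (a | a) (b | b) h
  · simp only [dbl] at h; congr 1; omega
  · simp only [dbl] at h; omega
  · simp only [dbl] at h; omega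
  · simp only [dbl] at h; congr 1; omega

lemma val_eq (z : D.Site) : ((z.val : ℚ) : ℂ) = (dbl z : ℂ) / 2 := by
  rcases z with i | i
  · simp [D.Site.val, dbl]
  · simp [D.Site.val, dbl]; ring

lemma dist_half {a b : ℤ} (h : a ≠ b) : 1 / 2 ≤ ‖(a : ℂ) / 2 - (b : ℂ) / 2‖ := by
  have e : (a : ℂ) / 2 - (b : ℂ) / 2 = ((a - b : ℤ) : ℂ) / 2 := by push_cast; ring
  rw [e, norm_div, Complex.norm_intCast]
  have h1 : (1 : ℝ) ≤ |((a - b : ℤ) : ℝ)| := by
    have : (1 : ℤ) ≤ |a - b| := Int.one_le_abs (sub_ne_zero.mpr h)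
    exact_mod_cast this
  have h2 : ‖(2 : ℂ)‖ = 2 := by simp
  rw [h2]
  linarith

lemma val_dist {a b : D.Site} (h : a ≠ b) : 1 / 2 ≤ ‖((a.val : ℚ) : ℂ) - ((b.val : ℚ) : ℂ)‖ := by
  rw [val_eq, val_eq]
  exact dist_half fun hh => h (dbl_inj hh)

lemma site_eq_half (l : ℕ) : site l = ((-(2 * (l : ℤ)) - 1 : ℤ) : ℂ) / 2 := by
  unfold site; push_cast; ring

/-- w-sites -/
def IsW : D.Site → Prop
  | .Z _ => False
  | .H i => i < 0

instance : DecidablePred IsW := fun z => by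
  rcases z with i | i
  · exact isFalse id
  · exact inferInstanceAs (Decidable (i < 0))

/-- star sites -/
def IsSt : D.Site → Prop
  | .Z _ => False
  | .H i => 0 ≤ i

instance : DecidablePred IsSt := fun z => by
  rcases z with i | i
  · exact isFalse id
  · exact inferInstanceAs (Decidable (0 ≤ i))

lemma IsSt.exists {z : D.Site} (h : IsSt z) : ∃ l : ℕ, z = D.Site.H l := by
  rcases z with i | i
  · exact absurd h id
  · obtain ⟨l, hl⟩ := Int.eq_ofNat_of_zero_le (show 0 ≤ i from h)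
    exact ⟨l, by rw [hl]⟩

lemma dist_site {a : D.Site} (ha : ¬ IsW a) (l : ℕ) : 1 / 2 ≤ ‖site l - ((a.val : ℚ) : ℂ)‖ := by
  rw [val_eq, site_eq_half]
  apply dist_half
  rcases a with i | i
  · simp only [dbl]; omega
  · simp only [dbl, IsW] at *; omega

/-! ### node sets -/

/-- node data -/
structure Nodes where
  A : Finset D.Site
  m : D.Site → ℕ
  hZ : ∀ i : ℤ, 0 ≤ i → m (.Z i) ≤ 1
  hZ' : ∀ i : ℤ, i < 0 → m (.Z i) ≤ 3
  hH : ∀ i : ℤ, 0 ≤ i → m (.H i) ≤ 3
  hW : ∀ i : ℤ, D.Site.H i ∈ A → i < 0 → m (.H i) = 1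

namespace Nodes

variable (N : Nodes)

/-- node positions -/
noncomputable def z (i : N.A) : ℂ := ((i.1.val : ℚ) : ℂ)

/-- multiplicities -/
def mul (i : N.A) : ℕ := N.m i.1

/-- the w-nodes -/
def W : Finset N.A := Finset.univ.filter fun i => IsW i.1

/-- the star nodes -/
def St : Finset N.A := Finset.univ.filter fun i => IsSt i.1

lemma z_inj : Function.Injective N.z := by
  intro a b h
  by_contra hne
  have h1 := val_dist (a := a.1) (b := b.1) fun hh => hne (Subtype.ext hh)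
  unfold z at h
  rw [h, sub_self, norm_zero] at h1
  linarith

/-- jump germ at a node -/
noncomputable def kap (K0 : PowerSeries ℂ) (i : N.A) : PowerSeries ℂ :=
  match i.1 with
  | .Z _ => 0
  | .H (Int.ofNat l) => Kr K0 l
  | .H (Int.negSucc _) => 0


/-- node polynomial without the w-nodes -/
noncomputable def den : ℂ[X] := NSoff N.z N.mul N.W

lemma off_of_not_W {i : N.A} (hi : i ∉ N.W) : Off (N.z i) := by
  intro l e
  have h : ¬ IsW i.1 := by
    intro h; apply hi; unfold W; simp [h]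
  have := dist_site h l
  unfold z at e
  rw [e, sub_self, norm_zero] at this
  linarith

lemma den_ne_of_dist {s : ℂ} (h : ∀ i, i ∉ N.W → s ≠ N.z i) : N.den.eval s ≠ 0 := by
  unfold den NSoff
  rw [eval_prod, Finset.prod_ne_zero_iff]
  intro i hi
  rw [eval_pow, eval_sub, eval_X, eval_C]
  exact pow_ne_zero _ (sub_ne_zero.mpr (h i (Finset.mem_sdiff.mp hi).2))

/-- the rational function -/
noncomputable def fR (R' P : ℂ[X]) (s : ℂ) : ℂ := R'.eval s * P.eval s / N.den.eval s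

lemma fR_diff (R' P : ℂ[X]) {s : ℂ} (h : ∀ i, i ∉ N.W → s ≠ N.z i) :
    DifferentiableAt ℂ (N.fR R' P) s :=
  (R'.differentiable.differentiableAt.mul P.differentiable.differentiableAt).div
    N.den.differentiable.differentiableAt (N.den_ne_of_dist h)

lemma near_site_ne {l : ℕ} {s : ℂ} (hs : ‖s - site l‖ ≤ 1 / 4) {i : N.A} (hi : i ∉ N.W) :
    s ≠ N.z i := by
  rintro rfl
  have h : ¬ IsW i.1 := by
    intro h; apply hi; unfold W; simp [h]
  have := dist_site h l
  rw [norm_sub_rev] at this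
  unfold z at hs
  linarith

lemma fR_diffOn (R' P : ℂ[X]) (l : ℕ) :
    DifferentiableOn ℂ (N.fR R' P) (Metric.closedBall (site l) (1 / 4)) := by
  intro s hs
  rw [Metric.mem_closedBall, dist_eq_norm] at hs
  exact (N.fR_diff R' P fun i hi => N.near_site_ne hs hi).differentiableWithinAt

lemma fR_good (R' P : ℂ[X]) : Good (N.fR R' P) := by
  have e : N.fR R' P = fun s =>
      (R' * P).eval s * ∏ i ∈ Finset.univ \ N.W, (s - N.z i) ^ (-(N.mul i : ℤ)) := by
    ext s
    unfold fR den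
    rw [eval_mul, NSoff, eval_prod, div_eq_mul_inv, ← Finset.prod_inv_distrib]
    congr 1
    refine Finset.prod_congr rfl fun i _ => ?_
    rw [eval_pow, eval_sub, eval_X, eval_C, zpow_neg, zpow_natCast]
  rw [e]
  refine (Good.eval _).mul (Good.prod _ fun i hi => ?_)
  exact Good.zpow (N.off_of_not_W (Finset.mem_sdiff.mp hi).2) _


lemma near_node_ne {i k : N.A} (hik : k ≠ i) {s : ℂ} (hs : ‖s - N.z i‖ ≤ 1 / 4) : s ≠ N.z k := by
  rintro rfl
  have h := val_dist (a := k.1) (b := i.1) fun hh => hik (Subtype.ext hh)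
  unfold z at hs
  linarith

lemma W_mul {i : N.A} (hi : i ∈ N.W) : N.mul i = 1 := by
  unfold W at hi
  rw [Finset.mem_filter] at hi
  obtain ⟨i, hiA⟩ := i
  rcases i with j | j
  · exact absurd hi.2 id
  · exact N.hW j hiA hi.2

lemma St_not_W {i : N.A} (hi : i ∈ N.St) : i ∉ N.W := by
  unfold St at hi
  rw [Finset.mem_filter] at hi
  obtain ⟨l, hl⟩ := hi.2.exists
  intro hw
  unfold W at hw
  rw [Finset.mem_filter, hl] at hw
  have : ((l : ℤ)) < 0 := hw.2
  omega




end Nodes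

end Crest.Agent.R006.Base724
private theorem rz_c75eb397bf : type_of% @_root_.Crest.Agent.R006.Base724.IsW.eq_1 := @_root_.Crest.Agent.R006.Base724.IsW.eq_1 -- L58
private theorem rz_92ed55dbb0 : type_of% @_root_.Crest.Agent.R006.Base724.dbl.eq_1 := @_root_.Crest.Agent.R006.Base724.dbl.eq_1 -- L24
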